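import Vale.Agent.P237.Petty.Cor.Grid.Tiny.N11.Cert

/-!
# P237: a cell down to zero in dimension 11, subdivisions
-/

namespace Vale.Agent.P237.Petty.Cor.Grid.Tiny.N11

def covers23 : cell.Covers Vale.Agent.P237.Petty.Cor.Grid.N11.table row23.1 :=
  ⟨(.cut .d 0 (.cut .v 16777216 (.cut .v 8388608 (.void 2 ⟨⟨0, 0, 100000, 0, 0, 0, 0, 0, 0, ⟨0, 0⟩, 0⟩, 0, 0⟩ 0 0) (.cut .d (-8388608) (.void 3 ⟨⟨100000, 0, 0, 0, 0, 0, 0, 0, 0, ⟨0, 0⟩, 0⟩, 0, 0⟩ 0 0) (.cut .d (-4194304) (.void 3 ⟨⟨100000, 0, 0, 0, 0, 0, 0, 0, 0, ⟨0, 0⟩, 0⟩, 0, 0⟩ 0 0) (.cut .d (-2097152) (.void 3 ⟨⟨0, 0, 0, 0, 0, 100000, 0, 0, 0, ⟨0, 0⟩, 0⟩, 0, 0⟩ 0 0) (.cut .d (-1048576)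 (.void 3 ⟨⟨0, 0, 0, 0, 0, 100000, 0, 0, 0, ⟨0, 0⟩, 0⟩, 0, 0⟩ 0 0) (.cut .d (-524288) (.void 3 ⟨⟨0, 0, 0, 0, 0, 100000, 0, 0, 0, ⟨0, 0⟩, 0⟩, 0, 0⟩ 0 0) (.cut .s 13369344 (.pos 3 .mm ⟨⟨0, 0, 0, 0, 0, 715189576, 0, 0, 0, ⟨0, 0⟩, 0⟩, 0, 0⟩ 0 0) (.cut .s 13434880 (.pos 3 .mm ⟨⟨0, 0, 0, 0, 0, 756884946, 0, 0, 0, ⟨0, 0⟩, 0⟩, 0, 0⟩ 0 0) (.pos 3 .mm ⟨⟨0, 0, 0, 0, 0, 799827800, 0, 0, 0, ⟨0, 0⟩, 0⟩, 0, 0⟩ 0 0))))))))) (.cut .v 268435456 (.cut .v 67108864 (.cut .v 33554432 (.cut .v 25165824 (.cut .d (-8388608) (.void 21 ⟨⟨100225, 0, 0, 0, 0, 0, 0, 0, 0, ⟨0, 0⟩, 0⟩, 0, 0⟩ 0 0) (.cut .d (-4194304) (.void 21 ⟨⟨100000, 0, 0, 0, 0, 0, 0, 0, 0, ⟨0, 0⟩,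 0⟩, 0, 0⟩ 0 0) (.cut .v 20971520 (.cut .d (-2097152) (.void 23 ⟨⟨100000, 0, 0, 0, 0, 0, 0, 0, 0, ⟨0, 0⟩, 0⟩, 0, 0⟩ 0 0) (.cut .v 18874368 (.cut .d (-1048576) (.void 25 ⟨⟨100000, 0, 0, 0, 0, 0, 0, 0, 0, ⟨0, 0⟩, 0⟩, 0, 0⟩ 0 0) (.cut .v 17825792 (.cut .d (-524288) (.void 27 ⟨⟨100000, 0, 0, 0, 0, 0, 0, 0, 0, ⟨0, 0⟩, 0⟩, 0, 0⟩ 0 0) (.cut .v 17301504 (.cut .d (-262144) (.void 29 ⟨⟨100000, 0, 0, 0, 0, 0, 0, 0, 0, ⟨0, 0⟩, 0⟩, 0, 0⟩ 0 0) (.cut .v 17039360 (.cut .d (-131072) (.void 31 ⟨⟨100000, 0, 0, 0, 0, 0, 0, 0, 0, ⟨0, 0⟩, 0⟩, 0, 0⟩ 0 0) (.cut .d (-65536) (.void 31 ⟨⟨100000, 0, 0, 0, 0, 0, 0, 0, 0, ⟨0, 0⟩, 0⟩, 0, 0⟩ 0 0) (.cut .d (-32768)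 (.void 31 ⟨⟨100000, 0, 0, 0, 0, 0, 0, 0, 0, ⟨0, 0⟩, 0⟩, 0, 0⟩ 0 0) (.cut .d (-16384) (.cut .v 16908288 (.pos 35 .mp ⟨⟨309206716, 0, 0, 0, 0, 465662330, 0, 0, 0, ⟨0, 0⟩, 0⟩, 0, 0⟩ 0 0) (.void 36 ⟨⟨100000, 0, 0, 0, 0, 0, 0, 0, 0, ⟨0, 0⟩, 0⟩, 0, 0⟩ 0 0)) (.cut .s 13369344 (.cut .v 16908288 (.cut .s 13303808 (.cut .s 13271040 (.cut .v 16842752 (.cut .s 13254656 (.cut .d (-8192) (.cut .l 167772 (.pos 41 .mp ⟨⟨308908422, 0, 0, 0, 0, 125111610, 0, 0, 0, ⟨0, 0⟩, 0⟩, 0, 0⟩ 0 0) (.cut .s 13246464 (.pos 41 .mp ⟨⟨303295867, 0, 0, 0, 0, 127798214, 0, 0, 0, ⟨0, 0⟩, 0⟩, 0, 0⟩ 0 0) (.pos 41 .mp ⟨⟨304945061, 0, 0, 0, 0, 128920965, 0, 0, 0, ⟨0, 0⟩, 0⟩,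 0, 0⟩ 0 0))) (.cut .v 16809984 (.cut .l 167772 (.cut .s 13246464 (.cut .s 13242368 (.pos 45 .mp ⟨⟨310882978, 0, 0, 0, 0, 109236573, 0, 0, 0, ⟨0, 0⟩, 0⟩, 0, 0⟩ 0 0) (.pos 45 .mp ⟨⟨311801706, 0, 0, 0, 0, 109576542, 0, 0, 0, ⟨0, 0⟩, 0⟩, 0, 0⟩ 0 0)) (.cut .s 13250560 (.pos 45 .mp ⟨⟨312723449, 0, 0, 0, 0, 109920286, 0, 0, 0, ⟨0, 0⟩, 0⟩, 0, 0⟩ 0 0) (.pos 45 .mp ⟨⟨313648217, 0, 0, 0, 0, 110267796, 0, 0, 0, ⟨0, 0⟩, 0⟩, 0, 0⟩ 0 0))) (.pos 45 .mp ⟨⟨306472207, 0, 0, 0, 0, 114119118, 0, 0, 0, ⟨0, 0⟩, 0⟩, 0, 0⟩ 0 0)) (.pos 46 .mp ⟨⟨370006011, 0, 0, 0, 0, 0, 0, 0, 0, ⟨0, 0⟩, 0⟩, 0, 0⟩ 0 0))) (.cut .d (-8192) (.cut .l 167772 (.void 41 ⟨⟨0, 0, 0, 0,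 0, 100000, 0, 0, 0, ⟨0, 0⟩, 0⟩, 0, 0⟩ 0 0) (.cut .s 13262848 (.pos 41 .mp ⟨⟨306613428, 0, 0, 0, 0, 130043792, 0, 0, 0, ⟨0, 0⟩, 0⟩, 0, 0⟩ 0 0) (.pos 41 .mp ⟨⟨308301366, 0, 0, 0, 0, 131165946, 0, 0, 0, ⟨0, 0⟩, 0⟩, 0, 0⟩ 0 0))) (.cut .l 167772 (.cut .v 16809984 (.cut .s 13262848 (.cut .s 13258752 (.pos 45 .mp ⟨⟨314576020, 0, 0, 0, 0, 110619065, 0, 0, 0, ⟨0, 0⟩, 0⟩, 0, 0⟩ 0 0) (.pos 45 .mp ⟨⟨315506868, 0, 0, 0, 0, 110974086, 0, 0, 0, ⟨0, 0⟩, 0⟩, 0, 0⟩ 0 0)) (.cut .s 13266944 (.pos 45 .mp ⟨⟨316440773, 0, 0, 0, 0, 111332849, 0, 0, 0, ⟨0, 0⟩, 0⟩, 0, 0⟩ 0 0) (.cut .s 13268992 (.pos 45 .mp ⟨⟨316908874, 0, 0, 0, 0, 112053252, 0, 0, 0, ⟨0, 0⟩,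 0⟩, 0, 0⟩ 0 0) (.pos 45 .mp ⟨⟨317377743, 0, 0, 0, 0, 112236170, 0, 0, 0, ⟨0, 0⟩, 0⟩, 0, 0⟩ 0 0)))) (.pos 46 .mp ⟨⟨384614489, 0, 0, 0, 0, 0, 0, 0, 0, ⟨0, 0⟩, 0⟩, 0, 0⟩ 0 0)) (.pos 41 .mp ⟨⟨312715492, 0, 0, 0, 0, 111604108, 0, 0, 0, ⟨0, 0⟩, 0⟩, 0, 0⟩ 0 0)))) (.pos 42 .mp ⟨⟨381849318, 0, 0, 0, 0, 0, 0, 0, 0, ⟨0, 0⟩, 0⟩, 0, 0⟩ 0 0)) (.cut .v 16842752 (.cut .s 13287424 (.cut .d (-8192) (.cut .l 167772 (.void 41 ⟨⟨0, 0, 0, 0, 0, 100000, 0, 0, 0, ⟨0, 0⟩, 0⟩, 0, 0⟩ 0 0) (.cut .s 13279232 (.pos 41 .mp ⟨⟨310009278, 0, 0, 0, 0, 132286671, 0, 0, 0, ⟨0, 0⟩, 0⟩, 0, 0⟩ 0 0) (.pos 41 .mp ⟨⟨311737568, 0, 0, 0, 0, 133405209, 0, 0, 0, ⟨0, 0⟩, 0⟩, 0, 0⟩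 0 0))) (.cut .l 167772 (.cut .v 16809984 (.cut .s 13279232 (.cut .d (-4096) (.pos 45 .mp ⟨⟨310713053, 0, 0, 0, 0, 131198542, 0, 0, 0, ⟨0, 0⟩, 0⟩, 0, 0⟩ 0 0) (.cut .s 13275136 (.pos 45 .mp ⟨⟨315700566, 0, 0, 0, 0, 116797519, 0, 0, 0, ⟨0, 0⟩, 0⟩, 0, 0⟩ 0 0) (.pos 45 .mp ⟨⟨316625086, 0, 0, 0, 0, 117183894, 0, 0, 0, ⟨0, 0⟩, 0⟩, 0, 0⟩ 0 0))) (.cut .d (-4096) (.pos 45 .mp ⟨⟨312550535, 0, 0, 0, 0, 132027492, 0, 0, 0, ⟨0, 0⟩, 0⟩, 0, 0⟩ 0 0) (.cut .s 13283328 (.pos 45 .mp ⟨⟨317598678, 0, 0, 0, 0, 117488131, 0, 0, 0, ⟨0, 0⟩, 0⟩, 0, 0⟩ 0 0) (.pos 45 .mp ⟨⟨318573772, 0, 0, 0, 0, 117799798, 0, 0, 0, ⟨0, 0⟩, 0⟩, 0, 0⟩ 0 0)))) (.pos 46 .mp ⟨⟨389266236,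 0, 0, 0, 0, 0, 0, 0, 0, ⟨0, 0⟩, 0⟩, 0, 0⟩ 0 0)) (.pos 41 .mp ⟨⟨316446565, 0, 0, 0, 0, 113171309, 0, 0, 0, ⟨0, 0⟩, 0⟩, 0, 0⟩ 0 0))) (.cut .d (-8192) (.cut .l 167772 (.void 41 ⟨⟨0, 0, 0, 0, 0, 100000, 0, 0, 0, ⟨0, 0⟩, 0⟩, 0, 0⟩ 0 0) (.cut .s 13295616 (.pos 41 .mp ⟨⟨313486642, 0, 0, 0, 0, 134520792, 0, 0, 0, ⟨0, 0⟩, 0⟩, 0, 0⟩ 0 0) (.pos 41 .mp ⟨⟨315313740, 0, 0, 0, 0, 135510556, 0, 0, 0, ⟨0, 0⟩, 0⟩, 0, 0⟩ 0 0))) (.cut .l 167772 (.cut .v 16809984 (.cut .s 13295616 (.cut .d (-4096) (.pos 45 .mp ⟨⟨314399960, 0, 0, 0, 0, 132877351, 0, 0, 0, ⟨0, 0⟩, 0⟩, 0, 0⟩ 0 0) (.cut .s 13291520 (.pos 45 .mp ⟨⟨319550342, 0, 0, 0, 0, 118118974, 0, 0, 0, ⟨0,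 0⟩, 0⟩, 0, 0⟩ 0 0) (.pos 45 .mp ⟨⟨320528361, 0, 0, 0, 0, 118445740, 0, 0, 0, ⟨0, 0⟩, 0⟩, 0, 0⟩ 0 0))) (.cut .d (-4096) (.pos 45 .mp ⟨⟨316261408, 0, 0, 0, 0, 133748276, 0, 0, 0, ⟨0, 0⟩, 0⟩, 0, 0⟩ 0 0) (.cut .s 13299712 (.pos 45 .mp ⟨⟨321507799, 0, 0, 0, 0, 118780177, 0, 0, 0, ⟨0, 0⟩, 0⟩, 0, 0⟩ 0 0) (.pos 45 .mp ⟨⟨322488631, 0, 0, 0, 0, 119122368, 0, 0, 0, ⟨0, 0⟩, 0⟩, 0, 0⟩ 0 0)))) (.pos 46 .mp ⟨⟨393989921, 0, 0, 0, 0, 0, 0, 0, 0, ⟨0, 0⟩, 0⟩, 0, 0⟩ 0 0)) (.pos 41 .mp ⟨⟨320225393, 0, 0, 0, 0, 114780990, 0, 0, 0, ⟨0, 0⟩, 0⟩, 0, 0⟩ 0 0)))) (.pos 42 .mp ⟨⟨391132452, 0, 0, 0, 0, 0, 0, 0, 0, ⟨0, 0⟩, 0⟩, 0, 0⟩ 0 0))) (.cut .s 13336576 (.cut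 .v 16842752 (.cut .s 13320192 (.cut .d (-8192) (.cut .l 167772 (.void 41 ⟨⟨0, 0, 0, 0, 0, 100000, 0, 0, 0, ⟨0, 0⟩, 0⟩, 0, 0⟩ 0 0) (.cut .s 13312000 (.pos 41 .mp ⟨⟨317187851, 0, 0, 0, 0, 136441198, 0, 0, 0, ⟨0, 0⟩, 0⟩, 0, 0⟩ 0 0) (.pos 41 .mp ⟨⟨319074150, 0, 0, 0, 0, 137387646, 0, 0, 0, ⟨0, 0⟩, 0⟩, 0, 0⟩ 0 0))) (.cut .l 167772 (.cut .v 16809984 (.cut .s 13312000 (.cut .d (-4096) (.pos 45 .mp ⟨⟨318134963, 0, 0, 0, 0, 134640429, 0, 0, 0, ⟨0, 0⟩, 0⟩, 0, 0⟩ 0 0) (.cut .s 13307904 (.pos 45 .mp ⟨⟨323470826, 0, 0, 0, 0, 119472395, 0, 0, 0, ⟨0, 0⟩, 0⟩, 0, 0⟩ 0 0) (.pos 45 .mp ⟨⟨324454358, 0, 0, 0, 0, 119830342, 0, 0, 0, ⟨0, 0⟩, 0⟩, 0, 0⟩ 0 0)))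 (.cut .d (-4096) (.pos 45 .mp ⟨⟨320020707, 0, 0, 0, 0, 135553971, 0, 0, 0, ⟨0, 0⟩, 0⟩, 0, 0⟩ 0 0) (.cut .s 13316096 (.pos 45 .mp ⟨⟨325439196, 0, 0, 0, 0, 120196291, 0, 0, 0, ⟨0, 0⟩, 0⟩, 0, 0⟩ 0 0) (.pos 45 .mp ⟨⟨326425313, 0, 0, 0, 0, 120570329, 0, 0, 0, ⟨0, 0⟩, 0⟩, 0, 0⟩ 0 0)))) (.pos 46 .mp ⟨⟨398784974, 0, 0, 0, 0, 0, 0, 0, 0, ⟨0, 0⟩, 0⟩, 0, 0⟩ 0 0)) (.pos 41 .mp ⟨⟨324052636, 0, 0, 0, 0, 116431334, 0, 0, 0, ⟨0, 0⟩, 0⟩, 0, 0⟩ 0 0))) (.cut .d (-8192) (.cut .l 167772 (.void 41 ⟨⟨0, 0, 0, 0, 0, 100000, 0, 0, 0, ⟨0, 0⟩, 0⟩, 0, 0⟩ 0 0) (.cut .s 13328384 (.pos 41 .mp ⟨⟨320972721, 0, 0, 0, 0, 138349838, 0, 0, 0, ⟨0, 0⟩, 0⟩, 0, 0⟩ 0 0) (.pos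 41 .mp ⟨⟨322883647, 0, 0, 0, 0, 139327709, 0, 0, 0, ⟨0, 0⟩, 0⟩, 0, 0⟩ 0 0))) (.cut .l 167772 (.cut .v 16809984 (.cut .s 13328384 (.cut .d (-4096) (.pos 45 .mp ⟨⟨321918724, 0, 0, 0, 0, 136489064, 0, 0, 0, ⟨0, 0⟩, 0⟩, 0, 0⟩ 0 0) (.cut .s 13324288 (.pos 45 .mp ⟨⟨327412679, 0, 0, 0, 0, 120952540, 0, 0, 0, ⟨0, 0⟩, 0⟩, 0, 0⟩ 0 0) (.pos 45 .mp ⟨⟨328401264, 0, 0, 0, 0, 121343009, 0, 0, 0, ⟨0, 0⟩, 0⟩, 0, 0⟩ 0 0))) (.cut .d (-4096) (.pos 45 .mp ⟨⟨323829100, 0, 0, 0, 0, 137445874, 0, 0, 0, ⟨0, 0⟩, 0⟩, 0, 0⟩ 0 0) (.cut .s 13332480 (.pos 45 .mp ⟨⟨329378835, 0, 0, 0, 0, 121767320, 0, 0, 0, ⟨0, 0⟩, 0⟩, 0, 0⟩ 0 0) (.pos 45 .mp ⟨⟨330355638, 0, 0, 0,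 0, 122204095, 0, 0, 0, ⟨0, 0⟩, 0⟩, 0, 0⟩ 0 0)))) (.pos 46 .mp ⟨⟨403650826, 0, 0, 0, 0, 0, 0, 0, 0, ⟨0, 0⟩, 0⟩, 0, 0⟩ 0 0)) (.pos 41 .mp ⟨⟨327928968, 0, 0, 0, 0, 118120499, 0, 0, 0, ⟨0, 0⟩, 0⟩, 0, 0⟩ 0 0)))) (.pos 42 .mp ⟨⟨400702416, 0, 0, 0, 0, 0, 0, 0, 0, ⟨0, 0⟩, 0⟩, 0, 0⟩ 0 0)) (.cut .v 16842752 (.cut .s 13352960 (.cut .d (-8192) (.cut .l 167772 (.void 41 ⟨⟨0, 0, 0, 0, 0, 100000, 0, 0, 0, ⟨0, 0⟩, 0⟩, 0, 0⟩ 0 0) (.cut .s 13344768 (.pos 41 .mp ⟨⟨324807015, 0, 0, 0, 0, 140321193, 0, 0, 0, ⟨0, 0⟩, 0⟩, 0, 0⟩ 0 0) (.pos 41 .mp ⟨⟨326742912, 0, 0, 0, 0, 141330223, 0, 0, 0, ⟨0, 0⟩, 0⟩, 0, 0⟩ 0 0))) (.cut .l 167772 (.cut .v 16809984 (.cut .s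 13344768 (.cut .d (-4096) (.pos 45 .mp ⟨⟨325751919, 0, 0, 0, 0, 138424566, 0, 0, 0, ⟨0, 0⟩, 0⟩, 0, 0⟩ 0 0) (.cut .s 13340672 (.pos 45 .mp ⟨⟨331335638, 0, 0, 0, 0, 122645079, 0, 0, 0, ⟨0, 0⟩, 0⟩, 0, 0⟩ 0 0) (.pos 45 .mp ⟨⟨332318846, 0, 0, 0, 0, 123090271, 0, 0, 0, ⟨0, 0⟩, 0⟩, 0, 0⟩ 0 0))) (.cut .d (-4096) (.pos 45 .mp ⟨⟨327687268, 0, 0, 0, 0, 139425308, 0, 0, 0, ⟨0, 0⟩, 0⟩, 0, 0⟩ 0 0) (.cut .s 13348864 (.pos 45 .mp ⟨⟨333305273, 0, 0, 0, 0, 123539670, 0, 0, 0, ⟨0, 0⟩, 0⟩, 0, 0⟩ 0 0) (.pos 45 .mp ⟨⟨334294931, 0, 0, 0, 0, 123993276, 0, 0, 0, ⟨0, 0⟩, 0⟩, 0, 0⟩ 0 0)))) (.pos 46 .mp ⟨⟨408586915, 0, 0, 0, 0, 0, 0, 0, 0, ⟨0, 0⟩, 0⟩, 0, 0⟩ 0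 0)) (.pos 41 .mp ⟨⟨331855075, 0, 0, 0, 0, 119846621, 0, 0, 0, ⟨0, 0⟩, 0⟩, 0, 0⟩ 0 0))) (.cut .d (-8192) (.cut .l 167772 (.void 41 ⟨⟨0, 0, 0, 0, 0, 100000, 0, 0, 0, ⟨0, 0⟩, 0⟩, 0, 0⟩ 0 0) (.cut .s 13361152 (.pos 41 .mp ⟨⟨328691424, 0, 0, 0, 0, 142354731, 0, 0, 0, ⟨0, 0⟩, 0⟩, 0, 0⟩ 0 0) (.pos 41 .mp ⟨⟨330652639, 0, 0, 0, 0, 143394646, 0, 0, 0, ⟨0, 0⟩, 0⟩, 0, 0⟩ 0 0))) (.cut .l 167772 (.cut .v 16809984 (.cut .s 13361152 (.cut .d (-4096) (.pos 45 .mp ⟨⟨329635235, 0, 0, 0, 0, 140448269, 0, 0, 0, ⟨0, 0⟩, 0⟩, 0, 0⟩ 0 0) (.cut .s 13357056 (.pos 45 .mp ⟨⟨335287830, 0, 0, 0, 0, 124451089, 0, 0, 0, ⟨0, 0⟩, 0⟩, 0, 0⟩ 0 0) (.pos 45 .mp ⟨⟨336283982,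 0, 0, 0, 0, 124913108, 0, 0, 0, ⟨0, 0⟩, 0⟩, 0, 0⟩ 0 0))) (.cut .d (-4096) (.pos 45 .mp ⟨⟨331595906, 0, 0, 0, 0, 141493621, 0, 0, 0, ⟨0, 0⟩, 0⟩, 0, 0⟩ 0 0) (.cut .s 13365248 (.pos 45 .mp ⟨⟨337283398, 0, 0, 0, 0, 125379332, 0, 0, 0, ⟨0, 0⟩, 0⟩, 0, 0⟩ 0 0) (.pos 45 .mp ⟨⟨338286090, 0, 0, 0, 0, 125849762, 0, 0, 0, ⟨0, 0⟩, 0⟩, 0, 0⟩ 0 0)))) (.pos 46 .mp ⟨⟨413592681, 0, 0, 0, 0, 0, 0, 0, 0, ⟨0, 0⟩, 0⟩, 0, 0⟩ 0 0)) (.pos 41 .mp ⟨⟨335831658, 0, 0, 0, 0, 121607812, 0, 0, 0, ⟨0, 0⟩, 0⟩, 0, 0⟩ 0 0)))) (.pos 42 .mp ⟨⟨410554681, 0, 0, 0, 0, 0, 0, 0, 0, ⟨0, 0⟩, 0⟩, 0, 0⟩ 0 0)))) (.pos 36 .mp ⟨⟨400834290, 0, 0, 0, 0, 0, 0, 0, 0, ⟨0, 0⟩, 0⟩, 0, 0⟩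 0 0)) (.cut .v 16908288 (.cut .s 13434880 (.cut .s 13402112 (.cut .v 16842752 (.cut .s 13385728 (.cut .d (-8192) (.cut .l 167772 (.void 41 ⟨⟨0, 0, 0, 0, 0, 100000, 0, 0, 0, ⟨0, 0⟩, 0⟩, 0, 0⟩ 0 0) (.cut .s 13377536 (.pos 41 .mp ⟨⟨332626646, 0, 0, 0, 0, 144449898, 0, 0, 0, ⟨0, 0⟩, 0⟩, 0, 0⟩ 0 0) (.pos 41 .mp ⟨⟨334613535, 0, 0, 0, 0, 145520414, 0, 0, 0, ⟨0, 0⟩, 0⟩, 0, 0⟩ 0 0))) (.cut .l 167772 (.cut .v 16809984 (.cut .s 13377536 (.cut .d (-4096) (.pos 45 .mp ⟨⟨333569371, 0, 0, 0, 0, 142561535, 0, 0, 0, ⟨0, 0⟩, 0⟩, 0, 0⟩ 0 0) (.cut .s 13373440 (.pos 45 .mp ⟨⟨339292069, 0, 0, 0, 0, 126324396, 0, 0, 0, ⟨0, 0⟩, 0⟩, 0, 0⟩ 0 0) (.pos 45 .mp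 ⟨⟨340301347, 0, 0, 0, 0, 126803233, 0, 0, 0, ⟨0, 0⟩, 0⟩, 0, 0⟩ 0 0))) (.cut .d (-4096) (.pos 45 .mp ⟨⟨335555721, 0, 0, 0, 0, 143652186, 0, 0, 0, ⟨0, 0⟩, 0⟩, 0, 0⟩ 0 0) (.cut .s 13381632 (.pos 45 .mp ⟨⟨341313935, 0, 0, 0, 0, 127286273, 0, 0, 0, ⟨0, 0⟩, 0⟩, 0, 0⟩ 0 0) (.pos 45 .mp ⟨⟨342329844, 0, 0, 0, 0, 127773515, 0, 0, 0, ⟨0, 0⟩, 0⟩, 0, 0⟩ 0 0)))) (.pos 46 .mp ⟨⟨418667572, 0, 0, 0, 0, 0, 0, 0, 0, ⟨0, 0⟩, 0⟩, 0, 0⟩ 0 0)) (.pos 41 .mp ⟨⟨339859428, 0, 0, 0, 0, 123402161, 0, 0, 0, ⟨0, 0⟩, 0⟩, 0, 0⟩ 0 0))) (.cut .d (-8192) (.cut .l 167772 (.void 41 ⟨⟨0, 0, 0, 0, 0, 100000, 0, 0, 0, ⟨0, 0⟩, 0⟩, 0, 0⟩ 0 0) (.cut .s 13393920 (.pos 41 .mp ⟨⟨336613396,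 0, 0, 0, 0, 146606119, 0, 0, 0, ⟨0, 0⟩, 0⟩, 0, 0⟩ 0 0) (.pos 41 .mp ⟨⟨338626322, 0, 0, 0, 0, 147706937, 0, 0, 0, ⟨0, 0⟩, 0⟩, 0, 0⟩ 0 0))) (.cut .l 167772 (.cut .v 16809984 (.cut .s 13393920 (.cut .d (-4096) (.pos 45 .mp ⟨⟨337555045, 0, 0, 0, 0, 144765750, 0, 0, 0, ⟨0, 0⟩, 0⟩, 0, 0⟩ 0 0) (.cut .s 13389824 (.pos 45 .mp ⟨⟨343349088, 0, 0, 0, 0, 128264959, 0, 0, 0, ⟨0, 0⟩, 0⟩, 0, 0⟩ 0 0) (.pos 45 .mp ⟨⟨344359254, 0, 0, 0, 0, 128786603, 0, 0, 0, ⟨0, 0⟩, 0⟩, 0, 0⟩ 0 0))) (.cut .d (-4096) (.pos 45 .mp ⟨⟨339567434, 0, 0, 0, 0, 145902404, 0, 0, 0, ⟨0, 0⟩, 0⟩, 0, 0⟩ 0 0) (.cut .s 13398016 (.pos 45 .mp ⟨⟨345363771, 0, 0, 0, 0, 129331308, 0, 0,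 0, ⟨0, 0⟩, 0⟩, 0, 0⟩ 0 0) (.pos 45 .mp ⟨⟨346368925, 0, 0, 0, 0, 129885940, 0, 0, 0, ⟨0, 0⟩, 0⟩, 0, 0⟩ 0 0)))) (.pos 46 .mp ⟨⟨423811035, 0, 0, 0, 0, 0, 0, 0, 0, ⟨0, 0⟩, 0⟩, 0, 0⟩ 0 0)) (.pos 41 .mp ⟨⟨343939114, 0, 0, 0, 0, 125227728, 0, 0, 0, ⟨0, 0⟩, 0⟩, 0, 0⟩ 0 0)))) (.pos 42 .mp ⟨⟨420684788, 0, 0, 0, 0, 0, 0, 0, 0, ⟨0, 0⟩, 0⟩, 0, 0⟩ 0 0)) (.cut .v 16842752 (.cut .s 13418496 (.cut .d (-8192) (.cut .l 167772 (.void 41 ⟨⟨0, 0, 0, 0, 0, 100000, 0, 0, 0, ⟨0, 0⟩, 0⟩, 0, 0⟩ 0 0) (.cut .s 13410304 (.pos 41 .mp ⟨⟨340652404, 0, 0, 0, 0, 148822792, 0, 0, 0, ⟨0, 0⟩, 0⟩, 0, 0⟩ 0 0) (.pos 41 .mp ⟨⟨342691735, 0, 0, 0, 0, 149953605, 0, 0, 0, ⟨0, 0⟩,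 0⟩, 0, 0⟩ 0 0))) (.cut .l 167772 (.cut .v 16809984 (.cut .s 13410304 (.cut .d (-4096) (.pos 45 .mp ⟨⟨341592982, 0, 0, 0, 0, 147062327, 0, 0, 0, ⟨0, 0⟩, 0⟩, 0, 0⟩ 0 0) (.cut .s 13406208 (.pos 45 .mp ⟨⟨347374683, 0, 0, 0, 0, 130450600, 0, 0, 0, ⟨0, 0⟩, 0⟩, 0, 0⟩ 0 0) (.pos 45 .mp ⟨⟨348381007, 0, 0, 0, 0, 131025388, 0, 0, 0, ⟨0, 0⟩, 0⟩, 0, 0⟩ 0 0))) (.cut .d (-4096) (.pos 45 .mp ⟨⟨343631781, 0, 0, 0, 0, 148245701, 0, 0, 0, ⟨0, 0⟩, 0⟩, 0, 0⟩ 0 0) (.cut .s 13414400 (.pos 45 .mp ⟨⟨349387863, 0, 0, 0, 0, 131610405, 0, 0, 0, ⟨0, 0⟩, 0⟩, 0, 0⟩ 0 0) (.pos 45 .mp ⟨⟨350395213, 0, 0, 0, 0, 132205753, 0, 0, 0, ⟨0, 0⟩, 0⟩, 0, 0⟩ 0 0)))) (.pos 46 .mp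 ⟨⟨429022525, 0, 0, 0, 0, 0, 0, 0, 0, ⟨0, 0⟩, 0⟩, 0, 0⟩ 0 0)) (.pos 41 .mp ⟨⟨348071455, 0, 0, 0, 0, 127082551, 0, 0, 0, ⟨0, 0⟩, 0⟩, 0, 0⟩ 0 0))) (.cut .d (-8192) (.cut .l 167772 (.void 41 ⟨⟨0, 0, 0, 0, 0, 100000, 0, 0, 0, ⟨0, 0⟩, 0⟩, 0, 0⟩ 0 0) (.cut .s 13426688 (.pos 41 .mp ⟨⟨344744410, 0, 0, 0, 0, 151099296, 0, 0, 0, ⟨0, 0⟩, 0⟩, 0, 0⟩ 0 0) (.pos 41 .mp ⟨⟨346810525, 0, 0, 0, 0, 152259782, 0, 0, 0, ⟨0, 0⟩, 0⟩, 0, 0⟩ 0 0))) (.cut .l 167772 (.cut .v 16809984 (.cut .s 13426688 (.cut .d (-4096) (.pos 45 .mp ⟨⟨345683926, 0, 0, 0, 0, 149452708, 0, 0, 0, ⟨0, 0⟩, 0⟩, 0, 0⟩ 0 0) (.cut .s 13422592 (.pos 45 .mp ⟨⟨351403022, 0, 0, 0, 0, 132811536,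 0, 0, 0, ⟨0, 0⟩, 0⟩, 0, 0⟩ 0 0) (.pos 45 .mp ⟨⟨352411252, 0, 0, 0, 0, 133427858, 0, 0, 0, ⟨0, 0⟩, 0⟩, 0, 0⟩ 0 0))) (.cut .d (-4096) (.pos 45 .mp ⟨⟨347749512, 0, 0, 0, 0, 150683533, 0, 0, 0, ⟨0, 0⟩, 0⟩, 0, 0⟩ 0 0) (.cut .s 13430784 (.pos 45 .mp ⟨⟨353419867, 0, 0, 0, 0, 134054823, 0, 0, 0, ⟨0, 0⟩, 0⟩, 0, 0⟩ 0 0) (.pos 45 .mp ⟨⟨354428828, 0, 0, 0, 0, 134692536, 0, 0, 0, ⟨0, 0⟩, 0⟩, 0, 0⟩ 0 0)))) (.pos 46 .mp ⟨⟨434301499, 0, 0, 0, 0, 0, 0, 0, 0, ⟨0, 0⟩, 0⟩, 0, 0⟩ 0 0)) (.pos 41 .mp ⟨⟨352257208, 0, 0, 0, 0, 128964640, 0, 0, 0, ⟨0, 0⟩, 0⟩, 0, 0⟩ 0 0)))) (.pos 42 .mp ⟨⟨431088342, 0, 0, 0, 0, 0, 0, 0, 0, ⟨0, 0⟩, 0⟩, 0, 0⟩ 0 0))) (.cut .s 13467648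 (.cut .v 16842752 (.cut .s 13451264 (.cut .d (-8192) (.cut .l 167772 (.void 41 ⟨⟨0, 0, 0, 0, 0, 100000, 0, 0, 0, ⟨0, 0⟩, 0⟩, 0, 0⟩ 0 0) (.cut .s 13443072 (.pos 41 .mp ⟨⟨349005980, 0, 0, 0, 0, 153185714, 0, 0, 0, ⟨0, 0⟩, 0⟩, 0, 0⟩ 0 0) (.pos 41 .mp ⟨⟨351231302, 0, 0, 0, 0, 154091274, 0, 0, 0, ⟨0, 0⟩, 0⟩, 0, 0⟩ 0 0))) (.cut .l 167772 (.cut .v 16809984 (.cut .s 13443072 (.cut .s 13438976 (.cut .s 13436928 (.pos 45 .mp ⟨⟨356358154, 0, 0, 0, 0, 133346688, 0, 0, 0, ⟨0, 0⟩, 0⟩, 0, 0⟩ 0 0) (.pos 45 .mp ⟨⟨357030571, 0, 0, 0, 0, 133335133, 0, 0, 0, ⟨0, 0⟩, 0⟩, 0, 0⟩ 0 0)) (.pos 45 .mp ⟨⟨354183500, 0, 0, 0, 0, 140923184, 0, 0, 0, ⟨0, 0⟩, 0⟩, 0,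 0⟩ 0 0)) (.cut .s 13447168 (.pos 45 .mp ⟨⟨355346050, 0, 0, 0, 0, 141275054, 0, 0, 0, ⟨0, 0⟩, 0⟩, 0, 0⟩ 0 0) (.pos 45 .mp ⟨⟨356518025, 0, 0, 0, 0, 141618667, 0, 0, 0, ⟨0, 0⟩, 0⟩, 0, 0⟩ 0 0))) (.pos 46 .mp ⟨⟨439647420, 0, 0, 0, 0, 0, 0, 0, 0, ⟨0, 0⟩, 0⟩, 0, 0⟩ 0 0)) (.pos 41 .mp ⟨⟨356497142, 0, 0, 0, 0, 130871978, 0, 0, 0, ⟨0, 0⟩, 0⟩, 0, 0⟩ 0 0))) (.cut .d (-8192) (.cut .s 13459456 (.pos 41 .mp ⟨⟨353090465, 0, 0, 0, 0, 158317051, 0, 0, 0, ⟨0, 0⟩, 0⟩, 0, 0⟩ 0 0) (.pos 41 .mp ⟨⟨355211305, 0, 0, 0, 0, 159658151, 0, 0, 0, ⟨0, 0⟩, 0⟩, 0, 0⟩ 0 0)) (.cut .l 167772 (.cut .v 16809984 (.cut .s 13459456 (.cut .s 13455360 (.pos 45 .mp ⟨⟨357699509,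 0, 0, 0, 0, 141953867, 0, 0, 0, ⟨0, 0⟩, 0⟩, 0, 0⟩ 0 0) (.pos 45 .mp ⟨⟨358901891, 0, 0, 0, 0, 142258240, 0, 0, 0, ⟨0, 0⟩, 0⟩, 0, 0⟩ 0 0)) (.cut .s 13463552 (.pos 45 .mp ⟨⟨360342989, 0, 0, 0, 0, 142102860, 0, 0, 0, ⟨0, 0⟩, 0⟩, 0, 0⟩ 0 0) (.pos 45 .mp ⟨⟨361804425, 0, 0, 0, 0, 141917662, 0, 0, 0, ⟨0, 0⟩, 0⟩, 0, 0⟩ 0 0))) (.pos 46 .mp ⟨⟨445059754, 0, 0, 0, 0, 0, 0, 0, 0, ⟨0, 0⟩, 0⟩, 0, 0⟩ 0 0)) (.pos 41 .mp ⟨⟨360792043, 0, 0, 0, 0, 132802519, 0, 0, 0, ⟨0, 0⟩, 0⟩, 0, 0⟩ 0 0)))) (.pos 42 .mp ⟨⟨441761016, 0, 0, 0, 0, 0, 0, 0, 0, ⟨0, 0⟩, 0⟩, 0, 0⟩ 0 0)) (.cut .v 16842752 (.cut .s 13484032 (.cut .d (-8192) (.cut .s 13475840 (.pos 41 .mp ⟨⟨357346073,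 0, 0, 0, 0, 161024145, 0, 0, 0, ⟨0, 0⟩, 0⟩, 0, 0⟩ 0 0) (.pos 41 .mp ⟨⟨359494871, 0, 0, 0, 0, 162415227, 0, 0, 0, ⟨0, 0⟩, 0⟩, 0, 0⟩ 0 0)) (.cut .l 167772 (.cut .v 16809984 (.cut .s 13475840 (.cut .s 13471744 (.pos 45 .mp ⟨⟨363286356, 0, 0, 0, 0, 141702343, 0, 0, 0, ⟨0, 0⟩, 0⟩, 0, 0⟩ 0 0) (.pos 45 .mp ⟨⟨364788938, 0, 0, 0, 0, 141456596, 0, 0, 0, ⟨0, 0⟩, 0⟩, 0, 0⟩ 0 0)) (.cut .s 13479936 (.pos 45 .mp ⟨⟨366312328, 0, 0, 0, 0, 141180116, 0, 0, 0, ⟨0, 0⟩, 0⟩, 0, 0⟩ 0 0) (.pos 45 .mp ⟨⟨367856683, 0, 0, 0, 0, 140872596, 0, 0, 0, ⟨0, 0⟩, 0⟩, 0, 0⟩ 0 0))) (.pos 46 .mp ⟨⟨450537969, 0, 0, 0, 0, 0, 0, 0, 0, ⟨0, 0⟩, 0⟩, 0, 0⟩ 0 0)) (.pos 41 .mp ⟨⟨365142711,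 0, 0, 0, 0, 134754188, 0, 0, 0, ⟨0, 0⟩, 0⟩, 0, 0⟩ 0 0))) (.cut .d (-8192) (.cut .s 13492224 (.pos 41 .mp ⟨⟨361657801, 0, 0, 0, 0, 163831598, 0, 0, 0, ⟨0, 0⟩, 0⟩, 0, 0⟩ 0 0) (.pos 41 .mp ⟨⟨363834964, 0, 0, 0, 0, 165273456, 0, 0, 0, ⟨0, 0⟩, 0⟩, 0, 0⟩ 0 0)) (.cut .v 16809984 (.cut .l 167772 (.cut .d (-4096) (.pos 45 .mp ⟨⟨362593147, 0, 0, 0, 0, 163353818, 0, 0, 0, ⟨0, 0⟩, 0⟩, 0, 0⟩ 0 0) (.cut .s 13492224 (.cut .s 13488128 (.pos 45 .mp ⟨⟨369744329, 0, 0, 0, 0, 139853397, 0, 0, 0, ⟨0, 0⟩, 0⟩, 0, 0⟩ 0 0) (.pos 45 .mp ⟨⟨370989536, 0, 0, 0, 0, 140204136, 0, 0, 0, ⟨0, 0⟩, 0⟩, 0, 0⟩ 0 0)) (.pos 45 .mp ⟨⟨372173069, 0, 0, 0, 0, 141268106, 0, 0,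 0, ⟨0, 0⟩, 0⟩, 0, 0⟩ 0 0))) (.pos 45 .mp ⟨⟨359741216, 0, 0, 0, 0, 154868987, 0, 0, 0, ⟨0, 0⟩, 0⟩, 0, 0⟩ 0 0)) (.pos 46 .mp ⟨⟨396167046, 0, 0, 0, 0, 95963133, 0, 0, 0, ⟨0, 0⟩, 0⟩, 0, 0⟩ 0 0)))) (.pos 42 .mp ⟨⟨452698546, 0, 0, 0, 0, 0, 0, 0, 0, ⟨0, 0⟩, 0⟩, 0, 0⟩ 0 0)))) (.pos 36 .mp ⟨⟨442087622, 0, 0, 0, 0, 0, 0, 0, 0, ⟨0, 0⟩, 0⟩, 0, 0⟩ 0 0))))))) (.pos 32 .mp ⟨⟨495199964, 0, 0, 0, 0, 0, 0, 0, 0, ⟨0, 0⟩, 0⟩, 0, 0⟩ 0 0))) (.void 30 ⟨⟨100000, 0, 0, 0, 0, 0, 0, 0, 0, ⟨0, 0⟩, 0⟩, 0, 0⟩ 0 0))) (.void 28 ⟨⟨100000, 0, 0, 0, 0, 0, 0, 0, 0, ⟨0, 0⟩, 0⟩, 0, 0⟩ 0 0))) (.void 26 ⟨⟨100000, 0, 0, 0, 0, 0, 0, 0, 0, ⟨0, 0⟩, 0⟩, 0, 0⟩ 0 0))) (.void 24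 ⟨⟨100000, 0, 0, 0, 0, 0, 0, 0, 0, ⟨0, 0⟩, 0⟩, 0, 0⟩ 0 0)))) (.void 22 ⟨⟨100000, 0, 0, 0, 0, 0, 0, 0, 0, ⟨0, 0⟩, 0⟩, 0, 0⟩ 0 0)) (.void 79 ⟨⟨100000, 0, 0, 0, 0, 0, 0, 0, 0, ⟨0, 0⟩, 0⟩, 0, 0⟩ 0 0)) (.void 88 ⟨⟨100000, 0, 0, 0, 0, 0, 0, 0, 0, ⟨0, 0⟩, 0⟩, 0, 0⟩ 0 0)) (.void 97 ⟨⟨93716, 0, 0, 6284, 0, 0, 0, 0, 0, ⟨0, 0⟩, 0⟩, 0, 0⟩ 0 0))) (.cut .v 16777216 (.cut .v 8388608 (.cut .v 4194304 (.cut .v 2097152 (.cut .v 1048576 (.pos 93 .pm ⟨⟨0, 0, 18169415, 0, 0, 0, 0, 0, 0, ⟨0, 0⟩, 0⟩, 0, 18386⟩ 0 0) (.pos 94 .pm ⟨⟨0, 0, 14357431, 0, 0, 0, 0, 0, 0, ⟨0, 0⟩, 0⟩, 0, 35357⟩ 0 0)) (.pos 90 .pm ⟨⟨0, 0, 13030894, 0, 0, 0, 0, 0, 0, ⟨0, 0⟩, 0⟩, 0, 54375⟩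 0 0)) (.pos 5 .pm ⟨⟨0, 0, 16891546, 0, 0, 0, 0, 0, 0, ⟨0, 0⟩, 0⟩, 0, 91929⟩ 0 0)) (.pos 3 .pm ⟨⟨0, 0, 0, 0, 0, 0, 0, 0, 0, ⟨0, 0⟩, 0⟩, 0, 0⟩ 0 0)) (.cut .v 268435456 (.cut .v 67108864 (.cut .d 2242500 (.cut .v 33554432 (.cut .d 1121250 (.cut .v 25165824 (.cut .d 560625 (.cut .v 20971520 (.cut .d 280312 (.cut .v 18874368 (.cut .d 140156 (.cut .d 70078 (.cut .v 17825792 (.cut .v 17301504 (.cut .s 13369344 (.pos 29 .pp ⟨⟨324445839, 0, 0, 0, 0, 0, 0, 0, 0, ⟨0, 0⟩, 0⟩, 6902026, 0⟩ 0 0) (.pos 29 .pp ⟨⟨354381495, 0, 0, 0, 0, 0, 0, 0, 0, ⟨0, 0⟩, 0⟩, 8060612, 0⟩ 0 0)) (.pos 30 .pp ⟨⟨417842915, 0, 0, 0, 0, 0, 0, 0, 0, ⟨0, 0⟩, 0⟩, 0, 0⟩ 0 0))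 (.pos 28 .pp ⟨⟨476007927, 0, 0, 0, 0, 0, 0, 0, 0, ⟨0, 0⟩, 0⟩, 0, 0⟩ 0 0)) (.pos 25 .pp ⟨⟨352892989, 0, 0, 0, 0, 0, 0, 0, 0, ⟨0, 0⟩, 0⟩, 0, 10880⟩ 0 0)) (.pos 25 .pp ⟨⟨0, 0, 0, 0, 0, 0, 0, 0, 0, ⟨0, 0⟩, 0⟩, 0, 301367⟩ 0 0)) (.cut .d 140156 (.pos 26 .pp ⟨⟨566086636, 0, 0, 0, 0, 0, 0, 0, 0, ⟨0, 0⟩, 0⟩, 0, 0⟩ 0 0) (.pos 26 .pp ⟨⟨449191171, 0, 0, 0, 0, 0, 0, 0, 0, ⟨0, 0⟩, 0⟩, 0, 0⟩ 0 0))) (.pos 23 .pp ⟨⟨0, 0, 0, 0, 0, 0, 0, 0, 0, ⟨0, 0⟩, 0⟩, 0, 316250⟩ 0 0)) (.cut .d 280312 (.cut .v 23068672 (.cut .v 22020096 (.cut .d 140156 (.void 57 ⟨⟨0, 0, 0, 0, 0, 0, 0, 0, 0, ⟨0, 0⟩, 0⟩, 100000, 0⟩ 0 0) (.pos 57 .pp ⟨⟨567577317, 0, 0, 0, 0, 0, 0, 0,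 0, ⟨0, 0⟩, 0⟩, 0, 0⟩ 0 0)) (.pos 58 .pp ⟨⟨0, 0, 0, 0, 0, 0, 0, 0, 0, ⟨0, 0⟩, 0⟩, 96707677, 0⟩ 0 0)) (.pos 54 .pp ⟨⟨0, 0, 0, 0, 0, 0, 0, 0, 0, ⟨0, 0⟩, 0⟩, 117374049, 0⟩ 0 0)) (.pos 24 .pp ⟨⟨0, 0, 0, 0, 0, 0, 42962, 0, 0, ⟨0, 0⟩, 0⟩, 69087503, 0⟩ 0 0))) (.pos 21 .pp ⟨⟨0, 0, 0, 0, 0, 0, 0, 0, 0, ⟨0, 0⟩, 0⟩, 0, 341550⟩ 0 0)) (.cut .d 560625 (.cut .d 280312 (.void 22 ⟨⟨0, 0, 0, 0, 0, 0, 0, 0, 0, ⟨0, 0⟩, 0⟩, 100000, 0⟩ 0 0) (.pos 22 .pp ⟨⟨0, 0, 0, 0, 0, 0, 0, 0, 0, ⟨0, 0⟩, 0⟩, 107255013, 0⟩ 0 0)) (.pos 22 .pp ⟨⟨0, 0, 0, 0, 0, 0, 47602, 0, 0, ⟨0, 0⟩, 0⟩, 69428089, 0⟩ 0 0))) (.pos 20 .pp ⟨⟨0, 0, 0, 0, 0, 0, 1137577, 0, 0, ⟨0, 0⟩, 0⟩, 0, 0⟩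 0 0)) (.cut .d 1121250 (.pos 79 .pp ⟨⟨0, 0, 0, 0, 0, 0, 0, 0, 0, ⟨0, 0⟩, 0⟩, 236759627, 0⟩ 0 0) (.pos 79 .pp ⟨⟨0, 0, 0, 0, 0, 0, 0, 0, 0, ⟨0, 0⟩, 0⟩, 88853682, 0⟩ 0 0))) (.pos 78 .pp ⟨⟨0, 0, 0, 0, 0, 0, 0, 0, 0, ⟨0, 0⟩, 0⟩, 0, 284625⟩ 0 0)) (.void 88 ⟨⟨0, 0, 0, 47596, 0, 0, 0, 0, 0, ⟨0, 0⟩, 0⟩, 52404, 0⟩ 0 0)) (.void 97 ⟨⟨0, 0, 0, 0, 0, 0, 0, 0, 0, ⟨0, 0⟩, 0⟩, 100000, 0⟩ 0 0)))),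
    by decide +kernel⟩

def covers24 : cell.Covers Vale.Agent.P237.Petty.Cor.Grid.N11.table row24.1 :=
  ⟨(.cut .d 0 (.cut .v 16777216 (.cut .v 8388608 (.void 2 ⟨⟨0, 0, 100000, 0, 0, 0, 0, 0, 0, ⟨0, 0⟩, 0⟩, 0, 0⟩ 0 0) (.cut .d (-8388608) (.void 3 ⟨⟨100000, 0, 0, 0, 0, 0, 0, 0, 0, ⟨0, 0⟩, 0⟩, 0, 0⟩ 0 0) (.cut .d (-4194304) (.void 3 ⟨⟨100000, 0, 0, 0, 0, 0, 0, 0, 0, ⟨0, 0⟩, 0⟩, 0, 0⟩ 0 0) (.cut .d (-2097152) (.void 3 ⟨⟨0, 0, 0, 0, 0, 100000, 0, 0, 0, ⟨0, 0⟩, 0⟩, 0, 0⟩ 0 0) (.cut .d (-1048576) (.void 3 ⟨⟨0, 0, 0, 0, 0, 100000, 0, 0, 0, ⟨0, 0⟩, 0⟩, 0, 0⟩ 0 0) (.cut .d (-524288) (.void 3 ⟨⟨0, 0, 0, 0, 0, 100000, 0, 0, 0, ⟨0, 0⟩, 0⟩, 0, 0⟩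 0 0) (.cut .d (-262144) (.void 3 ⟨⟨0, 0, 0, 0, 0, 100000, 0, 0, 0, ⟨0, 0⟩, 0⟩, 0, 0⟩ 0 0) (.cut .s 13631488 (.pos 3 .mm ⟨⟨0, 0, 0, 0, 0, 860300132, 0, 0, 0, ⟨0, 0⟩, 0⟩, 0, 0⟩ 0 0) (.pos 3 .mm ⟨⟨0, 0, 0, 0, 0, 961420162, 0, 0, 0, ⟨0, 0⟩, 0⟩, 0, 0⟩ 0 0))))))))) (.cut .v 268435456 (.cut .v 67108864 (.cut .v 33554432 (.cut .d (-8388608) (.void 20 ⟨⟨100020, 0, 0, 0, 0, 0, 0, 0, 0, ⟨0, 0⟩, 0⟩, 0, 0⟩ 0 0) (.cut .v 25165824 (.cut .d (-4194304) (.void 21 ⟨⟨100000, 0, 0, 0, 0, 0, 0, 0, 0, ⟨0, 0⟩, 0⟩, 0, 0⟩ 0 0) (.cut .v 20971520 (.cut .d (-2097152) (.void 23 ⟨⟨100000, 0, 0, 0, 0, 0, 0, 0, 0, ⟨0, 0⟩, 0⟩, 0, 0⟩ 0 0) (.cut .v 18874368 (.cut .d (-1048576)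 (.void 25 ⟨⟨100000, 0, 0, 0, 0, 0, 0, 0, 0, ⟨0, 0⟩, 0⟩, 0, 0⟩ 0 0) (.cut .v 17825792 (.cut .d (-524288) (.void 27 ⟨⟨100000, 0, 0, 0, 0, 0, 0, 0, 0, ⟨0, 0⟩, 0⟩, 0, 0⟩ 0 0) (.cut .v 17301504 (.cut .d (-262144) (.void 29 ⟨⟨100000, 0, 0, 0, 0, 0, 0, 0, 0, ⟨0, 0⟩, 0⟩, 0, 0⟩ 0 0) (.cut .v 17039360 (.cut .d (-131072) (.void 31 ⟨⟨100000, 0, 0, 0, 0, 0, 0, 0, 0, ⟨0, 0⟩, 0⟩, 0, 0⟩ 0 0) (.cut .d (-65536) (.void 31 ⟨⟨100000, 0, 0, 0, 0, 0, 0, 0, 0, ⟨0, 0⟩, 0⟩, 0, 0⟩ 0 0) (.cut .d (-32768) (.void 31 ⟨⟨100000, 0, 0, 0, 0, 0, 0, 0, 0, ⟨0, 0⟩, 0⟩, 0, 0⟩ 0 0) (.cut .d (-16384) (.void 31 ⟨⟨0, 0, 0, 0, 0, 100000, 0, 0, 0, ⟨0, 0⟩, 0⟩, 0, 0⟩ 0 0) (.cut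 .s 13631488 (.cut .v 16908288 (.cut .s 13565952 (.cut .s 13533184 (.cut .v 16842752 (.cut .d (-8192) (.cut .d (-12288) (.pos 41 .mp ⟨⟨368935659, 0, 0, 0, 0, 176604179, 0, 0, 0, ⟨0, 0⟩, 0⟩, 0, 0⟩ 0 0) (.cut .v 16809984 (.pos 45 .mp ⟨⟨0, 0, 0, 0, 0, 899691620, 0, 0, 0, ⟨0, 0⟩, 0⟩, 0, 0⟩ 0 0) (.cut .s 13516800 (.pos 46 .mp ⟨⟨385386798, 0, 0, 0, 0, 129861383, 0, 0, 0, ⟨0, 0⟩, 0⟩, 0, 0⟩ 0 0) (.cut .s 13524992 (.pos 46 .mp ⟨⟨387725918, 0, 0, 0, 0, 132317109, 0, 0, 0, ⟨0, 0⟩, 0⟩, 0, 0⟩ 0 0) (.pos 46 .mp ⟨⟨390081303, 0, 0, 0, 0, 133057525, 0, 0, 0, ⟨0, 0⟩, 0⟩, 0, 0⟩ 0 0))))) (.cut .l 167772 (.cut .v 16809984 (.cut .s 13516800 (.cut .d (-4096)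 (.pos 45 .mp ⟨⟨366962007, 0, 0, 0, 0, 166283268, 0, 0, 0, ⟨0, 0⟩, 0⟩, 0, 0⟩ 0 0) (.cut .s 13508608 (.pos 45 .mp ⟨⟨374413082, 0, 0, 0, 0, 142473845, 0, 0, 0, ⟨0, 0⟩, 0⟩, 0, 0⟩ 0 0) (.pos 45 .mp ⟨⟨376667310, 0, 0, 0, 0, 143305166, 0, 0, 0, ⟨0, 0⟩, 0⟩, 0, 0⟩ 0 0))) (.cut .d (-4096) (.pos 45 .mp ⟨⟨371394149, 0, 0, 0, 0, 168124758, 0, 0, 0, ⟨0, 0⟩, 0⟩, 0, 0⟩ 0 0) (.cut .v 16793600 (.cut .s 13524992 (.pos 55 .mp ⟨⟨375603458, 0, 0, 0, 0, 150663931, 0, 0, 0, ⟨0, 0⟩, 0⟩, 0, 0⟩ 0 0) (.cut .s 13529088 (.pos 55 .mp ⟨⟨382537548, 0, 0, 0, 0, 141823628, 0, 0, 0, ⟨0, 0⟩, 0⟩, 0, 0⟩ 0 0) (.pos 55 .mp ⟨⟨383490647, 0, 0, 0, 0, 142619379, 0, 0, 0, ⟨0, 0⟩,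 0⟩, 0, 0⟩ 0 0))) (.pos 56 .mp ⟨⟨407284880, 0, 0, 0, 0, 94930098, 0, 0, 0, ⟨0, 0⟩, 0⟩, 0, 0⟩ 0 0)))) (.pos 46 .mp ⟨⟨463320631, 0, 0, 0, 0, 0, 0, 0, 0, ⟨0, 0⟩, 0⟩, 0, 0⟩ 0 0)) (.pos 41 .mp ⟨⟨380120779, 0, 0, 0, 0, 128925977, 0, 0, 0, ⟨0, 0⟩, 0⟩, 0, 0⟩ 0 0))) (.pos 42 .mp ⟨⟨465301318, 0, 0, 0, 0, 0, 0, 0, 0, ⟨0, 0⟩, 0⟩, 0, 0⟩ 0 0)) (.cut .v 16842752 (.cut .d (-8192) (.cut .l 167772 (.void 41 ⟨⟨0, 0, 0, 0, 0, 100000, 0, 0, 0, ⟨0, 0⟩, 0⟩, 0, 0⟩ 0 0) (.cut .d (-12288) (.pos 41 .mp ⟨⟨377980749, 0, 0, 0, 0, 178531445, 0, 0, 0, ⟨0, 0⟩, 0⟩, 0, 0⟩ 0 0) (.cut .s 13549568 (.pos 41 .mp ⟨⟨374967179, 0, 0, 0, 0, 170692904, 0, 0, 0, ⟨0, 0⟩, 0⟩, 0, 0⟩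 0 0) (.cut .s 13557760 (.pos 41 .mp ⟨⟨380713124, 0, 0, 0, 0, 167196657, 0, 0, 0, ⟨0, 0⟩, 0⟩, 0, 0⟩ 0 0) (.pos 41 .mp ⟨⟨382824451, 0, 0, 0, 0, 168750904, 0, 0, 0, ⟨0, 0⟩, 0⟩, 0, 0⟩ 0 0))))) (.cut .l 167772 (.cut .v 16809984 (.cut .s 13549568 (.cut .s 13541376 (.cut .s 13537280 (.pos 45 .mp ⟨⟨380541224, 0, 0, 0, 0, 151316096, 0, 0, 0, ⟨0, 0⟩, 0⟩, 0, 0⟩ 0 0) (.pos 45 .mp ⟨⟨381220911, 0, 0, 0, 0, 152734980, 0, 0, 0, ⟨0, 0⟩, 0⟩, 0, 0⟩ 0 0)) (.cut .s 13545472 (.pos 45 .mp ⟨⟨382048254, 0, 0, 0, 0, 153875624, 0, 0, 0, ⟨0, 0⟩, 0⟩, 0, 0⟩ 0 0) (.pos 45 .mp ⟨⟨383039880, 0, 0, 0, 0, 154705133, 0, 0, 0, ⟨0, 0⟩, 0⟩, 0, 0⟩ 0 0))) (.cut .s 13557760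 (.cut .s 13553664 (.pos 45 .mp ⟨⟨384040116, 0, 0, 0, 0, 155530715, 0, 0, 0, ⟨0, 0⟩, 0⟩, 0, 0⟩ 0 0) (.cut .s 13555712 (.pos 45 .mp ⟨⟨388769770, 0, 0, 0, 0, 148251092, 0, 0, 0, ⟨0, 0⟩, 0⟩, 0, 0⟩ 0 0) (.pos 45 .mp ⟨⟨389158584, 0, 0, 0, 0, 148892912, 0, 0, 0, ⟨0, 0⟩, 0⟩, 0, 0⟩ 0 0))) (.cut .d (-4096) (.pos 45 .mp ⟨⟨382741584, 0, 0, 0, 0, 169516701, 0, 0, 0, ⟨0, 0⟩, 0⟩, 0, 0⟩ 0 0) (.cut .s 13561856 (.pos 45 .mp ⟨⟨388973758, 0, 0, 0, 0, 150847069, 0, 0, 0, ⟨0, 0⟩, 0⟩, 0, 0⟩ 0 0) (.pos 45 .mp ⟨⟨390225187, 0, 0, 0, 0, 151184995, 0, 0, 0, ⟨0, 0⟩, 0⟩, 0, 0⟩ 0 0))))) (.pos 46 .mp ⟨⟨474829447, 0, 0, 0, 0, 0, 0, 0, 0, ⟨0, 0⟩, 0⟩, 0, 0⟩ 0 0)) (.pos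 41 .mp ⟨⟨389502300, 0, 0, 0, 0, 132538880, 0, 0, 0, ⟨0, 0⟩, 0⟩, 0, 0⟩ 0 0))) (.pos 42 .mp ⟨⟨476862052, 0, 0, 0, 0, 0, 0, 0, 0, ⟨0, 0⟩, 0⟩, 0, 0⟩ 0 0))) (.cut .s 13598720 (.cut .v 16842752 (.cut .d (-8192) (.cut .l 167772 (.void 41 ⟨⟨0, 0, 0, 0, 0, 100000, 0, 0, 0, ⟨0, 0⟩, 0⟩, 0, 0⟩ 0 0) (.cut .d (-12288) (.pos 41 .mp ⟨⟨387276774, 0, 0, 0, 0, 183048334, 0, 0, 0, ⟨0, 0⟩, 0⟩, 0, 0⟩ 0 0) (.cut .v 16809984 (.pos 45 .mp ⟨⟨0, 0, 0, 0, 0, 935962167, 0, 0, 0, ⟨0, 0⟩, 0⟩, 0, 0⟩ 0 0) (.cut .s 13582336 (.pos 46 .mp ⟨⟨399002390, 0, 0, 0, 0, 144309759, 0, 0, 0, ⟨0, 0⟩, 0⟩, 0, 0⟩ 0 0) (.cut .s 13590528 (.pos 46 .mp ⟨⟨401441254, 0, 0, 0, 0, 148378599,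 0, 0, 0, ⟨0, 0⟩, 0⟩, 0, 0⟩ 0 0) (.pos 46 .mp ⟨⟨403897037, 0, 0, 0, 0, 149386095, 0, 0, 0, ⟨0, 0⟩, 0⟩, 0, 0⟩ 0 0)))))) (.cut .l 167772 (.cut .v 16809984 (.cut .s 13582336 (.cut .d (-4096) (.cut .s 13574144 (.pos 45 .mp ⟨⟨385057764, 0, 0, 0, 0, 170584737, 0, 0, 0, ⟨0, 0⟩, 0⟩, 0, 0⟩ 0 0) (.pos 45 .mp ⟨⟨387389781, 0, 0, 0, 0, 171682201, 0, 0, 0, ⟨0, 0⟩, 0⟩, 0, 0⟩ 0 0)) (.cut .l 83886 (.cut .v 16793600 (.cut .s 13574144 (.cut .s 13570048 (.pos 55 .mp ⟨⟨391948810, 0, 0, 0, 0, 150414535, 0, 0, 0, ⟨0, 0⟩, 0⟩, 0, 0⟩ 0 0) (.pos 55 .mp ⟨⟨392978662, 0, 0, 0, 0, 151214525, 0, 0, 0, ⟨0, 0⟩, 0⟩, 0, 0⟩ 0 0)) (.cut .s 13578240 (.pos 55 .mp ⟨⟨394018926,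 0, 0, 0, 0, 152008288, 0, 0, 0, ⟨0, 0⟩, 0⟩, 0, 0⟩ 0 0) (.pos 55 .mp ⟨⟨395069734, 0, 0, 0, 0, 152795595, 0, 0, 0, ⟨0, 0⟩, 0⟩, 0, 0⟩ 0 0))) (.pos 56 .mp ⟨⟨484704007, 0, 0, 0, 0, 0, 0, 0, 0, ⟨0, 0⟩, 0⟩, 0, 0⟩ 0 0)) (.pos 45 .mp ⟨⟨392427075, 0, 0, 0, 0, 146644592, 0, 0, 0, ⟨0, 0⟩, 0⟩, 0, 0⟩ 0 0))) (.cut .d (-4096) (.cut .s 13590528 (.pos 45 .mp ⟨⟨389737751, 0, 0, 0, 0, 172809337, 0, 0, 0, ⟨0, 0⟩, 0⟩, 0, 0⟩ 0 0) (.pos 45 .mp ⟨⟨392101796, 0, 0, 0, 0, 173966387, 0, 0, 0, ⟨0, 0⟩, 0⟩, 0, 0⟩ 0 0)) (.cut .l 83886 (.cut .v 16793600 (.cut .s 13590528 (.cut .s 13586432 (.pos 55 .mp ⟨⟨396131219, 0, 0, 0, 0, 153576217, 0, 0, 0, ⟨0, 0⟩, 0⟩, 0, 0⟩ 0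 0) (.pos 55 .mp ⟨⟨397203512, 0, 0, 0, 0, 154349922, 0, 0, 0, ⟨0, 0⟩, 0⟩, 0, 0⟩ 0 0)) (.cut .s 13594624 (.pos 55 .mp ⟨⟨398286749, 0, 0, 0, 0, 155116479, 0, 0, 0, ⟨0, 0⟩, 0⟩, 0, 0⟩ 0 0) (.pos 55 .mp ⟨⟨399381063, 0, 0, 0, 0, 155875653, 0, 0, 0, ⟨0, 0⟩, 0⟩, 0, 0⟩ 0 0))) (.pos 56 .mp ⟨⟨490759377, 0, 0, 0, 0, 0, 0, 0, 0, ⟨0, 0⟩, 0⟩, 0, 0⟩ 0 0)) (.pos 45 .mp ⟨⟨397216286, 0, 0, 0, 0, 148842260, 0, 0, 0, ⟨0, 0⟩, 0⟩, 0, 0⟩ 0 0)))) (.pos 46 .mp ⟨⟨486711895, 0, 0, 0, 0, 0, 0, 0, 0, ⟨0, 0⟩, 0⟩, 0, 0⟩ 0 0)) (.pos 41 .mp ⟨⟨399129910, 0, 0, 0, 0, 136382407, 0, 0, 0, ⟨0, 0⟩, 0⟩, 0, 0⟩ 0 0))) (.pos 42 .mp ⟨⟨488798173, 0, 0, 0, 0, 0, 0, 0, 0, ⟨0, 0⟩,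 0⟩, 0, 0⟩ 0 0)) (.cut .v 16842752 (.cut .d (-8192) (.cut .l 167772 (.void 41 ⟨⟨0, 0, 0, 0, 0, 100000, 0, 0, 0, ⟨0, 0⟩, 0⟩, 0, 0⟩ 0 0) (.cut .v 16809984 (.pos 45 .mp ⟨⟨0, 0, 0, 0, 0, 960793527, 0, 0, 0, ⟨0, 0⟩, 0⟩, 0, 0⟩ 0 0) (.cut .s 13615104 (.cut .s 13606912 (.pos 46 .mp ⟨⟨395047128, 0, 0, 0, 0, 174610496, 0, 0, 0, ⟨0, 0⟩, 0⟩, 0, 0⟩ 0 0) (.pos 46 .mp ⟨⟨397456009, 0, 0, 0, 0, 175863203, 0, 0, 0, ⟨0, 0⟩, 0⟩, 0, 0⟩ 0 0)) (.cut .s 13623296 (.pos 46 .mp ⟨⟨399881410, 0, 0, 0, 0, 177136599, 0, 0, 0, ⟨0, 0⟩, 0⟩, 0, 0⟩ 0 0) (.pos 46 .mp ⟨⟨402323457, 0, 0, 0, 0, 178430576, 0, 0, 0, ⟨0, 0⟩, 0⟩, 0, 0⟩ 0 0))))) (.cut .l 167772 (.cut .v 16809984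 (.cut .s 13615104 (.cut .d (-4096) (.cut .s 13606912 (.pos 45 .mp ⟨⟨394482035, 0, 0, 0, 0, 175153598, 0, 0, 0, ⟨0, 0⟩, 0⟩, 0, 0⟩ 0 0) (.pos 45 .mp ⟨⟨396878592, 0, 0, 0, 0, 176371219, 0, 0, 0, ⟨0, 0⟩, 0⟩, 0, 0⟩ 0 0)) (.cut .l 83886 (.cut .v 16793600 (.cut .s 13606912 (.cut .s 13602816 (.pos 55 .mp ⟨⟨400399582, 0, 0, 0, 0, 156812214, 0, 0, 0, ⟨0, 0⟩, 0⟩, 0, 0⟩ 0 0) (.pos 55 .mp ⟨⟨401398048, 0, 0, 0, 0, 157807798, 0, 0, 0, ⟨0, 0⟩, 0⟩, 0, 0⟩ 0 0)) (.cut .s 13611008 (.pos 55 .mp ⟨⟨402417411, 0, 0, 0, 0, 158775391, 0, 0, 0, ⟨0, 0⟩, 0⟩, 0, 0⟩ 0 0) (.pos 55 .mp ⟨⟨403457879, 0, 0, 0, 0, 159714587, 0, 0, 0, ⟨0, 0⟩, 0⟩, 0, 0⟩ 0 0))) (.pos 56 .mp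 ⟨⟨496906514, 0, 0, 0, 0, 0, 0, 0, 0, ⟨0, 0⟩, 0⟩, 0, 0⟩ 0 0)) (.pos 45 .mp ⟨⟨402069789, 0, 0, 0, 0, 151090366, 0, 0, 0, ⟨0, 0⟩, 0⟩, 0, 0⟩ 0 0))) (.cut .d (-4096) (.cut .s 13623296 (.pos 45 .mp ⟨⟨399291590, 0, 0, 0, 0, 177619501, 0, 0, 0, ⟨0, 0⟩, 0⟩, 0, 0⟩ 0 0) (.pos 45 .mp ⟨⟨401721154, 0, 0, 0, 0, 178898699, 0, 0, 0, ⟨0, 0⟩, 0⟩, 0, 0⟩ 0 0)) (.cut .l 83886 (.cut .v 16793600 (.cut .s 13623296 (.cut .s 13619200 (.pos 55 .mp ⟨⟨404519659, 0, 0, 0, 0, 160624983, 0, 0, 0, ⟨0, 0⟩, 0⟩, 0, 0⟩ 0 0) (.pos 55 .mp ⟨⟨405602960, 0, 0, 0, 0, 161506173, 0, 0, 0, ⟨0, 0⟩, 0⟩, 0, 0⟩ 0 0)) (.cut .s 13627392 (.pos 55 .mp ⟨⟨406707990, 0, 0, 0, 0, 162357754,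 0, 0, 0, ⟨0, 0⟩, 0⟩, 0, 0⟩ 0 0) (.pos 55 .mp ⟨⟨407834958, 0, 0, 0, 0, 163179318, 0, 0, 0, ⟨0, 0⟩, 0⟩, 0, 0⟩ 0 0))) (.pos 56 .mp ⟨⟨503144706, 0, 0, 0, 0, 0, 0, 0, 0, ⟨0, 0⟩, 0⟩, 0, 0⟩ 0 0)) (.pos 45 .mp ⟨⟨406988566, 0, 0, 0, 0, 153386310, 0, 0, 0, ⟨0, 0⟩, 0⟩, 0, 0⟩ 0 0)))) (.pos 46 .mp ⟨⟨498962217, 0, 0, 0, 0, 0, 0, 0, 0, ⟨0, 0⟩, 0⟩, 0, 0⟩ 0 0)) (.cut .s 13615104 (.pos 41 .mp ⟨⟨404020395, 0, 0, 0, 0, 148524888, 0, 0, 0, ⟨0, 0⟩, 0⟩, 0, 0⟩ 0 0) (.pos 41 .mp ⟨⟨408982134, 0, 0, 0, 0, 150758102, 0, 0, 0, ⟨0, 0⟩, 0⟩, 0, 0⟩ 0 0)))) (.pos 42 .mp ⟨⟨501103898, 0, 0, 0, 0, 0, 0, 0, 0, ⟨0, 0⟩, 0⟩, 0, 0⟩ 0 0)))) (.pos 36 .mp ⟨⟨489268994, 0, 0, 0,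 0, 0, 0, 0, 0, ⟨0, 0⟩, 0⟩, 0, 0⟩ 0 0)) (.cut .v 16908288 (.cut .s 13697024 (.cut .s 13664256 (.cut .v 16842752 (.cut .d (-8192) (.cut .v 16809984 (.pos 45 .mp ⟨⟨0, 0, 0, 0, 0, 998879715, 0, 0, 0, ⟨0, 0⟩, 0⟩, 0, 0⟩ 0 0) (.cut .l 167772 (.void 46 ⟨⟨100000, 0, 0, 0, 0, 0, 0, 0, 0, ⟨0, 0⟩, 0⟩, 0, 0⟩ 0 0) (.cut .s 13647872 (.cut .s 13639680 (.pos 46 .mp ⟨⟨404782277, 0, 0, 0, 0, 179745025, 0, 0, 0, ⟨0, 0⟩, 0⟩, 0, 0⟩ 0 0) (.pos 46 .mp ⟨⟨407257997, 0, 0, 0, 0, 181079834, 0, 0, 0, ⟨0, 0⟩, 0⟩, 0, 0⟩ 0 0)) (.cut .s 13656064 (.pos 46 .mp ⟨⟨409750748, 0, 0, 0, 0, 182434887, 0, 0, 0, ⟨0, 0⟩, 0⟩, 0, 0⟩ 0 0) (.pos 46 .mp ⟨⟨412260659, 0, 0, 0, 0, 183810068,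 0, 0, 0, ⟨0, 0⟩, 0⟩, 0, 0⟩ 0 0))))) (.cut .l 167772 (.cut .v 16809984 (.cut .s 13647872 (.cut .d (-4096) (.cut .s 13639680 (.pos 45 .mp ⟨⟨404167410, 0, 0, 0, 0, 180209070, 0, 0, 0, ⟨0, 0⟩, 0⟩, 0, 0⟩ 0 0) (.pos 45 .mp ⟨⟨406630485, 0, 0, 0, 0, 181550872, 0, 0, 0, ⟨0, 0⟩, 0⟩, 0, 0⟩ 0 0)) (.cut .l 83886 (.cut .v 16793600 (.cut .s 13639680 (.cut .s 13635584 (.pos 55 .mp ⟨⟨408984071, 0, 0, 0, 0, 163970459, 0, 0, 0, ⟨0, 0⟩, 0⟩, 0, 0⟩ 0 0) (.pos 55 .mp ⟨⟨410155540, 0, 0, 0, 0, 164730769, 0, 0, 0, ⟨0, 0⟩, 0⟩, 0, 0⟩ 0 0)) (.cut .s 13643776 (.pos 55 .mp ⟨⟨411349574, 0, 0, 0, 0, 165459842, 0, 0, 0, ⟨0, 0⟩, 0⟩, 0, 0⟩ 0 0) (.pos 55 .mp ⟨⟨412566382,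 0, 0, 0, 0, 166157267, 0, 0, 0, ⟨0, 0⟩, 0⟩, 0, 0⟩ 0 0))) (.pos 56 .mp ⟨⟨509473244, 0, 0, 0, 0, 0, 0, 0, 0, ⟨0, 0⟩, 0⟩, 0, 0⟩ 0 0)) (.pos 45 .mp ⟨⟨411973622, 0, 0, 0, 0, 155727456, 0, 0, 0, ⟨0, 0⟩, 0⟩, 0, 0⟩ 0 0))) (.cut .d (-4096) (.cut .s 13656064 (.pos 45 .mp ⟨⟨409110508, 0, 0, 0, 0, 182924367, 0, 0, 0, ⟨0, 0⟩, 0⟩, 0, 0⟩ 0 0) (.pos 45 .mp ⟨⟨411607610, 0, 0, 0, 0, 184329822, 0, 0, 0, ⟨0, 0⟩, 0⟩, 0, 0⟩ 0 0)) (.cut .l 83886 (.cut .v 16793600 (.cut .s 13656064 (.cut .s 13651968 (.pos 55 .mp ⟨⟨413806174, 0, 0, 0, 0, 166822636, 0, 0, 0, ⟨0, 0⟩, 0⟩, 0, 0⟩ 0 0) (.pos 55 .mp ⟨⟨415069161, 0, 0, 0, 0, 167455538, 0, 0, 0, ⟨0, 0⟩, 0⟩, 0, 0⟩ 0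 0)) (.cut .s 13660160 (.pos 55 .mp ⟨⟨416355554, 0, 0, 0, 0, 168055563, 0, 0, 0, ⟨0, 0⟩, 0⟩, 0, 0⟩ 0 0) (.pos 55 .mp ⟨⟨417665562, 0, 0, 0, 0, 168622300, 0, 0, 0, ⟨0, 0⟩, 0⟩, 0, 0⟩ 0 0))) (.pos 56 .mp ⟨⟨515891427, 0, 0, 0, 0, 0, 0, 0, 0, ⟨0, 0⟩, 0⟩, 0, 0⟩ 0 0)) (.pos 45 .mp ⟨⟨417025983, 0, 0, 0, 0, 158111128, 0, 0, 0, ⟨0, 0⟩, 0⟩, 0, 0⟩ 0 0)))) (.pos 46 .mp ⟨⟨511574740, 0, 0, 0, 0, 0, 0, 0, 0, ⟨0, 0⟩, 0⟩, 0, 0⟩ 0 0)) (.cut .s 13647872 (.pos 41 .mp ⟨⟨414010939, 0, 0, 0, 0, 153035277, 0, 0, 0, ⟨0, 0⟩, 0⟩, 0, 0⟩ 0 0) (.pos 41 .mp ⟨⟨419107848, 0, 0, 0, 0, 155353712, 0, 0, 0, ⟨0, 0⟩, 0⟩, 0, 0⟩ 0 0)))) (.pos 42 .mp ⟨⟨513773527, 0, 0, 0, 0, 0,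 0, 0, 0, ⟨0, 0⟩, 0⟩, 0, 0⟩ 0 0)) (.cut .v 16842752 (.cut .d (-8192) (.cut .l 167772 (.void 41 ⟨⟨0, 0, 0, 0, 0, 100000, 0, 0, 0, ⟨0, 0⟩, 0⟩, 0, 0⟩ 0 0) (.cut .d (-12288) (.pos 41 .mp ⟨⟨416747493, 0, 0, 0, 0, 199663678, 0, 0, 0, ⟨0, 0⟩, 0⟩, 0, 0⟩ 0 0) (.cut .v 16809984 (.pos 45 .mp ⟨⟨0, 0, 0, 0, 0, 1013694251, 0, 0, 0, ⟨0, 0⟩, 0⟩, 0, 0⟩ 0 0) (.cut .s 13680640 (.cut .s 13672448 (.pos 46 .mp ⟨⟨426781887, 0, 0, 0, 0, 159445278, 0, 0, 0, ⟨0, 0⟩, 0⟩, 0, 0⟩ 0 0) (.pos 46 .mp ⟨⟨429414092, 0, 0, 0, 0, 160672744, 0, 0, 0, ⟨0, 0⟩, 0⟩, 0, 0⟩ 0 0)) (.cut .s 13688832 (.pos 46 .mp ⟨⟨432064694, 0, 0, 0, 0, 161922066, 0, 0, 0, ⟨0, 0⟩, 0⟩, 0, 0⟩ 0 0)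 (.pos 46 .mp ⟨⟨434733837, 0, 0, 0, 0, 163193212, 0, 0, 0, ⟨0, 0⟩, 0⟩, 0, 0⟩ 0 0)))))) (.cut .l 167772 (.cut .v 16809984 (.cut .s 13680640 (.cut .d (-4096) (.cut .s 13672448 (.pos 45 .mp ⟨⟨414121922, 0, 0, 0, 0, 185767502, 0, 0, 0, ⟨0, 0⟩, 0⟩, 0, 0⟩ 0 0) (.pos 45 .mp ⟨⟨416653576, 0, 0, 0, 0, 187237679, 0, 0, 0, ⟨0, 0⟩, 0⟩, 0, 0⟩ 0 0)) (.cut .l 83886 (.cut .v 16793600 (.cut .s 13672448 (.cut .s 13668352 (.pos 55 .mp ⟨⟨418999398, 0, 0, 0, 0, 169155335, 0, 0, 0, ⟨0, 0⟩, 0⟩, 0, 0⟩ 0 0) (.pos 55 .mp ⟨⟨420357273, 0, 0, 0, 0, 169654257, 0, 0, 0, ⟨0, 0⟩, 0⟩, 0, 0⟩ 0 0)) (.cut .s 13676544 (.pos 55 .mp ⟨⟨421739399, 0, 0, 0, 0, 170118650, 0, 0,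 0, ⟨0, 0⟩, 0⟩, 0, 0⟩ 0 0) (.pos 55 .mp ⟨⟨423145988, 0, 0, 0, 0, 170548101, 0, 0, 0, ⟨0, 0⟩, 0⟩, 0, 0⟩ 0 0))) (.pos 56 .mp ⟨⟨522398559, 0, 0, 0, 0, 0, 0, 0, 0, ⟨0, 0⟩, 0⟩, 0, 0⟩ 0 0)) (.pos 45 .mp ⟨⟨422146694, 0, 0, 0, 0, 160534609, 0, 0, 0, ⟨0, 0⟩, 0⟩, 0, 0⟩ 0 0))) (.cut .d (-4096) (.cut .s 13688832 (.pos 45 .mp ⟨⟨419202708, 0, 0, 0, 0, 188740626, 0, 0, 0, ⟨0, 0⟩, 0⟩, 0, 0⟩ 0 0) (.pos 45 .mp ⟨⟨421769453, 0, 0, 0, 0, 190276619, 0, 0, 0, ⟨0, 0⟩, 0⟩, 0, 0⟩ 0 0)) (.cut .l 83886 (.cut .v 16793600 (.cut .s 13688832 (.cut .s 13684736 (.pos 55 .mp ⟨⟨424577253, 0, 0, 0, 0, 170942194, 0, 0, 0, ⟨0, 0⟩, 0⟩, 0, 0⟩ 0 0) (.pos 55 .mp ⟨⟨426033407,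 0, 0, 0, 0, 171300512, 0, 0, 0, ⟨0, 0⟩, 0⟩, 0, 0⟩ 0 0)) (.cut .s 13692928 (.pos 55 .mp ⟨⟨427514663, 0, 0, 0, 0, 171622639, 0, 0, 0, ⟨0, 0⟩, 0⟩, 0, 0⟩ 0 0) (.pos 55 .mp ⟨⟨429021236, 0, 0, 0, 0, 171908156, 0, 0, 0, ⟨0, 0⟩, 0⟩, 0, 0⟩ 0 0))) (.pos 56 .mp ⟨⟨528993948, 0, 0, 0, 0, 0, 0, 0, 0, ⟨0, 0⟩, 0⟩, 0, 0⟩ 0 0)) (.pos 45 .mp ⟨⟨427336825, 0, 0, 0, 0, 162995144, 0, 0, 0, ⟨0, 0⟩, 0⟩, 0, 0⟩ 0 0)))) (.pos 46 .mp ⟨⟨524543876, 0, 0, 0, 0, 0, 0, 0, 0, ⟨0, 0⟩, 0⟩, 0, 0⟩ 0 0)) (.cut .s 13680640 (.pos 41 .mp ⟨⟨424273920, 0, 0, 0, 0, 157710669, 0, 0, 0, ⟨0, 0⟩, 0⟩, 0, 0⟩ 0 0) (.pos 41 .mp ⟨⟨429510235, 0, 0, 0, 0, 160103363, 0, 0, 0, ⟨0, 0⟩, 0⟩, 0,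 0⟩ 0 0)))) (.pos 42 .mp ⟨⟨526801444, 0, 0, 0, 0, 0, 0, 0, 0, ⟨0, 0⟩, 0⟩, 0, 0⟩ 0 0))) (.cut .s 13729792 (.cut .v 16842752 (.cut .d (-8192) (.cut .l 167772 (.void 41 ⟨⟨0, 0, 0, 0, 0, 100000, 0, 0, 0, ⟨0, 0⟩, 0⟩, 0, 0⟩ 0 0) (.cut .d (-12288) (.pos 41 .mp ⟨⟨427125935, 0, 0, 0, 0, 205949524, 0, 0, 0, ⟨0, 0⟩, 0⟩, 0, 0⟩ 0 0) (.cut .v 16809984 (.pos 45 .mp ⟨⟨0, 0, 0, 0, 0, 1041834092, 0, 0, 0, ⟨0, 0⟩, 0⟩, 0, 0⟩ 0 0) (.cut .s 13713408 (.cut .s 13705216 (.pos 46 .mp ⟨⟨437421666, 0, 0, 0, 0, 164486148, 0, 0, 0, ⟨0, 0⟩, 0⟩, 0, 0⟩ 0 0) (.pos 46 .mp ⟨⟨440128326, 0, 0, 0, 0, 165800838, 0, 0, 0, ⟨0, 0⟩, 0⟩, 0, 0⟩ 0 0)) (.cut .s 13721600 (.pos 46 .mp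 ⟨⟨442853966, 0, 0, 0, 0, 167137245, 0, 0, 0, ⟨0, 0⟩, 0⟩, 0, 0⟩ 0 0) (.pos 46 .mp ⟨⟨445598735, 0, 0, 0, 0, 168495329, 0, 0, 0, ⟨0, 0⟩, 0⟩, 0, 0⟩ 0 0)))))) (.cut .l 167772 (.cut .v 16809984 (.cut .s 13713408 (.cut .d (-4096) (.cut .s 13705216 (.pos 45 .mp ⟨⟨424353948, 0, 0, 0, 0, 191845936, 0, 0, 0, ⟨0, 0⟩, 0⟩, 0, 0⟩ 0 0) (.pos 45 .mp ⟨⟨426956332, 0, 0, 0, 0, 193448860, 0, 0, 0, ⟨0, 0⟩, 0⟩, 0, 0⟩ 0 0)) (.cut .l 83886 (.cut .v 16793600 (.cut .s 13705216 (.cut .s 13701120 (.pos 55 .mp ⟨⟨430553339, 0, 0, 0, 0, 172156645, 0, 0, 0, ⟨0, 0⟩, 0⟩, 0, 0⟩ 0 0) (.pos 55 .mp ⟨⟨432111187, 0, 0, 0, 0, 172367686, 0, 0, 0, ⟨0, 0⟩, 0⟩, 0, 0⟩ 0 0)) (.cut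 .s 13709312 (.pos 55 .mp ⟨⟨433624613, 0, 0, 0, 0, 172691462, 0, 0, 0, ⟨0, 0⟩, 0⟩, 0, 0⟩ 0 0) (.pos 55 .mp ⟨⟨435086467, 0, 0, 0, 0, 173143426, 0, 0, 0, ⟨0, 0⟩, 0⟩, 0, 0⟩ 0 0))) (.pos 56 .mp ⟨⟨535676907, 0, 0, 0, 0, 0, 0, 0, 0, ⟨0, 0⟩, 0⟩, 0, 0⟩ 0 0)) (.pos 45 .mp ⟨⟨432597466, 0, 0, 0, 0, 165489933, 0, 0, 0, ⟨0, 0⟩, 0⟩, 0, 0⟩ 0 0))) (.cut .d (-4096) (.cut .s 13721600 (.pos 45 .mp ⟨⟨429576745, 0, 0, 0, 0, 195085675, 0, 0, 0, ⟨0, 0⟩, 0⟩, 0, 0⟩ 0 0) (.pos 45 .mp ⟨⟨432215328, 0, 0, 0, 0, 196756671, 0, 0, 0, ⟨0, 0⟩, 0⟩, 0, 0⟩ 0 0)) (.cut .l 83886 (.cut .v 16793600 (.cut .d (-2048) (.pos 55 .mp ⟨⟨429997798, 0, 0, 0, 0, 197526807, 0, 0, 0, ⟨0,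 0⟩, 0⟩, 0, 0⟩ 0 0) (.cut .l 41943 (.cut .v 16785408 (.cut .d (-1024) (.pos 63 .mp ⟨⟨430209464, 0, 0, 0, 0, 196496776, 0, 0, 0, ⟨0, 0⟩, 0⟩, 0, 0⟩ 0 0) (.cut .l 20971 (.cut .v 16781312 (.cut .d (-512) (.pos 100 .mp ⟨⟨430315601, 0, 0, 0, 0, 195981315, 0, 0, 0, ⟨0, 0⟩, 0⟩, 0, 0⟩ 0 0) (.cut .s 13721600 (.cut .s 13717504 (.pos 100 .mp ⟨⟨435593280, 0, 0, 0, 0, 175635053, 0, 0, 0, ⟨0, 0⟩, 0⟩, 0, 0⟩ 0 0) (.pos 100 .mp ⟨⟨437031139, 0, 0, 0, 0, 176174777, 0, 0, 0, ⟨0, 0⟩, 0⟩, 0, 0⟩ 0 0)) (.pos 100 .mp ⟨⟨436376991, 0, 0, 0, 0, 181425096, 0, 0, 0, ⟨0, 0⟩, 0⟩, 0, 0⟩ 0 0))) (.pos 101 .mp ⟨⟨541569741, 0, 0, 0, 0, 0, 0, 0, 0, ⟨0, 0⟩, 0⟩, 0, 0⟩ 0 0))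 (.pos 63 .mp ⟨⟨436234960, 0, 0, 0, 0, 170279810, 0, 0, 0, ⟨0, 0⟩, 0⟩, 0, 0⟩ 0 0))) (.pos 64 .mp ⟨⟨541863284, 0, 0, 0, 0, 0, 0, 0, 0, ⟨0, 0⟩, 0⟩, 0, 0⟩ 0 0)) (.pos 55 .mp ⟨⟨436798927, 0, 0, 0, 0, 169526760, 0, 0, 0, ⟨0, 0⟩, 0⟩, 0, 0⟩ 0 0))) (.pos 56 .mp ⟨⟨542446754, 0, 0, 0, 0, 0, 0, 0, 0, ⟨0, 0⟩, 0⟩, 0, 0⟩ 0 0)) (.pos 45 .mp ⟨⟨437929733, 0, 0, 0, 0, 168016131, 0, 0, 0, ⟨0, 0⟩, 0⟩, 0, 0⟩ 0 0)))) (.pos 46 .mp ⟨⟨537864114, 0, 0, 0, 0, 0, 0, 0, 0, ⟨0, 0⟩, 0⟩, 0, 0⟩ 0 0)) (.cut .s 13713408 (.pos 41 .mp ⟨⟨434817897, 0, 0, 0, 0, 162528970, 0, 0, 0, ⟨0, 0⟩, 0⟩, 0, 0⟩ 0 0) (.pos 41 .mp ⟨⟨440198035, 0, 0, 0, 0, 164984620, 0, 0, 0, ⟨0, 0⟩, 0⟩,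 0, 0⟩ 0 0)))) (.pos 42 .mp ⟨⟨540182115, 0, 0, 0, 0, 0, 0, 0, 0, ⟨0, 0⟩, 0⟩, 0, 0⟩ 0 0)) (.cut .v 16842752 (.cut .d (-8192) (.cut .l 167772 (.void 41 ⟨⟨0, 0, 0, 0, 0, 100000, 0, 0, 0, ⟨0, 0⟩, 0⟩, 0, 0⟩ 0 0) (.cut .s 13746176 (.cut .s 13737984 (.pos 41 .mp ⟨⟨434191402, 0, 0, 0, 0, 199643689, 0, 0, 0, ⟨0, 0⟩, 0⟩, 0, 0⟩ 0 0) (.pos 41 .mp ⟨⟨437077727, 0, 0, 0, 0, 200784865, 0, 0, 0, ⟨0, 0⟩, 0⟩, 0, 0⟩ 0 0)) (.pos 41 .mp ⟨⟨439423936, 0, 0, 0, 0, 207361125, 0, 0, 0, ⟨0, 0⟩, 0⟩, 0, 0⟩ 0 0))) (.cut .l 167772 (.cut .v 16809984 (.cut .s 13746176 (.cut .d (-4096) (.cut .s 13737984 (.pos 45 .mp ⟨⟨434872226, 0, 0, 0, 0, 198462136, 0, 0, 0, ⟨0, 0⟩,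 0⟩, 0, 0⟩ 0 0) (.pos 45 .mp ⟨⟨437547583, 0, 0, 0, 0, 200202366, 0, 0, 0, ⟨0, 0⟩, 0⟩, 0, 0⟩ 0 0)) (.cut .l 83886 (.cut .v 16793600 (.cut .d (-2048) (.pos 55 .mp ⟨⟨435289180, 0, 0, 0, 0, 200981160, 0, 0, 0, ⟨0, 0⟩, 0⟩, 0, 0⟩ 0 0) (.cut .l 41943 (.cut .v 16785408 (.cut .d (-1024) (.pos 63 .mp ⟨⟨435498812, 0, 0, 0, 0, 199946350, 0, 0, 0, ⟨0, 0⟩, 0⟩, 0, 0⟩ 0 0) (.cut .s 13737984 (.cut .s 13733888 (.pos 63 .mp ⟨⟨441452148, 0, 0, 0, 0, 177680560, 0, 0, 0, ⟨0, 0⟩, 0⟩, 0, 0⟩ 0 0) (.pos 63 .mp ⟨⟨442938481, 0, 0, 0, 0, 178189354, 0, 0, 0, ⟨0, 0⟩, 0⟩, 0, 0⟩ 0 0)) (.pos 63 .mp ⟨⟨442428345, 0, 0, 0, 0, 183241803, 0, 0, 0, ⟨0, 0⟩, 0⟩, 0, 0⟩ 0 0)))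 (.pos 64 .mp ⟨⟨548711584, 0, 0, 0, 0, 0, 0, 0, 0, ⟨0, 0⟩, 0⟩, 0, 0⟩ 0 0)) (.pos 55 .mp ⟨⟨442179654, 0, 0, 0, 0, 172117352, 0, 0, 0, ⟨0, 0⟩, 0⟩, 0, 0⟩ 0 0))) (.pos 56 .mp ⟨⟨549302814, 0, 0, 0, 0, 0, 0, 0, 0, ⟨0, 0⟩, 0⟩, 0, 0⟩ 0 0)) (.pos 45 .mp ⟨⟨443334765, 0, 0, 0, 0, 170570852, 0, 0, 0, ⟨0, 0⟩, 0⟩, 0, 0⟩ 0 0))) (.cut .d (-4096) (.pos 45 .mp ⟨⟨440241544, 0, 0, 0, 0, 206649572, 0, 0, 0, ⟨0, 0⟩, 0⟩, 0, 0⟩ 0 0) (.cut .l 83886 (.cut .v 16793600 (.cut .d (-2048) (.pos 55 .mp ⟨⟨440654351, 0, 0, 0, 0, 204575274, 0, 0, 0, ⟨0, 0⟩, 0⟩, 0, 0⟩ 0 0) (.cut .s 13754368 (.cut .s 13750272 (.pos 55 .mp ⟨⟨447544136, 0, 0, 0, 0, 179527618, 0, 0, 0, ⟨0,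 0⟩, 0⟩, 0, 0⟩ 0 0) (.pos 55 .mp ⟨⟨449081007, 0, 0, 0, 0, 180002091, 0, 0, 0, ⟨0, 0⟩, 0⟩, 0, 0⟩ 0 0)) (.pos 55 .mp ⟨⟨449268964, 0, 0, 0, 0, 183846707, 0, 0, 0, ⟨0, 0⟩, 0⟩, 0, 0⟩ 0 0))) (.pos 56 .mp ⟨⟨556244415, 0, 0, 0, 0, 0, 0, 0, 0, ⟨0, 0⟩, 0⟩, 0, 0⟩ 0 0)) (.pos 45 .mp ⟨⟨448813725, 0, 0, 0, 0, 173151159, 0, 0, 0, ⟨0, 0⟩, 0⟩, 0, 0⟩ 0 0)))) (.pos 46 .mp ⟨⟨551530028, 0, 0, 0, 0, 0, 0, 0, 0, ⟨0, 0⟩, 0⟩, 0, 0⟩ 0 0)) (.pos 41 .mp ⟨⟨451220191, 0, 0, 0, 0, 158365531, 0, 0, 0, ⟨0, 0⟩, 0⟩, 0, 0⟩ 0 0))) (.pos 42 .mp ⟨⟨553910086, 0, 0, 0, 0, 0, 0, 0, 0, ⟨0, 0⟩, 0⟩, 0, 0⟩ 0 0)))) (.pos 36 .mp ⟨⟨540639672, 0, 0, 0, 0, 0, 0, 0, 0, ⟨0, 0⟩, 0⟩, 0,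 0⟩ 0 0))))))) (.pos 32 .mp ⟨⟨606706836, 0, 0, 0, 0, 0, 0, 0, 0, ⟨0, 0⟩, 0⟩, 0, 0⟩ 0 0))) (.void 30 ⟨⟨100000, 0, 0, 0, 0, 0, 0, 0, 0, ⟨0, 0⟩, 0⟩, 0, 0⟩ 0 0))) (.void 28 ⟨⟨100000, 0, 0, 0, 0, 0, 0, 0, 0, ⟨0, 0⟩, 0⟩, 0, 0⟩ 0 0))) (.void 26 ⟨⟨100000, 0, 0, 0, 0, 0, 0, 0, 0, ⟨0, 0⟩, 0⟩, 0, 0⟩ 0 0))) (.void 24 ⟨⟨100000, 0, 0, 0, 0, 0, 0, 0, 0, ⟨0, 0⟩, 0⟩, 0, 0⟩ 0 0))) (.void 22 ⟨⟨100000, 0, 0, 0, 0, 0, 0, 0, 0, ⟨0, 0⟩, 0⟩, 0, 0⟩ 0 0))) (.void 79 ⟨⟨100000, 0, 0, 0, 0, 0, 0, 0, 0, ⟨0, 0⟩, 0⟩, 0, 0⟩ 0 0)) (.void 88 ⟨⟨100000, 0, 0, 0, 0, 0, 0, 0, 0, ⟨0, 0⟩, 0⟩, 0, 0⟩ 0 0)) (.void 97 ⟨⟨93601, 0, 0, 6399, 0, 0, 0, 0, 0, ⟨0, 0⟩, 0⟩, 0, 0⟩ 0 0)))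 (.cut .v 16777216 (.cut .v 8388608 (.cut .v 4194304 (.cut .v 2097152 (.cut .v 1048576 (.pos 93 .pm ⟨⟨0, 0, 19017863, 0, 0, 0, 0, 0, 0, ⟨0, 0⟩, 0⟩, 0, 14309⟩ 0 0) (.pos 94 .pm ⟨⟨0, 0, 17401498, 0, 0, 0, 0, 0, 0, ⟨0, 0⟩, 0⟩, 0, 27517⟩ 0 0)) (.pos 90 .pm ⟨⟨0, 0, 17208041, 0, 0, 0, 0, 0, 0, ⟨0, 0⟩, 0⟩, 0, 39746⟩ 0 0)) (.pos 5 .pm ⟨⟨0, 0, 28606754, 0, 0, 0, 0, 0, 0, ⟨0, 0⟩, 0⟩, 0, 71543⟩ 0 0)) (.pos 3 .pm ⟨⟨0, 0, 0, 0, 0, 0, 0, 0, 0, ⟨0, 0⟩, 0⟩, 0, 0⟩ 0 0)) (.cut .v 268435456 (.cut .v 67108864 (.cut .d 2036071 (.cut .v 33554432 (.cut .d 1018035 (.cut .v 25165824 (.cut .d 509017 (.cut .v 20971520 (.cut .d 254508 (.cut .v 18874368 (.cut .d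 127254 (.cut .d 63627 (.cut .v 17825792 (.cut .v 17301504 (.cut .s 13631488 (.pos 29 .pp ⟨⟨390935776, 0, 0, 0, 0, 0, 0, 0, 0, ⟨0, 0⟩, 0⟩, 8869502, 0⟩ 0 0) (.pos 29 .pp ⟨⟨426041845, 0, 0, 0, 0, 0, 0, 0, 0, ⟨0, 0⟩, 0⟩, 10663065, 0⟩ 0 0)) (.pos 30 .pp ⟨⟨507506229, 0, 0, 0, 0, 0, 0, 0, 0, ⟨0, 0⟩, 0⟩, 0, 0⟩ 0 0)) (.pos 28 .pp ⟨⟨577629812, 0, 0, 0, 0, 0, 0, 0, 0, ⟨0, 0⟩, 0⟩, 0, 0⟩ 0 0)) (.pos 25 .pp ⟨⟨424211218, 0, 0, 0, 0, 0, 0, 0, 0, ⟨0, 0⟩, 0⟩, 0, 11351⟩ 0 0)) (.pos 25 .pp ⟨⟨0, 0, 0, 0, 0, 0, 0, 0, 0, ⟨0, 0⟩, 0⟩, 0, 243226⟩ 0 0)) (.cut .d 127254 (.pos 26 .pp ⟨⟨685280156, 0, 0, 0, 0, 0, 0, 0, 0, ⟨0, 0⟩, 0⟩, 0, 0⟩ 0 0) (.pos 26 .pp ⟨⟨542052186,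 0, 0, 0, 0, 0, 0, 0, 0, ⟨0, 0⟩, 0⟩, 0, 0⟩ 0 0))) (.pos 23 .pp ⟨⟨0, 0, 0, 0, 0, 0, 0, 0, 0, ⟨0, 0⟩, 0⟩, 0, 255237⟩ 0 0)) (.cut .d 254508 (.cut .v 23068672 (.cut .v 22020096 (.cut .d 127254 (.void 57 ⟨⟨0, 0, 0, 0, 0, 0, 0, 0, 0, ⟨0, 0⟩, 0⟩, 100000, 0⟩ 0 0) (.pos 57 .pp ⟨⟨684703633, 0, 0, 0, 0, 0, 0, 0, 0, ⟨0, 0⟩, 0⟩, 0, 0⟩ 0 0)) (.pos 58 .pp ⟨⟨0, 0, 0, 0, 0, 0, 0, 0, 0, ⟨0, 0⟩, 0⟩, 117205777, 0⟩ 0 0)) (.pos 54 .pp ⟨⟨0, 0, 0, 0, 0, 0, 0, 0, 0, ⟨0, 0⟩, 0⟩, 144238161, 0⟩ 0 0)) (.pos 24 .pp ⟨⟨0, 0, 0, 0, 0, 0, 42165, 0, 0, ⟨0, 0⟩, 0⟩, 82861592, 0⟩ 0 0))) (.pos 21 .pp ⟨⟨0, 0, 0, 0, 0, 0, 0, 0, 0, ⟨0, 0⟩, 0⟩, 0, 275656⟩ 0 0)) (.cut .d 509017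 (.cut .d 254508 (.void 22 ⟨⟨0, 0, 0, 0, 0, 0, 0, 0, 0, ⟨0, 0⟩, 0⟩, 100000, 0⟩ 0 0) (.pos 22 .pp ⟨⟨0, 0, 0, 0, 0, 0, 0, 0, 0, ⟨0, 0⟩, 0⟩, 129073937, 0⟩ 0 0)) (.pos 22 .pp ⟨⟨0, 0, 0, 0, 0, 0, 44714, 0, 0, ⟨0, 0⟩, 0⟩, 83625513, 0⟩ 0 0))) (.pos 20 .pp ⟨⟨0, 0, 0, 0, 0, 0, 918364, 0, 0, ⟨0, 0⟩, 0⟩, 0, 0⟩ 0 0)) (.cut .d 1018035 (.pos 79 .pp ⟨⟨0, 0, 0, 0, 0, 0, 0, 0, 0, ⟨0, 0⟩, 0⟩, 282415711, 0⟩ 0 0) (.pos 79 .pp ⟨⟨0, 0, 0, 0, 0, 0, 0, 0, 0, ⟨0, 0⟩, 0⟩, 108831162, 0⟩ 0 0))) (.pos 78 .pp ⟨⟨0, 0, 0, 0, 0, 0, 0, 0, 0, ⟨0, 0⟩, 0⟩, 0, 229714⟩ 0 0)) (.void 88 ⟨⟨0, 0, 0, 47968, 0, 0, 0, 0, 0, ⟨0, 0⟩, 0⟩, 52032, 0⟩ 0 0)) (.void 97 ⟨⟨0, 0, 0, 0, 0,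 0, 0, 0, 0, ⟨0, 0⟩, 0⟩, 100000, 0⟩ 0 0)))),
    by decide +kernel⟩

def covers25 : cell.Covers Vale.Agent.P237.Petty.Cor.Grid.N11.table row25.1 :=
  ⟨(.cut .d 0 (.cut .v 16777216 (.cut .v 8388608 (.void 2 ⟨⟨0, 0, 100000, 0, 0, 0, 0, 0, 0, ⟨0, 0⟩, 0⟩, 0, 0⟩ 0 0) (.cut .d (-8388608) (.void 3 ⟨⟨100000, 0, 0, 0, 0, 0, 0, 0, 0, ⟨0, 0⟩, 0⟩, 0, 0⟩ 0 0) (.cut .d (-4194304) (.void 3 ⟨⟨100000, 0, 0, 0, 0, 0, 0, 0, 0, ⟨0, 0⟩, 0⟩, 0, 0⟩ 0 0) (.cut .d (-2097152) (.void 3 ⟨⟨100000, 0, 0, 0, 0, 0, 0, 0, 0, ⟨0, 0⟩, 0⟩, 0, 0⟩ 0 0) (.cut .d (-1048576) (.void 3 ⟨⟨0, 0, 0, 0, 0, 100000, 0, 0, 0, ⟨0, 0⟩, 0⟩, 0, 0⟩ 0 0) (.cut .d (-524288) (.void 3 ⟨⟨0, 0,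 0, 0, 0, 100000, 0, 0, 0, ⟨0, 0⟩, 0⟩, 0, 0⟩ 0 0) (.cut .s 13860864 (.pos 3 .mm ⟨⟨0, 0, 0, 0, 0, 1089854694, 0, 0, 0, ⟨0, 0⟩, 0⟩, 0, 0⟩ 0 0) (.cut .s 13910016 (.pos 3 .mm ⟨⟨0, 0, 0, 0, 0, 1139127798, 0, 0, 0, ⟨0, 0⟩, 0⟩, 0, 0⟩ 0 0) (.pos 3 .mm ⟨⟨0, 0, 0, 0, 0, 1189637108, 0, 0, 0, ⟨0, 0⟩, 0⟩, 0, 0⟩ 0 0))))))))) (.cut .v 268435456 (.cut .v 67108864 (.cut .v 33554432 (.cut .d (-8388608) (.void 20 ⟨⟨100073, 0, 0, 0, 0, 0, 0, 0, 0, ⟨0, 0⟩, 0⟩, 0, 0⟩ 0 0) (.cut .v 25165824 (.cut .d (-4194304) (.void 21 ⟨⟨100000, 0, 0, 0, 0, 0, 0, 0, 0, ⟨0, 0⟩, 0⟩, 0, 0⟩ 0 0) (.cut .v 20971520 (.cut .d (-2097152) (.void 23 ⟨⟨100000, 0, 0, 0, 0, 0, 0, 0, 0,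 ⟨0, 0⟩, 0⟩, 0, 0⟩ 0 0) (.cut .v 18874368 (.cut .d (-1048576) (.void 25 ⟨⟨100000, 0, 0, 0, 0, 0, 0, 0, 0, ⟨0, 0⟩, 0⟩, 0, 0⟩ 0 0) (.cut .v 17825792 (.cut .d (-524288) (.void 27 ⟨⟨100000, 0, 0, 0, 0, 0, 0, 0, 0, ⟨0, 0⟩, 0⟩, 0, 0⟩ 0 0) (.cut .v 17301504 (.cut .d (-262144) (.void 29 ⟨⟨100000, 0, 0, 0, 0, 0, 0, 0, 0, ⟨0, 0⟩, 0⟩, 0, 0⟩ 0 0) (.cut .v 17039360 (.cut .d (-131072) (.void 31 ⟨⟨100000, 0, 0, 0, 0, 0, 0, 0, 0, ⟨0, 0⟩, 0⟩, 0, 0⟩ 0 0) (.cut .d (-65536) (.void 31 ⟨⟨100000, 0, 0, 0, 0, 0, 0, 0, 0, ⟨0, 0⟩, 0⟩, 0, 0⟩ 0 0) (.cut .d (-32768) (.void 31 ⟨⟨100000, 0, 0, 0, 0, 0, 0, 0, 0, ⟨0, 0⟩, 0⟩, 0, 0⟩ 0 0) (.cut .d (-16384) (.void 31 ⟨⟨0,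 0, 0, 0, 0, 100000, 0, 0, 0, ⟨0, 0⟩, 0⟩, 0, 0⟩ 0 0) (.cut .s 13860864 (.cut .v 16908288 (.cut .s 13811712 (.cut .v 16842752 (.cut .s 13787136 (.cut .d (-8192) (.cut .s 13774848 (.pos 41 .mp ⟨⟨444873888, 0, 0, 0, 0, 212214705, 0, 0, 0, ⟨0, 0⟩, 0⟩, 0, 0⟩ 0 0) (.pos 41 .mp ⟨⟨449025291, 0, 0, 0, 0, 214070836, 0, 0, 0, ⟨0, 0⟩, 0⟩, 0, 0⟩ 0 0)) (.cut .l 167772 (.cut .v 16809984 (.cut .s 13774848 (.cut .d (-4096) (.pos 45 .mp ⟨⟨445683334, 0, 0, 0, 0, 208070343, 0, 0, 0, ⟨0, 0⟩, 0⟩, 0, 0⟩ 0 0) (.cut .s 13768704 (.pos 45 .mp ⟨⟨454127825, 0, 0, 0, 0, 181083252, 0, 0, 0, ⟨0, 0⟩, 0⟩, 0, 0⟩ 0 0) (.pos 45 .mp ⟨⟨456232176, 0, 0, 0, 0, 181939584, 0,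 0, 0, ⟨0, 0⟩, 0⟩, 0, 0⟩ 0 0))) (.cut .d (-4096) (.pos 45 .mp ⟨⟨449823104, 0, 0, 0, 0, 209923928, 0, 0, 0, ⟨0, 0⟩, 0⟩, 0, 0⟩ 0 0) (.cut .s 13780992 (.pos 45 .mp ⟨⟨458347938, 0, 0, 0, 0, 182812964, 0, 0, 0, ⟨0, 0⟩, 0⟩, 0, 0⟩ 0 0) (.pos 45 .mp ⟨⟨460475181, 0, 0, 0, 0, 183703387, 0, 0, 0, ⟨0, 0⟩, 0⟩, 0, 0⟩ 0 0)))) (.pos 46 .mp ⟨⟨566029043, 0, 0, 0, 0, 0, 0, 0, 0, ⟨0, 0⟩, 0⟩, 0, 0⟩ 0 0)) (.pos 41 .mp ⟨⟨459681142, 0, 0, 0, 0, 169401032, 0, 0, 0, ⟨0, 0⟩, 0⟩, 0, 0⟩ 0 0))) (.cut .d (-8192) (.cut .d (-12288) (.pos 41 .mp ⟨⟨457222526, 0, 0, 0, 0, 221229641, 0, 0, 0, ⟨0, 0⟩, 0⟩, 0, 0⟩ 0 0) (.cut .l 167772 (.void 41 ⟨⟨0, 0, 0, 0, 0, 100000, 0, 0,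 0, ⟨0, 0⟩, 0⟩, 0, 0⟩ 0 0) (.cut .s 13799424 (.pos 41 .mp ⟨⟨453369717, 0, 0, 0, 0, 212559955, 0, 0, 0, ⟨0, 0⟩, 0⟩, 0, 0⟩ 0 0) (.pos 41 .mp ⟨⟨457463074, 0, 0, 0, 0, 215049261, 0, 0, 0, ⟨0, 0⟩, 0⟩, 0, 0⟩ 0 0)))) (.cut .l 167772 (.cut .v 16809984 (.cut .s 13799424 (.cut .d (-4096) (.pos 45 .mp ⟨⟨454007563, 0, 0, 0, 0, 211865550, 0, 0, 0, ⟨0, 0⟩, 0⟩, 0, 0⟩ 0 0) (.cut .v 16793600 (.cut .s 13793280 (.pos 55 .mp ⟨⟨459211240, 0, 0, 0, 0, 191301594, 0, 0, 0, ⟨0, 0⟩, 0⟩, 0, 0⟩ 0 0) (.pos 55 .mp ⟨⟨460392694, 0, 0, 0, 0, 194161760, 0, 0, 0, ⟨0, 0⟩, 0⟩, 0, 0⟩ 0 0)) (.pos 56 .mp ⟨⟨491917134, 0, 0, 0, 0, 133225613, 0, 0, 0, ⟨0, 0⟩, 0⟩, 0, 0⟩ 0 0)))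 (.cut .d (-4096) (.pos 45 .mp ⟨⟨458237250, 0, 0, 0, 0, 213896367, 0, 0, 0, ⟨0, 0⟩, 0⟩, 0, 0⟩ 0 0) (.cut .l 83886 (.cut .d (-2048) (.pos 45 .mp ⟨⟨464975878, 0, 0, 0, 0, 197635031, 0, 0, 0, ⟨0, 0⟩, 0⟩, 0, 0⟩ 0 0) (.cut .s 13805568 (.pos 45 .mp ⟨⟨464882463, 0, 0, 0, 0, 190168189, 0, 0, 0, ⟨0, 0⟩, 0⟩, 0, 0⟩ 0 0) (.pos 45 .mp ⟨⟨467041938, 0, 0, 0, 0, 191153525, 0, 0, 0, ⟨0, 0⟩, 0⟩, 0, 0⟩ 0 0))) (.pos 45 .mp ⟨⟨465803231, 0, 0, 0, 0, 184909971, 0, 0, 0, ⟨0, 0⟩, 0⟩, 0, 0⟩ 0 0)))) (.pos 46 .mp ⟨⟨576860801, 0, 0, 0, 0, 0, 0, 0, 0, ⟨0, 0⟩, 0⟩, 0, 0⟩ 0 0)) (.cut .s 13799424 (.pos 41 .mp ⟨⟨463982190, 0, 0, 0, 0, 179464082, 0, 0, 0, ⟨0, 0⟩, 0⟩, 0,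 0⟩ 0 0) (.pos 41 .mp ⟨⟨468330121, 0, 0, 0, 0, 181498794, 0, 0, 0, ⟨0, 0⟩, 0⟩, 0, 0⟩ 0 0))))) (.cut .s 13787136 (.pos 42 .mp ⟨⟨568467653, 0, 0, 0, 0, 0, 0, 0, 0, ⟨0, 0⟩, 0⟩, 0, 0⟩ 0 0) (.pos 42 .mp ⟨⟨579348679, 0, 0, 0, 0, 0, 0, 0, 0, ⟨0, 0⟩, 0⟩, 0, 0⟩ 0 0))) (.cut .v 16842752 (.cut .s 13836288 (.cut .d (-8192) (.cut .d (-12288) (.pos 41 .mp ⟨⟨465865218, 0, 0, 0, 0, 225614811, 0, 0, 0, ⟨0, 0⟩, 0⟩, 0, 0⟩ 0 0) (.cut .v 16809984 (.pos 45 .mp ⟨⟨0, 0, 0, 0, 0, 1156943597, 0, 0, 0, ⟨0, 0⟩, 0⟩, 0, 0⟩ 0 0) (.cut .l 167772 (.void 46 ⟨⟨100000, 0, 0, 0, 0, 0, 0, 0, 0, ⟨0, 0⟩, 0⟩, 0, 0⟩ 0 0) (.cut .s 13824000 (.pos 46 .mp ⟨⟨463446650, 0, 0, 0, 0,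 214079279, 0, 0, 0, ⟨0, 0⟩, 0⟩, 0, 0⟩ 0 0) (.pos 46 .mp ⟨⟨467795894, 0, 0, 0, 0, 216331138, 0, 0, 0, ⟨0, 0⟩, 0⟩, 0, 0⟩ 0 0))))) (.cut .l 167772 (.cut .v 16809984 (.cut .s 13824000 (.cut .d (-4096) (.pos 45 .mp ⟨⟨462512716, 0, 0, 0, 0, 216017557, 0, 0, 0, ⟨0, 0⟩, 0⟩, 0, 0⟩ 0 0) (.cut .l 83886 (.cut .d (-2048) (.pos 45 .mp ⟨⟨469018886, 0, 0, 0, 0, 200416313, 0, 0, 0, ⟨0, 0⟩, 0⟩, 0, 0⟩ 0 0) (.cut .s 13817856 (.pos 45 .mp ⟨⟨469213125, 0, 0, 0, 0, 192156099, 0, 0, 0, ⟨0, 0⟩, 0⟩, 0, 0⟩ 0 0) (.pos 45 .mp ⟨⟨471396096, 0, 0, 0, 0, 193175906, 0, 0, 0, ⟨0, 0⟩, 0⟩, 0, 0⟩ 0 0))) (.pos 45 .mp ⟨⟨470155745, 0, 0, 0, 0, 187044304, 0, 0, 0, ⟨0, 0⟩, 0⟩,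 0, 0⟩ 0 0))) (.cut .d (-4096) (.pos 45 .mp ⟨⟨466834518, 0, 0, 0, 0, 218230316, 0, 0, 0, ⟨0, 0⟩, 0⟩, 0, 0⟩ 0 0) (.cut .l 83886 (.cut .d (-2048) (.pos 45 .mp ⟨⟨473155206, 0, 0, 0, 0, 203158420, 0, 0, 0, ⟨0, 0⟩, 0⟩, 0, 0⟩ 0 0) (.cut .v 16793600 (.cut .s 13830144 (.pos 55 .mp ⟨⟨472728030, 0, 0, 0, 0, 195833668, 0, 0, 0, ⟨0, 0⟩, 0⟩, 0, 0⟩ 0 0) (.pos 55 .mp ⟨⟨474930904, 0, 0, 0, 0, 196895636, 0, 0, 0, ⟨0, 0⟩, 0⟩, 0, 0⟩ 0 0)) (.pos 56 .mp ⟨⟨574082401, 0, 0, 0, 0, 0, 0, 0, 0, ⟨0, 0⟩, 0⟩, 0, 0⟩ 0 0))) (.pos 45 .mp ⟨⟨474555664, 0, 0, 0, 0, 189213649, 0, 0, 0, ⟨0, 0⟩, 0⟩, 0, 0⟩ 0 0)))) (.pos 46 .mp ⟨⟨587961075, 0, 0, 0, 0, 0, 0, 0, 0, ⟨0, 0⟩,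 0⟩, 0, 0⟩ 0 0)) (.cut .s 13824000 (.pos 41 .mp ⟨⟨472725507, 0, 0, 0, 0, 183569009, 0, 0, 0, ⟨0, 0⟩, 0⟩, 0, 0⟩ 0 0) (.pos 41 .mp ⟨⟨477168930, 0, 0, 0, 0, 185673225, 0, 0, 0, ⟨0, 0⟩, 0⟩, 0, 0⟩ 0 0)))) (.cut .d (-8192) (.cut .d (-12288) (.pos 41 .mp ⟨⟨474697600, 0, 0, 0, 0, 230365786, 0, 0, 0, ⟨0, 0⟩, 0⟩, 0, 0⟩ 0 0) (.cut .v 16809984 (.pos 45 .mp ⟨⟨0, 0, 0, 0, 0, 1180626160, 0, 0, 0, ⟨0, 0⟩, 0⟩, 0, 0⟩ 0 0) (.cut .l 167772 (.void 46 ⟨⟨100000, 0, 0, 0, 0, 0, 0, 0, 0, ⟨0, 0⟩, 0⟩, 0, 0⟩ 0 0) (.cut .s 13848576 (.pos 46 .mp ⟨⟨472192338, 0, 0, 0, 0, 218653751, 0, 0, 0, ⟨0, 0⟩, 0⟩, 0, 0⟩ 0 0) (.pos 46 .mp ⟨⟨476636563, 0, 0, 0, 0, 221047063, 0,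 0, 0, ⟨0, 0⟩, 0⟩, 0, 0⟩ 0 0))))) (.cut .l 167772 (.cut .v 16809984 (.cut .s 13848576 (.cut .d (-4096) (.pos 45 .mp ⟨⟨471203225, 0, 0, 0, 0, 220535859, 0, 0, 0, ⟨0, 0⟩, 0⟩, 0, 0⟩ 0 0) (.cut .l 83886 (.cut .v 16793600 (.cut .d (-2048) (.pos 55 .mp ⟨⟨471576420, 0, 0, 0, 0, 218445572, 0, 0, 0, ⟨0, 0⟩, 0⟩, 0, 0⟩ 0 0) (.cut .l 41943 (.cut .d (-1024) (.pos 55 .mp ⟨⟨477717244, 0, 0, 0, 0, 203399582, 0, 0, 0, ⟨0, 0⟩, 0⟩, 0, 0⟩ 0 0) (.cut .s 13842432 (.pos 55 .mp ⟨⟨475992027, 0, 0, 0, 0, 200110258, 0, 0, 0, ⟨0, 0⟩, 0⟩, 0, 0⟩ 0 0) (.pos 55 .mp ⟨⟨478247403, 0, 0, 0, 0, 201135787, 0, 0, 0, ⟨0, 0⟩, 0⟩, 0, 0⟩ 0 0))) (.pos 55 .mp ⟨⟨477678713, 0, 0,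 0, 0, 193213844, 0, 0, 0, ⟨0, 0⟩, 0⟩, 0, 0⟩ 0 0))) (.pos 56 .mp ⟨⟨596658099, 0, 0, 0, 0, 0, 0, 0, 0, ⟨0, 0⟩, 0⟩, 0, 0⟩ 0 0)) (.pos 45 .mp ⟨⟨479003572, 0, 0, 0, 0, 191416501, 0, 0, 0, ⟨0, 0⟩, 0⟩, 0, 0⟩ 0 0))) (.cut .d (-4096) (.pos 45 .mp ⟨⟨475619414, 0, 0, 0, 0, 222935424, 0, 0, 0, ⟨0, 0⟩, 0⟩, 0, 0⟩ 0 0) (.cut .l 83886 (.cut .v 16793600 (.cut .d (-2048) (.pos 55 .mp ⟨⟨475986455, 0, 0, 0, 0, 220843371, 0, 0, 0, ⟨0, 0⟩, 0⟩, 0, 0⟩ 0 0) (.cut .l 41943 (.cut .d (-1024) (.pos 55 .mp ⟨⟨482049714, 0, 0, 0, 0, 206024248, 0, 0, 0, ⟨0, 0⟩, 0⟩, 0, 0⟩ 0 0) (.cut .s 13854720 (.pos 55 .mp ⟨⟨480509835, 0, 0, 0, 0, 202190484, 0, 0, 0, ⟨0, 0⟩, 0⟩, 0,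 0⟩ 0 0) (.pos 55 .mp ⟨⟨482775383, 0, 0, 0, 0, 203283822, 0, 0, 0, ⟨0, 0⟩, 0⟩, 0, 0⟩ 0 0))) (.pos 55 .mp ⟨⟨482152864, 0, 0, 0, 0, 195482190, 0, 0, 0, ⟨0, 0⟩, 0⟩, 0, 0⟩ 0 0))) (.pos 56 .mp ⟨⟨602416105, 0, 0, 0, 0, 0, 0, 0, 0, ⟨0, 0⟩, 0⟩, 0, 0⟩ 0 0)) (.pos 45 .mp ⟨⟨483500062, 0, 0, 0, 0, 193651337, 0, 0, 0, ⟨0, 0⟩, 0⟩, 0, 0⟩ 0 0)))) (.pos 46 .mp ⟨⟨599326816, 0, 0, 0, 0, 0, 0, 0, 0, ⟨0, 0⟩, 0⟩, 0, 0⟩ 0 0)) (.cut .s 13848576 (.pos 41 .mp ⟨⟨481660980, 0, 0, 0, 0, 187809920, 0, 0, 0, ⟨0, 0⟩, 0⟩, 0, 0⟩ 0 0) (.pos 41 .mp ⟨⟨486202259, 0, 0, 0, 0, 189977555, 0, 0, 0, ⟨0, 0⟩, 0⟩, 0, 0⟩ 0 0))))) (.cut .s 13836288 (.pos 42 .mp ⟨⟨590499489, 0, 0,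 0, 0, 0, 0, 0, 0, ⟨0, 0⟩, 0⟩, 0, 0⟩ 0 0) (.pos 42 .mp ⟨⟨601917018, 0, 0, 0, 0, 0, 0, 0, 0, ⟨0, 0⟩, 0⟩, 0, 0⟩ 0 0)))) (.pos 36 .mp ⟨⟨589189998, 0, 0, 0, 0, 0, 0, 0, 0, ⟨0, 0⟩, 0⟩, 0, 0⟩ 0 0)) (.cut .v 16908288 (.cut .s 13910016 (.cut .v 16842752 (.cut .s 13885440 (.cut .d (-8192) (.cut .d (-12288) (.pos 41 .mp ⟨⟨483724357, 0, 0, 0, 0, 235492330, 0, 0, 0, ⟨0, 0⟩, 0⟩, 0, 0⟩ 0 0) (.cut .v 16809984 (.pos 45 .mp ⟨⟨0, 0, 0, 0, 0, 1205124382, 0, 0, 0, ⟨0, 0⟩, 0⟩, 0, 0⟩ 0 0) (.cut .l 167772 (.void 46 ⟨⟨100000, 0, 0, 0, 0, 0, 0, 0, 0, ⟨0, 0⟩, 0⟩, 0, 0⟩ 0 0) (.cut .l 251658 (.pos 46 .mp ⟨⟨484936139, 0, 0, 0, 0, 228735952, 0, 0, 0, ⟨0, 0⟩, 0⟩,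 0, 0⟩ 0 0) (.cut .s 13873152 (.pos 46 .mp ⟨⟨493548715, 0, 0, 0, 0, 194123293, 0, 0, 0, ⟨0, 0⟩, 0⟩, 0, 0⟩ 0 0) (.pos 46 .mp ⟨⟨498236541, 0, 0, 0, 0, 196306290, 0, 0, 0, ⟨0, 0⟩, 0⟩, 0, 0⟩ 0 0)))))) (.cut .l 167772 (.cut .v 16809984 (.cut .s 13873152 (.cut .d (-4096) (.pos 45 .mp ⟨⟨480083671, 0, 0, 0, 0, 225430267, 0, 0, 0, ⟨0, 0⟩, 0⟩, 0, 0⟩ 0 0) (.cut .l 83886 (.cut .v 16793600 (.cut .d (-2048) (.pos 55 .mp ⟨⟨480444493, 0, 0, 0, 0, 223336376, 0, 0, 0, ⟨0, 0⟩, 0⟩, 0, 0⟩ 0 0) (.cut .l 41943 (.cut .d (-1024) (.pos 55 .mp ⟨⟨486484040, 0, 0, 0, 0, 208593083, 0, 0, 0, ⟨0, 0⟩, 0⟩, 0, 0⟩ 0 0) (.cut .s 13867008 (.pos 55 .mp ⟨⟨485031172, 0, 0,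 0, 0, 204446371, 0, 0, 0, ⟨0, 0⟩, 0⟩, 0, 0⟩ 0 0) (.pos 55 .mp ⟨⟨487299254, 0, 0, 0, 0, 205626239, 0, 0, 0, ⟨0, 0⟩, 0⟩, 0, 0⟩ 0 0))) (.pos 55 .mp ⟨⟨486675874, 0, 0, 0, 0, 197781505, 0, 0, 0, ⟨0, 0⟩, 0⟩, 0, 0⟩ 0 0))) (.pos 56 .mp ⟨⟨608239588, 0, 0, 0, 0, 0, 0, 0, 0, ⟨0, 0⟩, 0⟩, 0, 0⟩ 0 0)) (.pos 45 .mp ⟨⟨488045738, 0, 0, 0, 0, 195916614, 0, 0, 0, ⟨0, 0⟩, 0⟩, 0, 0⟩ 0 0))) (.cut .d (-4096) (.pos 45 .mp ⟨⟨484596595, 0, 0, 0, 0, 228021668, 0, 0, 0, ⟨0, 0⟩, 0⟩, 0, 0⟩ 0 0) (.cut .l 83886 (.cut .v 16793600 (.cut .d (-2048) (.pos 55 .mp ⟨⟨484951130, 0, 0, 0, 0, 225925867, 0, 0, 0, ⟨0, 0⟩, 0⟩, 0, 0⟩ 0 0) (.cut .l 41943 (.cut .d (-1024) (.pos 55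 .mp ⟨⟨491023161, 0, 0, 0, 0, 211100444, 0, 0, 0, ⟨0, 0⟩, 0⟩, 0, 0⟩ 0 0) (.cut .s 13879296 (.pos 55 .mp ⟨⟨489579706, 0, 0, 0, 0, 206823414, 0, 0, 0, ⟨0, 0⟩, 0⟩, 0, 0⟩ 0 0) (.pos 55 .mp ⟨⟨491872605, 0, 0, 0, 0, 208037884, 0, 0, 0, ⟨0, 0⟩, 0⟩, 0, 0⟩ 0 0))) (.pos 55 .mp ⟨⟨491248353, 0, 0, 0, 0, 200110235, 0, 0, 0, ⟨0, 0⟩, 0⟩, 0, 0⟩ 0 0))) (.pos 56 .mp ⟨⟨614128172, 0, 0, 0, 0, 0, 0, 0, 0, ⟨0, 0⟩, 0⟩, 0, 0⟩ 0 0)) (.pos 45 .mp ⟨⟨492641212, 0, 0, 0, 0, 198210769, 0, 0, 0, ⟨0, 0⟩, 0⟩, 0, 0⟩ 0 0)))) (.pos 46 .mp ⟨⟨610955008, 0, 0, 0, 0, 0, 0, 0, 0, ⟨0, 0⟩, 0⟩, 0, 0⟩ 0 0)) (.cut .s 13873152 (.pos 41 .mp ⟨⟨490793378, 0, 0, 0, 0, 192174572, 0, 0,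 0, ⟨0, 0⟩, 0⟩, 0, 0⟩ 0 0) (.pos 41 .mp ⟨⟨495434958, 0, 0, 0, 0, 194399392, 0, 0, 0, ⟨0, 0⟩, 0⟩, 0, 0⟩ 0 0)))) (.cut .d (-8192) (.cut .d (-12288) (.pos 41 .mp ⟨⟨492950336, 0, 0, 0, 0, 241004538, 0, 0, 0, ⟨0, 0⟩, 0⟩, 0, 0⟩ 0 0) (.cut .v 16809984 (.pos 45 .mp ⟨⟨0, 0, 0, 0, 0, 1230459735, 0, 0, 0, ⟨0, 0⟩, 0⟩, 0, 0⟩ 0 0) (.cut .l 167772 (.void 46 ⟨⟨100000, 0, 0, 0, 0, 0, 0, 0, 0, ⟨0, 0⟩, 0⟩, 0, 0⟩ 0 0) (.cut .s 13897728 (.cut .s 13891584 (.pos 46 .mp ⟨⟨490551076, 0, 0, 0, 0, 224542470, 0, 0, 0, ⟨0, 0⟩, 0⟩, 0, 0⟩ 0 0) (.pos 46 .mp ⟨⟨492890430, 0, 0, 0, 0, 225795610, 0, 0, 0, ⟨0, 0⟩, 0⟩, 0, 0⟩ 0 0)) (.pos 46 .mp ⟨⟨494903237, 0, 0, 0, 0, 231325861,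 0, 0, 0, ⟨0, 0⟩, 0⟩, 0, 0⟩ 0 0))))) (.cut .l 167772 (.cut .v 16809984 (.cut .s 13897728 (.cut .d (-4096) (.pos 45 .mp ⟨⟨489158791, 0, 0, 0, 0, 230710925, 0, 0, 0, ⟨0, 0⟩, 0⟩, 0, 0⟩ 0 0) (.cut .l 83886 (.cut .v 16793600 (.cut .d (-2048) (.pos 55 .mp ⟨⟨489506973, 0, 0, 0, 0, 228613141, 0, 0, 0, ⟨0, 0⟩, 0⟩, 0, 0⟩ 0 0) (.cut .l 41943 (.cut .d (-1024) (.pos 55 .mp ⟨⟨495670056, 0, 0, 0, 0, 213540603, 0, 0, 0, ⟨0, 0⟩, 0⟩, 0, 0⟩ 0 0) (.cut .s 13891584 (.pos 55 .mp ⟨⟨494178028, 0, 0, 0, 0, 209269635, 0, 0, 0, ⟨0, 0⟩, 0⟩, 0, 0⟩ 0 0) (.pos 55 .mp ⟨⟨496496054, 0, 0, 0, 0, 210518654, 0, 0, 0, ⟨0, 0⟩, 0⟩, 0, 0⟩ 0 0))) (.pos 55 .mp ⟨⟨495870920, 0,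 0, 0, 0, 202466806, 0, 0, 0, ⟨0, 0⟩, 0⟩, 0, 0⟩ 0 0))) (.pos 56 .mp ⟨⟨620081488, 0, 0, 0, 0, 0, 0, 0, 0, ⟨0, 0⟩, 0⟩, 0, 0⟩ 0 0)) (.pos 45 .mp ⟨⟨497287109, 0, 0, 0, 0, 200532221, 0, 0, 0, ⟨0, 0⟩, 0⟩, 0, 0⟩ 0 0))) (.cut .d (-4096) (.pos 45 .mp ⟨⟨493770879, 0, 0, 0, 0, 233499361, 0, 0, 0, ⟨0, 0⟩, 0⟩, 0, 0⟩ 0 0) (.cut .l 83886 (.cut .v 16793600 (.cut .d (-2048) (.pos 55 .mp ⟨⟨494112639, 0, 0, 0, 0, 231399519, 0, 0, 0, ⟨0, 0⟩, 0⟩, 0, 0⟩ 0 0) (.cut .l 41943 (.cut .d (-1024) (.pos 55 .mp ⟨⟨500427746, 0, 0, 0, 0, 215907747, 0, 0, 0, ⟨0, 0⟩, 0⟩, 0, 0⟩ 0 0) (.cut .s 13903872 (.pos 55 .mp ⟨⟨498826762, 0, 0, 0, 0, 211784927, 0, 0, 0, ⟨0, 0⟩, 0⟩,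 0, 0⟩ 0 0) (.pos 55 .mp ⟨⟨501170232, 0, 0, 0, 0, 213068436, 0, 0, 0, ⟨0, 0⟩, 0⟩, 0, 0⟩ 0 0))) (.pos 55 .mp ⟨⟨500544207, 0, 0, 0, 0, 204849625, 0, 0, 0, ⟨0, 0⟩, 0⟩, 0, 0⟩ 0 0))) (.pos 56 .mp ⟨⟨626099163, 0, 0, 0, 0, 0, 0, 0, 0, ⟨0, 0⟩, 0⟩, 0, 0⟩ 0 0)) (.pos 45 .mp ⟨⟨501984064, 0, 0, 0, 0, 202879368, 0, 0, 0, ⟨0, 0⟩, 0⟩, 0, 0⟩ 0 0)))) (.pos 46 .mp ⟨⟨622842668, 0, 0, 0, 0, 0, 0, 0, 0, ⟨0, 0⟩, 0⟩, 0, 0⟩ 0 0)) (.cut .s 13897728 (.pos 41 .mp ⟨⟨500127632, 0, 0, 0, 0, 196650416, 0, 0, 0, ⟨0, 0⟩, 0⟩, 0, 0⟩ 0 0) (.pos 41 .mp ⟨⟨504872042, 0, 0, 0, 0, 198926025, 0, 0, 0, ⟨0, 0⟩, 0⟩, 0, 0⟩ 0 0))))) (.cut .s 13885440 (.pos 42 .mp ⟨⟨613598236, 0,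 0, 0, 0, 0, 0, 0, 0, ⟨0, 0⟩, 0⟩, 0, 0⟩ 0 0) (.pos 42 .mp ⟨⟨625540148, 0, 0, 0, 0, 0, 0, 0, 0, ⟨0, 0⟩, 0⟩, 0, 0⟩ 0 0))) (.cut .v 16842752 (.cut .s 13934592 (.cut .d (-8192) (.cut .d (-12288) (.pos 41 .mp ⟨⟨502380547, 0, 0, 0, 0, 246912847, 0, 0, 0, ⟨0, 0⟩, 0⟩, 0, 0⟩ 0 0) (.cut .v 16809984 (.pos 45 .mp ⟨⟨0, 0, 0, 0, 0, 1256654418, 0, 0, 0, ⟨0, 0⟩, 0⟩, 0, 0⟩ 0 0) (.cut .l 167772 (.void 46 ⟨⟨100000, 0, 0, 0, 0, 0, 0, 0, 0, ⟨0, 0⟩, 0⟩, 0, 0⟩ 0 0) (.cut .s 13922304 (.pos 46 .mp ⟨⟨499595431, 0, 0, 0, 0, 234071484, 0, 0, 0, ⟨0, 0⟩, 0⟩, 0, 0⟩ 0 0) (.pos 46 .mp ⟨⟨504339105, 0, 0, 0, 0, 236887250, 0, 0, 0, ⟨0, 0⟩, 0⟩, 0, 0⟩ 0 0))))) (.cut .l 167772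 (.cut .v 16809984 (.cut .s 13922304 (.cut .d (-4096) (.pos 45 .mp ⟨⟨498433485, 0, 0, 0, 0, 236388321, 0, 0, 0, ⟨0, 0⟩, 0⟩, 0, 0⟩ 0 0) (.cut .l 83886 (.cut .d (-2048) (.pos 45 .mp ⟨⟨504964435, 0, 0, 0, 0, 220791618, 0, 0, 0, ⟨0, 0⟩, 0⟩, 0, 0⟩ 0 0) (.cut .v 16793600 (.cut .l 41943 (.cut .d (-1024) (.pos 55 .mp ⟨⟨505299295, 0, 0, 0, 0, 218195977, 0, 0, 0, ⟨0, 0⟩, 0⟩, 0, 0⟩ 0 0) (.cut .s 13916160 (.pos 55 .mp ⟨⟨503505187, 0, 0, 0, 0, 214419621, 0, 0, 0, ⟨0, 0⟩, 0⟩, 0, 0⟩ 0 0) (.pos 55 .mp ⟨⟨505840020, 0, 0, 0, 0, 215818835, 0, 0, 0, ⟨0, 0⟩, 0⟩, 0, 0⟩ 0 0))) (.pos 55 .mp ⟨⟨505268854, 0, 0, 0, 0, 207257078, 0, 0, 0, ⟨0, 0⟩, 0⟩, 0, 0⟩ 0 0))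 (.pos 56 .mp ⟨⟨614025889, 0, 0, 0, 0, 0, 0, 0, 0, ⟨0, 0⟩, 0⟩, 0, 0⟩ 0 0))) (.pos 45 .mp ⟨⟨506732722, 0, 0, 0, 0, 205250587, 0, 0, 0, ⟨0, 0⟩, 0⟩, 0, 0⟩ 0 0))) (.cut .d (-4096) (.pos 45 .mp ⟨⟨503147250, 0, 0, 0, 0, 239379171, 0, 0, 0, ⟨0, 0⟩, 0⟩, 0, 0⟩ 0 0) (.cut .l 83886 (.cut .d (-2048) (.pos 45 .mp ⟨⟨509952287, 0, 0, 0, 0, 223018714, 0, 0, 0, ⟨0, 0⟩, 0⟩, 0, 0⟩ 0 0) (.cut .v 16793600 (.cut .s 13928448 (.cut .s 13925376 (.pos 55 .mp ⟨⟨510318710, 0, 0, 0, 0, 212451007, 0, 0, 0, ⟨0, 0⟩, 0⟩, 0, 0⟩ 0 0) (.pos 55 .mp ⟨⟨511594371, 0, 0, 0, 0, 212977074, 0, 0, 0, ⟨0, 0⟩, 0⟩, 0, 0⟩ 0 0)) (.pos 55 .mp ⟨⟨511857944, 0, 0, 0, 0, 216225499, 0, 0,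 0, ⟨0, 0⟩, 0⟩, 0, 0⟩ 0 0)) (.pos 56 .mp ⟨⟨620119488, 0, 0, 0, 0, 0, 0, 0, 0, ⟨0, 0⟩, 0⟩, 0, 0⟩ 0 0))) (.pos 45 .mp ⟨⟨511533741, 0, 0, 0, 0, 207644233, 0, 0, 0, ⟨0, 0⟩, 0⟩, 0, 0⟩ 0 0)))) (.pos 46 .mp ⟨⟨634986845, 0, 0, 0, 0, 0, 0, 0, 0, ⟨0, 0⟩, 0⟩, 0, 0⟩ 0 0)) (.cut .s 13922304 (.pos 41 .mp ⟨⟨509668843, 0, 0, 0, 0, 201224580, 0, 0, 0, ⟨0, 0⟩, 0⟩, 0, 0⟩ 0 0) (.pos 41 .mp ⟨⟨514518700, 0, 0, 0, 0, 203544417, 0, 0, 0, ⟨0, 0⟩, 0⟩, 0, 0⟩ 0 0)))) (.cut .d (-8192) (.cut .d (-12288) (.pos 41 .mp ⟨⟨512020178, 0, 0, 0, 0, 253228052, 0, 0, 0, ⟨0, 0⟩, 0⟩, 0, 0⟩ 0 0) (.cut .v 16809984 (.pos 45 .mp ⟨⟨0, 0, 0, 0, 0, 1283731391, 0, 0, 0, ⟨0, 0⟩, 0⟩,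 0, 0⟩ 0 0) (.cut .s 13946880 (.cut .s 13940736 (.pos 46 .mp ⟨⟨514058379, 0, 0, 0, 0, 227386981, 0, 0, 0, ⟨0, 0⟩, 0⟩, 0, 0⟩ 0 0) (.pos 46 .mp ⟨⟨516807015, 0, 0, 0, 0, 228178625, 0, 0, 0, ⟨0, 0⟩, 0⟩, 0, 0⟩ 0 0)) (.pos 46 .mp ⟨⟨518133953, 0, 0, 0, 0, 236778256, 0, 0, 0, ⟨0, 0⟩, 0⟩, 0, 0⟩ 0 0)))) (.cut .l 167772 (.cut .v 16809984 (.cut .s 13946880 (.cut .d (-4096) (.pos 45 .mp ⟨⟨507912823, 0, 0, 0, 0, 242473303, 0, 0, 0, ⟨0, 0⟩, 0⟩, 0, 0⟩ 0 0) (.cut .l 83886 (.cut .d (-2048) (.pos 45 .mp ⟨⟨515060330, 0, 0, 0, 0, 225154965, 0, 0, 0, ⟨0, 0⟩, 0⟩, 0, 0⟩ 0 0) (.cut .s 13940736 (.cut .s 13937664 (.pos 45 .mp ⟨⟨513667975, 0, 0, 0, 0, 218030762,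 0, 0, 0, ⟨0, 0⟩, 0⟩, 0, 0⟩ 0 0) (.pos 45 .mp ⟨⟨514939118, 0, 0, 0, 0, 218611723, 0, 0, 0, ⟨0, 0⟩, 0⟩, 0, 0⟩ 0 0)) (.pos 45 .mp ⟨⟨517645668, 0, 0, 0, 0, 217174575, 0, 0, 0, ⟨0, 0⟩, 0⟩, 0, 0⟩ 0 0))) (.pos 45 .mp ⟨⟨516387789, 0, 0, 0, 0, 210058640, 0, 0, 0, ⟨0, 0⟩, 0⟩, 0, 0⟩ 0 0))) (.cut .d (-4096) (.pos 45 .mp ⟨⟨512730866, 0, 0, 0, 0, 245672131, 0, 0, 0, ⟨0, 0⟩, 0⟩, 0, 0⟩ 0 0) (.cut .l 83886 (.cut .d (-2048) (.pos 45 .mp ⟨⟨520291766, 0, 0, 0, 0, 227194189, 0, 0, 0, ⟨0, 0⟩, 0⟩, 0, 0⟩ 0 0) (.cut .s 13953024 (.pos 45 .mp ⟨⟨520093720, 0, 0, 0, 0, 218553497, 0, 0, 0, ⟨0, 0⟩, 0⟩, 0, 0⟩ 0 0) (.pos 45 .mp ⟨⟨522555291, 0, 0, 0, 0, 219949325, 0,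 0, 0, ⟨0, 0⟩, 0⟩, 0, 0⟩ 0 0))) (.pos 45 .mp ⟨⟨521295545, 0, 0, 0, 0, 212492121, 0, 0, 0, ⟨0, 0⟩, 0⟩, 0, 0⟩ 0 0)))) (.pos 46 .mp ⟨⟨647384619, 0, 0, 0, 0, 0, 0, 0, 0, ⟨0, 0⟩, 0⟩, 0, 0⟩ 0 0)) (.cut .s 13946880 (.pos 41 .mp ⟨⟨519422290, 0, 0, 0, 0, 205883855, 0, 0, 0, ⟨0, 0⟩, 0⟩, 0, 0⟩ 0 0) (.pos 41 .mp ⟨⟨524380303, 0, 0, 0, 0, 208241186, 0, 0, 0, ⟨0, 0⟩, 0⟩, 0, 0⟩ 0 0))))) (.cut .s 13934592 (.pos 42 .mp ⟨⟨637739786, 0, 0, 0, 0, 0, 0, 0, 0, ⟨0, 0⟩, 0⟩, 0, 0⟩ 0 0) (.pos 42 .mp ⟨⟨650194219, 0, 0, 0, 0, 0, 0, 0, 0, ⟨0, 0⟩, 0⟩, 0, 0⟩ 0 0)))) (.pos 36 .mp ⟨⟨636310908, 0, 0, 0, 0, 0, 0, 0, 0, ⟨0, 0⟩, 0⟩, 0, 0⟩ 0 0))))))) (.pos 32 .mp ⟨⟨709908279,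 0, 0, 0, 0, 0, 0, 0, 0, ⟨0, 0⟩, 0⟩, 0, 0⟩ 0 0))) (.void 30 ⟨⟨100000, 0, 0, 0, 0, 0, 0, 0, 0, ⟨0, 0⟩, 0⟩, 0, 0⟩ 0 0))) (.void 28 ⟨⟨100000, 0, 0, 0, 0, 0, 0, 0, 0, ⟨0, 0⟩, 0⟩, 0, 0⟩ 0 0))) (.void 26 ⟨⟨100000, 0, 0, 0, 0, 0, 0, 0, 0, ⟨0, 0⟩, 0⟩, 0, 0⟩ 0 0))) (.void 24 ⟨⟨100000, 0, 0, 0, 0, 0, 0, 0, 0, ⟨0, 0⟩, 0⟩, 0, 0⟩ 0 0))) (.void 22 ⟨⟨100000, 0, 0, 0, 0, 0, 0, 0, 0, ⟨0, 0⟩, 0⟩, 0, 0⟩ 0 0))) (.void 79 ⟨⟨100000, 0, 0, 0, 0, 0, 0, 0, 0, ⟨0, 0⟩, 0⟩, 0, 0⟩ 0 0)) (.void 88 ⟨⟨101139, 0, 0, 0, 0, 0, 0, 0, 0, ⟨0, 0⟩, 0⟩, 0, 0⟩ 0 0)) (.void 97 ⟨⟨93516, 0, 0, 6484, 0, 0, 0, 0, 0, ⟨0, 0⟩, 0⟩, 0, 0⟩ 0 0))) (.cut .v 16777216 (.cut .v 8388608 (.cut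 .v 4194304 (.cut .v 2097152 (.cut .v 1048576 (.pos 93 .pm ⟨⟨0, 0, 20898228, 0, 0, 0, 0, 0, 0, ⟨0, 0⟩, 0⟩, 0, 11558⟩ 0 0) (.pos 94 .pm ⟨⟨0, 0, 21534967, 0, 0, 0, 0, 0, 0, ⟨0, 0⟩, 0⟩, 0, 22227⟩ 0 0)) (.pos 90 .pm ⟨⟨0, 0, 23746816, 0, 0, 0, 0, 0, 0, ⟨0, 0⟩, 0⟩, 0, 32105⟩ 0 0)) (.pos 5 .pm ⟨⟨0, 0, 50425183, 0, 0, 0, 0, 0, 0, ⟨0, 0⟩, 0⟩, 0, 57790⟩ 0 0)) (.pos 3 .pm ⟨⟨0, 0, 0, 0, 0, 0, 0, 0, 0, ⟨0, 0⟩, 0⟩, 0, 0⟩ 0 0)) (.cut .v 268435456 (.cut .v 67108864 (.cut .d 1837506 (.cut .v 33554432 (.cut .d 918753 (.cut .v 25165824 (.cut .d 459376 (.cut .v 20971520 (.cut .d 229688 (.cut .v 18874368 (.cut .d 114844 (.cut .v 17825792 (.cut .s 13860864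 (.pos 27 .pp ⟨⟨513866624, 0, 0, 0, 0, 0, 0, 0, 0, ⟨0, 0⟩, 0⟩, 5033156, 0⟩ 0 0) (.pos 27 .pp ⟨⟨550295671, 0, 0, 0, 0, 0, 0, 0, 0, ⟨0, 0⟩, 0⟩, 6051536, 0⟩ 0 0)) (.pos 28 .pp ⟨⟨648765622, 0, 0, 0, 0, 0, 0, 0, 0, ⟨0, 0⟩, 0⟩, 0, 0⟩ 0 0)) (.pos 25 .pp ⟨⟨0, 0, 0, 0, 0, 0, 0, 0, 0, ⟨0, 0⟩, 0⟩, 0, 189415⟩ 0 0)) (.cut .d 114844 (.pos 26 .pp ⟨⟨801445927, 0, 0, 0, 0, 0, 0, 0, 0, ⟨0, 0⟩, 0⟩, 0, 0⟩ 0 0) (.pos 26 .pp ⟨⟨654760254, 0, 0, 0, 0, 0, 0, 0, 0, ⟨0, 0⟩, 0⟩, 0, 0⟩ 0 0))) (.pos 23 .pp ⟨⟨0, 0, 0, 0, 0, 0, 0, 0, 0, ⟨0, 0⟩, 0⟩, 0, 198769⟩ 0 0)) (.cut .d 229688 (.cut .v 23068672 (.cut .v 22020096 (.pos 57 .pp ⟨⟨865664749, 0, 0, 0, 0, 0, 0, 0, 0,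 ⟨0, 0⟩, 0⟩, 0, 0⟩ 0 0) (.pos 58 .pp ⟨⟨0, 0, 0, 0, 0, 0, 0, 0, 0, ⟨0, 0⟩, 0⟩, 136899646, 0⟩ 0 0)) (.pos 54 .pp ⟨⟨0, 0, 0, 0, 0, 0, 0, 0, 0, ⟨0, 0⟩, 0⟩, 163570478, 0⟩ 0 0)) (.pos 24 .pp ⟨⟨0, 0, 0, 0, 0, 0, 38450, 0, 0, ⟨0, 0⟩, 0⟩, 99661182, 0⟩ 0 0))) (.pos 21 .pp ⟨⟨0, 0, 0, 0, 0, 0, 0, 0, 0, ⟨0, 0⟩, 0⟩, 0, 214670⟩ 0 0)) (.cut .d 459376 (.cut .d 229688 (.void 22 ⟨⟨0, 0, 0, 0, 0, 0, 0, 0, 0, ⟨0, 0⟩, 0⟩, 100000, 0⟩ 0 0) (.pos 22 .pp ⟨⟨0, 0, 0, 0, 0, 0, 0, 0, 0, ⟨0, 0⟩, 0⟩, 151518732, 0⟩ 0 0)) (.pos 22 .pp ⟨⟨0, 0, 0, 0, 0, 0, 38655, 0, 0, ⟨0, 0⟩, 0⟩, 101182431, 0⟩ 0 0))) (.pos 20 .pp ⟨⟨0, 0, 0, 0, 0, 0, 715322, 0, 0, ⟨0, 0⟩, 0⟩, 0, 0⟩ 0 0))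 (.cut .d 918753 (.pos 79 .pp ⟨⟨0, 0, 0, 0, 0, 0, 0, 0, 0, ⟨0, 0⟩, 0⟩, 325060487, 0⟩ 0 0) (.pos 79 .pp ⟨⟨0, 0, 0, 0, 0, 0, 0, 0, 0, ⟨0, 0⟩, 0⟩, 134289366, 0⟩ 0 0))) (.pos 78 .pp ⟨⟨0, 0, 0, 0, 0, 0, 0, 0, 0, ⟨0, 0⟩, 0⟩, 0, 178892⟩ 0 0)) (.void 88 ⟨⟨0, 0, 0, 48245, 0, 0, 0, 0, 0, ⟨0, 0⟩, 0⟩, 51755, 0⟩ 0 0)) (.void 97 ⟨⟨0, 0, 0, 0, 0, 0, 0, 0, 0, ⟨0, 0⟩, 0⟩, 100000, 0⟩ 0 0)))),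
    by decide +kernel⟩

def covers26 : cell.Covers Vale.Agent.P237.Petty.Cor.Grid.N11.table row26.1 :=
  ⟨(.cut .d 0 (.cut .v 16777216 (.cut .v 8388608 (.void 2 ⟨⟨0, 0, 100000, 0, 0, 0, 0, 0, 0, ⟨0, 0⟩, 0⟩, 0, 0⟩ 0 0) (.cut .d (-8388608) (.void 3 ⟨⟨100000, 0, 0, 0, 0, 0, 0, 0, 0, ⟨0, 0⟩, 0⟩, 0, 0⟩ 0 0) (.cut .d (-4194304) (.void 3 ⟨⟨100000, 0, 0, 0, 0, 0, 0, 0, 0, ⟨0, 0⟩, 0⟩, 0, 0⟩ 0 0) (.cut .d (-2097152) (.void 3 ⟨⟨100000, 0, 0, 0, 0, 0, 0, 0, 0, ⟨0, 0⟩, 0⟩, 0, 0⟩ 0 0) (.cut .d (-1048576) (.void 3 ⟨⟨0, 0, 0, 0, 0, 100000, 0, 0, 0, ⟨0, 0⟩, 0⟩, 0, 0⟩ 0 0) (.cut .d (-524288) (.void 3 ⟨⟨0, 0, 0, 0, 0, 100000, 0, 0, 0, ⟨0, 0⟩, 0⟩, 0, 0⟩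 0 0) (.cut .d (-262144) (.void 3 ⟨⟨0, 0, 0, 0, 0, 100000, 0, 0, 0, ⟨0, 0⟩, 0⟩, 0, 0⟩ 0 0) (.cut .s 14057472 (.pos 3 .mm ⟨⟨0, 0, 0, 0, 0, 1244056052, 0, 0, 0, ⟨0, 0⟩, 0⟩, 0, 0⟩ 0 0) (.pos 3 .mm ⟨⟨0, 0, 0, 0, 0, 1357941822, 0, 0, 0, ⟨0, 0⟩, 0⟩, 0, 0⟩ 0 0))))))))) (.cut .v 268435456 (.cut .v 67108864 (.cut .v 33554432 (.cut .d (-8388608) (.void 20 ⟨⟨100000, 0, 0, 0, 0, 0, 0, 0, 0, ⟨0, 0⟩, 0⟩, 0, 0⟩ 0 0) (.cut .v 25165824 (.cut .d (-4194304) (.void 21 ⟨⟨100000, 0, 0, 0, 0, 0, 0, 0, 0, ⟨0, 0⟩, 0⟩, 0, 0⟩ 0 0) (.cut .v 20971520 (.cut .d (-2097152) (.void 23 ⟨⟨100000, 0, 0, 0, 0, 0, 0, 0, 0, ⟨0, 0⟩, 0⟩, 0, 0⟩ 0 0) (.cut .v 18874368 (.cut .d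 (-1048576) (.void 25 ⟨⟨100000, 0, 0, 0, 0, 0, 0, 0, 0, ⟨0, 0⟩, 0⟩, 0, 0⟩ 0 0) (.cut .v 17825792 (.cut .d (-524288) (.void 27 ⟨⟨100000, 0, 0, 0, 0, 0, 0, 0, 0, ⟨0, 0⟩, 0⟩, 0, 0⟩ 0 0) (.cut .v 17301504 (.cut .d (-262144) (.void 29 ⟨⟨100000, 0, 0, 0, 0, 0, 0, 0, 0, ⟨0, 0⟩, 0⟩, 0, 0⟩ 0 0) (.cut .v 17039360 (.cut .d (-131072) (.void 31 ⟨⟨100000, 0, 0, 0, 0, 0, 0, 0, 0, ⟨0, 0⟩, 0⟩, 0, 0⟩ 0 0) (.cut .d (-65536) (.void 31 ⟨⟨100000, 0, 0, 0, 0, 0, 0, 0, 0, ⟨0, 0⟩, 0⟩, 0, 0⟩ 0 0) (.cut .d (-32768) (.void 31 ⟨⟨100000, 0, 0, 0, 0, 0, 0, 0, 0, ⟨0, 0⟩, 0⟩, 0, 0⟩ 0 0) (.cut .d (-16384) (.void 31 ⟨⟨0, 0, 0, 0, 0, 100000, 0, 0, 0, ⟨0, 0⟩, 0⟩, 0, 0⟩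 0 0) (.cut .s 14057472 (.cut .v 16908288 (.cut .s 14008320 (.cut .v 16842752 (.cut .d (-8192) (.cut .l 167772 (.void 41 ⟨⟨0, 0, 0, 0, 0, 100000, 0, 0, 0, ⟨0, 0⟩, 0⟩, 0, 0⟩ 0 0) (.cut .d (-12288) (.void 41 ⟨⟨0, 0, 0, 0, 0, 100000, 0, 0, 0, ⟨0, 0⟩, 0⟩, 0, 0⟩ 0 0) (.cut .v 16809984 (.pos 45 .mp ⟨⟨0, 0, 0, 0, 0, 1309585209, 0, 0, 0, ⟨0, 0⟩, 0⟩, 0, 0⟩ 0 0) (.cut .l 251658 (.pos 46 .mp ⟨⟨529614834, 0, 0, 0, 0, 262367179, 0, 0, 0, ⟨0, 0⟩, 0⟩, 0, 0⟩ 0 0) (.cut .s 13983744 (.pos 46 .mp ⟨⟨518886897, 0, 0, 0, 0, 250200222, 0, 0, 0, ⟨0, 0⟩, 0⟩, 0, 0⟩ 0 0) (.cut .s 13996032 (.pos 46 .mp ⟨⟨528876092, 0, 0, 0, 0, 249009499, 0, 0, 0, ⟨0, 0⟩, 0⟩, 0,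 0⟩ 0 0) (.pos 46 .mp ⟨⟨533956062, 0, 0, 0, 0, 251733734, 0, 0, 0, ⟨0, 0⟩, 0⟩, 0, 0⟩ 0 0))))))) (.cut .s 13983744 (.cut .l 167772 (.cut .v 16809984 (.cut .d (-4096) (.cut .s 13971456 (.pos 45 .mp ⟨⟨517603189, 0, 0, 0, 0, 248968501, 0, 0, 0, ⟨0, 0⟩, 0⟩, 0, 0⟩ 0 0) (.pos 45 .mp ⟨⟨522533463, 0, 0, 0, 0, 251410252, 0, 0, 0, ⟨0, 0⟩, 0⟩, 0, 0⟩ 0 0)) (.cut .l 83886 (.cut .v 16793600 (.cut .s 13971456 (.cut .s 13965312 (.pos 55 .mp ⟨⟨521713036, 0, 0, 0, 0, 228371793, 0, 0, 0, ⟨0, 0⟩, 0⟩, 0, 0⟩ 0 0) (.cut .s 13968384 (.pos 55 .mp ⟨⟨529962631, 0, 0, 0, 0, 216664441, 0, 0, 0, ⟨0, 0⟩, 0⟩, 0, 0⟩ 0 0) (.pos 55 .mp ⟨⟨531026773, 0, 0, 0, 0, 217594617,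 0, 0, 0, ⟨0, 0⟩, 0⟩, 0, 0⟩ 0 0))) (.cut .d (-2048) (.pos 55 .mp ⟨⟨522832705, 0, 0, 0, 0, 249302471, 0, 0, 0, ⟨0, 0⟩, 0⟩, 0, 0⟩ 0 0) (.cut .s 13977600 (.pos 55 .mp ⟨⟨529062062, 0, 0, 0, 0, 225478056, 0, 0, 0, ⟨0, 0⟩, 0⟩, 0, 0⟩ 0 0) (.pos 55 .mp ⟨⟨531575283, 0, 0, 0, 0, 226668869, 0, 0, 0, ⟨0, 0⟩, 0⟩, 0, 0⟩ 0 0)))) (.pos 56 .mp ⟨⟨659511646, 0, 0, 0, 0, 0, 0, 0, 0, ⟨0, 0⟩, 0⟩, 0, 0⟩ 0 0)) (.cut .s 13971456 (.pos 45 .mp ⟨⟨526261657, 0, 0, 0, 0, 215697585, 0, 0, 0, ⟨0, 0⟩, 0⟩, 0, 0⟩ 0 0) (.pos 45 .mp ⟨⟨531283271, 0, 0, 0, 0, 218188391, 0, 0, 0, ⟨0, 0⟩, 0⟩, 0, 0⟩ 0 0)))) (.pos 46 .mp ⟨⟨660944885, 0, 0, 0, 0, 0, 0, 0, 0, ⟨0, 0⟩, 0⟩, 0, 0⟩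 0 0)) (.cut .s 13971456 (.pos 41 .mp ⟨⟨529399965, 0, 0, 0, 0, 211365062, 0, 0, 0, ⟨0, 0⟩, 0⟩, 0, 0⟩ 0 0) (.pos 41 .mp ⟨⟨534475853, 0, 0, 0, 0, 213773086, 0, 0, 0, ⟨0, 0⟩, 0⟩, 0, 0⟩ 0 0))) (.cut .l 167772 (.cut .v 16809984 (.cut .d (-4096) (.cut .s 13996032 (.pos 45 .mp ⟨⟨527519736, 0, 0, 0, 0, 253969671, 0, 0, 0, ⟨0, 0⟩, 0⟩, 0, 0⟩ 0 0) (.pos 45 .mp ⟨⟨532562736, 0, 0, 0, 0, 256648406, 0, 0, 0, ⟨0, 0⟩, 0⟩, 0, 0⟩ 0 0)) (.cut .s 13996032 (.cut .l 83886 (.cut .d (-2048) (.pos 45 .mp ⟨⟨528773275, 0, 0, 0, 0, 253400828, 0, 0, 0, ⟨0, 0⟩, 0⟩, 0, 0⟩ 0 0) (.cut .v 16793600 (.cut .s 13989888 (.pos 55 .mp ⟨⟨534102812, 0, 0, 0, 0, 227882212, 0, 0,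 0, ⟨0, 0⟩, 0⟩, 0, 0⟩ 0 0) (.cut .s 13992960 (.pos 55 .mp ⟨⟨537630409, 0, 0, 0, 0, 226366104, 0, 0, 0, ⟨0, 0⟩, 0⟩, 0, 0⟩ 0 0) (.pos 55 .mp ⟨⟨538818733, 0, 0, 0, 0, 227147215, 0, 0, 0, ⟨0, 0⟩, 0⟩, 0, 0⟩ 0 0))) (.pos 56 .mp ⟨⟨651182451, 0, 0, 0, 0, 0, 0, 0, 0, ⟨0, 0⟩, 0⟩, 0, 0⟩ 0 0))) (.pos 45 .mp ⟨⟨536362232, 0, 0, 0, 0, 220730085, 0, 0, 0, ⟨0, 0⟩, 0⟩, 0, 0⟩ 0 0)) (.cut .l 83886 (.cut .d (-2048) (.pos 45 .mp ⟨⟨533815662, 0, 0, 0, 0, 256103019, 0, 0, 0, ⟨0, 0⟩, 0⟩, 0, 0⟩ 0 0) (.cut .v 16793600 (.cut .l 41943 (.cut .d (-1024) (.pos 55 .mp ⟨⟨533470627, 0, 0, 0, 0, 255279766, 0, 0, 0, ⟨0, 0⟩, 0⟩, 0, 0⟩ 0 0) (.cut .s 14002176 (.pos 55 .mp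 ⟨⟨537872349, 0, 0, 0, 0, 232818200, 0, 0, 0, ⟨0, 0⟩, 0⟩, 0, 0⟩ 0 0) (.pos 55 .mp ⟨⟨540480609, 0, 0, 0, 0, 234006420, 0, 0, 0, ⟨0, 0⟩, 0⟩, 0, 0⟩ 0 0))) (.pos 55 .mp ⟨⟨539852081, 0, 0, 0, 0, 225606013, 0, 0, 0, ⟨0, 0⟩, 0⟩, 0, 0⟩ 0 0)) (.pos 56 .mp ⟨⟨657440516, 0, 0, 0, 0, 0, 0, 0, 0, ⟨0, 0⟩, 0⟩, 0, 0⟩ 0 0))) (.pos 45 .mp ⟨⟨541499288, 0, 0, 0, 0, 223320744, 0, 0, 0, ⟨0, 0⟩, 0⟩, 0, 0⟩ 0 0)))) (.pos 46 .mp ⟨⟨673930822, 0, 0, 0, 0, 0, 0, 0, 0, ⟨0, 0⟩, 0⟩, 0, 0⟩ 0 0)) (.cut .s 13996032 (.pos 41 .mp ⟨⟨539609942, 0, 0, 0, 0, 216230613, 0, 0, 0, ⟨0, 0⟩, 0⟩, 0, 0⟩ 0 0) (.pos 41 .mp ⟨⟨544802991, 0, 0, 0, 0, 218735700, 0, 0, 0, ⟨0, 0⟩, 0⟩, 0, 0⟩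 0 0))))) (.cut .s 13983744 (.pos 42 .mp ⟨⟨663814455, 0, 0, 0, 0, 0, 0, 0, 0, ⟨0, 0⟩, 0⟩, 0, 0⟩ 0 0) (.cut .s 13996032 (.pos 42 .mp ⟨⟨674880690, 0, 0, 0, 0, 0, 0, 0, 0, ⟨0, 0⟩, 0⟩, 0, 0⟩ 0 0) (.pos 42 .mp ⟨⟨681511537, 0, 0, 0, 0, 0, 0, 0, 0, ⟨0, 0⟩, 0⟩, 0, 0⟩ 0 0)))) (.cut .d (-8192) (.cut .l 167772 (.void 35 ⟨⟨0, 0, 0, 0, 0, 100000, 0, 0, 0, ⟨0, 0⟩, 0⟩, 0, 0⟩ 0 0) (.cut .d (-12288) (.void 35 ⟨⟨0, 0, 0, 0, 0, 100000, 0, 0, 0, ⟨0, 0⟩, 0⟩, 0, 0⟩ 0 0) (.cut .v 16842752 (.cut .v 16809984 (.pos 45 .mp ⟨⟨0, 0, 0, 0, 0, 1364546955, 0, 0, 0, ⟨0, 0⟩, 0⟩, 0, 0⟩ 0 0) (.cut .s 14032896 (.cut .s 14020608 (.pos 46 .mp ⟨⟨539093938, 0, 0, 0, 0, 257018518,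 0, 0, 0, ⟨0, 0⟩, 0⟩, 0, 0⟩ 0 0) (.pos 46 .mp ⟨⟨544290477, 0, 0, 0, 0, 259915241, 0, 0, 0, ⟨0, 0⟩, 0⟩, 0, 0⟩ 0 0)) (.cut .s 14045184 (.pos 46 .mp ⟨⟨549546452, 0, 0, 0, 0, 262903824, 0, 0, 0, ⟨0, 0⟩, 0⟩, 0, 0⟩ 0 0) (.pos 46 .mp ⟨⟨554862651, 0, 0, 0, 0, 265984156, 0, 0, 0, ⟨0, 0⟩, 0⟩, 0, 0⟩ 0 0)))) (.pos 42 .mp ⟨⟨691711898, 0, 0, 0, 0, 0, 0, 0, 0, ⟨0, 0⟩, 0⟩, 0, 0⟩ 0 0)))) (.cut .v 16842752 (.cut .s 14032896 (.cut .l 167772 (.cut .v 16809984 (.cut .d (-4096) (.cut .s 14020608 (.pos 45 .mp ⟨⟨537663201, 0, 0, 0, 0, 259448133, 0, 0, 0, ⟨0, 0⟩, 0⟩, 0, 0⟩ 0 0) (.pos 45 .mp ⟨⟨542821885, 0, 0, 0, 0, 262370559, 0, 0, 0, ⟨0, 0⟩, 0⟩, 0, 0⟩ 0 0))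 (.cut .s 14020608 (.cut .l 83886 (.cut .d (-2048) (.pos 45 .mp ⟨⟨538915499, 0, 0, 0, 0, 258926566, 0, 0, 0, ⟨0, 0⟩, 0⟩, 0, 0⟩ 0 0) (.cut .v 16793600 (.cut .l 41943 (.cut .d (-1024) (.pos 55 .mp ⟨⟨538561160, 0, 0, 0, 0, 258106918, 0, 0, 0, ⟨0, 0⟩, 0⟩, 0, 0⟩ 0 0) (.cut .s 14014464 (.pos 55 .mp ⟨⟨543056882, 0, 0, 0, 0, 235327422, 0, 0, 0, ⟨0, 0⟩, 0⟩, 0, 0⟩ 0 0) (.pos 55 .mp ⟨⟨545647853, 0, 0, 0, 0, 236671054, 0, 0, 0, ⟨0, 0⟩, 0⟩, 0, 0⟩ 0 0))) (.pos 55 .mp ⟨⟨545019627, 0, 0, 0, 0, 228287074, 0, 0, 0, ⟨0, 0⟩, 0⟩, 0, 0⟩ 0 0)) (.pos 56 .mp ⟨⟨663813345, 0, 0, 0, 0, 0, 0, 0, 0, ⟨0, 0⟩, 0⟩, 0, 0⟩ 0 0))) (.pos 45 .mp ⟨⟨546695200, 0, 0, 0, 0, 225958419,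 0, 0, 0, ⟨0, 0⟩, 0⟩, 0, 0⟩ 0 0)) (.cut .l 83886 (.cut .d (-2048) (.pos 45 .mp ⟨⟨544073539, 0, 0, 0, 0, 261873182, 0, 0, 0, ⟨0, 0⟩, 0⟩, 0, 0⟩ 0 0) (.cut .v 16793600 (.cut .l 41943 (.cut .d (-1024) (.pos 55 .mp ⟨⟨543709786, 0, 0, 0, 0, 261057115, 0, 0, 0, ⟨0, 0⟩, 0⟩, 0, 0⟩ 0 0) (.cut .s 14026752 (.pos 55 .mp ⟨⟨548253619, 0, 0, 0, 0, 238037304, 0, 0, 0, ⟨0, 0⟩, 0⟩, 0, 0⟩ 0 0) (.cut .s 14029824 (.pos 55 .mp ⟨⟨550648942, 0, 0, 0, 0, 239052010, 0, 0, 0, ⟨0, 0⟩, 0⟩, 0, 0⟩ 0 0) (.pos 55 .mp ⟨⟨551946827, 0, 0, 0, 0, 239782433, 0, 0, 0, ⟨0, 0⟩, 0⟩, 0, 0⟩ 0 0)))) (.pos 55 .mp ⟨⟨550246362, 0, 0, 0, 0, 231013900, 0, 0, 0, ⟨0, 0⟩, 0⟩, 0, 0⟩ 0 0))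 (.pos 56 .mp ⟨⟨670302403, 0, 0, 0, 0, 0, 0, 0, 0, ⟨0, 0⟩, 0⟩, 0, 0⟩ 0 0))) (.pos 45 .mp ⟨⟨551950742, 0, 0, 0, 0, 228641135, 0, 0, 0, ⟨0, 0⟩, 0⟩, 0, 0⟩ 0 0)))) (.pos 46 .mp ⟨⟨687255783, 0, 0, 0, 0, 0, 0, 0, 0, ⟨0, 0⟩, 0⟩, 0, 0⟩ 0 0)) (.cut .d (-4096) (.cut .s 14020608 (.pos 41 .mp ⟨⟨550055773, 0, 0, 0, 0, 222315175, 0, 0, 0, ⟨0, 0⟩, 0⟩, 0, 0⟩ 0 0) (.cut .s 14026752 (.pos 41 .mp ⟨⟨552704808, 0, 0, 0, 0, 229074815, 0, 0, 0, ⟨0, 0⟩, 0⟩, 0, 0⟩ 0 0) (.pos 41 .mp ⟨⟨555369073, 0, 0, 0, 0, 230375110, 0, 0, 0, ⟨0, 0⟩, 0⟩, 0, 0⟩ 0 0))) (.pos 41 .mp ⟨⟨0, 0, 0, 0, 0, 0, 0, 0, 0, ⟨0, 0⟩, 0⟩, 0, 0⟩ 0 0))) (.cut .l 167772 (.cut .v 16809984 (.cut .d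 (-4096) (.cut .s 14045184 (.pos 45 .mp ⟨⟨548039556, 0, 0, 0, 0, 265417422, 0, 0, 0, ⟨0, 0⟩, 0⟩, 0, 0⟩ 0 0) (.pos 45 .mp ⟨⟨553316993, 0, 0, 0, 0, 268590491, 0, 0, 0, ⟨0, 0⟩, 0⟩, 0, 0⟩ 0 0)) (.cut .s 14045184 (.cut .l 83886 (.cut .d (-2048) (.pos 45 .mp ⟨⟨549290549, 0, 0, 0, 0, 264944611, 0, 0, 0, ⟨0, 0⟩, 0⟩, 0, 0⟩ 0 0) (.cut .v 16793600 (.cut .l 41943 (.cut .d (-1024) (.pos 55 .mp ⟨⟨548917270, 0, 0, 0, 0, 264132100, 0, 0, 0, ⟨0, 0⟩, 0⟩, 0, 0⟩ 0 0) (.cut .v 16785408 (.cut .s 14039040 (.pos 63 .mp ⟨⟨553007278, 0, 0, 0, 0, 241789994, 0, 0, 0, ⟨0, 0⟩, 0⟩, 0, 0⟩ 0 0) (.pos 63 .mp ⟨⟨555655682, 0, 0, 0, 0, 243228675, 0, 0, 0, ⟨0, 0⟩, 0⟩, 0,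 0⟩ 0 0)) (.pos 64 .mp ⟨⟨676509872, 0, 0, 0, 0, 0, 0, 0, 0, ⟨0, 0⟩, 0⟩, 0, 0⟩ 0 0))) (.pos 55 .mp ⟨⟨555533068, 0, 0, 0, 0, 233784502, 0, 0, 0, ⟨0, 0⟩, 0⟩, 0, 0⟩ 0 0)) (.pos 56 .mp ⟨⟨676909178, 0, 0, 0, 0, 0, 0, 0, 0, ⟨0, 0⟩, 0⟩, 0, 0⟩ 0 0))) (.pos 45 .mp ⟨⟨557266705, 0, 0, 0, 0, 231366891, 0, 0, 0, ⟨0, 0⟩, 0⟩, 0, 0⟩ 0 0)) (.cut .l 83886 (.cut .d (-2048) (.pos 45 .mp ⟨⟨554567309, 0, 0, 0, 0, 268142627, 0, 0, 0, ⟨0, 0⟩, 0⟩, 0, 0⟩ 0 0) (.cut .v 16793600 (.cut .l 41943 (.cut .d (-1024) (.pos 55 .mp ⟨⟨554184391, 0, 0, 0, 0, 267333646, 0, 0, 0, ⟨0, 0⟩, 0⟩, 0, 0⟩ 0 0) (.cut .v 16785408 (.cut .s 14051328 (.pos 63 .mp ⟨⟨558319262, 0, 0, 0, 0,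 244689940, 0, 0, 0, ⟨0, 0⟩, 0⟩, 0, 0⟩ 0 0) (.pos 63 .mp ⟨⟨560998119, 0, 0, 0, 0, 246173770, 0, 0, 0, ⟨0, 0⟩, 0⟩, 0, 0⟩ 0 0)) (.pos 64 .mp ⟨⟨683231894, 0, 0, 0, 0, 0, 0, 0, 0, ⟨0, 0⟩, 0⟩, 0, 0⟩ 0 0))) (.pos 55 .mp ⟨⟨560880543, 0, 0, 0, 0, 236596863, 0, 0, 0, ⟨0, 0⟩, 0⟩, 0, 0⟩ 0 0)) (.pos 56 .mp ⟨⟨683635186, 0, 0, 0, 0, 0, 0, 0, 0, ⟨0, 0⟩, 0⟩, 0, 0⟩ 0 0))) (.pos 45 .mp ⟨⟨562643890, 0, 0, 0, 0, 234133659, 0, 0, 0, ⟨0, 0⟩, 0⟩, 0, 0⟩ 0 0)))) (.pos 46 .mp ⟨⟨700915988, 0, 0, 0, 0, 0, 0, 0, 0, ⟨0, 0⟩, 0⟩, 0, 0⟩ 0 0)) (.cut .d (-4096) (.cut .v 16809984 (.pos 45 .mp ⟨⟨525373105, 0, 0, 0, 0, 301552951, 0, 0, 0, ⟨0, 0⟩, 0⟩, 0, 0⟩ 0 0) (.cut .s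 14045184 (.pos 46 .mp ⟨⟨562773190, 0, 0, 0, 0, 227885923, 0, 0, 0, ⟨0, 0⟩, 0⟩, 0, 0⟩ 0 0) (.pos 46 .mp ⟨⟨568228945, 0, 0, 0, 0, 230552812, 0, 0, 0, ⟨0, 0⟩, 0⟩, 0, 0⟩ 0 0))) (.pos 41 .mp ⟨⟨0, 0, 0, 0, 0, 0, 0, 0, 0, ⟨0, 0⟩, 0⟩, 0, 0⟩ 0 0)))) (.pos 42 .mp ⟨⟨681298553, 0, 0, 0, 0, 0, 0, 0, 0, ⟨0, 0⟩, 0⟩, 0, 0⟩ 0 0)))) (.pos 36 .mp ⟨⟨689048577, 0, 0, 0, 0, 0, 0, 0, 0, ⟨0, 0⟩, 0⟩, 0, 0⟩ 0 0)) (.cut .v 16908288 (.cut .s 14106624 (.cut .d (-8192) (.cut .l 167772 (.void 35 ⟨⟨0, 0, 0, 0, 0, 100000, 0, 0, 0, ⟨0, 0⟩, 0⟩, 0, 0⟩ 0 0) (.cut .d (-12288) (.void 35 ⟨⟨0, 0, 0, 0, 0, 100000, 0, 0, 0, ⟨0, 0⟩, 0⟩, 0, 0⟩ 0 0) (.cut .v 16842752 (.cut .l 251658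 (.pos 41 .mp ⟨⟨562187994, 0, 0, 0, 0, 312733990, 0, 0, 0, ⟨0, 0⟩, 0⟩, 0, 0⟩ 0 0) (.cut .v 16809984 (.pos 45 .mp ⟨⟨0, 0, 0, 0, 0, 1235431812, 0, 0, 0, ⟨0, 0⟩, 0⟩, 0, 0⟩ 0 0) (.cut .s 14082048 (.cut .s 14069760 (.pos 46 .mp ⟨⟨560239873, 0, 0, 0, 0, 266531165, 0, 0, 0, ⟨0, 0⟩, 0⟩, 0, 0⟩ 0 0) (.pos 46 .mp ⟨⟨565678934, 0, 0, 0, 0, 269720571, 0, 0, 0, ⟨0, 0⟩, 0⟩, 0, 0⟩ 0 0)) (.cut .s 14094336 (.pos 46 .mp ⟨⟨571180665, 0, 0, 0, 0, 272984721, 0, 0, 0, ⟨0, 0⟩, 0⟩, 0, 0⟩ 0 0) (.pos 46 .mp ⟨⟨576745909, 0, 0, 0, 0, 276322749, 0, 0, 0, ⟨0, 0⟩, 0⟩, 0, 0⟩ 0 0))))) (.pos 42 .mp ⟨⟨719205575, 0, 0, 0, 0, 0, 0, 0, 0, ⟨0, 0⟩, 0⟩, 0, 0⟩ 0 0)))) (.cut .v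 16842752 (.cut .s 14082048 (.cut .l 167772 (.cut .v 16809984 (.cut .d (-4096) (.cut .s 14069760 (.pos 45 .mp ⟨⟨558654991, 0, 0, 0, 0, 271891565, 0, 0, 0, ⟨0, 0⟩, 0⟩, 0, 0⟩ 0 0) (.pos 45 .mp ⟨⟨564054360, 0, 0, 0, 0, 275322477, 0, 0, 0, ⟨0, 0⟩, 0⟩, 0, 0⟩ 0 0)) (.cut .s 14069760 (.cut .l 83886 (.cut .d (-2048) (.pos 45 .mp ⟨⟨559904614, 0, 0, 0, 0, 271469038, 0, 0, 0, ⟨0, 0⟩, 0⟩, 0, 0⟩ 0 0) (.cut .v 16793600 (.cut .l 41943 (.cut .d (-1024) (.pos 55 .mp ⟨⟨559511942, 0, 0, 0, 0, 270663563, 0, 0, 0, ⟨0, 0⟩, 0⟩, 0, 0⟩ 0 0) (.cut .v 16785408 (.cut .s 14063616 (.pos 63 .mp ⟨⟨563692356, 0, 0, 0, 0, 247680148, 0, 0, 0, ⟨0, 0⟩, 0⟩, 0, 0⟩ 0 0) (.pos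 63 .mp ⟨⟨566402076, 0, 0, 0, 0, 249209052, 0, 0, 0, ⟨0, 0⟩, 0⟩, 0, 0⟩ 0 0)) (.pos 64 .mp ⟨⟨690074621, 0, 0, 0, 0, 0, 0, 0, 0, ⟨0, 0⟩, 0⟩, 0, 0⟩ 0 0))) (.pos 55 .mp ⟨⟨566289598, 0, 0, 0, 0, 239448940, 0, 0, 0, ⟨0, 0⟩, 0⟩, 0, 0⟩ 0 0)) (.pos 56 .mp ⟨⟨690481972, 0, 0, 0, 0, 0, 0, 0, 0, ⟨0, 0⟩, 0⟩, 0, 0⟩ 0 0))) (.pos 45 .mp ⟨⟨568083116, 0, 0, 0, 0, 236939383, 0, 0, 0, ⟨0, 0⟩, 0⟩, 0, 0⟩ 0 0)) (.cut .l 83886 (.cut .d (-2048) (.pos 45 .mp ⟨⟨565303272, 0, 0, 0, 0, 274925684, 0, 0, 0, ⟨0, 0⟩, 0⟩, 0, 0⟩ 0 0) (.cut .v 16793600 (.cut .l 41943 (.cut .d (-1024) (.pos 55 .mp ⟨⟨564900731, 0, 0, 0, 0, 274123687, 0, 0, 0, ⟨0, 0⟩, 0⟩, 0, 0⟩ 0 0) (.cut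 .s 14075904 (.pos 55 .mp ⟨⟨569644244, 0, 0, 0, 0, 249779664, 0, 0, 0, ⟨0, 0⟩, 0⟩, 0, 0⟩ 0 0) (.pos 55 .mp ⟨⟨572387657, 0, 0, 0, 0, 251348727, 0, 0, 0, ⟨0, 0⟩, 0⟩, 0, 0⟩ 0 0))) (.pos 55 .mp ⟨⟨571761061, 0, 0, 0, 0, 242338660, 0, 0, 0, ⟨0, 0⟩, 0⟩, 0, 0⟩ 0 0)) (.pos 56 .mp ⟨⟨697451108, 0, 0, 0, 0, 0, 0, 0, 0, ⟨0, 0⟩, 0⟩, 0, 0⟩ 0 0))) (.pos 45 .mp ⟨⟨573585216, 0, 0, 0, 0, 239781979, 0, 0, 0, ⟨0, 0⟩, 0⟩, 0, 0⟩ 0 0)))) (.pos 46 .mp ⟨⟨714907698, 0, 0, 0, 0, 0, 0, 0, 0, ⟨0, 0⟩, 0⟩, 0, 0⟩ 0 0)) (.cut .d (-4096) (.cut .v 16809984 (.pos 45 .mp ⟨⟨535573911, 0, 0, 0, 0, 308585456, 0, 0, 0, ⟨0, 0⟩, 0⟩, 0, 0⟩ 0 0) (.cut .s 14069760 (.pos 46 .mp ⟨⟨573747882,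 0, 0, 0, 0, 233305885, 0, 0, 0, ⟨0, 0⟩, 0⟩, 0, 0⟩ 0 0) (.pos 46 .mp ⟨⟨579330849, 0, 0, 0, 0, 236144923, 0, 0, 0, ⟨0, 0⟩, 0⟩, 0, 0⟩ 0 0))) (.pos 41 .mp ⟨⟨0, 0, 0, 0, 0, 0, 0, 0, 0, ⟨0, 0⟩, 0⟩, 0, 0⟩ 0 0))) (.cut .l 167772 (.cut .v 16809984 (.cut .d (-4096) (.cut .s 14094336 (.pos 45 .mp ⟨⟨569515923, 0, 0, 0, 0, 278885093, 0, 0, 0, ⟨0, 0⟩, 0⟩, 0, 0⟩ 0 0) (.pos 45 .mp ⟨⟨575040519, 0, 0, 0, 0, 282581313, 0, 0, 0, ⟨0, 0⟩, 0⟩, 0, 0⟩ 0 0)) (.cut .s 14094336 (.cut .l 83886 (.cut .d (-2048) (.pos 45 .mp ⟨⟨570764107, 0, 0, 0, 0, 278514438, 0, 0, 0, ⟨0, 0⟩, 0⟩, 0, 0⟩ 0 0) (.cut .v 16793600 (.cut .l 41943 (.cut .d (-1024) (.pos 55 .mp ⟨⟨570351578,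 0, 0, 0, 0, 277715893, 0, 0, 0, ⟨0, 0⟩, 0⟩, 0, 0⟩ 0 0) (.cut .s 14088192 (.pos 55 .mp ⟨⟨575146879, 0, 0, 0, 0, 252940223, 0, 0, 0, ⟨0, 0⟩, 0⟩, 0, 0⟩ 0 0) (.pos 55 .mp ⟨⟨577922018, 0, 0, 0, 0, 254554127, 0, 0, 0, ⟨0, 0⟩, 0⟩, 0, 0⟩ 0 0))) (.pos 55 .mp ⟨⟨577295773, 0, 0, 0, 0, 245263923, 0, 0, 0, ⟨0, 0⟩, 0⟩, 0, 0⟩ 0 0)) (.pos 56 .mp ⟨⟨704544194, 0, 0, 0, 0, 0, 0, 0, 0, ⟨0, 0⟩, 0⟩, 0, 0⟩ 0 0))) (.pos 45 .mp ⟨⟨579151036, 0, 0, 0, 0, 242659333, 0, 0, 0, ⟨0, 0⟩, 0⟩, 0, 0⟩ 0 0)) (.cut .l 83886 (.cut .d (-2048) (.pos 45 .mp ⟨⟨576287959, 0, 0, 0, 0, 282237206, 0, 0, 0, ⟨0, 0⟩, 0⟩, 0, 0⟩ 0 0) (.cut .v 16793600 (.cut .l 41943 (.cut .d (-1024) (.pos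 55 .mp ⟨⟨575865322, 0, 0, 0, 0, 281442087, 0, 0, 0, ⟨0, 0⟩, 0⟩, 0, 0⟩ 0 0) (.cut .s 14100480 (.pos 55 .mp ⟨⟨580657517, 0, 0, 0, 0, 256322086, 0, 0, 0, ⟨0, 0⟩, 0⟩, 0, 0⟩ 0 0) (.pos 55 .mp ⟨⟨583392768, 0, 0, 0, 0, 258151156, 0, 0, 0, ⟨0, 0⟩, 0⟩, 0, 0⟩ 0 0))) (.pos 55 .mp ⟨⟨582894591, 0, 0, 0, 0, 248222597, 0, 0, 0, ⟨0, 0⟩, 0⟩, 0, 0⟩ 0 0)) (.pos 56 .mp ⟨⟨711762861, 0, 0, 0, 0, 0, 0, 0, 0, ⟨0, 0⟩, 0⟩, 0, 0⟩ 0 0))) (.pos 45 .mp ⟨⟨584781442, 0, 0, 0, 0, 245569301, 0, 0, 0, ⟨0, 0⟩, 0⟩, 0, 0⟩ 0 0)))) (.pos 46 .mp ⟨⟨729227214, 0, 0, 0, 0, 0, 0, 0, 0, ⟨0, 0⟩, 0⟩, 0, 0⟩ 0 0)) (.cut .s 14094336 (.cut .s 14088192 (.pos 41 .mp ⟨⟨580049645, 0, 0,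 0, 0, 241166419, 0, 0, 0, ⟨0, 0⟩, 0⟩, 0, 0⟩ 0 0) (.pos 41 .mp ⟨⟨582871880, 0, 0, 0, 0, 242593167, 0, 0, 0, ⟨0, 0⟩, 0⟩, 0, 0⟩ 0 0)) (.pos 41 .mp ⟨⟨588565619, 0, 0, 0, 0, 240246255, 0, 0, 0, ⟨0, 0⟩, 0⟩, 0, 0⟩ 0 0)))) (.pos 42 .mp ⟨⟨709078096, 0, 0, 0, 0, 0, 0, 0, 0, ⟨0, 0⟩, 0⟩, 0, 0⟩ 0 0))) (.cut .d (-8192) (.cut .v 16842752 (.cut .l 167772 (.void 41 ⟨⟨0, 0, 0, 0, 0, 100000, 0, 0, 0, ⟨0, 0⟩, 0⟩, 0, 0⟩ 0 0) (.cut .d (-12288) (.void 41 ⟨⟨0, 0, 0, 0, 0, 100000, 0, 0, 0, ⟨0, 0⟩, 0⟩, 0, 0⟩ 0 0) (.cut .l 251658 (.pos 41 .mp ⟨⟨584409379, 0, 0, 0, 0, 329144958, 0, 0, 0, ⟨0, 0⟩, 0⟩, 0, 0⟩ 0 0) (.cut .s 14131200 (.pos 41 .mp ⟨⟨580261385, 0, 0,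 0, 0, 290986706, 0, 0, 0, ⟨0, 0⟩, 0⟩, 0, 0⟩ 0 0) (.pos 41 .mp ⟨⟨591677049, 0, 0, 0, 0, 298247483, 0, 0, 0, ⟨0, 0⟩, 0⟩, 0, 0⟩ 0 0))))) (.pos 42 .mp ⟨⟨761147011, 0, 0, 0, 0, 0, 0, 0, 0, ⟨0, 0⟩, 0⟩, 0, 0⟩ 0 0)) (.cut .v 16842752 (.cut .s 14131200 (.cut .l 167772 (.cut .v 16809984 (.cut .d (-4096) (.cut .s 14118912 (.pos 45 .mp ⟨⟨580629003, 0, 0, 0, 0, 286413071, 0, 0, 0, ⟨0, 0⟩, 0⟩, 0, 0⟩ 0 0) (.pos 45 .mp ⟨⟨586282245, 0, 0, 0, 0, 290382338, 0, 0, 0, ⟨0, 0⟩, 0⟩, 0, 0⟩ 0 0)) (.cut .s 14118912 (.cut .l 83886 (.cut .d (-2048) (.pos 45 .mp ⟨⟨581875680, 0, 0, 0, 0, 286095932, 0, 0, 0, ⟨0, 0⟩, 0⟩, 0, 0⟩ 0 0) (.cut .s 14112768 (.cut .s 14109696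 (.pos 45 .mp ⟨⟨587132649, 0, 0, 0, 0, 257236700, 0, 0, 0, ⟨0, 0⟩, 0⟩, 0, 0⟩ 0 0) (.pos 45 .mp ⟨⟨588639386, 0, 0, 0, 0, 257926176, 0, 0, 0, ⟨0, 0⟩, 0⟩, 0, 0⟩ 0 0)) (.pos 45 .mp ⟨⟨591728661, 0, 0, 0, 0, 256506894, 0, 0, 0, ⟨0, 0⟩, 0⟩, 0, 0⟩ 0 0))) (.pos 45 .mp ⟨⟨590477313, 0, 0, 0, 0, 248509710, 0, 0, 0, ⟨0, 0⟩, 0⟩, 0, 0⟩ 0 0)) (.cut .l 83886 (.cut .d (-2048) (.pos 45 .mp ⟨⟨587528142, 0, 0, 0, 0, 290092593, 0, 0, 0, ⟨0, 0⟩, 0⟩, 0, 0⟩ 0 0) (.cut .s 14125056 (.pos 45 .mp ⟨⟨594601049, 0, 0, 0, 0, 258201712, 0, 0, 0, ⟨0, 0⟩, 0⟩, 0, 0⟩ 0 0) (.pos 45 .mp ⟨⟨597490136, 0, 0, 0, 0, 259918531, 0, 0, 0, ⟨0, 0⟩, 0⟩, 0, 0⟩ 0 0))) (.pos 45 .mp ⟨⟨596239544,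 0, 0, 0, 0, 251478353, 0, 0, 0, ⟨0, 0⟩, 0⟩, 0, 0⟩ 0 0)))) (.pos 46 .mp ⟨⟨743870874, 0, 0, 0, 0, 0, 0, 0, 0, ⟨0, 0⟩, 0⟩, 0, 0⟩ 0 0)) (.cut .s 14118912 (.pos 41 .mp ⟨⟨594325795, 0, 0, 0, 0, 243087366, 0, 0, 0, ⟨0, 0⟩, 0⟩, 0, 0⟩ 0 0) (.pos 41 .mp ⟨⟨600153318, 0, 0, 0, 0, 245955061, 0, 0, 0, ⟨0, 0⟩, 0⟩, 0, 0⟩ 0 0))) (.cut .l 167772 (.cut .v 16809984 (.cut .d (-4096) (.cut .s 14143488 (.pos 45 .mp ⟨⟨592001132, 0, 0, 0, 0, 294491121, 0, 0, 0, ⟨0, 0⟩, 0⟩, 0, 0⟩ 0 0) (.pos 45 .mp ⟨⟨597786567, 0, 0, 0, 0, 298741463, 0, 0, 0, ⟨0, 0⟩, 0⟩, 0, 0⟩ 0 0)) (.cut .s 14143488 (.cut .l 83886 (.cut .d (-2048) (.pos 45 .mp ⟨⟨593246231, 0, 0, 0, 0, 294229203,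 0, 0, 0, ⟨0, 0⟩, 0⟩, 0, 0⟩ 0 0) (.cut .s 14137344 (.pos 45 .mp ⟨⟨600396037, 0, 0, 0, 0, 261657314, 0, 0, 0, ⟨0, 0⟩, 0⟩, 0, 0⟩ 0 0) (.pos 45 .mp ⟨⟨603199927, 0, 0, 0, 0, 263699394, 0, 0, 0, ⟨0, 0⟩, 0⟩, 0, 0⟩ 0 0))) (.pos 45 .mp ⟨⟨602069048, 0, 0, 0, 0, 254472995, 0, 0, 0, ⟨0, 0⟩, 0⟩, 0, 0⟩ 0 0)) (.cut .s 14149632 (.cut .s 14146560 (.pos 45 .mp ⟨⟨609023516, 0, 0, 0, 0, 259008617, 0, 0, 0, ⟨0, 0⟩, 0⟩, 0, 0⟩ 0 0) (.pos 45 .mp ⟨⟨610732759, 0, 0, 0, 0, 259477337, 0, 0, 0, ⟨0, 0⟩, 0⟩, 0, 0⟩ 0 0)) (.pos 45 .mp ⟨⟨612302714, 0, 0, 0, 0, 261362257, 0, 0, 0, ⟨0, 0⟩, 0⟩, 0, 0⟩ 0 0)))) (.pos 46 .mp ⟨⟨758835058, 0, 0, 0, 0, 0, 0, 0, 0, ⟨0, 0⟩, 0⟩,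 0, 0⟩ 0 0)) (.cut .s 14143488 (.pos 41 .mp ⟨⟨606049114, 0, 0, 0, 0, 248847075, 0, 0, 0, ⟨0, 0⟩, 0⟩, 0, 0⟩ 0 0) (.pos 41 .mp ⟨⟨612014125, 0, 0, 0, 0, 251761110, 0, 0, 0, ⟨0, 0⟩, 0⟩, 0, 0⟩ 0 0)))) (.pos 42 .mp ⟨⟨738856349, 0, 0, 0, 0, 0, 0, 0, 0, ⟨0, 0⟩, 0⟩, 0, 0⟩ 0 0)))) (.pos 36 .mp ⟨⟨746243187, 0, 0, 0, 0, 0, 0, 0, 0, ⟨0, 0⟩, 0⟩, 0, 0⟩ 0 0))))))) (.pos 32 .mp ⟨⟨833604597, 0, 0, 0, 0, 0, 0, 0, 0, ⟨0, 0⟩, 0⟩, 0, 0⟩ 0 0))) (.void 30 ⟨⟨100000, 0, 0, 0, 0, 0, 0, 0, 0, ⟨0, 0⟩, 0⟩, 0, 0⟩ 0 0))) (.void 28 ⟨⟨100000, 0, 0, 0, 0, 0, 0, 0, 0, ⟨0, 0⟩, 0⟩, 0, 0⟩ 0 0))) (.void 26 ⟨⟨100000, 0, 0, 0, 0, 0, 0, 0, 0, ⟨0, 0⟩, 0⟩, 0, 0⟩ 0 0))) (.void 24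 ⟨⟨100000, 0, 0, 0, 0, 0, 0, 0, 0, ⟨0, 0⟩, 0⟩, 0, 0⟩ 0 0))) (.void 22 ⟨⟨100000, 0, 0, 0, 0, 0, 0, 0, 0, ⟨0, 0⟩, 0⟩, 0, 0⟩ 0 0))) (.void 79 ⟨⟨100000, 0, 0, 0, 0, 0, 0, 0, 0, ⟨0, 0⟩, 0⟩, 0, 0⟩ 0 0)) (.void 88 ⟨⟨99813, 0, 0, 0, 0, 0, 0, 0, 0, ⟨0, 0⟩, 0⟩, 0, 0⟩ 0 0)) (.void 97 ⟨⟨93377, 0, 0, 6574, 0, 0, 0, 0, 0, ⟨0, 0⟩, 0⟩, 0, 0⟩ 0 0))) (.cut .v 16777216 (.cut .v 8388608 (.cut .v 4194304 (.cut .v 2097152 (.cut .v 1048576 (.pos 93 .pm ⟨⟨0, 0, 23045352, 0, 0, 0, 0, 0, 0, ⟨0, 0⟩, 0⟩, 0, 9122⟩ 0 0) (.pos 94 .pm ⟨⟨0, 0, 24811076, 0, 0, 0, 0, 0, 0, ⟨0, 0⟩, 0⟩, 0, 13414⟩ 0 0)) (.pos 90 .pm ⟨⟨0, 0, 30861680, 0, 0, 0, 0, 0, 0, ⟨0, 0⟩, 0⟩, 0, 25338⟩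 0 0)) (.pos 5 .pm ⟨⟨0, 0, 71572292, 0, 0, 0, 0, 0, 0, ⟨0, 0⟩, 0⟩, 0, 57773⟩ 0 0)) (.pos 3 .pm ⟨⟨0, 0, 0, 0, 0, 0, 0, 0, 0, ⟨0, 0⟩, 0⟩, 0, 0⟩ 0 0)) (.cut .v 268435456 (.cut .v 67108864 (.cut .d 1693476 (.cut .v 33554432 (.cut .d 846738 (.cut .v 25165824 (.cut .d 423369 (.cut .v 20971520 (.cut .d 211684 (.cut .v 18874368 (.cut .d 105842 (.cut .v 17825792 (.cut .s 14057472 (.pos 27 .pp ⟨⟨589374508, 0, 0, 0, 0, 0, 0, 0, 0, ⟨0, 0⟩, 0⟩, 7409019, 0⟩ 0 0) (.pos 27 .pp ⟨⟨633445942, 0, 0, 0, 0, 0, 0, 0, 0, ⟨0, 0⟩, 0⟩, 8579593, 0⟩ 0 0)) (.pos 28 .pp ⟨⟨756136730, 0, 0, 0, 0, 0, 0, 0, 0, ⟨0, 0⟩, 0⟩, 0, 0⟩ 0 0)) (.pos 25 .pp ⟨⟨0, 0, 0, 0, 0, 0, 0,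 0, 0, ⟨0, 0⟩, 0⟩, 0, 152929⟩ 0 0)) (.cut .d 105842 (.pos 26 .pp ⟨⟨932875428, 0, 0, 0, 0, 0, 0, 0, 0, ⟨0, 0⟩, 0⟩, 0, 0⟩ 0 0) (.pos 26 .pp ⟨⟨760550500, 0, 0, 0, 0, 0, 0, 0, 0, ⟨0, 0⟩, 0⟩, 0, 0⟩ 0 0))) (.pos 23 .pp ⟨⟨0, 0, 0, 0, 0, 0, 0, 0, 0, ⟨0, 0⟩, 0⟩, 0, 160481⟩ 0 0)) (.cut .d 211684 (.cut .v 23068672 (.cut .v 22020096 (.pos 57 .pp ⟨⟨1006904841, 0, 0, 0, 0, 0, 0, 0, 0, ⟨0, 0⟩, 0⟩, 0, 0⟩ 0 0) (.pos 58 .pp ⟨⟨0, 0, 0, 0, 0, 0, 0, 0, 0, ⟨0, 0⟩, 0⟩, 159468625, 0⟩ 0 0)) (.pos 54 .pp ⟨⟨0, 0, 0, 0, 0, 0, 0, 0, 0, ⟨0, 0⟩, 0⟩, 192705589, 0⟩ 0 0)) (.pos 24 .pp ⟨⟨0, 0, 0, 0, 0, 0, 33530, 0, 0, ⟨0, 0⟩, 0⟩, 115196925, 0⟩ 0 0))) (.pos 21 .pp ⟨⟨0,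 0, 0, 0, 0, 0, 0, 0, 0, ⟨0, 0⟩, 0⟩, 0, 173320⟩ 0 0)) (.cut .d 423369 (.cut .d 211684 (.void 22 ⟨⟨0, 0, 0, 0, 0, 0, 0, 0, 0, ⟨0, 0⟩, 0⟩, 100000, 0⟩ 0 0) (.pos 22 .pp ⟨⟨0, 0, 0, 0, 0, 0, 0, 0, 0, ⟨0, 0⟩, 0⟩, 175841524, 0⟩ 0 0)) (.pos 22 .pp ⟨⟨0, 0, 0, 0, 0, 0, 31618, 0, 0, ⟨0, 0⟩, 0⟩, 117723365, 0⟩ 0 0))) (.pos 20 .pp ⟨⟨0, 0, 0, 0, 0, 0, 577594, 0, 0, ⟨0, 0⟩, 0⟩, 0, 0⟩ 0 0)) (.cut .d 846738 (.pos 79 .pp ⟨⟨0, 0, 0, 0, 0, 0, 0, 0, 0, ⟨0, 0⟩, 0⟩, 374716489, 0⟩ 0 0) (.pos 79 .pp ⟨⟨0, 0, 0, 0, 0, 0, 0, 0, 0, ⟨0, 0⟩, 0⟩, 159467617, 0⟩ 0 0))) (.pos 78 .pp ⟨⟨0, 0, 0, 0, 0, 0, 0, 0, 0, ⟨0, 0⟩, 0⟩, 0, 144433⟩ 0 0)) (.void 88 ⟨⟨0, 0, 0, 48520, 0,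 0, 0, 0, 0, ⟨0, 0⟩, 0⟩, 51480, 0⟩ 0 0)) (.void 97 ⟨⟨0, 0, 0, 0, 0, 0, 0, 0, 0, ⟨0, 0⟩, 0⟩, 100000, 0⟩ 0 0)))),
    by decide +kernel⟩

def covers27 : cell.Covers Vale.Agent.P237.Petty.Cor.Grid.N11.table row27.1 :=
  ⟨(.cut .d 0 (.cut .v 16777216 (.cut .v 8388608 (.void 2 ⟨⟨0, 0, 100000, 0, 0, 0, 0, 0, 0, ⟨0, 0⟩, 0⟩, 0, 0⟩ 0 0) (.cut .d (-8388608) (.void 3 ⟨⟨100000, 0, 0, 0, 0, 0, 0, 0, 0, ⟨0, 0⟩, 0⟩, 0, 0⟩ 0 0) (.cut .d (-4194304) (.void 3 ⟨⟨100000, 0, 0, 0, 0, 0, 0, 0, 0, ⟨0, 0⟩, 0⟩, 0, 0⟩ 0 0) (.cut .d (-2097152) (.void 3 ⟨⟨100000, 0, 0, 0, 0, 0, 0, 0, 0, ⟨0, 0⟩, 0⟩, 0, 0⟩ 0 0) (.cut .d (-1048576) (.void 3 ⟨⟨0, 0, 0, 0, 0, 100000,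 0, 0, 0, ⟨0, 0⟩, 0⟩, 0, 0⟩ 0 0) (.cut .d (-524288) (.void 3 ⟨⟨0, 0, 0, 0, 0, 100000, 0, 0, 0, ⟨0, 0⟩, 0⟩, 0, 0⟩ 0 0) (.cut .s 14237696 (.pos 3 .mm ⟨⟨0, 0, 0, 0, 0, 1529268050, 0, 0, 0, ⟨0, 0⟩, 0⟩, 0, 0⟩ 0 0) (.cut .d (-262144) (.void 3 ⟨⟨0, 0, 0, 0, 0, 100000, 0, 0, 0, ⟨0, 0⟩, 0⟩, 0, 0⟩ 0 0) (.pos 3 .mm ⟨⟨0, 0, 0, 0, 0, 1577109933, 0, 0, 0, ⟨0, 0⟩, 0⟩, 0, 0⟩ 0 0))))))))) (.cut .v 268435456 (.cut .v 67108864 (.cut .v 33554432 (.cut .d (-8388608) (.void 20 ⟨⟨100037, 0, 0, 0, 0, 0, 0, 0, 0, ⟨0, 0⟩, 0⟩, 0, 0⟩ 0 0) (.cut .v 25165824 (.cut .d (-4194304) (.void 21 ⟨⟨100000, 0, 0, 0, 0, 0, 0, 0, 0, ⟨0, 0⟩, 0⟩, 0, 0⟩ 0 0) (.cut .v 20971520 (.cut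 .d (-2097152) (.void 23 ⟨⟨100000, 0, 0, 0, 0, 0, 0, 0, 0, ⟨0, 0⟩, 0⟩, 0, 0⟩ 0 0) (.cut .v 18874368 (.cut .d (-1048576) (.void 25 ⟨⟨100000, 0, 0, 0, 0, 0, 0, 0, 0, ⟨0, 0⟩, 0⟩, 0, 0⟩ 0 0) (.cut .d (-524288) (.void 25 ⟨⟨100000, 0, 0, 0, 0, 0, 0, 0, 0, ⟨0, 0⟩, 0⟩, 0, 0⟩ 0 0) (.cut .v 17825792 (.cut .v 17301504 (.cut .d (-262144) (.void 29 ⟨⟨100000, 0, 0, 0, 0, 0, 0, 0, 0, ⟨0, 0⟩, 0⟩, 0, 0⟩ 0 0) (.cut .v 17039360 (.cut .d (-131072) (.void 31 ⟨⟨100000, 0, 0, 0, 0, 0, 0, 0, 0, ⟨0, 0⟩, 0⟩, 0, 0⟩ 0 0) (.cut .d (-65536) (.void 31 ⟨⟨100000, 0, 0, 0, 0, 0, 0, 0, 0, ⟨0, 0⟩, 0⟩, 0, 0⟩ 0 0) (.cut .d (-32768) (.void 31 ⟨⟨100000, 0, 0, 0, 0, 0, 0, 0,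 0, ⟨0, 0⟩, 0⟩, 0, 0⟩ 0 0) (.cut .d (-16384) (.void 31 ⟨⟨0, 0, 0, 0, 0, 100000, 0, 0, 0, ⟨0, 0⟩, 0⟩, 0, 0⟩ 0 0) (.cut .s 14237696 (.cut .v 16908288 (.cut .d (-8192) (.cut .d (-12288) (.void 35 ⟨⟨0, 0, 0, 0, 0, 100000, 0, 0, 0, ⟨0, 0⟩, 0⟩, 0, 0⟩ 0 0) (.cut .v 16842752 (.cut .v 16809984 (.pos 45 .mp ⟨⟨0, 0, 0, 0, 0, 1612137328, 0, 0, 0, ⟨0, 0⟩, 0⟩, 0, 0⟩ 0 0) (.cut .l 167772 (.void 46 ⟨⟨100000, 0, 0, 0, 0, 0, 0, 0, 0, ⟨0, 0⟩, 0⟩, 0, 0⟩ 0 0) (.cut .l 251658 (.pos 46 .mp ⟨⟨639854432, 0, 0, 0, 0, 324422211, 0, 0, 0, ⟨0, 0⟩, 0⟩, 0, 0⟩ 0 0) (.cut .d (-10240) (.pos 46 .mp ⟨⟨608644235, 0, 0, 0, 0, 376628198, 0, 0, 0, ⟨0, 0⟩, 0⟩, 0, 0⟩ 0 0) (.cut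 .s 14196736 (.cut .s 14176256 (.pos 46 .mp ⟨⟨623136712, 0, 0, 0, 0, 259821426, 0, 0, 0, ⟨0, 0⟩, 0⟩, 0, 0⟩ 0 0) (.pos 46 .mp ⟨⟨615566649, 0, 0, 0, 0, 306261712, 0, 0, 0, ⟨0, 0⟩, 0⟩, 0, 0⟩ 0 0)) (.cut .s 14217216 (.pos 46 .mp ⟨⟨625780732, 0, 0, 0, 0, 311622155, 0, 0, 0, ⟨0, 0⟩, 0⟩, 0, 0⟩ 0 0) (.pos 46 .mp ⟨⟨636201093, 0, 0, 0, 0, 317295124, 0, 0, 0, ⟨0, 0⟩, 0⟩, 0, 0⟩ 0 0))))))) (.pos 42 .mp ⟨⟨799360328, 0, 0, 0, 0, 0, 0, 0, 0, ⟨0, 0⟩, 0⟩, 0, 0⟩ 0 0))) (.cut .s 14196736 (.cut .v 16842752 (.cut .s 14176256 (.cut .l 167772 (.cut .v 16809984 (.cut .d (-4096) (.pos 45 .mp ⟨⟨603638174, 0, 0, 0, 0, 311374514, 0, 0, 0, ⟨0, 0⟩, 0⟩, 0, 0⟩ 0 0)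 (.cut .l 83886 (.cut .d (-2048) (.pos 45 .mp ⟨⟨604881700, 0, 0, 0, 0, 312745912, 0, 0, 0, ⟨0, 0⟩, 0⟩, 0, 0⟩ 0 0) (.cut .v 16793600 (.cut .l 41943 (.cut .d (-1024) (.pos 55 .mp ⟨⟨604406722, 0, 0, 0, 0, 311955267, 0, 0, 0, ⟨0, 0⟩, 0⟩, 0, 0⟩ 0 0) (.cut .v 16785408 (.cut .l 20971 (.cut .d (-512) (.pos 63 .mp ⟨⟨604169992, 0, 0, 0, 0, 311559002, 0, 0, 0, ⟨0, 0⟩, 0⟩, 0, 0⟩ 0 0) (.cut .v 16781312 (.cut .l 10485 (.cut .s 14166016 (.cut .s 14160896 (.pos 100 .mp ⟨⟨612725064, 0, 0, 0, 0, 267112255, 0, 0, 0, ⟨0, 0⟩, 0⟩, 0, 0⟩ 0 0) (.pos 100 .mp ⟨⟨614843834, 0, 0, 0, 0, 268939640, 0, 0, 0, ⟨0, 0⟩, 0⟩, 0, 0⟩ 0 0)) (.cut .s 14171136 (.pos 100 .mp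 ⟨⟨616988443, 0, 0, 0, 0, 270761618, 0, 0, 0, ⟨0, 0⟩, 0⟩, 0, 0⟩ 0 0) (.pos 100 .mp ⟨⟨619159330, 0, 0, 0, 0, 272577461, 0, 0, 0, ⟨0, 0⟩, 0⟩, 0, 0⟩ 0 0))) (.pos 100 .mp ⟨⟨614324547, 0, 0, 0, 0, 262354578, 0, 0, 0, ⟨0, 0⟩, 0⟩, 0, 0⟩ 0 0)) (.pos 101 .mp ⟨⟨753153942, 0, 0, 0, 0, 0, 0, 0, 0, ⟨0, 0⟩, 0⟩, 0, 0⟩ 0 0))) (.pos 63 .mp ⟨⟨614843007, 0, 0, 0, 0, 261617596, 0, 0, 0, ⟨0, 0⟩, 0⟩, 0, 0⟩ 0 0)) (.pos 64 .mp ⟨⟨753381659, 0, 0, 0, 0, 0, 0, 0, 0, ⟨0, 0⟩, 0⟩, 0, 0⟩ 0 0))) (.pos 55 .mp ⟨⟨615880754, 0, 0, 0, 0, 260143496, 0, 0, 0, ⟨0, 0⟩, 0⟩, 0, 0⟩ 0 0)) (.pos 56 .mp ⟨⟨753828991, 0, 0, 0, 0, 0, 0, 0, 0, ⟨0, 0⟩, 0⟩, 0, 0⟩ 0 0))) (.pos 45 .mp ⟨⟨617959618,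 0, 0, 0, 0, 257190710, 0, 0, 0, ⟨0, 0⟩, 0⟩, 0, 0⟩ 0 0))) (.pos 46 .mp ⟨⟨774583356, 0, 0, 0, 0, 0, 0, 0, 0, ⟨0, 0⟩, 0⟩, 0, 0⟩ 0 0)) (.cut .s 14166016 (.pos 41 .mp ⟨⟨617045397, 0, 0, 0, 0, 257027117, 0, 0, 0, ⟨0, 0⟩, 0⟩, 0, 0⟩ 0 0) (.pos 41 .mp ⟨⟨622128767, 0, 0, 0, 0, 259529295, 0, 0, 0, ⟨0, 0⟩, 0⟩, 0, 0⟩ 0 0))) (.cut .l 167772 (.cut .v 16809984 (.cut .d (-4096) (.pos 45 .mp ⟨⟨613563070, 0, 0, 0, 0, 316366083, 0, 0, 0, ⟨0, 0⟩, 0⟩, 0, 0⟩ 0 0) (.cut .s 14186496 (.cut .s 14181376 (.pos 45 .mp ⟨⟨624912545, 0, 0, 0, 0, 268095180, 0, 0, 0, ⟨0, 0⟩, 0⟩, 0, 0⟩ 0 0) (.pos 45 .mp ⟨⟨627472939, 0, 0, 0, 0, 269258967, 0, 0, 0, ⟨0, 0⟩, 0⟩, 0, 0⟩ 0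 0)) (.cut .s 14191616 (.pos 45 .mp ⟨⟨630046234, 0, 0, 0, 0, 270442226, 0, 0, 0, ⟨0, 0⟩, 0⟩, 0, 0⟩ 0 0) (.cut .s 14194176 (.pos 45 .mp ⟨⟨631679961, 0, 0, 0, 0, 272380420, 0, 0, 0, ⟨0, 0⟩, 0⟩, 0, 0⟩ 0 0) (.pos 45 .mp ⟨⟨632822466, 0, 0, 0, 0, 273269441, 0, 0, 0, ⟨0, 0⟩, 0⟩, 0, 0⟩ 0 0))))) (.pos 46 .mp ⟨⟨787646466, 0, 0, 0, 0, 0, 0, 0, 0, ⟨0, 0⟩, 0⟩, 0, 0⟩ 0 0)) (.cut .s 14186496 (.pos 41 .mp ⟨⟨627263438, 0, 0, 0, 0, 262073616, 0, 0, 0, ⟨0, 0⟩, 0⟩, 0, 0⟩ 0 0) (.pos 41 .mp ⟨⟨632450010, 0, 0, 0, 0, 264658573, 0, 0, 0, ⟨0, 0⟩, 0⟩, 0, 0⟩ 0 0)))) (.pos 42 .mp ⟨⟨766741053, 0, 0, 0, 0, 0, 0, 0, 0, ⟨0, 0⟩, 0⟩, 0, 0⟩ 0 0)) (.cut .v 16842752 (.cut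 .s 14217216 (.cut .s 14206976 (.cut .l 167772 (.cut .d (-4096) (.pos 41 .mp ⟨⟨625955910, 0, 0, 0, 0, 311895100, 0, 0, 0, ⟨0, 0⟩, 0⟩, 0, 0⟩ 0 0) (.cut .v 16809984 (.cut .l 83886 (.cut .d (-2048) (.pos 45 .mp ⟨⟨624913510, 0, 0, 0, 0, 310415854, 0, 0, 0, ⟨0, 0⟩, 0⟩, 0, 0⟩ 0 0) (.cut .s 14201856 (.pos 45 .mp ⟨⟨631860933, 0, 0, 0, 0, 279094857, 0, 0, 0, ⟨0, 0⟩, 0⟩, 0, 0⟩ 0 0) (.pos 45 .mp ⟨⟨634549471, 0, 0, 0, 0, 280146368, 0, 0, 0, ⟨0, 0⟩, 0⟩, 0, 0⟩ 0 0))) (.pos 45 .mp ⟨⟨633330735, 0, 0, 0, 0, 273497976, 0, 0, 0, ⟨0, 0⟩, 0⟩, 0, 0⟩ 0 0)) (.pos 46 .mp ⟨⟨774129365, 0, 0, 0, 0, 0, 0, 0, 0, ⟨0, 0⟩, 0⟩, 0, 0⟩ 0 0))) (.pos 41 .mp ⟨⟨637689092,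 0, 0, 0, 0, 267282641, 0, 0, 0, ⟨0, 0⟩, 0⟩, 0, 0⟩ 0 0)) (.cut .l 167772 (.cut .d (-4096) (.pos 41 .mp ⟨⟨631112648, 0, 0, 0, 0, 314619022, 0, 0, 0, ⟨0, 0⟩, 0⟩, 0, 0⟩ 0 0) (.cut .v 16809984 (.cut .l 83886 (.cut .d (-2048) (.pos 45 .mp ⟨⟨630047560, 0, 0, 0, 0, 313155865, 0, 0, 0, ⟨0, 0⟩, 0⟩, 0, 0⟩ 0 0) (.cut .s 14212096 (.pos 45 .mp ⟨⟨637162670, 0, 0, 0, 0, 281426730, 0, 0, 0, ⟨0, 0⟩, 0⟩, 0, 0⟩ 0 0) (.pos 45 .mp ⟨⟨639780647, 0, 0, 0, 0, 282746528, 0, 0, 0, ⟨0, 0⟩, 0⟩, 0, 0⟩ 0 0))) (.pos 45 .mp ⟨⟨638558145, 0, 0, 0, 0, 276261117, 0, 0, 0, ⟨0, 0⟩, 0⟩, 0, 0⟩ 0 0)) (.pos 46 .mp ⟨⟨780489994, 0, 0, 0, 0, 0, 0, 0, 0, ⟨0, 0⟩, 0⟩, 0, 0⟩ 0 0)))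 (.cut .s 14212096 (.pos 41 .mp ⟨⟨640328518, 0, 0, 0, 0, 272968621, 0, 0, 0, ⟨0, 0⟩, 0⟩, 0, 0⟩ 0 0) (.pos 41 .mp ⟨⟨642981304, 0, 0, 0, 0, 274330202, 0, 0, 0, ⟨0, 0⟩, 0⟩, 0, 0⟩ 0 0)))) (.cut .s 14227456 (.cut .l 167772 (.cut .d (-4096) (.pos 41 .mp ⟨⟨636321256, 0, 0, 0, 0, 317454184, 0, 0, 0, ⟨0, 0⟩, 0⟩, 0, 0⟩ 0 0) (.cut .v 16809984 (.cut .l 83886 (.cut .d (-2048) (.pos 45 .mp ⟨⟨635233239, 0, 0, 0, 0, 316007177, 0, 0, 0, ⟨0, 0⟩, 0⟩, 0, 0⟩ 0 0) (.cut .s 14222336 (.pos 45 .mp ⟨⟨642411829, 0, 0, 0, 0, 284085993, 0, 0, 0, ⟨0, 0⟩, 0⟩, 0, 0⟩ 0 0) (.pos 45 .mp ⟨⟨645056292, 0, 0, 0, 0, 285445107, 0, 0, 0, ⟨0, 0⟩, 0⟩, 0, 0⟩ 0 0))) (.pos 45 .mp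 ⟨⟨643838430, 0, 0, 0, 0, 279061740, 0, 0, 0, ⟨0, 0⟩, 0⟩, 0, 0⟩ 0 0)) (.pos 46 .mp ⟨⟨786954457, 0, 0, 0, 0, 0, 0, 0, 0, ⟨0, 0⟩, 0⟩, 0, 0⟩ 0 0))) (.cut .s 14222336 (.pos 41 .mp ⟨⟨645647529, 0, 0, 0, 0, 275700817, 0, 0, 0, ⟨0, 0⟩, 0⟩, 0, 0⟩ 0 0) (.pos 41 .mp ⟨⟨648327273, 0, 0, 0, 0, 277080266, 0, 0, 0, ⟨0, 0⟩, 0⟩, 0, 0⟩ 0 0))) (.cut .l 167772 (.cut .d (-4096) (.pos 41 .mp ⟨⟨641582350, 0, 0, 0, 0, 320401998, 0, 0, 0, ⟨0, 0⟩, 0⟩, 0, 0⟩ 0 0) (.cut .l 83886 (.cut .d (-2048) (.pos 41 .mp ⟨⟨649162582, 0, 0, 0, 0, 298727798, 0, 0, 0, ⟨0, 0⟩, 0⟩, 0, 0⟩ 0 0) (.cut .v 16809984 (.cut .s 14232576 (.pos 45 .mp ⟨⟨647714115, 0, 0, 0, 0, 286823850, 0,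 0, 0, ⟨0, 0⟩, 0⟩, 0, 0⟩ 0 0) (.cut .s 14235136 (.pos 45 .mp ⟨⟨648433030, 0, 0, 0, 0, 291061389, 0, 0, 0, ⟨0, 0⟩, 0⟩, 0, 0⟩ 0 0) (.pos 45 .mp ⟨⟨649726148, 0, 0, 0, 0, 291848825, 0, 0, 0, ⟨0, 0⟩, 0⟩, 0, 0⟩ 0 0))) (.pos 46 .mp ⟨⟨815385419, 0, 0, 0, 0, 0, 0, 0, 0, ⟨0, 0⟩, 0⟩, 0, 0⟩ 0 0))) (.pos 41 .mp ⟨⟨651521150, 0, 0, 0, 0, 277911422, 0, 0, 0, ⟨0, 0⟩, 0⟩, 0, 0⟩ 0 0))) (.cut .s 14232576 (.pos 41 .mp ⟨⟨651020617, 0, 0, 0, 0, 278468351, 0, 0, 0, ⟨0, 0⟩, 0⟩, 0, 0⟩ 0 0) (.pos 41 .mp ⟨⟨653727641, 0, 0, 0, 0, 279864873, 0, 0, 0, ⟨0, 0⟩, 0⟩, 0, 0⟩ 0 0))))) (.pos 42 .mp ⟨⟨792156333, 0, 0, 0, 0, 0, 0, 0, 0, ⟨0, 0⟩, 0⟩, 0, 0⟩ 0 0)))) (.pos 36 .mp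 ⟨⟨804542331, 0, 0, 0, 0, 0, 0, 0, 0, ⟨0, 0⟩, 0⟩, 0, 0⟩ 0 0)) (.cut .v 16908288 (.cut .d (-8192) (.cut .l 167772 (.void 35 ⟨⟨0, 0, 0, 0, 0, 100000, 0, 0, 0, ⟨0, 0⟩, 0⟩, 0, 0⟩ 0 0) (.cut .d (-12288) (.void 35 ⟨⟨0, 0, 0, 0, 0, 100000, 0, 0, 0, ⟨0, 0⟩, 0⟩, 0, 0⟩ 0 0) (.cut .v 16842752 (.cut .l 251658 (.void 41 ⟨⟨0, 0, 0, 0, 0, 100000, 0, 0, 0, ⟨0, 0⟩, 0⟩, 0, 0⟩ 0 0) (.cut .d (-10240) (.pos 41 .mp ⟨⟨647904173, 0, 0, 0, 0, 408637002, 0, 0, 0, ⟨0, 0⟩, 0⟩, 0, 0⟩ 0 0) (.cut .v 16809984 (.pos 45 .mp ⟨⟨0, 0, 0, 0, 0, 1646601839, 0, 0, 0, ⟨0, 0⟩, 0⟩, 0, 0⟩ 0 0) (.cut .s 14278656 (.cut .s 14258176 (.pos 46 .mp ⟨⟨646832636, 0, 0, 0, 0, 323279362,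 0, 0, 0, ⟨0, 0⟩, 0⟩, 0, 0⟩ 0 0) (.pos 46 .mp ⟨⟨657680426, 0, 0, 0, 0, 329573417, 0, 0, 0, ⟨0, 0⟩, 0⟩, 0, 0⟩ 0 0)) (.cut .s 14299136 (.pos 46 .mp ⟨⟨668749695, 0, 0, 0, 0, 336175627, 0, 0, 0, ⟨0, 0⟩, 0⟩, 0, 0⟩ 0 0) (.pos 46 .mp ⟨⟨680045846, 0, 0, 0, 0, 343084110, 0, 0, 0, ⟨0, 0⟩, 0⟩, 0, 0⟩ 0 0)))))) (.pos 42 .mp ⟨⟨853672025, 0, 0, 0, 0, 0, 0, 0, 0, ⟨0, 0⟩, 0⟩, 0, 0⟩ 0 0)))) (.cut .s 14278656 (.cut .v 16842752 (.cut .s 14258176 (.cut .s 14247936 (.cut .l 167772 (.cut .d (-4096) (.pos 41 .mp ⟨⟨646896553, 0, 0, 0, 0, 323463893, 0, 0, 0, ⟨0, 0⟩, 0⟩, 0, 0⟩ 0 0) (.cut .l 83886 (.cut .d (-2048) (.pos 41 .mp ⟨⟨654434372, 0, 0, 0, 0, 301968360,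 0, 0, 0, ⟨0, 0⟩, 0⟩, 0, 0⟩ 0 0) (.cut .v 16809984 (.cut .v 16793600 (.cut .s 14242816 (.pos 55 .mp ⟨⟨651891882, 0, 0, 0, 0, 291890925, 0, 0, 0, ⟨0, 0⟩, 0⟩, 0, 0⟩ 0 0) (.pos 55 .mp ⟨⟨654585529, 0, 0, 0, 0, 293337929, 0, 0, 0, ⟨0, 0⟩, 0⟩, 0, 0⟩ 0 0)) (.pos 56 .mp ⟨⟨799259669, 0, 0, 0, 0, 0, 0, 0, 0, ⟨0, 0⟩, 0⟩, 0, 0⟩ 0 0)) (.pos 46 .mp ⟨⟨822342465, 0, 0, 0, 0, 0, 0, 0, 0, ⟨0, 0⟩, 0⟩, 0, 0⟩ 0 0))) (.pos 41 .mp ⟨⟨656928017, 0, 0, 0, 0, 280747270, 0, 0, 0, ⟨0, 0⟩, 0⟩, 0, 0⟩ 0 0))) (.cut .s 14242816 (.pos 41 .mp ⟨⟨656448426, 0, 0, 0, 0, 281269631, 0, 0, 0, ⟨0, 0⟩, 0⟩, 0, 0⟩ 0 0) (.pos 41 .mp ⟨⟨659183054, 0, 0, 0, 0, 282682422, 0, 0, 0, ⟨0,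 0⟩, 0⟩, 0, 0⟩ 0 0))) (.cut .l 167772 (.cut .d (-4096) (.pos 41 .mp ⟨⟨652264500, 0, 0, 0, 0, 326641324, 0, 0, 0, ⟨0, 0⟩, 0⟩, 0, 0⟩ 0 0) (.cut .l 83886 (.cut .d (-2048) (.pos 41 .mp ⟨⟨659800493, 0, 0, 0, 0, 305175674, 0, 0, 0, ⟨0, 0⟩, 0⟩, 0, 0⟩ 0 0) (.cut .v 16809984 (.cut .v 16793600 (.cut .s 14253056 (.pos 55 .mp ⟨⟨657292834, 0, 0, 0, 0, 294804526, 0, 0, 0, ⟨0, 0⟩, 0⟩, 0, 0⟩ 0 0) (.pos 55 .mp ⟨⟨660013880, 0, 0, 0, 0, 296290690, 0, 0, 0, ⟨0, 0⟩, 0⟩, 0, 0⟩ 0 0)) (.pos 56 .mp ⟨⟨806034910, 0, 0, 0, 0, 0, 0, 0, 0, ⟨0, 0⟩, 0⟩, 0, 0⟩ 0 0)) (.pos 46 .mp ⟨⟨829371806, 0, 0, 0, 0, 0, 0, 0, 0, ⟨0, 0⟩, 0⟩, 0, 0⟩ 0 0))) (.pos 41 .mp ⟨⟨662389869,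 0, 0, 0, 0, 283615482, 0, 0, 0, ⟨0, 0⟩, 0⟩, 0, 0⟩ 0 0))) (.cut .s 14253056 (.pos 41 .mp ⟨⟨661931610, 0, 0, 0, 0, 284103043, 0, 0, 0, ⟨0, 0⟩, 0⟩, 0, 0⟩ 0 0) (.pos 41 .mp ⟨⟨664694175, 0, 0, 0, 0, 285531289, 0, 0, 0, ⟨0, 0⟩, 0⟩, 0, 0⟩ 0 0)))) (.cut .s 14268416 (.cut .l 167772 (.cut .d (-4096) (.pos 41 .mp ⟨⟨657686836, 0, 0, 0, 0, 329935770, 0, 0, 0, ⟨0, 0⟩, 0⟩, 0, 0⟩ 0 0) (.cut .l 83886 (.cut .d (-2048) (.pos 41 .mp ⟨⟨665263086, 0, 0, 0, 0, 308345453, 0, 0, 0, ⟨0, 0⟩, 0⟩, 0, 0⟩ 0 0) (.cut .v 16809984 (.cut .v 16793600 (.cut .s 14263296 (.pos 55 .mp ⟨⟨662748748, 0, 0, 0, 0, 297796400, 0, 0, 0, ⟨0, 0⟩, 0⟩, 0, 0⟩ 0 0) (.pos 55 .mp ⟨⟨665497523,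 0, 0, 0, 0, 299321629, 0, 0, 0, ⟨0, 0⟩, 0⟩, 0, 0⟩ 0 0)) (.pos 56 .mp ⟨⟨812918768, 0, 0, 0, 0, 0, 0, 0, 0, ⟨0, 0⟩, 0⟩, 0, 0⟩ 0 0)) (.pos 46 .mp ⟨⟨836473108, 0, 0, 0, 0, 0, 0, 0, 0, ⟨0, 0⟩, 0⟩, 0, 0⟩ 0 0))) (.pos 41 .mp ⟨⟨667907367, 0, 0, 0, 0, 286514432, 0, 0, 0, ⟨0, 0⟩, 0⟩, 0, 0⟩ 0 0))) (.cut .s 14263296 (.pos 41 .mp ⟨⟨667470835, 0, 0, 0, 0, 286966953, 0, 0, 0, ⟨0, 0⟩, 0⟩, 0, 0⟩ 0 0) (.pos 41 .mp ⟨⟨670261673, 0, 0, 0, 0, 288409828, 0, 0, 0, ⟨0, 0⟩, 0⟩, 0, 0⟩ 0 0))) (.cut .l 167772 (.cut .d (-4096) (.pos 41 .mp ⟨⟨663164216, 0, 0, 0, 0, 333348732, 0, 0, 0, ⟨0, 0⟩, 0⟩, 0, 0⟩ 0 0) (.cut .l 83886 (.cut .d (-2048) (.pos 41 .mp ⟨⟨670824322,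 0, 0, 0, 0, 311473346, 0, 0, 0, ⟨0, 0⟩, 0⟩, 0, 0⟩ 0 0) (.cut .v 16809984 (.cut .v 16793600 (.cut .s 14273536 (.pos 55 .mp ⟨⟨668260288, 0, 0, 0, 0, 300866352, 0, 0, 0, ⟨0, 0⟩, 0⟩, 0, 0⟩ 0 0) (.pos 55 .mp ⟨⟨671037128, 0, 0, 0, 0, 302430542, 0, 0, 0, ⟨0, 0⟩, 0⟩, 0, 0⟩ 0 0)) (.pos 56 .mp ⟨⟨819912520, 0, 0, 0, 0, 0, 0, 0, 0, ⟨0, 0⟩, 0⟩, 0, 0⟩ 0 0)) (.pos 46 .mp ⟨⟨843646041, 0, 0, 0, 0, 0, 0, 0, 0, ⟨0, 0⟩, 0⟩, 0, 0⟩ 0 0))) (.pos 41 .mp ⟨⟨673481185, 0, 0, 0, 0, 289442474, 0, 0, 0, ⟨0, 0⟩, 0⟩, 0, 0⟩ 0 0))) (.cut .s 14273536 (.pos 41 .mp ⟨⟨673066777, 0, 0, 0, 0, 289859706, 0, 0, 0, ⟨0, 0⟩, 0⟩, 0, 0⟩ 0 0) (.pos 41 .mp ⟨⟨675886231, 0, 0, 0, 0,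 291316376, 0, 0, 0, ⟨0, 0⟩, 0⟩, 0, 0⟩ 0 0))))) (.pos 42 .mp ⟨⟨819245490, 0, 0, 0, 0, 0, 0, 0, 0, ⟨0, 0⟩, 0⟩, 0, 0⟩ 0 0)) (.cut .v 16842752 (.cut .s 14299136 (.cut .s 14288896 (.cut .l 167772 (.cut .d (-4096) (.pos 41 .mp ⟨⟨668697306, 0, 0, 0, 0, 336881737, 0, 0, 0, ⟨0, 0⟩, 0⟩, 0, 0⟩ 0 0) (.cut .l 83886 (.cut .d (-2048) (.pos 41 .mp ⟨⟨676486403, 0, 0, 0, 0, 314554943, 0, 0, 0, ⟨0, 0⟩, 0⟩, 0, 0⟩ 0 0) (.cut .v 16809984 (.cut .v 16793600 (.cut .s 14283776 (.pos 55 .mp ⟨⟨673828128, 0, 0, 0, 0, 304014173, 0, 0, 0, ⟨0, 0⟩, 0⟩, 0, 0⟩ 0 0) (.pos 55 .mp ⟨⟨676633374, 0, 0, 0, 0, 305617214, 0, 0, 0, ⟨0, 0⟩, 0⟩, 0, 0⟩ 0 0)) (.pos 56 .mp ⟨⟨827017463,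 0, 0, 0, 0, 0, 0, 0, 0, ⟨0, 0⟩, 0⟩, 0, 0⟩ 0 0)) (.pos 46 .mp ⟨⟨850890273, 0, 0, 0, 0, 0, 0, 0, 0, ⟨0, 0⟩, 0⟩, 0, 0⟩ 0 0))) (.pos 41 .mp ⟨⟨679112008, 0, 0, 0, 0, 292397939, 0, 0, 0, ⟨0, 0⟩, 0⟩, 0, 0⟩ 0 0))) (.cut .s 14283776 (.pos 41 .mp ⟨⟨678720124, 0, 0, 0, 0, 292779627, 0, 0, 0, ⟨0, 0⟩, 0⟩, 0, 0⟩ 0 0) (.pos 41 .mp ⟨⟨681568542, 0, 0, 0, 0, 294249245, 0, 0, 0, ⟨0, 0⟩, 0⟩, 0, 0⟩ 0 0))) (.cut .l 167772 (.cut .d (-4096) (.pos 41 .mp ⟨⟨674286783, 0, 0, 0, 0, 340536337, 0, 0, 0, ⟨0, 0⟩, 0⟩, 0, 0⟩ 0 0) (.cut .l 83886 (.cut .d (-2048) (.pos 41 .mp ⟨⟨682251565, 0, 0, 0, 0, 317585768, 0, 0, 0, ⟨0, 0⟩, 0⟩, 0, 0⟩ 0 0) (.cut .v 16809984 (.cut .v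 16793600 (.cut .s 14294016 (.pos 55 .mp ⟨⟨679452954, 0, 0, 0, 0, 307239638, 0, 0, 0, ⟨0, 0⟩, 0⟩, 0, 0⟩ 0 0) (.pos 55 .mp ⟨⟨682286953, 0, 0, 0, 0, 308881414, 0, 0, 0, ⟨0, 0⟩, 0⟩, 0, 0⟩ 0 0)) (.pos 56 .mp ⟨⟨834234917, 0, 0, 0, 0, 0, 0, 0, 0, ⟨0, 0⟩, 0⟩, 0, 0⟩ 0 0)) (.pos 46 .mp ⟨⟨858205477, 0, 0, 0, 0, 0, 0, 0, 0, ⟨0, 0⟩, 0⟩, 0, 0⟩ 0 0))) (.pos 41 .mp ⟨⟨684800530, 0, 0, 0, 0, 295379137, 0, 0, 0, ⟨0, 0⟩, 0⟩, 0, 0⟩ 0 0))) (.cut .s 14294016 (.pos 41 .mp ⟨⟨684431574, 0, 0, 0, 0, 295725016, 0, 0, 0, ⟨0, 0⟩, 0⟩, 0, 0⟩ 0 0) (.pos 41 .mp ⟨⟨687309310, 0, 0, 0, 0, 297206725, 0, 0, 0, ⟨0, 0⟩, 0⟩, 0, 0⟩ 0 0)))) (.cut .s 14309376 (.cut .l 167772 (.cut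 .d (-4096) (.pos 41 .mp ⟨⟨679933335, 0, 0, 0, 0, 344314109, 0, 0, 0, ⟨0, 0⟩, 0⟩, 0, 0⟩ 0 0) (.cut .l 83886 (.cut .d (-2048) (.pos 41 .mp ⟨⟨688122071, 0, 0, 0, 0, 320561282, 0, 0, 0, ⟨0, 0⟩, 0⟩, 0, 0⟩ 0 0) (.cut .v 16809984 (.cut .s 14304256 (.pos 45 .mp ⟨⟨686372208, 0, 0, 0, 0, 308174438, 0, 0, 0, ⟨0, 0⟩, 0⟩, 0, 0⟩ 0 0) (.pos 45 .mp ⟨⟨689240349, 0, 0, 0, 0, 309844718, 0, 0, 0, ⟨0, 0⟩, 0⟩, 0, 0⟩ 0 0)) (.pos 46 .mp ⟨⟨865591325, 0, 0, 0, 0, 0, 0, 0, 0, ⟨0, 0⟩, 0⟩, 0, 0⟩ 0 0))) (.pos 41 .mp ⟨⟨690547459, 0, 0, 0, 0, 298384354, 0, 0, 0, ⟨0, 0⟩, 0⟩, 0, 0⟩ 0 0))) (.cut .s 14304256 (.pos 41 .mp ⟨⟨690201838, 0, 0, 0, 0, 298694154, 0, 0, 0, ⟨0,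 0⟩, 0⟩, 0, 0⟩ 0 0) (.pos 41 .mp ⟨⟨693109251, 0, 0, 0, 0, 300187085, 0, 0, 0, ⟨0, 0⟩, 0⟩, 0, 0⟩ 0 0))) (.cut .l 167772 (.cut .d (-4096) (.pos 41 .mp ⟨⟨685637662, 0, 0, 0, 0, 348216657, 0, 0, 0, ⟨0, 0⟩, 0⟩, 0, 0⟩ 0 0) (.cut .l 83886 (.cut .d (-2048) (.pos 41 .mp ⟨⟨694100222, 0, 0, 0, 0, 323476878, 0, 0, 0, ⟨0, 0⟩, 0⟩, 0, 0⟩ 0 0) (.cut .v 16809984 (.cut .s 14314496 (.pos 45 .mp ⟨⟨692123202, 0, 0, 0, 0, 311534202, 0, 0, 0, ⟨0, 0⟩, 0⟩, 0, 0⟩ 0 0) (.pos 45 .mp ⟨⟨695020859, 0, 0, 0, 0, 313242855, 0, 0, 0, ⟨0, 0⟩, 0⟩, 0, 0⟩ 0 0)) (.pos 46 .mp ⟨⟨873047492, 0, 0, 0, 0, 0, 0, 0, 0, ⟨0, 0⟩, 0⟩, 0, 0⟩ 0 0))) (.pos 41 .mp ⟨⟨696353514, 0, 0, 0, 0,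 301411857, 0, 0, 0, ⟨0, 0⟩, 0⟩, 0, 0⟩ 0 0))) (.cut .s 14314496 (.pos 41 .mp ⟨⟨696031639, 0, 0, 0, 0, 301685298, 0, 0, 0, ⟨0, 0⟩, 0⟩, 0, 0⟩ 0 0) (.pos 41 .mp ⟨⟨698969094, 0, 0, 0, 0, 303188571, 0, 0, 0, ⟨0, 0⟩, 0⟩, 0, 0⟩ 0 0))))) (.pos 42 .mp ⟨⟨848087343, 0, 0, 0, 0, 0, 0, 0, 0, ⟨0, 0⟩, 0⟩, 0, 0⟩ 0 0)))) (.pos 36 .mp ⟨⟨860277300, 0, 0, 0, 0, 0, 0, 0, 0, ⟨0, 0⟩, 0⟩, 0, 0⟩ 0 0))))))) (.pos 32 .mp ⟨⟨957396282, 0, 0, 0, 0, 0, 0, 0, 0, ⟨0, 0⟩, 0⟩, 0, 0⟩ 0 0))) (.void 30 ⟨⟨100000, 0, 0, 0, 0, 0, 0, 0, 0, ⟨0, 0⟩, 0⟩, 0, 0⟩ 0 0)) (.void 28 ⟨⟨100000, 0, 0, 0, 0, 0, 0, 0, 0, ⟨0, 0⟩, 0⟩, 0, 0⟩ 0 0)))) (.void 26 ⟨⟨100000, 0, 0, 0, 0, 0, 0, 0, 0,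 ⟨0, 0⟩, 0⟩, 0, 0⟩ 0 0))) (.void 24 ⟨⟨100000, 0, 0, 0, 0, 0, 0, 0, 0, ⟨0, 0⟩, 0⟩, 0, 0⟩ 0 0))) (.void 22 ⟨⟨100000, 0, 0, 0, 0, 0, 0, 0, 0, ⟨0, 0⟩, 0⟩, 0, 0⟩ 0 0))) (.void 79 ⟨⟨100000, 0, 0, 0, 0, 0, 0, 0, 0, ⟨0, 0⟩, 0⟩, 0, 0⟩ 0 0)) (.void 88 ⟨⟨99898, 0, 0, 0, 0, 0, 0, 0, 0, ⟨0, 0⟩, 0⟩, 0, 0⟩ 0 0)) (.void 97 ⟨⟨92641, 0, 0, 6561, 0, 0, 40, 0, 0, ⟨0, 0⟩, 0⟩, 0, 0⟩ 0 0))) (.cut .v 16777216 (.cut .v 8388608 (.cut .v 4194304 (.cut .v 2097152 (.cut .v 1048576 (.pos 93 .pm ⟨⟨0, 0, 25316830, 0, 0, 0, 0, 0, 0, ⟨0, 0⟩, 0⟩, 0, 3729⟩ 0 0) (.pos 94 .pm ⟨⟨0, 0, 29525286, 0, 0, 0, 0, 0, 0, ⟨0, 0⟩, 0⟩, 0, 10747⟩ 0 0)) (.pos 90 .pm ⟨⟨0, 0, 40062242, 0,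 0, 0, 0, 0, 0, ⟨0, 0⟩, 0⟩, 0, 20300⟩ 0 0)) (.pos 5 .pm ⟨⟨0, 0, 102192479, 0, 0, 0, 0, 0, 0, ⟨0, 0⟩, 0⟩, 0, 45609⟩ 0 0)) (.pos 3 .pm ⟨⟨0, 0, 0, 0, 0, 0, 0, 0, 0, ⟨0, 0⟩, 0⟩, 0, 0⟩ 0 0)) (.cut .v 268435456 (.cut .v 67108864 (.cut .d 1553447 (.cut .v 33554432 (.cut .d 776723 (.cut .v 25165824 (.cut .d 388361 (.cut .v 20971520 (.cut .d 194180 (.cut .v 18874368 (.cut .d 97090 (.cut .v 17825792 (.cut .s 14237696 (.pos 27 .pp ⟨⟨652353571, 0, 0, 0, 0, 0, 0, 0, 0, ⟨0, 0⟩, 0⟩, 14263823, 0⟩ 0 0) (.pos 27 .pp ⟨⟨691632810, 0, 0, 0, 0, 0, 0, 0, 0, ⟨0, 0⟩, 0⟩, 16186873, 0⟩ 0 0)) (.pos 28 .pp ⟨⟨873846587, 0, 0, 0, 0, 0, 0, 0, 0, ⟨0, 0⟩, 0⟩, 0, 0⟩ 0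 0)) (.pos 25 .pp ⟨⟨0, 0, 0, 0, 0, 0, 0, 0, 0, ⟨0, 0⟩, 0⟩, 0, 120730⟩ 0 0)) (.cut .d 97090 (.pos 26 .pp ⟨⟨1068682134, 0, 0, 0, 0, 0, 0, 0, 0, ⟨0, 0⟩, 0⟩, 0, 0⟩ 0 0) (.pos 26 .pp ⟨⟨885683124, 0, 0, 0, 0, 0, 0, 0, 0, ⟨0, 0⟩, 0⟩, 0, 0⟩ 0 0))) (.pos 23 .pp ⟨⟨0, 0, 0, 0, 0, 0, 0, 0, 0, ⟨0, 0⟩, 0⟩, 0, 126692⟩ 0 0)) (.cut .d 194180 (.cut .v 23068672 (.cut .v 22020096 (.pos 57 .pp ⟨⟨1154833118, 0, 0, 0, 0, 0, 0, 0, 0, ⟨0, 0⟩, 0⟩, 0, 0⟩ 0 0) (.pos 58 .pp ⟨⟨0, 0, 0, 0, 0, 0, 0, 0, 0, ⟨0, 0⟩, 0⟩, 182604850, 0⟩ 0 0)) (.pos 54 .pp ⟨⟨0, 0, 0, 0, 0, 0, 0, 0, 0, ⟨0, 0⟩, 0⟩, 217126339, 0⟩ 0 0)) (.pos 24 .pp ⟨⟨0, 0, 0, 0, 0, 0, 28973, 0, 0, ⟨0, 0⟩, 0⟩,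 133761618, 0⟩ 0 0))) (.pos 21 .pp ⟨⟨0, 0, 0, 0, 0, 0, 0, 0, 0, ⟨0, 0⟩, 0⟩, 0, 136828⟩ 0 0)) (.cut .d 388361 (.cut .d 194180 (.void 22 ⟨⟨0, 0, 0, 0, 0, 0, 0, 0, 0, ⟨0, 0⟩, 0⟩, 100000, 0⟩ 0 0) (.pos 22 .pp ⟨⟨0, 0, 0, 0, 0, 0, 0, 0, 0, ⟨0, 0⟩, 0⟩, 201790636, 0⟩ 0 0)) (.pos 22 .pp ⟨⟨0, 0, 0, 0, 0, 0, 26035, 0, 0, ⟨0, 0⟩, 0⟩, 137563517, 0⟩ 0 0))) (.pos 20 .pp ⟨⟨0, 0, 0, 0, 0, 0, 456017, 0, 0, ⟨0, 0⟩, 0⟩, 0, 0⟩ 0 0)) (.cut .d 776723 (.pos 79 .pp ⟨⟨0, 0, 0, 0, 0, 0, 0, 0, 0, ⟨0, 0⟩, 0⟩, 424558011, 0⟩ 0 0) (.pos 79 .pp ⟨⟨0, 0, 0, 0, 0, 0, 0, 0, 0, ⟨0, 0⟩, 0⟩, 190539489, 0⟩ 0 0))) (.pos 78 .pp ⟨⟨0, 0, 0, 0, 0, 0, 0, 0, 0, ⟨0, 0⟩, 0⟩, 0, 114023⟩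 0 0)) (.void 88 ⟨⟨0, 0, 0, 48748, 0, 0, 0, 0, 0, ⟨0, 0⟩, 0⟩, 51252, 0⟩ 0 0)) (.void 97 ⟨⟨0, 0, 0, 0, 0, 0, 0, 0, 0, ⟨0, 0⟩, 0⟩, 100000, 0⟩ 0 0)))),
    by decide +kernel⟩

def covers28 : cell.Covers Vale.Agent.P237.Petty.Cor.Grid.N11.table row28.1 :=
  ⟨(.cut .d 0 (.cut .v 16777216 (.cut .v 8388608 (.void 2 ⟨⟨0, 0, 100000, 0, 0, 0, 0, 0, 0, ⟨0, 0⟩, 0⟩, 0, 0⟩ 0 0) (.cut .d (-8388608) (.void 3 ⟨⟨100000, 0, 0, 0, 0, 0, 0, 0, 0, ⟨0, 0⟩, 0⟩, 0, 0⟩ 0 0) (.cut .d (-4194304) (.void 3 ⟨⟨100000, 0, 0, 0, 0, 0, 0, 0, 0, ⟨0, 0⟩, 0⟩, 0, 0⟩ 0 0) (.cut .d (-2097152) (.void 3 ⟨⟨100000, 0, 0, 0, 0, 0, 0, 0, 0, ⟨0, 0⟩, 0⟩, 0, 0⟩ 0 0) (.cut .d (-1048576)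 (.void 3 ⟨⟨0, 0, 0, 0, 0, 100000, 0, 0, 0, ⟨0, 0⟩, 0⟩, 0, 0⟩ 0 0) (.cut .d (-524288) (.void 3 ⟨⟨0, 0, 0, 0, 0, 100000, 0, 0, 0, ⟨0, 0⟩, 0⟩, 0, 0⟩ 0 0) (.cut .d (-262144) (.void 3 ⟨⟨0, 0, 0, 0, 0, 100000, 0, 0, 0, ⟨0, 0⟩, 0⟩, 0, 0⟩ 0 0) (.cut .s 14401536 (.pos 3 .mm ⟨⟨0, 0, 0, 0, 0, 1701864411, 0, 0, 0, ⟨0, 0⟩, 0⟩, 0, 0⟩ 0 0) (.pos 3 .mm ⟨⟨0, 0, 0, 0, 0, 1838516679, 0, 0, 0, ⟨0, 0⟩, 0⟩, 0, 0⟩ 0 0))))))))) (.cut .v 268435456 (.cut .v 67108864 (.cut .v 33554432 (.cut .d (-8388608) (.void 20 ⟨⟨100019, 0, 0, 0, 0, 0, 0, 0, 0, ⟨0, 0⟩, 0⟩, 0, 0⟩ 0 0) (.cut .v 25165824 (.cut .d (-4194304) (.void 21 ⟨⟨100000, 0, 0, 0, 0, 0, 0, 0, 0, ⟨0, 0⟩,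 0⟩, 0, 0⟩ 0 0) (.cut .v 20971520 (.cut .d (-2097152) (.void 23 ⟨⟨100000, 0, 0, 0, 0, 0, 0, 0, 0, ⟨0, 0⟩, 0⟩, 0, 0⟩ 0 0) (.cut .d (-1048576) (.void 23 ⟨⟨100000, 0, 0, 0, 0, 0, 0, 0, 0, ⟨0, 0⟩, 0⟩, 0, 0⟩ 0 0) (.cut .v 18874368 (.cut .d (-524288) (.void 25 ⟨⟨100000, 0, 0, 0, 0, 0, 0, 0, 0, ⟨0, 0⟩, 0⟩, 0, 0⟩ 0 0) (.cut .v 17825792 (.cut .v 17301504 (.cut .d (-262144) (.void 29 ⟨⟨100000, 0, 0, 0, 0, 0, 0, 0, 0, ⟨0, 0⟩, 0⟩, 0, 0⟩ 0 0) (.cut .d (-131072) (.void 29 ⟨⟨100000, 0, 0, 0, 0, 0, 0, 0, 0, ⟨0, 0⟩, 0⟩, 0, 0⟩ 0 0) (.cut .v 17039360 (.cut .d (-65536) (.void 31 ⟨⟨100000, 0, 0, 0, 0, 0, 0, 0, 0, ⟨0, 0⟩, 0⟩, 0, 0⟩ 0 0) (.cut .d (-32768)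 (.void 31 ⟨⟨100000, 0, 0, 0, 0, 0, 0, 0, 0, ⟨0, 0⟩, 0⟩, 0, 0⟩ 0 0) (.cut .d (-16384) (.void 31 ⟨⟨100000, 0, 0, 0, 0, 0, 0, 0, 0, ⟨0, 0⟩, 0⟩, 0, 0⟩ 0 0) (.cut .s 14401536 (.cut .v 16908288 (.cut .d (-8192) (.cut .d (-12288) (.void 35 ⟨⟨0, 0, 0, 0, 0, 100000, 0, 0, 0, ⟨0, 0⟩, 0⟩, 0, 0⟩ 0 0) (.cut .v 16842752 (.cut .d (-10240) (.pos 41 .mp ⟨⟨692858992, 0, 0, 0, 0, 500585948, 0, 0, 0, ⟨0, 0⟩, 0⟩, 0, 0⟩ 0 0) (.cut .l 167772 (.void 41 ⟨⟨100000, 0, 0, 0, 0, 0, 0, 0, 0, ⟨0, 0⟩, 0⟩, 0, 0⟩ 0 0) (.cut .v 16809984 (.pos 45 .mp ⟨⟨0, 0, 0, 0, 0, 1836326312, 0, 0, 0, ⟨0, 0⟩, 0⟩, 0, 0⟩ 0 0) (.cut .l 251658 (.void 46 ⟨⟨0, 0, 0, 0, 0, 100000, 0, 0, 0,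 ⟨0, 0⟩, 0⟩, 0, 0⟩ 0 0) (.cut .v 16826368 (.pos 82 .mp ⟨⟨0, 0, 0, 0, 0, 1786583383, 0, 0, 0, ⟨0, 0⟩, 0⟩, 0, 0⟩ 0 0) (.cut .s 14360576 (.cut .s 14340096 (.pos 83 .mp ⟨⟨713566506, 0, 0, 0, 0, 307250435, 0, 0, 0, ⟨0, 0⟩, 0⟩, 0, 0⟩ 0 0) (.pos 83 .mp ⟨⟨725817356, 0, 0, 0, 0, 312830753, 0, 0, 0, ⟨0, 0⟩, 0⟩, 0, 0⟩ 0 0)) (.cut .s 14381056 (.pos 83 .mp ⟨⟨738332046, 0, 0, 0, 0, 318783417, 0, 0, 0, ⟨0, 0⟩, 0⟩, 0, 0⟩ 0 0) (.pos 83 .mp ⟨⟨751117290, 0, 0, 0, 0, 325105859, 0, 0, 0, ⟨0, 0⟩, 0⟩, 0, 0⟩ 0 0)))))))) (.pos 42 .mp ⟨⟨924520091, 0, 0, 0, 0, 0, 0, 0, 0, ⟨0, 0⟩, 0⟩, 0, 0⟩ 0 0))) (.cut .s 14360576 (.cut .v 16842752 (.cut .s 14340096 (.cut .s 14329856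 (.cut .l 167772 (.cut .d (-4096) (.pos 41 .mp ⟨⟨691703897, 0, 0, 0, 0, 351365089, 0, 0, 0, ⟨0, 0⟩, 0⟩, 0, 0⟩ 0 0) (.cut .l 83886 (.cut .d (-2048) (.pos 41 .mp ⟨⟨700169684, 0, 0, 0, 0, 326394311, 0, 0, 0, ⟨0, 0⟩, 0⟩, 0, 0⟩ 0 0) (.cut .v 16809984 (.cut .s 14324736 (.pos 45 .mp ⟨⟨697934419, 0, 0, 0, 0, 314973340, 0, 0, 0, ⟨0, 0⟩, 0⟩, 0, 0⟩ 0 0) (.pos 45 .mp ⟨⟨700862352, 0, 0, 0, 0, 316427385, 0, 0, 0, ⟨0, 0⟩, 0⟩, 0, 0⟩ 0 0)) (.pos 46 .mp ⟨⟨881086953, 0, 0, 0, 0, 0, 0, 0, 0, ⟨0, 0⟩, 0⟩, 0, 0⟩ 0 0))) (.pos 41 .mp ⟨⟨702223489, 0, 0, 0, 0, 305148508, 0, 0, 0, ⟨0, 0⟩, 0⟩, 0, 0⟩ 0 0))) (.cut .s 14324736 (.pos 41 .mp ⟨⟨701925489, 0, 0, 0, 0,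 305048195, 0, 0, 0, ⟨0, 0⟩, 0⟩, 0, 0⟩ 0 0) (.pos 41 .mp ⟨⟨704896359, 0, 0, 0, 0, 306561573, 0, 0, 0, ⟨0, 0⟩, 0⟩, 0, 0⟩ 0 0))) (.cut .l 167772 (.cut .d (-4096) (.pos 41 .mp ⟨⟨697496075, 0, 0, 0, 0, 354579604, 0, 0, 0, ⟨0, 0⟩, 0⟩, 0, 0⟩ 0 0) (.cut .l 83886 (.cut .d (-2048) (.pos 41 .mp ⟨⟨705829123, 0, 0, 0, 0, 330150326, 0, 0, 0, ⟨0, 0⟩, 0⟩, 0, 0⟩ 0 0) (.cut .v 16809984 (.cut .s 14334976 (.pos 45 .mp ⟨⟨703805746, 0, 0, 0, 0, 317906764, 0, 0, 0, ⟨0, 0⟩, 0⟩, 0, 0⟩ 0 0) (.pos 45 .mp ⟨⟨706764695, 0, 0, 0, 0, 319411457, 0, 0, 0, ⟨0, 0⟩, 0⟩, 0, 0⟩ 0 0)) (.pos 46 .mp ⟨⟨888666721, 0, 0, 0, 0, 0, 0, 0, 0, ⟨0, 0⟩, 0⟩, 0, 0⟩ 0 0))) (.pos 41 .mp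 ⟨⟨708154564, 0, 0, 0, 0, 308242460, 0, 0, 0, ⟨0, 0⟩, 0⟩, 0, 0⟩ 0 0))) (.cut .s 14334976 (.pos 41 .mp ⟨⟨707883002, 0, 0, 0, 0, 308088834, 0, 0, 0, ⟨0, 0⟩, 0⟩, 0, 0⟩ 0 0) (.pos 41 .mp ⟨⟨710885518, 0, 0, 0, 0, 309629734, 0, 0, 0, ⟨0, 0⟩, 0⟩, 0, 0⟩ 0 0)))) (.cut .s 14350336 (.cut .l 167772 (.cut .d (-4096) (.pos 41 .mp ⟨⟨703348008, 0, 0, 0, 0, 357938928, 0, 0, 0, ⟨0, 0⟩, 0⟩, 0, 0⟩ 0 0) (.cut .l 83886 (.cut .d (-2048) (.pos 41 .mp ⟨⟨711591042, 0, 0, 0, 0, 333895503, 0, 0, 0, ⟨0, 0⟩, 0⟩, 0, 0⟩ 0 0) (.cut .v 16809984 (.cut .v 16793600 (.cut .s 14345216 (.pos 55 .mp ⟨⟨708461534, 0, 0, 0, 0, 323391873, 0, 0, 0, ⟨0, 0⟩, 0⟩, 0, 0⟩ 0 0) (.pos 55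 .mp ⟨⟨711446639, 0, 0, 0, 0, 324957673, 0, 0, 0, ⟨0, 0⟩, 0⟩, 0, 0⟩ 0 0)) (.pos 56 .mp ⟨⟨871072798, 0, 0, 0, 0, 0, 0, 0, 0, ⟨0, 0⟩, 0⟩, 0, 0⟩ 0 0)) (.pos 46 .mp ⟨⟨896339338, 0, 0, 0, 0, 0, 0, 0, 0, ⟨0, 0⟩, 0⟩, 0, 0⟩ 0 0))) (.pos 41 .mp ⟨⟨714148587, 0, 0, 0, 0, 311391340, 0, 0, 0, ⟨0, 0⟩, 0⟩, 0, 0⟩ 0 0))) (.cut .s 14345216 (.pos 41 .mp ⟨⟨713904005, 0, 0, 0, 0, 311184030, 0, 0, 0, ⟨0, 0⟩, 0⟩, 0, 0⟩ 0 0) (.pos 41 .mp ⟨⟨716938561, 0, 0, 0, 0, 312751473, 0, 0, 0, ⟨0, 0⟩, 0⟩, 0, 0⟩ 0 0))) (.cut .l 167772 (.cut .d (-4096) (.pos 41 .mp ⟨⟨709260423, 0, 0, 0, 0, 361445038, 0, 0, 0, ⟨0, 0⟩, 0⟩, 0, 0⟩ 0 0) (.cut .v 16809984 (.cut .l 83886 (.cut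 .d (-2048) (.pos 45 .mp ⟨⟨707831665, 0, 0, 0, 0, 360268574, 0, 0, 0, ⟨0, 0⟩, 0⟩, 0, 0⟩ 0 0) (.cut .v 16793600 (.cut .l 41943 (.cut .d (-1024) (.pos 55 .mp ⟨⟨707119865, 0, 0, 0, 0, 359675325, 0, 0, 0, ⟨0, 0⟩, 0⟩, 0, 0⟩ 0 0) (.cut .s 14355456 (.pos 55 .mp ⟨⟨712292071, 0, 0, 0, 0, 330609418, 0, 0, 0, ⟨0, 0⟩, 0⟩, 0, 0⟩ 0 0) (.pos 55 .mp ⟨⟨715357405, 0, 0, 0, 0, 332104840, 0, 0, 0, ⟨0, 0⟩, 0⟩, 0, 0⟩ 0 0))) (.pos 55 .mp ⟨⟨714904535, 0, 0, 0, 0, 322975753, 0, 0, 0, ⟨0, 0⟩, 0⟩, 0, 0⟩ 0 0)) (.pos 56 .mp ⟨⟨878513502, 0, 0, 0, 0, 0, 0, 0, 0, ⟨0, 0⟩, 0⟩, 0, 0⟩ 0 0))) (.pos 45 .mp ⟨⟨717616957, 0, 0, 0, 0, 319026197, 0, 0, 0, ⟨0, 0⟩, 0⟩, 0, 0⟩ 0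 0)) (.pos 46 .mp ⟨⟨879547065, 0, 0, 0, 0, 0, 0, 0, 0, ⟨0, 0⟩, 0⟩, 0, 0⟩ 0 0))) (.cut .s 14355456 (.pos 41 .mp ⟨⟨719989288, 0, 0, 0, 0, 314331816, 0, 0, 0, ⟨0, 0⟩, 0⟩, 0, 0⟩ 0 0) (.pos 41 .mp ⟨⟨723056287, 0, 0, 0, 0, 315924808, 0, 0, 0, ⟨0, 0⟩, 0⟩, 0, 0⟩ 0 0))))) (.pos 42 .mp ⟨⟨878869875, 0, 0, 0, 0, 0, 0, 0, 0, ⟨0, 0⟩, 0⟩, 0, 0⟩ 0 0)) (.cut .v 16842752 (.cut .s 14381056 (.cut .s 14370816 (.cut .l 167772 (.cut .d (-4096) (.pos 41 .mp ⟨⟨715234061, 0, 0, 0, 0, 365099943, 0, 0, 0, ⟨0, 0⟩, 0⟩, 0, 0⟩ 0 0) (.cut .v 16809984 (.cut .l 83886 (.cut .d (-2048) (.pos 45 .mp ⟨⟨713775769, 0, 0, 0, 0, 363948645, 0, 0, 0, ⟨0, 0⟩, 0⟩, 0, 0⟩ 0 0) (.cut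 .v 16793600 (.cut .l 41943 (.cut .d (-1024) (.pos 55 .mp ⟨⟨713049234, 0, 0, 0, 0, 363367923, 0, 0, 0, ⟨0, 0⟩, 0⟩, 0, 0⟩ 0 0) (.cut .s 14365696 (.pos 55 .mp ⟨⟨718429879, 0, 0, 0, 0, 333646491, 0, 0, 0, ⟨0, 0⟩, 0⟩, 0, 0⟩ 0 0) (.pos 55 .mp ⟨⟨721509345, 0, 0, 0, 0, 335234930, 0, 0, 0, ⟨0, 0⟩, 0⟩, 0, 0⟩ 0 0))) (.pos 55 .mp ⟨⟨720964332, 0, 0, 0, 0, 326333921, 0, 0, 0, ⟨0, 0⟩, 0⟩, 0, 0⟩ 0 0)) (.pos 56 .mp ⟨⟨886083609, 0, 0, 0, 0, 0, 0, 0, 0, ⟨0, 0⟩, 0⟩, 0, 0⟩ 0 0))) (.pos 45 .mp ⟨⟨723717830, 0, 0, 0, 0, 322318916, 0, 0, 0, ⟨0, 0⟩, 0⟩, 0, 0⟩ 0 0)) (.pos 46 .mp ⟨⟨887126112, 0, 0, 0, 0, 0, 0, 0, 0, ⟨0, 0⟩, 0⟩, 0, 0⟩ 0 0))) (.cut .s 14365696 (.pos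 41 .mp ⟨⟨726139658, 0, 0, 0, 0, 317530199, 0, 0, 0, ⟨0, 0⟩, 0⟩, 0, 0⟩ 0 0) (.pos 41 .mp ⟨⟨729239507, 0, 0, 0, 0, 319147734, 0, 0, 0, ⟨0, 0⟩, 0⟩, 0, 0⟩ 0 0))) (.cut .l 167772 (.cut .d (-4096) (.pos 41 .mp ⟨⟨721269671, 0, 0, 0, 0, 368905689, 0, 0, 0, ⟨0, 0⟩, 0⟩, 0, 0⟩ 0 0) (.cut .v 16809984 (.cut .l 83886 (.cut .d (-2048) (.pos 45 .mp ⟨⟨719781503, 0, 0, 0, 0, 367779714, 0, 0, 0, ⟨0, 0⟩, 0⟩, 0, 0⟩ 0 0) (.cut .v 16793600 (.cut .l 41943 (.cut .d (-1024) (.pos 55 .mp ⟨⟨719040062, 0, 0, 0, 0, 367211597, 0, 0, 0, ⟨0, 0⟩, 0⟩, 0, 0⟩ 0 0) (.cut .s 14375936 (.pos 55 .mp ⟨⟨724582543, 0, 0, 0, 0, 336901751, 0, 0, 0, ⟨0, 0⟩, 0⟩, 0, 0⟩ 0 0) (.pos 55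 .mp ⟨⟨727650704, 0, 0, 0, 0, 338644256, 0, 0, 0, ⟨0, 0⟩, 0⟩, 0, 0⟩ 0 0))) (.pos 55 .mp ⟨⟨727088656, 0, 0, 0, 0, 329742527, 0, 0, 0, ⟨0, 0⟩, 0⟩, 0, 0⟩ 0 0)) (.pos 56 .mp ⟨⟨893784703, 0, 0, 0, 0, 0, 0, 0, 0, ⟨0, 0⟩, 0⟩, 0, 0⟩ 0 0))) (.pos 45 .mp ⟨⟨729883826, 0, 0, 0, 0, 325661060, 0, 0, 0, ⟨0, 0⟩, 0⟩, 0, 0⟩ 0 0)) (.pos 46 .mp ⟨⟨894836302, 0, 0, 0, 0, 0, 0, 0, 0, ⟨0, 0⟩, 0⟩, 0, 0⟩ 0 0))) (.cut .s 14375936 (.pos 41 .mp ⟨⟨732355935, 0, 0, 0, 0, 320777160, 0, 0, 0, ⟨0, 0⟩, 0⟩, 0, 0⟩ 0 0) (.pos 41 .mp ⟨⟨735489048, 0, 0, 0, 0, 322418218, 0, 0, 0, ⟨0, 0⟩, 0⟩, 0, 0⟩ 0 0)))) (.cut .s 14391296 (.cut .l 167772 (.cut .d (-4096) (.pos 41 .mp ⟨⟨727368019,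 0, 0, 0, 0, 372864355, 0, 0, 0, ⟨0, 0⟩, 0⟩, 0, 0⟩ 0 0) (.cut .v 16809984 (.cut .l 83886 (.cut .d (-2048) (.pos 45 .mp ⟨⟨725849627, 0, 0, 0, 0, 371763865, 0, 0, 0, ⟨0, 0⟩, 0⟩, 0, 0⟩ 0 0) (.cut .v 16793600 (.cut .l 41943 (.cut .d (-1024) (.pos 55 .mp ⟨⟨725093108, 0, 0, 0, 0, 371208433, 0, 0, 0, ⟨0, 0⟩, 0⟩, 0, 0⟩ 0 0) (.cut .s 14386176 (.pos 55 .mp ⟨⟨730735185, 0, 0, 0, 0, 340412113, 0, 0, 0, ⟨0, 0⟩, 0⟩, 0, 0⟩ 0 0) (.pos 55 .mp ⟨⟨733836091, 0, 0, 0, 0, 342205293, 0, 0, 0, ⟨0, 0⟩, 0⟩, 0, 0⟩ 0 0))) (.pos 55 .mp ⟨⟨733278325, 0, 0, 0, 0, 333199558, 0, 0, 0, ⟨0, 0⟩, 0⟩, 0, 0⟩ 0 0)) (.pos 56 .mp ⟨⟨901618399, 0, 0, 0, 0, 0, 0, 0, 0, ⟨0, 0⟩, 0⟩,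 0, 0⟩ 0 0))) (.pos 45 .mp ⟨⟨736115771, 0, 0, 0, 0, 329050602, 0, 0, 0, ⟨0, 0⟩, 0⟩, 0, 0⟩ 0 0)) (.pos 46 .mp ⟨⟨902679250, 0, 0, 0, 0, 0, 0, 0, 0, ⟨0, 0⟩, 0⟩, 0, 0⟩ 0 0))) (.cut .s 14386176 (.pos 41 .mp ⟨⟨738638951, 0, 0, 0, 0, 324070651, 0, 0, 0, ⟨0, 0⟩, 0⟩, 0, 0⟩ 0 0) (.pos 41 .mp ⟨⟨741805751, 0, 0, 0, 0, 325734198, 0, 0, 0, ⟨0, 0⟩, 0⟩, 0, 0⟩ 0 0))) (.cut .l 167772 (.cut .d (-4096) (.pos 41 .mp ⟨⟨733529881, 0, 0, 0, 0, 376978060, 0, 0, 0, ⟨0, 0⟩, 0⟩, 0, 0⟩ 0 0) (.cut .v 16809984 (.cut .l 83886 (.cut .d (-2048) (.pos 45 .mp ⟨⟨731980914, 0, 0, 0, 0, 375903217, 0, 0, 0, ⟨0, 0⟩, 0⟩, 0, 0⟩ 0 0) (.cut .v 16793600 (.cut .l 41943 (.cut .d (-1024)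 (.pos 55 .mp ⟨⟨731209999, 0, 0, 0, 0, 375358057, 0, 0, 0, ⟨0, 0⟩, 0⟩, 0, 0⟩ 0 0) (.cut .s 14396416 (.pos 55 .mp ⟨⟨736953525, 0, 0, 0, 0, 344023767, 0, 0, 0, ⟨0, 0⟩, 0⟩, 0, 0⟩ 0 0) (.pos 55 .mp ⟨⟨740087594, 0, 0, 0, 0, 345867504, 0, 0, 0, ⟨0, 0⟩, 0⟩, 0, 0⟩ 0 0))) (.pos 55 .mp ⟨⟨739534172, 0, 0, 0, 0, 336702971, 0, 0, 0, ⟨0, 0⟩, 0⟩, 0, 0⟩ 0 0)) (.pos 56 .mp ⟨⟨909586337, 0, 0, 0, 0, 0, 0, 0, 0, ⟨0, 0⟩, 0⟩, 0, 0⟩ 0 0))) (.pos 45 .mp ⟨⟨742414507, 0, 0, 0, 0, 332485483, 0, 0, 0, ⟨0, 0⟩, 0⟩, 0, 0⟩ 0 0)) (.pos 46 .mp ⟨⟨910656597, 0, 0, 0, 0, 0, 0, 0, 0, ⟨0, 0⟩, 0⟩, 0, 0⟩ 0 0))) (.cut .s 14396416 (.pos 41 .mp ⟨⟨744989555, 0, 0, 0, 0, 327408598,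 0, 0, 0, ⟨0, 0⟩, 0⟩, 0, 0⟩ 0 0) (.pos 41 .mp ⟨⟨748190471, 0, 0, 0, 0, 329093587, 0, 0, 0, ⟨0, 0⟩, 0⟩, 0, 0⟩ 0 0))))) (.pos 42 .mp ⟨⟨909730051, 0, 0, 0, 0, 0, 0, 0, 0, ⟨0, 0⟩, 0⟩, 0, 0⟩ 0 0)))) (.pos 36 .mp ⟨⟨924082903, 0, 0, 0, 0, 0, 0, 0, 0, ⟨0, 0⟩, 0⟩, 0, 0⟩ 0 0)) (.cut .v 16908288 (.cut .d (-8192) (.cut .l 167772 (.void 35 ⟨⟨100000, 0, 0, 0, 0, 0, 0, 0, 0, ⟨0, 0⟩, 0⟩, 0, 0⟩ 0 0) (.cut .d (-12288) (.void 35 ⟨⟨0, 0, 0, 0, 0, 100000, 0, 0, 0, ⟨0, 0⟩, 0⟩, 0, 0⟩ 0 0) (.cut .v 16842752 (.cut .d (-10240) (.void 41 ⟨⟨0, 0, 0, 0, 0, 100000, 0, 0, 0, ⟨0, 0⟩, 0⟩, 0, 0⟩ 0 0) (.cut .l 251658 (.void 41 ⟨⟨0, 0, 0, 0, 0, 100000, 0, 0, 0, ⟨0, 0⟩,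 0⟩, 0, 0⟩ 0 0) (.cut .s 14442496 (.cut .s 14422016 (.pos 41 .mp ⟨⟨737598371, 0, 0, 0, 0, 387697497, 0, 0, 0, ⟨0, 0⟩, 0⟩, 0, 0⟩ 0 0) (.pos 41 .mp ⟨⟨750385536, 0, 0, 0, 0, 395954339, 0, 0, 0, ⟨0, 0⟩, 0⟩, 0, 0⟩ 0 0)) (.pos 41 .mp ⟨⟨763449237, 0, 0, 0, 0, 426600482, 0, 0, 0, ⟨0, 0⟩, 0⟩, 0, 0⟩ 0 0)))) (.pos 42 .mp ⟨⟨989784890, 0, 0, 0, 0, 0, 0, 0, 0, ⟨0, 0⟩, 0⟩, 0, 0⟩ 0 0)))) (.cut .s 14442496 (.cut .v 16842752 (.cut .s 14422016 (.cut .s 14411776 (.cut .l 167772 (.cut .d (-4096) (.pos 41 .mp ⟨⟨739787467, 0, 0, 0, 0, 381157726, 0, 0, 0, ⟨0, 0⟩, 0⟩, 0, 0⟩ 0 0) (.cut .v 16809984 (.cut .l 83886 (.cut .d (-2048) (.pos 45 .mp ⟨⟨738219591, 0, 0,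 0, 0, 380073750, 0, 0, 0, ⟨0, 0⟩, 0⟩, 0, 0⟩ 0 0) (.cut .v 16793600 (.cut .l 41943 (.cut .d (-1024) (.pos 55 .mp ⟨⟨737438362, 0, 0, 0, 0, 379526549, 0, 0, 0, ⟨0, 0⟩, 0⟩, 0, 0⟩ 0 0) (.cut .s 14406656 (.pos 55 .mp ⟨⟨743238402, 0, 0, 0, 0, 347736471, 0, 0, 0, ⟨0, 0⟩, 0⟩, 0, 0⟩ 0 0) (.pos 55 .mp ⟨⟨746378469, 0, 0, 0, 0, 349695919, 0, 0, 0, ⟨0, 0⟩, 0⟩, 0, 0⟩ 0 0))) (.pos 55 .mp ⟨⟨745857042, 0, 0, 0, 0, 340250699, 0, 0, 0, ⟨0, 0⟩, 0⟩, 0, 0⟩ 0 0)) (.pos 56 .mp ⟨⟨917690187, 0, 0, 0, 0, 0, 0, 0, 0, ⟨0, 0⟩, 0⟩, 0, 0⟩ 0 0))) (.pos 45 .mp ⟨⟨748780886, 0, 0, 0, 0, 335963620, 0, 0, 0, ⟨0, 0⟩, 0⟩, 0, 0⟩ 0 0)) (.pos 46 .mp ⟨⟨918770016, 0, 0, 0, 0, 0,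 0, 0, 0, ⟨0, 0⟩, 0⟩, 0, 0⟩ 0 0))) (.cut .s 14406656 (.pos 41 .mp ⟨⟨751408609, 0, 0, 0, 0, 330788899, 0, 0, 0, ⟨0, 0⟩, 0⟩, 0, 0⟩ 0 0) (.pos 41 .mp ⟨⟨754644078, 0, 0, 0, 0, 332494267, 0, 0, 0, ⟨0, 0⟩, 0⟩, 0, 0⟩ 0 0))) (.cut .l 167772 (.cut .d (-4096) (.pos 41 .mp ⟨⟨746129097, 0, 0, 0, 0, 385441657, 0, 0, 0, ⟨0, 0⟩, 0⟩, 0, 0⟩ 0 0) (.cut .v 16809984 (.cut .l 83886 (.cut .d (-2048) (.pos 45 .mp ⟨⟨744530077, 0, 0, 0, 0, 384383164, 0, 0, 0, ⟨0, 0⟩, 0⟩, 0, 0⟩ 0 0) (.cut .v 16793600 (.cut .l 41943 (.cut .d (-1024) (.pos 55 .mp ⟨⟨743733309, 0, 0, 0, 0, 383848646, 0, 0, 0, ⟨0, 0⟩, 0⟩, 0, 0⟩ 0 0) (.cut .s 14416896 (.pos 55 .mp ⟨⟨749513888, 0, 0,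 0, 0, 351731649, 0, 0, 0, ⟨0, 0⟩, 0⟩, 0, 0⟩ 0 0) (.pos 55 .mp ⟨⟨752654701, 0, 0, 0, 0, 353820115, 0, 0, 0, ⟨0, 0⟩, 0⟩, 0, 0⟩ 0 0))) (.pos 55 .mp ⟨⟨752247798, 0, 0, 0, 0, 343840642, 0, 0, 0, ⟨0, 0⟩, 0⟩, 0, 0⟩ 0 0)) (.pos 56 .mp ⟨⟨925931647, 0, 0, 0, 0, 0, 0, 0, 0, ⟨0, 0⟩, 0⟩, 0, 0⟩ 0 0))) (.pos 45 .mp ⟨⟨755215778, 0, 0, 0, 0, 339482899, 0, 0, 0, ⟨0, 0⟩, 0⟩, 0, 0⟩ 0 0)) (.pos 46 .mp ⟨⟨927021206, 0, 0, 0, 0, 0, 0, 0, 0, ⟨0, 0⟩, 0⟩, 0, 0⟩ 0 0))) (.cut .s 14416896 (.pos 41 .mp ⟨⟨757896990, 0, 0, 0, 0, 334209422, 0, 0, 0, ⟨0, 0⟩, 0⟩, 0, 0⟩ 0 0) (.pos 41 .mp ⟨⟨761167457, 0, 0, 0, 0, 335934093, 0, 0, 0, ⟨0, 0⟩, 0⟩, 0, 0⟩ 0 0)))) (.cut .s 14432256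 (.cut .l 167772 (.cut .d (-4096) (.pos 41 .mp ⟨⟨752538719, 0, 0, 0, 0, 389881027, 0, 0, 0, ⟨0, 0⟩, 0⟩, 0, 0⟩ 0 0) (.cut .v 16809984 (.cut .l 83886 (.cut .d (-2048) (.pos 45 .mp ⟨⟨750908187, 0, 0, 0, 0, 388848190, 0, 0, 0, ⟨0, 0⟩, 0⟩, 0, 0⟩ 0 0) (.cut .v 16793600 (.cut .s 14427136 (.pos 55 .mp ⟨⟨758178730, 0, 0, 0, 0, 351466090, 0, 0, 0, ⟨0, 0⟩, 0⟩, 0, 0⟩ 0 0) (.pos 55 .mp ⟨⟨761429336, 0, 0, 0, 0, 353433325, 0, 0, 0, ⟨0, 0⟩, 0⟩, 0, 0⟩ 0 0)) (.pos 56 .mp ⟨⟨934312443, 0, 0, 0, 0, 0, 0, 0, 0, ⟨0, 0⟩, 0⟩, 0, 0⟩ 0 0))) (.pos 45 .mp ⟨⟨761720068, 0, 0, 0, 0, 343041177, 0, 0, 0, ⟨0, 0⟩, 0⟩, 0, 0⟩ 0 0)) (.pos 46 .mp ⟨⟨935411898, 0, 0, 0, 0, 0,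 0, 0, 0, ⟨0, 0⟩, 0⟩, 0, 0⟩ 0 0))) (.cut .s 14427136 (.pos 41 .mp ⟨⟨764455592, 0, 0, 0, 0, 337668006, 0, 0, 0, ⟨0, 0⟩, 0⟩, 0, 0⟩ 0 0) (.pos 41 .mp ⟨⟨767761508, 0, 0, 0, 0, 339410887, 0, 0, 0, ⟨0, 0⟩, 0⟩, 0, 0⟩ 0 0))) (.cut .l 167772 (.cut .d (-4096) (.pos 41 .mp ⟨⟨759017210, 0, 0, 0, 0, 394477963, 0, 0, 0, ⟨0, 0⟩, 0⟩, 0, 0⟩ 0 0) (.cut .l 83886 (.cut .d (-2048) (.pos 41 .mp ⟨⟨763255540, 0, 0, 0, 0, 385748384, 0, 0, 0, ⟨0, 0⟩, 0⟩, 0, 0⟩ 0 0) (.cut .v 16809984 (.cut .s 14437376 (.cut .s 14434816 (.pos 45 .mp ⟨⟨763865573, 0, 0, 0, 0, 355805747, 0, 0, 0, ⟨0, 0⟩, 0⟩, 0, 0⟩ 0 0) (.pos 45 .mp ⟨⟨765601537, 0, 0, 0, 0, 356637126, 0, 0, 0, ⟨0,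 0⟩, 0⟩, 0, 0⟩ 0 0)) (.pos 45 .mp ⟨⟨769365604, 0, 0, 0, 0, 354781380, 0, 0, 0, ⟨0, 0⟩, 0⟩, 0, 0⟩ 0 0)) (.pos 46 .mp ⟨⟨969502462, 0, 0, 0, 0, 0, 0, 0, 0, ⟨0, 0⟩, 0⟩, 0, 0⟩ 0 0))) (.pos 41 .mp ⟨⟨771062000, 0, 0, 0, 0, 341871545, 0, 0, 0, ⟨0, 0⟩, 0⟩, 0, 0⟩ 0 0))) (.cut .s 14437376 (.pos 41 .mp ⟨⟨771085322, 0, 0, 0, 0, 341162460, 0, 0, 0, ⟨0, 0⟩, 0⟩, 0, 0⟩ 0 0) (.pos 41 .mp ⟨⟨774427148, 0, 0, 0, 0, 342922444, 0, 0, 0, ⟨0, 0⟩, 0⟩, 0, 0⟩ 0 0))))) (.pos 42 .mp ⟨⟨942733091, 0, 0, 0, 0, 0, 0, 0, 0, ⟨0, 0⟩, 0⟩, 0, 0⟩ 0 0)) (.cut .v 16842752 (.cut .s 14462976 (.cut .s 14452736 (.cut .l 167772 (.cut .d (-4096) (.pos 41 .mp ⟨⟨765565464, 0, 0, 0,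 0, 399234626, 0, 0, 0, ⟨0, 0⟩, 0⟩, 0, 0⟩ 0 0) (.cut .l 83886 (.cut .d (-2048) (.pos 41 .mp ⟨⟨769801240, 0, 0, 0, 0, 390551406, 0, 0, 0, ⟨0, 0⟩, 0⟩, 0, 0⟩ 0 0) (.cut .v 16809984 (.cut .s 14447616 (.pos 45 .mp ⟨⟨772674892, 0, 0, 0, 0, 356811188, 0, 0, 0, ⟨0, 0⟩, 0⟩, 0, 0⟩ 0 0) (.pos 45 .mp ⟨⟨776002066, 0, 0, 0, 0, 358865595, 0, 0, 0, ⟨0, 0⟩, 0⟩, 0, 0⟩ 0 0)) (.pos 46 .mp ⟨⟨978080792, 0, 0, 0, 0, 0, 0, 0, 0, ⟨0, 0⟩, 0⟩, 0, 0⟩ 0 0))) (.pos 41 .mp ⟨⟨777731135, 0, 0, 0, 0, 345457681, 0, 0, 0, ⟨0, 0⟩, 0⟩, 0, 0⟩ 0 0))) (.cut .s 14447616 (.pos 41 .mp ⟨⟨777787105, 0, 0, 0, 0, 344690561, 0, 0, 0, ⟨0, 0⟩, 0⟩, 0, 0⟩ 0 0) (.pos 41 .mp ⟨⟨781165310,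 0, 0, 0, 0, 346466526, 0, 0, 0, ⟨0, 0⟩, 0⟩, 0, 0⟩ 0 0))) (.cut .l 167772 (.cut .d (-4096) (.pos 41 .mp ⟨⟨772184389, 0, 0, 0, 0, 404153216, 0, 0, 0, ⟨0, 0⟩, 0⟩, 0, 0⟩ 0 0) (.cut .l 83886 (.cut .d (-2048) (.pos 41 .mp ⟨⟨776416833, 0, 0, 0, 0, 395519850, 0, 0, 0, ⟨0, 0⟩, 0⟩, 0, 0⟩ 0 0) (.cut .s 14457856 (.pos 41 .mp ⟨⟨782150734, 0, 0, 0, 0, 355545565, 0, 0, 0, ⟨0, 0⟩, 0⟩, 0, 0⟩ 0 0) (.pos 41 .mp ⟨⟨785525849, 0, 0, 0, 0, 357625256, 0, 0, 0, ⟨0, 0⟩, 0⟩, 0, 0⟩ 0 0))) (.pos 41 .mp ⟨⟨784472669, 0, 0, 0, 0, 349075712, 0, 0, 0, ⟨0, 0⟩, 0⟩, 0, 0⟩ 0 0))) (.cut .s 14457856 (.pos 41 .mp ⟨⟨784561882, 0, 0, 0, 0, 348250056, 0, 0, 0, ⟨0, 0⟩, 0⟩, 0,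 0⟩ 0 0) (.pos 41 .mp ⟨⟨787976941, 0, 0, 0, 0, 350040863, 0, 0, 0, ⟨0, 0⟩, 0⟩, 0, 0⟩ 0 0)))) (.cut .s 14473216 (.cut .l 167772 (.cut .d (-4096) (.pos 41 .mp ⟨⟨778874912, 0, 0, 0, 0, 409235972, 0, 0, 0, ⟨0, 0⟩, 0⟩, 0, 0⟩ 0 0) (.cut .l 83886 (.cut .d (-2048) (.pos 41 .mp ⟨⟨783103223, 0, 0, 0, 0, 400656042, 0, 0, 0, ⟨0, 0⟩, 0⟩, 0, 0⟩ 0 0) (.cut .s 14468096 (.pos 41 .mp ⟨⟨788919267, 0, 0, 0, 0, 359729272, 0, 0, 0, ⟨0, 0⟩, 0⟩, 0, 0⟩ 0 0) (.pos 41 .mp ⟨⟨792331108, 0, 0, 0, 0, 361857562, 0, 0, 0, ⟨0, 0⟩, 0⟩, 0, 0⟩ 0 0))) (.pos 41 .mp ⟨⟨791287554, 0, 0, 0, 0, 352723363, 0, 0, 0, ⟨0, 0⟩, 0⟩, 0, 0⟩ 0 0))) (.cut .s 14468096 (.pos 41 .mp ⟨⟨791410610,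 0, 0, 0, 0, 351838658, 0, 0, 0, ⟨0, 0⟩, 0⟩, 0, 0⟩ 0 0) (.pos 41 .mp ⟨⟨794863009, 0, 0, 0, 0, 353643151, 0, 0, 0, ⟨0, 0⟩, 0⟩, 0, 0⟩ 0 0))) (.cut .l 167772 (.cut .d (-4096) (.pos 41 .mp ⟨⟨785637973, 0, 0, 0, 0, 414485171, 0, 0, 0, ⟨0, 0⟩, 0⟩, 0, 0⟩ 0 0) (.cut .v 16809984 (.cut .s 14478336 (.pos 45 .mp ⟨⟨797551284, 0, 0, 0, 0, 360930793, 0, 0, 0, ⟨0, 0⟩, 0⟩, 0, 0⟩ 0 0) (.pos 45 .mp ⟨⟨801019594, 0, 0, 0, 0, 363072458, 0, 0, 0, ⟨0, 0⟩, 0⟩, 0, 0⟩ 0 0)) (.pos 46 .mp ⟨⟨979520581, 0, 0, 0, 0, 0, 0, 0, 0, ⟨0, 0⟩, 0⟩, 0, 0⟩ 0 0))) (.pos 41 .mp ⟨⟨801824496, 0, 0, 0, 0, 351702536, 0, 0, 0, ⟨0, 0⟩, 0⟩, 0, 0⟩ 0 0)))) (.pos 42 .mp ⟨⟨977987356, 0, 0,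 0, 0, 0, 0, 0, 0, ⟨0, 0⟩, 0⟩, 0, 0⟩ 0 0)))) (.pos 36 .mp ⟨⟨990346981, 0, 0, 0, 0, 0, 0, 0, 0, ⟨0, 0⟩, 0⟩, 0, 0⟩ 0 0)))))) (.pos 32 .mp ⟨⟨1063516430, 0, 0, 0, 0, 0, 0, 0, 0, ⟨0, 0⟩, 0⟩, 0, 0⟩ 0 0)))) (.void 30 ⟨⟨100000, 0, 0, 0, 0, 0, 0, 0, 0, ⟨0, 0⟩, 0⟩, 0, 0⟩ 0 0)) (.void 28 ⟨⟨100000, 0, 0, 0, 0, 0, 0, 0, 0, ⟨0, 0⟩, 0⟩, 0, 0⟩ 0 0))) (.void 26 ⟨⟨100000, 0, 0, 0, 0, 0, 0, 0, 0, ⟨0, 0⟩, 0⟩, 0, 0⟩ 0 0)))) (.void 24 ⟨⟨100000, 0, 0, 0, 0, 0, 0, 0, 0, ⟨0, 0⟩, 0⟩, 0, 0⟩ 0 0))) (.void 22 ⟨⟨100000, 0, 0, 0, 0, 0, 0, 0, 0, ⟨0, 0⟩, 0⟩, 0, 0⟩ 0 0))) (.void 79 ⟨⟨100000, 0, 0, 0, 0, 0, 0, 0, 0, ⟨0, 0⟩, 0⟩, 0, 0⟩ 0 0)) (.void 88 ⟨⟨99964, 0, 0, 0,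 0, 0, 0, 0, 0, ⟨0, 0⟩, 0⟩, 0, 0⟩ 0 0)) (.void 97 ⟨⟨93908, 0, 0, 6790, 0, 0, 0, 0, 0, ⟨0, 0⟩, 0⟩, 0, 0⟩ 0 0))) (.cut .v 16777216 (.cut .v 8388608 (.cut .v 4194304 (.cut .v 2097152 (.cut .v 1048576 (.pos 93 .pm ⟨⟨0, 0, 27020965, 0, 0, 0, 0, 0, 0, ⟨0, 0⟩, 0⟩, 0, 2930⟩ 0 0) (.pos 94 .pm ⟨⟨0, 0, 35171087, 0, 0, 0, 0, 0, 0, ⟨0, 0⟩, 0⟩, 0, 8446⟩ 0 0)) (.pos 90 .pm ⟨⟨0, 0, 50617907, 0, 0, 0, 0, 0, 0, ⟨0, 0⟩, 0⟩, 0, 15953⟩ 0 0)) (.pos 5 .pm ⟨⟨0, 0, 137719696, 0, 0, 0, 0, 0, 0, ⟨0, 0⟩, 0⟩, 0, 36532⟩ 0 0)) (.pos 3 .pm ⟨⟨0, 0, 0, 0, 0, 0, 0, 0, 0, ⟨0, 0⟩, 0⟩, 0, 0⟩ 0 0)) (.cut .v 268435456 (.cut .v 67108864 (.cut .d 1439693 (.cut .v 33554432 (.cut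 .d 719846 (.cut .v 25165824 (.cut .d 359923 (.cut .v 20971520 (.cut .d 179961 (.cut .v 18874368 (.cut .d 89980 (.cut .v 17825792 (.cut .s 14401536 (.pos 27 .pp ⟨⟨734160553, 0, 0, 0, 0, 0, 0, 0, 0, ⟨0, 0⟩, 0⟩, 18425434, 0⟩ 0 0) (.pos 27 .pp ⟨⟨782246034, 0, 0, 0, 0, 0, 0, 0, 0, ⟨0, 0⟩, 0⟩, 20456004, 0⟩ 0 0)) (.pos 28 .pp ⟨⟨1000925448, 0, 0, 0, 0, 0, 0, 0, 0, ⟨0, 0⟩, 0⟩, 0, 0⟩ 0 0)) (.pos 25 .pp ⟨⟨0, 0, 0, 0, 0, 0, 0, 0, 0, ⟨0, 0⟩, 0⟩, 0, 96701⟩ 0 0)) (.cut .d 89980 (.pos 26 .pp ⟨⟨1223109779, 0, 0, 0, 0, 0, 0, 0, 0, ⟨0, 0⟩, 0⟩, 0, 0⟩ 0 0) (.pos 26 .pp ⟨⟨1011793971, 0, 0, 0, 0, 0, 0, 0, 0, ⟨0, 0⟩, 0⟩, 0, 0⟩ 0 0))) (.pos 23 .pp ⟨⟨0, 0, 0,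 0, 0, 0, 0, 0, 0, ⟨0, 0⟩, 0⟩, 0, 101477⟩ 0 0)) (.cut .d 179961 (.cut .v 23068672 (.cut .v 22020096 (.pos 57 .pp ⟨⟨1320971452, 0, 0, 0, 0, 0, 0, 0, 0, ⟨0, 0⟩, 0⟩, 0, 0⟩ 0 0) (.pos 58 .pp ⟨⟨0, 0, 0, 0, 0, 0, 0, 0, 0, ⟨0, 0⟩, 0⟩, 209113690, 0⟩ 0 0)) (.pos 54 .pp ⟨⟨0, 0, 0, 0, 0, 0, 0, 0, 0, ⟨0, 0⟩, 0⟩, 251198783, 0⟩ 0 0)) (.pos 24 .pp ⟨⟨0, 0, 0, 0, 0, 0, 23980, 0, 0, ⟨0, 0⟩, 0⟩, 152329998, 0⟩ 0 0))) (.pos 21 .pp ⟨⟨0, 0, 0, 0, 0, 0, 0, 0, 0, ⟨0, 0⟩, 0⟩, 0, 109595⟩ 0 0)) (.cut .d 359923 (.cut .d 179961 (.void 22 ⟨⟨0, 0, 0, 0, 0, 0, 0, 0, 0, ⟨0, 0⟩, 0⟩, 100000, 0⟩ 0 0) (.pos 22 .pp ⟨⟨0, 0, 0, 0, 0, 0, 0, 0, 0, ⟨0, 0⟩, 0⟩, 230594847, 0⟩ 0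 0)) (.pos 22 .pp ⟨⟨0, 0, 0, 0, 0, 0, 20160, 0, 0, ⟨0, 0⟩, 0⟩, 157683145, 0⟩ 0 0))) (.pos 20 .pp ⟨⟨0, 0, 0, 0, 0, 0, 365272, 0, 0, ⟨0, 0⟩, 0⟩, 0, 0⟩ 0 0)) (.cut .d 719846 (.pos 79 .pp ⟨⟨0, 0, 0, 0, 0, 0, 0, 0, 0, ⟨0, 0⟩, 0⟩, 482453422, 0⟩ 0 0) (.pos 79 .pp ⟨⟨0, 0, 0, 0, 0, 0, 0, 0, 0, ⟨0, 0⟩, 0⟩, 222816485, 0⟩ 0 0))) (.pos 78 .pp ⟨⟨0, 0, 0, 0, 0, 0, 0, 0, 0, ⟨0, 0⟩, 0⟩, 0, 91329⟩ 0 0)) (.void 88 ⟨⟨0, 0, 0, 48975, 0, 0, 0, 0, 0, ⟨0, 0⟩, 0⟩, 51025, 0⟩ 0 0)) (.void 97 ⟨⟨0, 0, 0, 0, 0, 0, 0, 0, 0, ⟨0, 0⟩, 0⟩, 100000, 0⟩ 0 0)))),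
    by decide +kernel⟩

def covers29 : cell.Covers Vale.Agent.P237.Petty.Cor.Grid.N11.table row29.1 :=
  ⟨(.cut .d 0 (.cut .v 16777216 (.cut .v 8388608 (.void 2 ⟨⟨0, 0, 100000, 0, 0, 0, 0, 0, 0, ⟨0, 0⟩, 0⟩, 0, 0⟩ 0 0) (.cut .d (-8388608) (.void 3 ⟨⟨100000, 0, 0, 0, 0, 0, 0, 0, 0, ⟨0, 0⟩, 0⟩, 0, 0⟩ 0 0) (.cut .d (-4194304) (.void 3 ⟨⟨100000, 0, 0, 0, 0, 0, 0, 0, 0, ⟨0, 0⟩, 0⟩, 0, 0⟩ 0 0) (.cut .d (-2097152) (.void 3 ⟨⟨100000, 0, 0, 0, 0, 0, 0, 0, 0, ⟨0, 0⟩, 0⟩, 0, 0⟩ 0 0) (.cut .d (-1048576) (.void 3 ⟨⟨0, 0, 0, 0, 0, 100000, 0, 0, 0, ⟨0, 0⟩, 0⟩, 0, 0⟩ 0 0) (.cut .d (-524288) (.void 3 ⟨⟨0, 0, 0, 0, 0, 100000, 0, 0, 0, ⟨0, 0⟩, 0⟩, 0, 0⟩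 0 0) (.cut .d (-262144) (.void 3 ⟨⟨0, 0, 0, 0, 0, 100000, 0, 0, 0, ⟨0, 0⟩, 0⟩, 0, 0⟩ 0 0) (.cut .s 14565376 (.pos 3 .mm ⟨⟨0, 0, 0, 0, 0, 1988998575, 0, 0, 0, ⟨0, 0⟩, 0⟩, 0, 0⟩ 0 0) (.pos 3 .mm ⟨⟨0, 0, 0, 0, 0, 2154420466, 0, 0, 0, ⟨0, 0⟩, 0⟩, 0, 0⟩ 0 0))))))))) (.cut .v 268435456 (.cut .v 67108864 (.cut .v 33554432 (.cut .d (-8388608) (.void 20 ⟨⟨100000, 0, 0, 0, 0, 0, 0, 0, 0, ⟨0, 0⟩, 0⟩, 0, 0⟩ 0 0) (.cut .v 25165824 (.cut .d (-4194304) (.void 21 ⟨⟨100000, 0, 0, 0, 0, 0, 0, 0, 0, ⟨0, 0⟩, 0⟩, 0, 0⟩ 0 0) (.cut .d (-2097152) (.void 21 ⟨⟨100000, 0, 0, 0, 0, 0, 0, 0, 0, ⟨0, 0⟩, 0⟩, 0, 0⟩ 0 0) (.cut .v 20971520 (.cut .d (-1048576) (.void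 23 ⟨⟨100000, 0, 0, 0, 0, 0, 0, 0, 0, ⟨0, 0⟩, 0⟩, 0, 0⟩ 0 0) (.cut .v 18874368 (.cut .d (-524288) (.void 25 ⟨⟨100000, 0, 0, 0, 0, 0, 0, 0, 0, ⟨0, 0⟩, 0⟩, 0, 0⟩ 0 0) (.cut .v 17825792 (.cut .d (-262144) (.void 27 ⟨⟨100000, 0, 0, 0, 0, 0, 0, 0, 0, ⟨0, 0⟩, 0⟩, 0, 0⟩ 0 0) (.cut .v 17301504 (.cut .d (-131072) (.void 29 ⟨⟨100000, 0, 0, 0, 0, 0, 0, 0, 0, ⟨0, 0⟩, 0⟩, 0, 0⟩ 0 0) (.cut .v 17039360 (.cut .d (-65536) (.void 31 ⟨⟨100000, 0, 0, 0, 0, 0, 0, 0, 0, ⟨0, 0⟩, 0⟩, 0, 0⟩ 0 0) (.cut .d (-32768) (.void 31 ⟨⟨100000, 0, 0, 0, 0, 0, 0, 0, 0, ⟨0, 0⟩, 0⟩, 0, 0⟩ 0 0) (.cut .d (-16384) (.void 31 ⟨⟨100000, 0, 0, 0, 0, 0, 0, 0, 0, ⟨0, 0⟩, 0⟩, 0, 0⟩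 0 0) (.cut .d (-8192) (.cut .v 16908288 (.cut .d (-12288) (.void 35 ⟨⟨0, 0, 0, 0, 0, 100000, 0, 0, 0, ⟨0, 0⟩, 0⟩, 0, 0⟩ 0 0) (.cut .d (-10240) (.void 35 ⟨⟨0, 0, 0, 0, 0, 100000, 0, 0, 0, ⟨0, 0⟩, 0⟩, 0, 0⟩ 0 0) (.cut .l 167772 (.void 35 ⟨⟨100000, 0, 0, 0, 0, 0, 0, 0, 0, ⟨0, 0⟩, 0⟩, 0, 0⟩ 0 0) (.cut .l 251658 (.void 35 ⟨⟨0, 0, 0, 0, 0, 100000, 0, 0, 0, ⟨0, 0⟩, 0⟩, 0, 0⟩ 0 0) (.cut .l 293601 (.pos 35 .mp ⟨⟨799009286, 0, 0, 0, 0, 1397844039, 0, 0, 0, ⟨0, 0⟩, 0⟩, 0, 0⟩ 0 0) (.cut .v 16842752 (.cut .d (-9216) (.pos 41 .mp ⟨⟨792771965, 0, 0, 0, 0, 699391519, 0, 0, 0, ⟨0, 0⟩, 0⟩, 0, 0⟩ 0 0) (.cut .v 16809984 (.pos 45 .mp ⟨⟨0, 0, 0, 0, 0, 2022315533,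 0, 0, 0, ⟨0, 0⟩, 0⟩, 0, 0⟩ 0 0) (.cut .v 16826368 (.pos 82 .mp ⟨⟨0, 0, 0, 0, 0, 2060720917, 0, 0, 0, ⟨0, 0⟩, 0⟩, 0, 0⟩ 0 0) (.cut .s 14565376 (.cut .s 14524416 (.pos 83 .mp ⟨⟨828574550, 0, 0, 0, 0, 365167661, 0, 0, 0, ⟨0, 0⟩, 0⟩, 0, 0⟩ 0 0) (.pos 83 .mp ⟨⟨823154125, 0, 0, 0, 0, 459071126, 0, 0, 0, ⟨0, 0⟩, 0⟩, 0, 0⟩ 0 0)) (.cut .s 14606336 (.pos 83 .mp ⟨⟨852895193, 0, 0, 0, 0, 476295340, 0, 0, 0, ⟨0, 0⟩, 0⟩, 0, 0⟩ 0 0) (.pos 83 .mp ⟨⟨884016576, 0, 0, 0, 0, 495219186, 0, 0, 0, ⟨0, 0⟩, 0⟩, 0, 0⟩ 0 0)))))) (.cut .s 14565376 (.pos 42 .mp ⟨⟨1072374477, 0, 0, 0, 0, 0, 0, 0, 0, ⟨0, 0⟩, 0⟩, 0, 0⟩ 0 0) (.pos 42 .mp ⟨⟨1147815903, 0, 0, 0, 0, 0,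 0, 0, 0, ⟨0, 0⟩, 0⟩, 0, 0⟩ 0 0)))))))) (.void 36 ⟨⟨100000, 0, 0, 0, 0, 0, 0, 0, 0, ⟨0, 0⟩, 0⟩, 0, 0⟩ 0 0)) (.cut .v 16908288 (.cut .s 14565376 (.cut .s 14524416 (.cut .v 16842752 (.cut .s 14503936 (.cut .s 14493696 (.cut .l 167772 (.cut .d (-4096) (.pos 41 .mp ⟨⟨794776630, 0, 0, 0, 0, 413179750, 0, 0, 0, ⟨0, 0⟩, 0⟩, 0, 0⟩ 0 0) (.cut .s 14488576 (.pos 41 .mp ⟨⟨807391336, 0, 0, 0, 0, 359683470, 0, 0, 0, ⟨0, 0⟩, 0⟩, 0, 0⟩ 0 0) (.cut .s 14491136 (.pos 41 .mp ⟨⟨808635774, 0, 0, 0, 0, 364003430, 0, 0, 0, ⟨0, 0⟩, 0⟩, 0, 0⟩ 0 0) (.pos 41 .mp ⟨⟨810517943, 0, 0, 0, 0, 364515527, 0, 0, 0, ⟨0, 0⟩, 0⟩, 0, 0⟩ 0 0)))) (.pos 41 .mp ⟨⟨808875450, 0,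 0, 0, 0, 356606528, 0, 0, 0, ⟨0, 0⟩, 0⟩, 0, 0⟩ 0 0)) (.cut .v 16809984 (.cut .d (-4096) (.pos 45 .mp ⟨⟨785071558, 0, 0, 0, 0, 437331085, 0, 0, 0, ⟨0, 0⟩, 0⟩, 0, 0⟩ 0 0) (.cut .s 14498816 (.pos 45 .mp ⟨⟨811541920, 0, 0, 0, 0, 368468491, 0, 0, 0, ⟨0, 0⟩, 0⟩, 0, 0⟩ 0 0) (.cut .s 14501376 (.pos 45 .mp ⟨⟨815316898, 0, 0, 0, 0, 368496062, 0, 0, 0, ⟨0, 0⟩, 0⟩, 0, 0⟩ 0 0) (.pos 45 .mp ⟨⟨816767697, 0, 0, 0, 0, 369927955, 0, 0, 0, ⟨0, 0⟩, 0⟩, 0, 0⟩ 0 0)))) (.cut .s 14498816 (.pos 46 .mp ⟨⟨850133581, 0, 0, 0, 0, 299795411, 0, 0, 0, ⟨0, 0⟩, 0⟩, 0, 0⟩ 0 0) (.pos 46 .mp ⟨⟨852576193, 0, 0, 0, 0, 303590484, 0, 0, 0, ⟨0, 0⟩, 0⟩, 0, 0⟩ 0 0)))) (.cut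 .s 14514176 (.cut .v 16809984 (.cut .d (-4096) (.pos 45 .mp ⟨⟨791949414, 0, 0, 0, 0, 440903284, 0, 0, 0, ⟨0, 0⟩, 0⟩, 0, 0⟩ 0 0) (.cut .l 167772 (.cut .l 83886 (.cut .d (-2048) (.pos 45 .mp ⟨⟨806733059, 0, 0, 0, 0, 419424234, 0, 0, 0, ⟨0, 0⟩, 0⟩, 0, 0⟩ 0 0) (.cut .s 14509056 (.pos 45 .mp ⟨⟨813755356, 0, 0, 0, 0, 380883585, 0, 0, 0, ⟨0, 0⟩, 0⟩, 0, 0⟩ 0 0) (.pos 45 .mp ⟨⟨817375995, 0, 0, 0, 0, 382503691, 0, 0, 0, ⟨0, 0⟩, 0⟩, 0, 0⟩ 0 0))) (.pos 45 .mp ⟨⟨816389893, 0, 0, 0, 0, 374085747, 0, 0, 0, ⟨0, 0⟩, 0⟩, 0, 0⟩ 0 0)) (.pos 45 .mp ⟨⟨0, 0, 0, 0, 0, 0, 0, 0, 0, ⟨0, 0⟩, 0⟩, 0, 0⟩ 0 0))) (.cut .s 14509056 (.pos 46 .mp ⟨⟨855106314, 0, 0, 0,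 0, 307288102, 0, 0, 0, ⟨0, 0⟩, 0⟩, 0, 0⟩ 0 0) (.pos 46 .mp ⟨⟨857725764, 0, 0, 0, 0, 310884894, 0, 0, 0, ⟨0, 0⟩, 0⟩, 0, 0⟩ 0 0))) (.cut .v 16809984 (.cut .l 167772 (.cut .d (-4096) (.pos 45 .mp ⟨⟨810549586, 0, 0, 0, 0, 428898201, 0, 0, 0, ⟨0, 0⟩, 0⟩, 0, 0⟩ 0 0) (.cut .l 83886 (.cut .d (-2048) (.pos 45 .mp ⟨⟨813748098, 0, 0, 0, 0, 423237797, 0, 0, 0, ⟨0, 0⟩, 0⟩, 0, 0⟩ 0 0) (.cut .s 14519296 (.pos 45 .mp ⟨⟨820949841, 0, 0, 0, 0, 384313918, 0, 0, 0, ⟨0, 0⟩, 0⟩, 0, 0⟩ 0 0) (.pos 45 .mp ⟨⟨824543842, 0, 0, 0, 0, 386156219, 0, 0, 0, ⟨0, 0⟩, 0⟩, 0, 0⟩ 0 0))) (.pos 45 .mp ⟨⟨823573726, 0, 0, 0, 0, 378027388, 0, 0, 0, ⟨0, 0⟩, 0⟩, 0, 0⟩ 0 0))) (.pos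 45 .mp ⟨⟨800840370, 0, 0, 0, 0, 425235463, 0, 0, 0, ⟨0, 0⟩, 0⟩, 0, 0⟩ 0 0)) (.cut .s 14519296 (.pos 46 .mp ⟨⟨860436380, 0, 0, 0, 0, 314377461, 0, 0, 0, ⟨0, 0⟩, 0⟩, 0, 0⟩ 0 0) (.pos 46 .mp ⟨⟨863240011, 0, 0, 0, 0, 317762375, 0, 0, 0, ⟨0, 0⟩, 0⟩, 0, 0⟩ 0 0))))) (.pos 42 .mp ⟨⟨1015756910, 0, 0, 0, 0, 0, 0, 0, 0, ⟨0, 0⟩, 0⟩, 0, 0⟩ 0 0)) (.cut .v 16842752 (.cut .s 14544896 (.cut .s 14534656 (.cut .v 16809984 (.cut .l 167772 (.cut .d (-4096) (.pos 45 .mp ⟨⟨817682738, 0, 0, 0, 0, 432766021, 0, 0, 0, ⟨0, 0⟩, 0⟩, 0, 0⟩ 0 0) (.cut .l 83886 (.cut .d (-2048) (.pos 45 .mp ⟨⟨820840095, 0, 0, 0, 0, 427242055, 0, 0, 0, ⟨0, 0⟩, 0⟩, 0, 0⟩ 0 0) (.cut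 .s 14529536 (.pos 45 .mp ⟨⟨828158133, 0, 0, 0, 0, 388030549, 0, 0, 0, ⟨0, 0⟩, 0⟩, 0, 0⟩ 0 0) (.cut .s 14532096 (.pos 45 .mp ⟨⟨829276745, 0, 0, 0, 0, 393338393, 0, 0, 0, ⟨0, 0⟩, 0⟩, 0, 0⟩ 0 0) (.pos 45 .mp ⟨⟨830967657, 0, 0, 0, 0, 394537747, 0, 0, 0, ⟨0, 0⟩, 0⟩, 0, 0⟩ 0 0)))) (.pos 45 .mp ⟨⟨830838959, 0, 0, 0, 0, 382035280, 0, 0, 0, ⟨0, 0⟩, 0⟩, 0, 0⟩ 0 0))) (.pos 45 .mp ⟨⟨807840307, 0, 0, 0, 0, 429801120, 0, 0, 0, ⟨0, 0⟩, 0⟩, 0, 0⟩ 0 0)) (.cut .s 14529536 (.pos 46 .mp ⟨⟨866138525, 0, 0, 0, 0, 321036175, 0, 0, 0, ⟨0, 0⟩, 0⟩, 0, 0⟩ 0 0) (.pos 46 .mp ⟨⟨869133801, 0, 0, 0, 0, 324195371, 0, 0, 0, ⟨0, 0⟩, 0⟩, 0, 0⟩ 0 0))) (.cut .v 16809984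 (.cut .l 167772 (.cut .d (-4096) (.pos 45 .mp ⟨⟨824896382, 0, 0, 0, 0, 436819566, 0, 0, 0, ⟨0, 0⟩, 0⟩, 0, 0⟩ 0 0) (.cut .s 14539776 (.cut .s 14537216 (.pos 45 .mp ⟨⟨838635667, 0, 0, 0, 0, 384128275, 0, 0, 0, ⟨0, 0⟩, 0⟩, 0, 0⟩ 0 0) (.pos 45 .mp ⟨⟨840483121, 0, 0, 0, 0, 385079208, 0, 0, 0, ⟨0, 0⟩, 0⟩, 0, 0⟩ 0 0)) (.cut .s 14542336 (.pos 45 .mp ⟨⟨842335825, 0, 0, 0, 0, 386037997, 0, 0, 0, ⟨0, 0⟩, 0⟩, 0, 0⟩ 0 0) (.pos 45 .mp ⟨⟨844193796, 0, 0, 0, 0, 387004634, 0, 0, 0, ⟨0, 0⟩, 0⟩, 0, 0⟩ 0 0)))) (.pos 45 .mp ⟨⟨814918449, 0, 0, 0, 0, 434439269, 0, 0, 0, ⟨0, 0⟩, 0⟩, 0, 0⟩ 0 0)) (.cut .s 14539776 (.pos 46 .mp ⟨⟨872227736, 0, 0, 0, 0, 327236442,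 0, 0, 0, ⟨0, 0⟩, 0⟩, 0, 0⟩ 0 0) (.pos 46 .mp ⟨⟨875422243, 0, 0, 0, 0, 330155834, 0, 0, 0, ⟨0, 0⟩, 0⟩, 0, 0⟩ 0 0)))) (.cut .s 14555136 (.cut .v 16809984 (.cut .l 167772 (.cut .d (-4096) (.pos 45 .mp ⟨⟨832191612, 0, 0, 0, 0, 441061503, 0, 0, 0, ⟨0, 0⟩, 0⟩, 0, 0⟩ 0 0) (.cut .s 14550016 (.cut .s 14547456 (.pos 45 .mp ⟨⟨846057051, 0, 0, 0, 0, 387979114, 0, 0, 0, ⟨0, 0⟩, 0⟩, 0, 0⟩ 0 0) (.pos 45 .mp ⟨⟨847925611, 0, 0, 0, 0, 388961428, 0, 0, 0, ⟨0, 0⟩, 0⟩, 0, 0⟩ 0 0)) (.cut .s 14552576 (.pos 45 .mp ⟨⟨849799491, 0, 0, 0, 0, 389951571, 0, 0, 0, ⟨0, 0⟩, 0⟩, 0, 0⟩ 0 0) (.pos 45 .mp ⟨⟨851678710, 0, 0, 0, 0, 390949535, 0, 0, 0, ⟨0, 0⟩, 0⟩, 0, 0⟩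 0 0)))) (.cut .s 14550016 (.pos 45 .mp ⟨⟨822075856, 0, 0, 0, 0, 435131738, 0, 0, 0, ⟨0, 0⟩, 0⟩, 0, 0⟩ 0 0) (.pos 45 .mp ⟨⟨825684622, 0, 0, 0, 0, 437491629, 0, 0, 0, ⟨0, 0⟩, 0⟩, 0, 0⟩ 0 0))) (.cut .s 14550016 (.pos 46 .mp ⟨⟨878719247, 0, 0, 0, 0, 332949962, 0, 0, 0, ⟨0, 0⟩, 0⟩, 0, 0⟩ 0 0) (.pos 46 .mp ⟨⟨882120693, 0, 0, 0, 0, 335615209, 0, 0, 0, ⟨0, 0⟩, 0⟩, 0, 0⟩ 0 0))) (.cut .v 16809984 (.cut .l 167772 (.cut .d (-4096) (.pos 45 .mp ⟨⟨839569539, 0, 0, 0, 0, 445494548, 0, 0, 0, ⟨0, 0⟩, 0⟩, 0, 0⟩ 0 0) (.cut .s 14560256 (.cut .s 14557696 (.pos 45 .mp ⟨⟨853563287, 0, 0, 0, 0, 391955313, 0, 0, 0, ⟨0, 0⟩, 0⟩, 0, 0⟩ 0 0) (.pos 45 .mp ⟨⟨855453240,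 0, 0, 0, 0, 392968898, 0, 0, 0, ⟨0, 0⟩, 0⟩, 0, 0⟩ 0 0)) (.cut .s 14562816 (.pos 45 .mp ⟨⟨857348588, 0, 0, 0, 0, 393990282, 0, 0, 0, ⟨0, 0⟩, 0⟩, 0, 0⟩ 0 0) (.pos 45 .mp ⟨⟨859249347, 0, 0, 0, 0, 395019458, 0, 0, 0, ⟨0, 0⟩, 0⟩, 0, 0⟩ 0 0)))) (.cut .s 14560256 (.pos 45 .mp ⟨⟨829313612, 0, 0, 0, 0, 439868115, 0, 0, 0, ⟨0, 0⟩, 0⟩, 0, 0⟩ 0 0) (.pos 45 .mp ⟨⟨832962963, 0, 0, 0, 0, 442260857, 0, 0, 0, ⟨0, 0⟩, 0⟩, 0, 0⟩ 0 0))) (.cut .s 14560256 (.pos 46 .mp ⟨⟨885628541, 0, 0, 0, 0, 338147926, 0, 0, 0, ⟨0, 0⟩, 0⟩, 0, 0⟩ 0 0) (.pos 46 .mp ⟨⟨889244766, 0, 0, 0, 0, 340544429, 0, 0, 0, ⟨0, 0⟩, 0⟩, 0, 0⟩ 0 0))))) (.pos 42 .mp ⟨⟨1051969920, 0, 0, 0,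 0, 0, 0, 0, 0, ⟨0, 0⟩, 0⟩, 0, 0⟩ 0 0))) (.cut .s 14606336 (.cut .v 16842752 (.cut .s 14585856 (.cut .s 14575616 (.cut .v 16809984 (.cut .l 167772 (.cut .d (-4096) (.pos 45 .mp ⟨⟨847031298, 0, 0, 0, 0, 450121465, 0, 0, 0, ⟨0, 0⟩, 0⟩, 0, 0⟩ 0 0) (.cut .s 14570496 (.cut .s 14567936 (.pos 45 .mp ⟨⟨861155539, 0, 0, 0, 0, 396056419, 0, 0, 0, ⟨0, 0⟩, 0⟩, 0, 0⟩ 0 0) (.pos 45 .mp ⟨⟨863067180, 0, 0, 0, 0, 397101155, 0, 0, 0, ⟨0, 0⟩, 0⟩, 0, 0⟩ 0 0)) (.cut .s 14573056 (.pos 45 .mp ⟨⟨864984289, 0, 0, 0, 0, 398153661, 0, 0, 0, ⟨0, 0⟩, 0⟩, 0, 0⟩ 0 0) (.pos 45 .mp ⟨⟨866906887, 0, 0, 0, 0, 399213928, 0, 0, 0, ⟨0, 0⟩, 0⟩, 0, 0⟩ 0 0)))) (.cut .s 14570496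 (.pos 45 .mp ⟨⟨836632817, 0, 0, 0, 0, 444669518, 0, 0, 0, ⟨0, 0⟩, 0⟩, 0, 0⟩ 0 0) (.pos 45 .mp ⟨⟨840323313, 0, 0, 0, 0, 447093756, 0, 0, 0, ⟨0, 0⟩, 0⟩, 0, 0⟩ 0 0))) (.cut .l 167772 (.pos 46 .mp ⟨⟨1095063124, 0, 0, 0, 0, 0, 0, 0, 0, ⟨0, 0⟩, 0⟩, 0, 0⟩ 0 0) (.cut .s 14570496 (.pos 46 .mp ⟨⟨867451932, 0, 0, 0, 0, 390013589, 0, 0, 0, ⟨0, 0⟩, 0⟩, 0, 0⟩ 0 0) (.pos 46 .mp ⟨⟨871335799, 0, 0, 0, 0, 392045674, 0, 0, 0, ⟨0, 0⟩, 0⟩, 0, 0⟩ 0 0)))) (.cut .d (-4096) (.cut .l 167772 (.pos 41 .mp ⟨⟨859715244, 0, 0, 0, 0, 450640103, 0, 0, 0, ⟨0, 0⟩, 0⟩, 0, 0⟩ 0 0) (.cut .s 14580736 (.pos 41 .mp ⟨⟨847297534, 0, 0, 0, 0, 455272516, 0, 0, 0, ⟨0, 0⟩, 0⟩, 0,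 0⟩ 0 0) (.pos 41 .mp ⟨⟨851035522, 0, 0, 0, 0, 457781701, 0, 0, 0, ⟨0, 0⟩, 0⟩, 0, 0⟩ 0 0))) (.cut .v 16809984 (.cut .l 167772 (.cut .s 14580736 (.cut .s 14578176 (.pos 45 .mp ⟨⟨868834990, 0, 0, 0, 0, 400281947, 0, 0, 0, ⟨0, 0⟩, 0⟩, 0, 0⟩ 0 0) (.pos 45 .mp ⟨⟨870768619, 0, 0, 0, 0, 401357711, 0, 0, 0, ⟨0, 0⟩, 0⟩, 0, 0⟩ 0 0)) (.cut .s 14583296 (.pos 45 .mp ⟨⟨872707793, 0, 0, 0, 0, 402441210, 0, 0, 0, ⟨0, 0⟩, 0⟩, 0, 0⟩ 0 0) (.pos 45 .mp ⟨⟨874652530, 0, 0, 0, 0, 403532438, 0, 0, 0, ⟨0, 0⟩, 0⟩, 0, 0⟩ 0 0))) (.pos 45 .mp ⟨⟨0, 0, 0, 0, 0, 0, 0, 0, 0, ⟨0, 0⟩, 0⟩, 0, 0⟩ 0 0)) (.pos 46 .mp ⟨⟨1065379874, 0, 0, 0, 0, 0, 0, 0, 0, ⟨0, 0⟩, 0⟩, 0, 0⟩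 0 0)))) (.cut .s 14596096 (.cut .d (-4096) (.cut .l 167772 (.pos 41 .mp ⟨⟨867335611, 0, 0, 0, 0, 455802358, 0, 0, 0, ⟨0, 0⟩, 0⟩, 0, 0⟩ 0 0) (.cut .s 14590976 (.pos 41 .mp ⟨⟨854824910, 0, 0, 0, 0, 460252916, 0, 0, 0, ⟨0, 0⟩, 0⟩, 0, 0⟩ 0 0) (.pos 41 .mp ⟨⟨858666430, 0, 0, 0, 0, 462684733, 0, 0, 0, ⟨0, 0⟩, 0⟩, 0, 0⟩ 0 0))) (.cut .v 16809984 (.cut .l 167772 (.cut .s 14590976 (.cut .s 14588416 (.pos 45 .mp ⟨⟨876602850, 0, 0, 0, 0, 404631385, 0, 0, 0, ⟨0, 0⟩, 0⟩, 0, 0⟩ 0 0) (.pos 45 .mp ⟨⟨878558772, 0, 0, 0, 0, 405738042, 0, 0, 0, ⟨0, 0⟩, 0⟩, 0, 0⟩ 0 0)) (.cut .s 14593536 (.pos 45 .mp ⟨⟨880520316, 0, 0, 0, 0, 406852401, 0, 0, 0, ⟨0, 0⟩, 0⟩,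 0, 0⟩ 0 0) (.pos 45 .mp ⟨⟨882487502, 0, 0, 0, 0, 407974453, 0, 0, 0, ⟨0, 0⟩, 0⟩, 0, 0⟩ 0 0))) (.pos 45 .mp ⟨⟨0, 0, 0, 0, 0, 0, 0, 0, 0, ⟨0, 0⟩, 0⟩, 0, 0⟩ 0 0)) (.pos 46 .mp ⟨⟨1075190709, 0, 0, 0, 0, 0, 0, 0, 0, ⟨0, 0⟩, 0⟩, 0, 0⟩ 0 0))) (.cut .d (-4096) (.cut .l 167772 (.pos 41 .mp ⟨⟨875040990, 0, 0, 0, 0, 461175712, 0, 0, 0, ⟨0, 0⟩, 0⟩, 0, 0⟩ 0 0) (.cut .s 14601216 (.pos 41 .mp ⟨⟨862560823, 0, 0, 0, 0, 465075709, 0, 0, 0, ⟨0, 0⟩, 0⟩, 0, 0⟩ 0 0) (.pos 41 .mp ⟨⟨866508833, 0, 0, 0, 0, 467424393, 0, 0, 0, ⟨0, 0⟩, 0⟩, 0, 0⟩ 0 0))) (.cut .v 16809984 (.cut .l 167772 (.cut .s 14601216 (.cut .s 14598656 (.pos 45 .mp ⟨⟨884460348, 0, 0, 0, 0,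 409104189, 0, 0, 0, ⟨0, 0⟩, 0⟩, 0, 0⟩ 0 0) (.pos 45 .mp ⟨⟨886438875, 0, 0, 0, 0, 410241599, 0, 0, 0, ⟨0, 0⟩, 0⟩, 0, 0⟩ 0 0)) (.cut .s 14603776 (.pos 45 .mp ⟨⟨888423103, 0, 0, 0, 0, 411386674, 0, 0, 0, ⟨0, 0⟩, 0⟩, 0, 0⟩ 0 0) (.pos 45 .mp ⟨⟨890413051, 0, 0, 0, 0, 412539405, 0, 0, 0, ⟨0, 0⟩, 0⟩, 0, 0⟩ 0 0))) (.pos 45 .mp ⟨⟨0, 0, 0, 0, 0, 0, 0, 0, 0, ⟨0, 0⟩, 0⟩, 0, 0⟩ 0 0)) (.pos 46 .mp ⟨⟨1085181415, 0, 0, 0, 0, 0, 0, 0, 0, ⟨0, 0⟩, 0⟩, 0, 0⟩ 0 0))))) (.pos 42 .mp ⟨⟨1090914024, 0, 0, 0, 0, 0, 0, 0, 0, ⟨0, 0⟩, 0⟩, 0, 0⟩ 0 0)) (.cut .v 16842752 (.cut .s 14626816 (.cut .s 14616576 (.cut .d (-4096) (.cut .l 167772 (.pos 41 .mp ⟨⟨882832541, 0,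 0, 0, 0, 466763370, 0, 0, 0, ⟨0, 0⟩, 0⟩, 0, 0⟩ 0 0) (.cut .s 14611456 (.pos 41 .mp ⟨⟨870511213, 0, 0, 0, 0, 469729318, 0, 0, 0, ⟨0, 0⟩, 0⟩, 0, 0⟩ 0 0) (.pos 41 .mp ⟨⟨874568721, 0, 0, 0, 0, 471989006, 0, 0, 0, ⟨0, 0⟩, 0⟩, 0, 0⟩ 0 0))) (.cut .v 16809984 (.cut .l 167772 (.cut .s 14611456 (.cut .s 14608896 (.pos 45 .mp ⟨⟨892408739, 0, 0, 0, 0, 413699783, 0, 0, 0, ⟨0, 0⟩, 0⟩, 0, 0⟩ 0 0) (.pos 45 .mp ⟨⟨894410187, 0, 0, 0, 0, 414867797, 0, 0, 0, ⟨0, 0⟩, 0⟩, 0, 0⟩ 0 0)) (.cut .s 14614016 (.pos 45 .mp ⟨⟨896417417, 0, 0, 0, 0, 416043437, 0, 0, 0, ⟨0, 0⟩, 0⟩, 0, 0⟩ 0 0) (.pos 45 .mp ⟨⟨898430447, 0, 0, 0, 0, 417226695, 0, 0, 0, ⟨0, 0⟩, 0⟩, 0, 0⟩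 0 0))) (.pos 45 .mp ⟨⟨0, 0, 0, 0, 0, 0, 0, 0, 0, ⟨0, 0⟩, 0⟩, 0, 0⟩ 0 0)) (.pos 46 .mp ⟨⟨1095354450, 0, 0, 0, 0, 0, 0, 0, 0, ⟨0, 0⟩, 0⟩, 0, 0⟩ 0 0))) (.cut .d (-4096) (.cut .l 167772 (.pos 41 .mp ⟨⟨890711442, 0, 0, 0, 0, 472568599, 0, 0, 0, ⟨0, 0⟩, 0⟩, 0, 0⟩ 0 0) (.cut .s 14621696 (.pos 41 .mp ⟨⟨878682120, 0, 0, 0, 0, 474201967, 0, 0, 0, ⟨0, 0⟩, 0⟩, 0, 0⟩ 0 0) (.pos 41 .mp ⟨⟨882852182, 0, 0, 0, 0, 476366695, 0, 0, 0, ⟨0, 0⟩, 0⟩, 0, 0⟩ 0 0))) (.cut .v 16809984 (.cut .l 167772 (.cut .s 14621696 (.cut .s 14619136 (.pos 45 .mp ⟨⟨900449299, 0, 0, 0, 0, 418417559, 0, 0, 0, ⟨0, 0⟩, 0⟩, 0, 0⟩ 0 0) (.pos 45 .mp ⟨⟨902473992, 0, 0, 0, 0, 419616020,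 0, 0, 0, ⟨0, 0⟩, 0⟩, 0, 0⟩ 0 0)) (.cut .s 14624256 (.pos 45 .mp ⟨⟨904504548, 0, 0, 0, 0, 420822066, 0, 0, 0, ⟨0, 0⟩, 0⟩, 0, 0⟩ 0 0) (.pos 45 .mp ⟨⟨906540988, 0, 0, 0, 0, 422035689, 0, 0, 0, ⟨0, 0⟩, 0⟩, 0, 0⟩ 0 0))) (.pos 45 .mp ⟨⟨0, 0, 0, 0, 0, 0, 0, 0, 0, ⟨0, 0⟩, 0⟩, 0, 0⟩ 0 0)) (.pos 46 .mp ⟨⟨1105712320, 0, 0, 0, 0, 0, 0, 0, 0, ⟨0, 0⟩, 0⟩, 0, 0⟩ 0 0)))) (.cut .s 14637056 (.cut .d (-4096) (.cut .l 167772 (.pos 41 .mp ⟨⟨898678892, 0, 0, 0, 0, 478594728, 0, 0, 0, ⟨0, 0⟩, 0⟩, 0, 0⟩ 0 0) (.cut .s 14631936 (.pos 41 .mp ⟨⟨887079683, 0, 0, 0, 0, 478481673, 0, 0, 0, ⟨0, 0⟩, 0⟩, 0, 0⟩ 0 0) (.pos 41 .mp ⟨⟨891365408, 0, 0, 0, 0, 480545372, 0,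 0, 0, ⟨0, 0⟩, 0⟩, 0, 0⟩ 0 0))) (.cut .v 16809984 (.cut .l 167772 (.cut .s 14631936 (.cut .s 14629376 (.pos 45 .mp ⟨⟨908583330, 0, 0, 0, 0, 423256876, 0, 0, 0, ⟨0, 0⟩, 0⟩, 0, 0⟩ 0 0) (.pos 45 .mp ⟨⟨910631598, 0, 0, 0, 0, 424485618, 0, 0, 0, ⟨0, 0⟩, 0⟩, 0, 0⟩ 0 0)) (.cut .s 14634496 (.pos 45 .mp ⟨⟨912685812, 0, 0, 0, 0, 425721902, 0, 0, 0, ⟨0, 0⟩, 0⟩, 0, 0⟩ 0 0) (.pos 45 .mp ⟨⟨914745992, 0, 0, 0, 0, 426965719, 0, 0, 0, ⟨0, 0⟩, 0⟩, 0, 0⟩ 0 0))) (.pos 45 .mp ⟨⟨0, 0, 0, 0, 0, 0, 0, 0, 0, ⟨0, 0⟩, 0⟩, 0, 0⟩ 0 0)) (.pos 46 .mp ⟨⟨1116257578, 0, 0, 0, 0, 0, 0, 0, 0, ⟨0, 0⟩, 0⟩, 0, 0⟩ 0 0))) (.cut .d (-4096) (.cut .l 167772 (.pos 41 .mp ⟨⟨906736114,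 0, 0, 0, 0, 484845155, 0, 0, 0, ⟨0, 0⟩, 0⟩, 0, 0⟩ 0 0) (.pos 41 .mp ⟨⟨891956208, 0, 0, 0, 0, 496495057, 0, 0, 0, ⟨0, 0⟩, 0⟩, 0, 0⟩ 0 0)) (.cut .v 16809984 (.cut .l 167772 (.cut .l 83886 (.cut .d (-2048) (.pos 45 .mp ⟨⟨904234724, 0, 0, 0, 0, 484718344, 0, 0, 0, ⟨0, 0⟩, 0⟩, 0, 0⟩ 0 0) (.cut .s 14642176 (.cut .s 14639616 (.pos 45 .mp ⟨⟨910715110, 0, 0, 0, 0, 440189147, 0, 0, 0, ⟨0, 0⟩, 0⟩, 0, 0⟩ 0 0) (.pos 45 .mp ⟨⟨912945612, 0, 0, 0, 0, 441166811, 0, 0, 0, ⟨0, 0⟩, 0⟩, 0, 0⟩ 0 0)) (.pos 45 .mp ⟨⟨917218861, 0, 0, 0, 0, 439855155, 0, 0, 0, ⟨0, 0⟩, 0⟩, 0, 0⟩ 0 0))) (.pos 45 .mp ⟨⟨916460065, 0, 0, 0, 0, 429696773, 0, 0, 0, ⟨0, 0⟩, 0⟩, 0, 0⟩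 0 0)) (.pos 45 .mp ⟨⟨0, 0, 0, 0, 0, 0, 0, 0, 0, ⟨0, 0⟩, 0⟩, 0, 0⟩ 0 0)) (.pos 46 .mp ⟨⟨1126992827, 0, 0, 0, 0, 0, 0, 0, 0, ⟨0, 0⟩, 0⟩, 0, 0⟩ 0 0))))) (.pos 42 .mp ⟨⟨1132738116, 0, 0, 0, 0, 0, 0, 0, 0, ⟨0, 0⟩, 0⟩, 0, 0⟩ 0 0)))) (.pos 36 .mp ⟨⟨1099678309, 0, 0, 0, 0, 0, 0, 0, 0, ⟨0, 0⟩, 0⟩, 0, 0⟩ 0 0)))))) (.pos 32 .mp ⟨⟨1232363504, 0, 0, 0, 0, 0, 0, 0, 0, ⟨0, 0⟩, 0⟩, 0, 0⟩ 0 0))) (.void 30 ⟨⟨100000, 0, 0, 0, 0, 0, 0, 0, 0, ⟨0, 0⟩, 0⟩, 0, 0⟩ 0 0))) (.void 28 ⟨⟨100000, 0, 0, 0, 0, 0, 0, 0, 0, ⟨0, 0⟩, 0⟩, 0, 0⟩ 0 0))) (.void 26 ⟨⟨100000, 0, 0, 0, 0, 0, 0, 0, 0, ⟨0, 0⟩, 0⟩, 0, 0⟩ 0 0))) (.void 24 ⟨⟨100000, 0, 0, 0, 0, 0, 0, 0, 0, ⟨0, 0⟩,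 0⟩, 0, 0⟩ 0 0)))) (.void 22 ⟨⟨100000, 0, 0, 0, 0, 0, 0, 0, 0, ⟨0, 0⟩, 0⟩, 0, 0⟩ 0 0))) (.void 79 ⟨⟨100000, 0, 0, 0, 0, 0, 0, 0, 0, ⟨0, 0⟩, 0⟩, 0, 0⟩ 0 0)) (.void 88 ⟨⟨100000, 0, 0, 0, 0, 0, 0, 0, 0, ⟨0, 0⟩, 0⟩, 0, 0⟩ 0 0)) (.void 97 ⟨⟨93279, 0, 0, 6783, 0, 0, 0, 0, 0, ⟨0, 0⟩, 0⟩, 0, 0⟩ 0 0))) (.cut .v 16777216 (.cut .v 8388608 (.cut .v 4194304 (.cut .v 2097152 (.cut .v 1048576 (.pos 93 .pm ⟨⟨0, 0, 29434336, 0, 0, 0, 0, 0, 0, ⟨0, 0⟩, 0⟩, 0, 2238⟩ 0 0) (.pos 94 .pm ⟨⟨0, 0, 42486855, 0, 0, 0, 0, 0, 0, ⟨0, 0⟩, 0⟩, 0, 6451⟩ 0 0)) (.pos 90 .pm ⟨⟨0, 0, 64934025, 0, 0, 0, 0, 0, 0, ⟨0, 0⟩, 0⟩, 0, 12186⟩ 0 0)) (.pos 5 .pm ⟨⟨0, 0, 185645151, 0,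 0, 0, 0, 0, 0, ⟨0, 0⟩, 0⟩, 0, 28707⟩ 0 0)) (.pos 3 .pm ⟨⟨0, 0, 0, 0, 0, 0, 0, 0, 0, ⟨0, 0⟩, 0⟩, 0, 0⟩ 0 0)) (.cut .v 268435456 (.cut .v 67108864 (.cut .d 1328514 (.cut .v 33554432 (.cut .d 664257 (.cut .v 25165824 (.cut .d 332128 (.cut .d 166064 (.cut .v 20971520 (.cut .v 18874368 (.cut .d 83032 (.cut .v 17825792 (.cut .s 14565376 (.pos 27 .pp ⟨⟨835236391, 0, 0, 0, 0, 0, 0, 0, 0, ⟨0, 0⟩, 0⟩, 22735497, 0⟩ 0 0) (.pos 27 .pp ⟨⟨889653176, 0, 0, 0, 0, 0, 0, 0, 0, ⟨0, 0⟩, 0⟩, 25658430, 0⟩ 0 0)) (.pos 28 .pp ⟨⟨1152431090, 0, 0, 0, 0, 0, 0, 0, 0, ⟨0, 0⟩, 0⟩, 0, 0⟩ 0 0)) (.pos 25 .pp ⟨⟨0, 0, 0, 0, 0, 0, 0, 0, 0, ⟨0, 0⟩, 0⟩, 0, 75988⟩ 0 0)) (.cut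 .d 83032 (.pos 26 .pp ⟨⟨1407380903, 0, 0, 0, 0, 0, 0, 0, 0, ⟨0, 0⟩, 0⟩, 0, 0⟩ 0 0) (.pos 26 .pp ⟨⟨1161526414, 0, 0, 0, 0, 0, 0, 0, 0, ⟨0, 0⟩, 0⟩, 0, 0⟩ 0 0))) (.cut .v 23068672 (.cut .d 83032 (.void 53 ⟨⟨0, 0, 0, 0, 0, 0, 0, 0, 0, ⟨0, 0⟩, 0⟩, 100000, 0⟩ 0 0) (.pos 53 .pp ⟨⟨0, 0, 0, 0, 0, 0, 0, 0, 0, ⟨0, 0⟩, 0⟩, 207428844, 0⟩ 0 0)) (.pos 54 .pp ⟨⟨0, 0, 0, 0, 0, 0, 0, 0, 0, ⟨0, 0⟩, 0⟩, 291215380, 0⟩ 0 0))) (.cut .v 20971520 (.pos 23 .pp ⟨⟨0, 0, 0, 0, 0, 0, 0, 0, 0, ⟨0, 0⟩, 0⟩, 0, 79741⟩ 0 0) (.pos 24 .pp ⟨⟨0, 0, 0, 0, 0, 0, 19801, 0, 0, ⟨0, 0⟩, 0⟩, 174450590, 0⟩ 0 0))) (.pos 21 .pp ⟨⟨0, 0, 0, 0, 0, 0, 0, 0, 0, ⟨0, 0⟩, 0⟩, 0, 86120⟩ 0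 0)) (.cut .d 332128 (.cut .d 166064 (.void 22 ⟨⟨0, 0, 0, 0, 0, 0, 0, 0, 0, ⟨0, 0⟩, 0⟩, 100000, 0⟩ 0 0) (.pos 22 .pp ⟨⟨0, 0, 0, 0, 0, 0, 0, 0, 0, ⟨0, 0⟩, 0⟩, 265010740, 0⟩ 0 0)) (.pos 22 .pp ⟨⟨0, 0, 0, 0, 0, 0, 15724, 0, 0, ⟨0, 0⟩, 0⟩, 181771584, 0⟩ 0 0))) (.pos 20 .pp ⟨⟨0, 0, 0, 0, 0, 0, 287041, 0, 0, ⟨0, 0⟩, 0⟩, 0, 0⟩ 0 0)) (.cut .d 664257 (.pos 79 .pp ⟨⟨0, 0, 0, 0, 0, 0, 0, 0, 0, ⟨0, 0⟩, 0⟩, 551365908, 0⟩ 0 0) (.pos 79 .pp ⟨⟨0, 0, 0, 0, 0, 0, 0, 0, 0, ⟨0, 0⟩, 0⟩, 262427992, 0⟩ 0 0))) (.pos 78 .pp ⟨⟨0, 0, 0, 0, 0, 0, 0, 0, 0, ⟨0, 0⟩, 0⟩, 0, 71767⟩ 0 0)) (.void 88 ⟨⟨0, 0, 0, 49200, 0, 0, 0, 0, 0, ⟨0, 0⟩, 0⟩, 50800, 0⟩ 0 0)) (.void 97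 ⟨⟨0, 0, 0, 0, 0, 0, 0, 0, 0, ⟨0, 0⟩, 0⟩, 100000, 0⟩ 0 0)))),
    by decide +kernel⟩

def covers30 : cell.Covers Vale.Agent.P237.Petty.Cor.Grid.N11.table row30.1 :=
  ⟨(.cut .d 0 (.cut .v 16777216 (.cut .v 8388608 (.void 2 ⟨⟨0, 0, 100000, 0, 0, 0, 0, 0, 0, ⟨0, 0⟩, 0⟩, 0, 0⟩ 0 0) (.cut .d (-8388608) (.void 3 ⟨⟨100000, 0, 0, 0, 0, 0, 0, 0, 0, ⟨0, 0⟩, 0⟩, 0, 0⟩ 0 0) (.cut .d (-4194304) (.void 3 ⟨⟨100000, 0, 0, 0, 0, 0, 0, 0, 0, ⟨0, 0⟩, 0⟩, 0, 0⟩ 0 0) (.cut .d (-2097152) (.void 3 ⟨⟨100000, 0, 0, 0, 0, 0, 0, 0, 0, ⟨0, 0⟩, 0⟩, 0, 0⟩ 0 0) (.cut .d (-1048576) (.void 3 ⟨⟨77500, 0, 22500, 0, 0, 0, 0, 0, 0, ⟨0, 0⟩, 0⟩, 0, 0⟩ 0 0) (.cut .d (-524288)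 (.void 3 ⟨⟨0, 0, 0, 0, 0, 100000, 0, 0, 0, ⟨0, 0⟩, 0⟩, 0, 0⟩ 0 0) (.cut .d (-262144) (.void 3 ⟨⟨0, 0, 0, 0, 0, 100000, 0, 0, 0, ⟨0, 0⟩, 0⟩, 0, 0⟩ 0 0) (.cut .s 14729216 (.pos 3 .mm ⟨⟨0, 0, 0, 0, 0, 2337628467, 0, 0, 0, ⟨0, 0⟩, 0⟩, 0, 0⟩ 0 0) (.pos 3 .mm ⟨⟨0, 0, 0, 0, 0, 2540496754, 0, 0, 0, ⟨0, 0⟩, 0⟩, 0, 0⟩ 0 0))))))))) (.cut .v 268435456 (.cut .v 67108864 (.cut .v 33554432 (.cut .d (-8388608) (.void 20 ⟨⟨100000, 0, 0, 0, 0, 0, 0, 0, 0, ⟨0, 0⟩, 0⟩, 0, 0⟩ 0 0) (.cut .v 25165824 (.cut .d (-4194304) (.void 21 ⟨⟨100000, 0, 0, 0, 0, 0, 0, 0, 0, ⟨0, 0⟩, 0⟩, 0, 0⟩ 0 0) (.cut .d (-2097152) (.void 21 ⟨⟨100000, 0, 0, 0, 0, 0, 0, 0, 0, ⟨0, 0⟩,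 0⟩, 0, 0⟩ 0 0) (.cut .v 20971520 (.cut .d (-1048576) (.void 23 ⟨⟨100000, 0, 0, 0, 0, 0, 0, 0, 0, ⟨0, 0⟩, 0⟩, 0, 0⟩ 0 0) (.cut .v 18874368 (.cut .d (-524288) (.void 25 ⟨⟨100000, 0, 0, 0, 0, 0, 0, 0, 0, ⟨0, 0⟩, 0⟩, 0, 0⟩ 0 0) (.cut .v 17825792 (.cut .d (-262144) (.void 27 ⟨⟨100000, 0, 0, 0, 0, 0, 0, 0, 0, ⟨0, 0⟩, 0⟩, 0, 0⟩ 0 0) (.cut .v 17301504 (.cut .d (-131072) (.void 29 ⟨⟨100000, 0, 0, 0, 0, 0, 0, 0, 0, ⟨0, 0⟩, 0⟩, 0, 0⟩ 0 0) (.cut .v 17039360 (.cut .d (-65536) (.void 31 ⟨⟨100000, 0, 0, 0, 0, 0, 0, 0, 0, ⟨0, 0⟩, 0⟩, 0, 0⟩ 0 0) (.cut .d (-32768) (.void 31 ⟨⟨100000, 0, 0, 0, 0, 0, 0, 0, 0, ⟨0, 0⟩, 0⟩, 0, 0⟩ 0 0) (.cut .d (-16384) (.void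 31 ⟨⟨100000, 0, 0, 0, 0, 0, 0, 0, 0, ⟨0, 0⟩, 0⟩, 0, 0⟩ 0 0) (.cut .d (-8192) (.cut .v 16908288 (.cut .v 16842752 (.cut .s 14729216 (.pos 41 .mp ⟨⟨911678635, 0, 0, 0, 0, 656893441, 0, 0, 0, ⟨0, 0⟩, 0⟩, 0, 0⟩ 0 0) (.pos 41 .mp ⟨⟨981451389, 0, 0, 0, 0, 723294938, 0, 0, 0, ⟨0, 0⟩, 0⟩, 0, 0⟩ 0 0)) (.pos 42 .mp ⟨⟨1365445965, 0, 0, 0, 0, 0, 0, 0, 0, ⟨0, 0⟩, 0⟩, 0, 0⟩ 0 0)) (.void 36 ⟨⟨100000, 0, 0, 0, 0, 0, 0, 0, 0, ⟨0, 0⟩, 0⟩, 0, 0⟩ 0 0)) (.cut .v 16908288 (.cut .s 14729216 (.cut .s 14688256 (.cut .v 16842752 (.cut .s 14667776 (.cut .s 14657536 (.cut .d (-4096) (.cut .l 167772 (.pos 41 .mp ⟨⟨917448678, 0, 0, 0, 0, 483762790, 0, 0, 0, ⟨0,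 0⟩, 0⟩, 0, 0⟩ 0 0) (.pos 41 .mp ⟨⟨900038656, 0, 0, 0, 0, 503356947, 0, 0, 0, ⟨0, 0⟩, 0⟩, 0, 0⟩ 0 0)) (.cut .v 16809984 (.cut .l 167772 (.cut .l 83886 (.cut .d (-2048) (.pos 45 .mp ⟨⟨914893490, 0, 0, 0, 0, 483699668, 0, 0, 0, ⟨0, 0⟩, 0⟩, 0, 0⟩ 0 0) (.cut .s 14652416 (.pos 45 .mp ⟨⟨921366349, 0, 0, 0, 0, 442488935, 0, 0, 0, ⟨0, 0⟩, 0⟩, 0, 0⟩ 0 0) (.pos 45 .mp ⟨⟨925536616, 0, 0, 0, 0, 444615245, 0, 0, 0, ⟨0, 0⟩, 0⟩, 0, 0⟩ 0 0))) (.pos 45 .mp ⟨⟨924802299, 0, 0, 0, 0, 435421295, 0, 0, 0, ⟨0, 0⟩, 0⟩, 0, 0⟩ 0 0)) (.pos 45 .mp ⟨⟨0, 0, 0, 0, 0, 0, 0, 0, 0, ⟨0, 0⟩, 0⟩, 0, 0⟩ 0 0)) (.pos 46 .mp ⟨⟨1137910984, 0, 0, 0, 0, 0, 0, 0, 0, ⟨0, 0⟩, 0⟩,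 0, 0⟩ 0 0))) (.cut .d (-4096) (.cut .l 167772 (.pos 41 .mp ⟨⟨925764153, 0, 0, 0, 0, 488236815, 0, 0, 0, ⟨0, 0⟩, 0⟩, 0, 0⟩ 0 0) (.cut .s 14662656 (.pos 41 .mp ⟨⟨912748721, 0, 0, 0, 0, 491796122, 0, 0, 0, ⟨0, 0⟩, 0⟩, 0, 0⟩ 0 0) (.pos 41 .mp ⟨⟨916508698, 0, 0, 0, 0, 495132229, 0, 0, 0, ⟨0, 0⟩, 0⟩, 0, 0⟩ 0 0))) (.cut .v 16809984 (.cut .l 167772 (.cut .s 14662656 (.cut .s 14660096 (.pos 45 .mp ⟨⟨933563167, 0, 0, 0, 0, 437449935, 0, 0, 0, ⟨0, 0⟩, 0⟩, 0, 0⟩ 0 0) (.pos 45 .mp ⟨⟨935685039, 0, 0, 0, 0, 438512163, 0, 0, 0, ⟨0, 0⟩, 0⟩, 0, 0⟩ 0 0)) (.cut .s 14665216 (.pos 45 .mp ⟨⟨937813309, 0, 0, 0, 0, 439584797, 0, 0, 0, ⟨0, 0⟩, 0⟩, 0, 0⟩ 0 0)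 (.pos 45 .mp ⟨⟨939948002, 0, 0, 0, 0, 440667829, 0, 0, 0, ⟨0, 0⟩, 0⟩, 0, 0⟩ 0 0))) (.pos 45 .mp ⟨⟨0, 0, 0, 0, 0, 0, 0, 0, 0, ⟨0, 0⟩, 0⟩, 0, 0⟩ 0 0)) (.pos 46 .mp ⟨⟨1148066647, 0, 0, 0, 0, 0, 0, 0, 0, ⟨0, 0⟩, 0⟩, 0, 0⟩ 0 0)))) (.cut .s 14678016 (.cut .d (-4096) (.cut .l 167772 (.pos 41 .mp ⟨⟨934176618, 0, 0, 0, 0, 492960367, 0, 0, 0, ⟨0, 0⟩, 0⟩, 0, 0⟩ 0 0) (.cut .s 14672896 (.pos 41 .mp ⟨⟨920322273, 0, 0, 0, 0, 498443955, 0, 0, 0, ⟨0, 0⟩, 0⟩, 0, 0⟩ 0 0) (.pos 41 .mp ⟨⟨924190346, 0, 0, 0, 0, 501729548, 0, 0, 0, ⟨0, 0⟩, 0⟩, 0, 0⟩ 0 0))) (.cut .v 16809984 (.cut .l 167772 (.cut .s 14672896 (.cut .s 14670336 (.pos 45 .mp ⟨⟨942089140, 0, 0,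 0, 0, 441761250, 0, 0, 0, ⟨0, 0⟩, 0⟩, 0, 0⟩ 0 0) (.pos 45 .mp ⟨⟨944236746, 0, 0, 0, 0, 442865052, 0, 0, 0, ⟨0, 0⟩, 0⟩, 0, 0⟩ 0 0)) (.cut .s 14675456 (.pos 45 .mp ⟨⟨946390845, 0, 0, 0, 0, 443979226, 0, 0, 0, ⟨0, 0⟩, 0⟩, 0, 0⟩ 0 0) (.pos 45 .mp ⟨⟨948551458, 0, 0, 0, 0, 445103764, 0, 0, 0, ⟨0, 0⟩, 0⟩, 0, 0⟩ 0 0))) (.pos 45 .mp ⟨⟨0, 0, 0, 0, 0, 0, 0, 0, 0, ⟨0, 0⟩, 0⟩, 0, 0⟩ 0 0)) (.pos 46 .mp ⟨⟨1158431907, 0, 0, 0, 0, 0, 0, 0, 0, ⟨0, 0⟩, 0⟩, 0, 0⟩ 0 0))) (.cut .d (-4096) (.cut .l 167772 (.pos 41 .mp ⟨⟨942687434, 0, 0, 0, 0, 497937369, 0, 0, 0, ⟨0, 0⟩, 0⟩, 0, 0⟩ 0 0) (.cut .s 14683136 (.pos 41 .mp ⟨⟨928113830, 0, 0, 0, 0, 504987238, 0, 0,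 0, ⟨0, 0⟩, 0⟩, 0, 0⟩ 0 0) (.pos 41 .mp ⟨⟨932093642, 0, 0, 0, 0, 508215238, 0, 0, 0, ⟨0, 0⟩, 0⟩, 0, 0⟩ 0 0))) (.cut .v 16809984 (.cut .l 167772 (.cut .s 14683136 (.cut .s 14680576 (.pos 45 .mp ⟨⟨950718611, 0, 0, 0, 0, 446238655, 0, 0, 0, ⟨0, 0⟩, 0⟩, 0, 0⟩ 0 0) (.pos 45 .mp ⟨⟨952892325, 0, 0, 0, 0, 447383890, 0, 0, 0, ⟨0, 0⟩, 0⟩, 0, 0⟩ 0 0)) (.cut .s 14685696 (.pos 45 .mp ⟨⟨955072627, 0, 0, 0, 0, 448539460, 0, 0, 0, ⟨0, 0⟩, 0⟩, 0, 0⟩ 0 0) (.pos 45 .mp ⟨⟨957259538, 0, 0, 0, 0, 449705356, 0, 0, 0, ⟨0, 0⟩, 0⟩, 0, 0⟩ 0 0))) (.pos 45 .mp ⟨⟨0, 0, 0, 0, 0, 0, 0, 0, 0, ⟨0, 0⟩, 0⟩, 0, 0⟩ 0 0)) (.pos 46 .mp ⟨⟨1169009722, 0, 0, 0, 0, 0, 0, 0, 0,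 ⟨0, 0⟩, 0⟩, 0, 0⟩ 0 0))))) (.pos 42 .mp ⟨⟨1176979553, 0, 0, 0, 0, 0, 0, 0, 0, ⟨0, 0⟩, 0⟩, 0, 0⟩ 0 0)) (.cut .v 16842752 (.cut .s 14708736 (.cut .s 14698496 (.cut .d (-4096) (.cut .l 167772 (.pos 41 .mp ⟨⟨951297991, 0, 0, 0, 0, 503171826, 0, 0, 0, ⟨0, 0⟩, 0⟩, 0, 0⟩ 0 0) (.cut .s 14693376 (.pos 41 .mp ⟨⟨936130707, 0, 0, 0, 0, 511411747, 0, 0, 0, ⟨0, 0⟩, 0⟩, 0, 0⟩ 0 0) (.pos 41 .mp ⟨⟨940225961, 0, 0, 0, 0, 514574948, 0, 0, 0, ⟨0, 0⟩, 0⟩, 0, 0⟩ 0 0))) (.cut .v 16809984 (.cut .l 167772 (.cut .s 14693376 (.cut .s 14690816 (.pos 45 .mp ⟨⟨959453083, 0, 0, 0, 0, 450881568, 0, 0, 0, ⟨0, 0⟩, 0⟩, 0, 0⟩ 0 0) (.pos 45 .mp ⟨⟨961653287, 0, 0, 0, 0,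 452068085, 0, 0, 0, ⟨0, 0⟩, 0⟩, 0, 0⟩ 0 0)) (.cut .d (-2048) (.pos 45 .mp ⟨⟨953503147, 0, 0, 0, 0, 482892559, 0, 0, 0, ⟨0, 0⟩, 0⟩, 0, 0⟩ 0 0) (.cut .s 14695936 (.pos 45 .mp ⟨⟨956571740, 0, 0, 0, 0, 467826196, 0, 0, 0, ⟨0, 0⟩, 0⟩, 0, 0⟩ 0 0) (.pos 45 .mp ⟨⟨958812285, 0, 0, 0, 0, 468949763, 0, 0, 0, ⟨0, 0⟩, 0⟩, 0, 0⟩ 0 0)))) (.pos 45 .mp ⟨⟨0, 0, 0, 0, 0, 0, 0, 0, 0, ⟨0, 0⟩, 0⟩, 0, 0⟩ 0 0)) (.pos 46 .mp ⟨⟨1179803107, 0, 0, 0, 0, 0, 0, 0, 0, ⟨0, 0⟩, 0⟩, 0, 0⟩ 0 0))) (.cut .d (-4096) (.cut .l 167772 (.pos 41 .mp ⟨⟨960009703, 0, 0, 0, 0, 508667824, 0, 0, 0, ⟨0, 0⟩, 0⟩, 0, 0⟩ 0 0) (.cut .s 14703616 (.pos 41 .mp ⟨⟨944380344, 0, 0, 0, 0, 517703007,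 0, 0, 0, ⟨0, 0⟩, 0⟩, 0, 0⟩ 0 0) (.pos 41 .mp ⟨⟨948594807, 0, 0, 0, 0, 520794074, 0, 0, 0, ⟨0, 0⟩, 0⟩, 0, 0⟩ 0 0))) (.cut .v 16809984 (.cut .l 167772 (.cut .s 14703616 (.cut .d (-2048) (.pos 45 .mp ⟨⟨957674326, 0, 0, 0, 0, 485939686, 0, 0, 0, ⟨0, 0⟩, 0⟩, 0, 0⟩ 0 0) (.cut .s 14701056 (.pos 45 .mp ⟨⟨961053739, 0, 0, 0, 0, 470098523, 0, 0, 0, ⟨0, 0⟩, 0⟩, 0, 0⟩ 0 0) (.pos 45 .mp ⟨⟨963296039, 0, 0, 0, 0, 471272695, 0, 0, 0, ⟨0, 0⟩, 0⟩, 0, 0⟩ 0 0))) (.cut .d (-2048) (.pos 45 .mp ⟨⟨961924279, 0, 0, 0, 0, 488916729, 0, 0, 0, ⟨0, 0⟩, 0⟩, 0, 0⟩ 0 0) (.cut .s 14706176 (.pos 45 .mp ⟨⟨965539117, 0, 0, 0, 0, 472472498, 0, 0, 0, ⟨0, 0⟩, 0⟩, 0, 0⟩ 0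 0) (.pos 45 .mp ⟨⟨967782908, 0, 0, 0, 0, 473698150, 0, 0, 0, ⟨0, 0⟩, 0⟩, 0, 0⟩ 0 0)))) (.pos 45 .mp ⟨⟨959249062, 0, 0, 0, 0, 0, 0, 0, 0, ⟨0, 0⟩, 0⟩, 0, 0⟩ 0 0)) (.pos 46 .mp ⟨⟨1190815138, 0, 0, 0, 0, 0, 0, 0, 0, ⟨0, 0⟩, 0⟩, 0, 0⟩ 0 0)))) (.cut .s 14718976 (.cut .d (-4096) (.cut .l 167772 (.pos 41 .mp ⟨⟨968824014, 0, 0, 0, 0, 514429530, 0, 0, 0, ⟨0, 0⟩, 0⟩, 0, 0⟩ 0 0) (.cut .s 14713856 (.pos 41 .mp ⟨⟨952870309, 0, 0, 0, 0, 523846281, 0, 0, 0, ⟨0, 0⟩, 0⟩, 0, 0⟩ 0 0) (.pos 41 .mp ⟨⟨957207815, 0, 0, 0, 0, 526857745, 0, 0, 0, ⟨0, 0⟩, 0⟩, 0, 0⟩ 0 0))) (.cut .v 16809984 (.cut .l 167772 (.cut .s 14713856 (.cut .d (-2048) (.pos 45 .mp ⟨⟨966254378,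 0, 0, 0, 0, 491821061, 0, 0, 0, ⟨0, 0⟩, 0⟩, 0, 0⟩ 0 0) (.cut .s 14711296 (.pos 45 .mp ⟨⟨970027344, 0, 0, 0, 0, 474949876, 0, 0, 0, ⟨0, 0⟩, 0⟩, 0, 0⟩ 0 0) (.pos 45 .mp ⟨⟨972272358, 0, 0, 0, 0, 476227898, 0, 0, 0, ⟨0, 0⟩, 0⟩, 0, 0⟩ 0 0))) (.cut .d (-2048) (.pos 45 .mp ⟨⟨970666006, 0, 0, 0, 0, 494650032, 0, 0, 0, ⟨0, 0⟩, 0⟩, 0, 0⟩ 0 0) (.cut .s 14716416 (.pos 45 .mp ⟨⟨974517880, 0, 0, 0, 0, 477532442, 0, 0, 0, ⟨0, 0⟩, 0⟩, 0, 0⟩ 0 0) (.pos 45 .mp ⟨⟨976763842, 0, 0, 0, 0, 478863735, 0, 0, 0, ⟨0, 0⟩, 0⟩, 0, 0⟩ 0 0)))) (.pos 45 .mp ⟨⟨968028865, 0, 0, 0, 0, 0, 0, 0, 0, ⟨0, 0⟩, 0⟩, 0, 0⟩ 0 0)) (.pos 46 .mp ⟨⟨1202048952, 0, 0, 0, 0, 0, 0, 0,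 0, ⟨0, 0⟩, 0⟩, 0, 0⟩ 0 0))) (.cut .d (-4096) (.cut .l 167772 (.pos 41 .mp ⟨⟨977742394, 0, 0, 0, 0, 520461199, 0, 0, 0, ⟨0, 0⟩, 0⟩, 0, 0⟩ 0 0) (.cut .s 14724096 (.pos 41 .mp ⟨⟨961608302, 0, 0, 0, 0, 529826565, 0, 0, 0, ⟨0, 0⟩, 0⟩, 0, 0⟩ 0 0) (.pos 41 .mp ⟨⟨966072753, 0, 0, 0, 0, 532750823, 0, 0, 0, ⟨0, 0⟩, 0⟩, 0, 0⟩ 0 0))) (.cut .v 16809984 (.cut .l 167772 (.cut .s 14724096 (.cut .d (-2048) (.pos 45 .mp ⟨⟨975160559, 0, 0, 0, 0, 497400967, 0, 0, 0, ⟨0, 0⟩, 0⟩, 0, 0⟩ 0 0) (.cut .s 14721536 (.pos 45 .mp ⟨⟨979010173, 0, 0, 0, 0, 480222008, 0, 0, 0, ⟨0, 0⟩, 0⟩, 0, 0⟩ 0 0) (.pos 45 .mp ⟨⟨981256803, 0, 0, 0, 0, 481607489, 0, 0, 0, ⟨0, 0⟩, 0⟩,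 0, 0⟩ 0 0))) (.cut .d (-2048) (.pos 45 .mp ⟨⟨979739446, 0, 0, 0, 0, 500071164, 0, 0, 0, ⟨0, 0⟩, 0⟩, 0, 0⟩ 0 0) (.cut .s 14726656 (.pos 45 .mp ⟨⟨983503662, 0, 0, 0, 0, 483020413, 0, 0, 0, ⟨0, 0⟩, 0⟩, 0, 0⟩ 0 0) (.pos 45 .mp ⟨⟨985750676, 0, 0, 0, 0, 484461012, 0, 0, 0, ⟨0, 0⟩, 0⟩, 0, 0⟩ 0 0)))) (.pos 45 .mp ⟨⟨976912505, 0, 0, 0, 0, 0, 0, 0, 0, ⟨0, 0⟩, 0⟩, 0, 0⟩ 0 0)) (.pos 46 .mp ⟨⟨1213507748, 0, 0, 0, 0, 0, 0, 0, 0, ⟨0, 0⟩, 0⟩, 0, 0⟩ 0 0))))) (.pos 42 .mp ⟨⟨1221987864, 0, 0, 0, 0, 0, 0, 0, 0, ⟨0, 0⟩, 0⟩, 0, 0⟩ 0 0))) (.cut .s 14770176 (.cut .v 16842752 (.cut .s 14749696 (.cut .s 14739456 (.cut .d (-4096) (.cut .l 167772 (.pos 41 .mp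 ⟨⟨986766341, 0, 0, 0, 0, 526767173, 0, 0, 0, ⟨0, 0⟩, 0⟩, 0, 0⟩ 0 0) (.cut .s 14734336 (.pos 41 .mp ⟨⟨970602160, 0, 0, 0, 0, 535628583, 0, 0, 0, ⟨0, 0⟩, 0⟩, 0, 0⟩ 0 0) (.pos 41 .mp ⟨⟨975197525, 0, 0, 0, 0, 538457890, 0, 0, 0, ⟨0, 0⟩, 0⟩, 0, 0⟩ 0 0))) (.cut .v 16809984 (.cut .l 167772 (.cut .s 14734336 (.cut .d (-2048) (.pos 45 .mp ⟨⟨984404088, 0, 0, 0, 0, 502657900, 0, 0, 0, ⟨0, 0⟩, 0⟩, 0, 0⟩ 0 0) (.cut .s 14731776 (.pos 45 .mp ⟨⟨987997774, 0, 0, 0, 0, 485929525, 0, 0, 0, ⟨0, 0⟩, 0⟩, 0, 0⟩ 0 0) (.pos 45 .mp ⟨⟨990244882, 0, 0, 0, 0, 487426188, 0, 0, 0, ⟨0, 0⟩, 0⟩, 0, 0⟩ 0 0))) (.cut .d (-2048) (.pos 45 .mp ⟨⟨989155917, 0, 0, 0, 0, 505158422,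 0, 0, 0, ⟨0, 0⟩, 0⟩, 0, 0⟩ 0 0) (.cut .s 14736896 (.pos 45 .mp ⟨⟨992491926, 0, 0, 0, 0, 488951241, 0, 0, 0, ⟨0, 0⟩, 0⟩, 0, 0⟩ 0 0) (.pos 45 .mp ⟨⟨994738832, 0, 0, 0, 0, 490504926, 0, 0, 0, ⟨0, 0⟩, 0⟩, 0, 0⟩ 0 0)))) (.pos 45 .mp ⟨⟨979006399, 0, 0, 0, 0, 494829420, 0, 0, 0, ⟨0, 0⟩, 0⟩, 0, 0⟩ 0 0)) (.pos 46 .mp ⟨⟨1225194790, 0, 0, 0, 0, 0, 0, 0, 0, ⟨0, 0⟩, 0⟩, 0, 0⟩ 0 0))) (.cut .d (-4096) (.cut .l 167772 (.void 41 ⟨⟨0, 0, 0, 0, 0, 100000, 0, 0, 0, ⟨0, 0⟩, 0⟩, 0, 0⟩ 0 0) (.cut .s 14744576 (.pos 41 .mp ⟨⟨979859858, 0, 0, 0, 0, 541236774, 0, 0, 0, ⟨0, 0⟩, 0⟩, 0, 0⟩ 0 0) (.pos 41 .mp ⟨⟨984590177, 0, 0, 0, 0, 543963245, 0, 0, 0, ⟨0, 0⟩, 0⟩,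 0, 0⟩ 0 0))) (.cut .v 16809984 (.cut .l 167772 (.cut .s 14744576 (.cut .s 14742016 (.cut .s 14740736 (.pos 45 .mp ⟨⟨1003588616, 0, 0, 0, 0, 477465677, 0, 0, 0, ⟨0, 0⟩, 0⟩, 0, 0⟩ 0 0) (.pos 45 .mp ⟨⟨1004755242, 0, 0, 0, 0, 478160463, 0, 0, 0, ⟨0, 0⟩, 0⟩, 0, 0⟩ 0 0)) (.pos 45 .mp ⟨⟨1007093870, 0, 0, 0, 0, 477945827, 0, 0, 0, ⟨0, 0⟩, 0⟩, 0, 0⟩ 0 0)) (.cut .s 14747136 (.pos 45 .mp ⟨⟨1009439693, 0, 0, 0, 0, 479346167, 0, 0, 0, ⟨0, 0⟩, 0⟩, 0, 0⟩ 0 0) (.pos 45 .mp ⟨⟨1011792737, 0, 0, 0, 0, 480756552, 0, 0, 0, ⟨0, 0⟩, 0⟩, 0, 0⟩ 0 0))) (.pos 45 .mp ⟨⟨988123019, 0, 0, 0, 0, 500380578, 0, 0, 0, ⟨0, 0⟩, 0⟩, 0, 0⟩ 0 0)) (.pos 46 .mp ⟨⟨1237113406,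 0, 0, 0, 0, 0, 0, 0, 0, ⟨0, 0⟩, 0⟩, 0, 0⟩ 0 0)))) (.cut .s 14759936 (.cut .d (-4096) (.cut .l 167772 (.void 41 ⟨⟨0, 0, 0, 0, 0, 100000, 0, 0, 0, ⟨0, 0⟩, 0⟩, 0, 0⟩ 0 0) (.cut .s 14754816 (.pos 41 .mp ⟨⟨989389513, 0, 0, 0, 0, 546635294, 0, 0, 0, ⟨0, 0⟩, 0⟩, 0, 0⟩ 0 0) (.pos 41 .mp ⟨⟨994258901, 0, 0, 0, 0, 549250894, 0, 0, 0, ⟨0, 0⟩, 0⟩, 0, 0⟩ 0 0))) (.cut .v 16809984 (.cut .l 167772 (.cut .s 14754816 (.cut .s 14752256 (.pos 45 .mp ⟨⟨1014153028, 0, 0, 0, 0, 482176966, 0, 0, 0, ⟨0, 0⟩, 0⟩, 0, 0⟩ 0 0) (.pos 45 .mp ⟨⟨1016520595, 0, 0, 0, 0, 483607395, 0, 0, 0, ⟨0, 0⟩, 0⟩, 0, 0⟩ 0 0)) (.cut .s 14757376 (.pos 45 .mp ⟨⟨1018895464, 0, 0, 0, 0,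 485047825, 0, 0, 0, ⟨0, 0⟩, 0⟩, 0, 0⟩ 0 0) (.pos 45 .mp ⟨⟨1021277663, 0, 0, 0, 0, 486498241, 0, 0, 0, ⟨0, 0⟩, 0⟩, 0, 0⟩ 0 0))) (.pos 45 .mp ⟨⟨997352895, 0, 0, 0, 0, 505999892, 0, 0, 0, ⟨0, 0⟩, 0⟩, 0, 0⟩ 0 0)) (.pos 46 .mp ⟨⟨1249266993, 0, 0, 0, 0, 0, 0, 0, 0, ⟨0, 0⟩, 0⟩, 0, 0⟩ 0 0))) (.cut .d (-4096) (.cut .l 167772 (.void 41 ⟨⟨0, 0, 0, 0, 0, 100000, 0, 0, 0, ⟨0, 0⟩, 0⟩, 0, 0⟩ 0 0) (.cut .s 14765056 (.pos 41 .mp ⟨⟨999199390, 0, 0, 0, 0, 551807999, 0, 0, 0, ⟨0, 0⟩, 0⟩, 0, 0⟩ 0 0) (.pos 41 .mp ⟨⟨1004212035, 0, 0, 0, 0, 554304545, 0, 0, 0, ⟨0, 0⟩, 0⟩, 0, 0⟩ 0 0))) (.cut .v 16809984 (.cut .l 167772 (.cut .s 14765056 (.cut .s 14762496 (.pos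 45 .mp ⟨⟨1023667219, 0, 0, 0, 0, 487958629, 0, 0, 0, ⟨0, 0⟩, 0⟩, 0, 0⟩ 0 0) (.pos 45 .mp ⟨⟨1026064161, 0, 0, 0, 0, 489428974, 0, 0, 0, ⟨0, 0⟩, 0⟩, 0, 0⟩ 0 0)) (.cut .s 14767616 (.pos 45 .mp ⟨⟨1028468517, 0, 0, 0, 0, 490909260, 0, 0, 0, ⟨0, 0⟩, 0⟩, 0, 0⟩ 0 0) (.pos 45 .mp ⟨⟨1030880313, 0, 0, 0, 0, 492399472, 0, 0, 0, ⟨0, 0⟩, 0⟩, 0, 0⟩ 0 0))) (.pos 45 .mp ⟨⟨1006696138, 0, 0, 0, 0, 511686152, 0, 0, 0, ⟨0, 0⟩, 0⟩, 0, 0⟩ 0 0)) (.pos 46 .mp ⟨⟨1261659017, 0, 0, 0, 0, 0, 0, 0, 0, ⟨0, 0⟩, 0⟩, 0, 0⟩ 0 0))))) (.pos 42 .mp ⟨⟨1269778383, 0, 0, 0, 0, 0, 0, 0, 0, ⟨0, 0⟩, 0⟩, 0, 0⟩ 0 0)) (.cut .v 16842752 (.cut .s 14790656 (.cut .s 14780416 (.cut .d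 (-4096) (.cut .l 167772 (.void 41 ⟨⟨0, 0, 0, 0, 0, 100000, 0, 0, 0, ⟨0, 0⟩, 0⟩, 0, 0⟩ 0 0) (.pos 41 .mp ⟨⟨1005116700, 0, 0, 0, 0, 573245237, 0, 0, 0, ⟨0, 0⟩, 0⟩, 0, 0⟩ 0 0)) (.cut .v 16809984 (.cut .l 167772 (.cut .s 14775296 (.cut .s 14772736 (.pos 45 .mp ⟨⟨1033299579, 0, 0, 0, 0, 493899594, 0, 0, 0, ⟨0, 0⟩, 0⟩, 0, 0⟩ 0 0) (.pos 45 .mp ⟨⟨1035726343, 0, 0, 0, 0, 495409611, 0, 0, 0, ⟨0, 0⟩, 0⟩, 0, 0⟩ 0 0)) (.cut .s 14777856 (.pos 45 .mp ⟨⟨1038160633, 0, 0, 0, 0, 496929507, 0, 0, 0, ⟨0, 0⟩, 0⟩, 0, 0⟩ 0 0) (.pos 45 .mp ⟨⟨1040602479, 0, 0, 0, 0, 498459264, 0, 0, 0, ⟨0, 0⟩, 0⟩, 0, 0⟩ 0 0))) (.pos 45 .mp ⟨⟨1016154462, 0, 0, 0, 0, 517435321,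 0, 0, 0, ⟨0, 0⟩, 0⟩, 0, 0⟩ 0 0)) (.pos 46 .mp ⟨⟨1274293014, 0, 0, 0, 0, 0, 0, 0, 0, ⟨0, 0⟩, 0⟩, 0, 0⟩ 0 0))) (.cut .d (-4096) (.cut .s 14785536 (.pos 41 .mp ⟨⟨1030120858, 0, 0, 0, 0, 543037839, 0, 0, 0, ⟨0, 0⟩, 0⟩, 0, 0⟩ 0 0) (.pos 41 .mp ⟨⟨1035804545, 0, 0, 0, 0, 544609682, 0, 0, 0, ⟨0, 0⟩, 0⟩, 0, 0⟩ 0 0)) (.cut .v 16809984 (.cut .l 167772 (.cut .s 14785536 (.cut .s 14782976 (.pos 45 .mp ⟨⟨1043051907, 0, 0, 0, 0, 499998868, 0, 0, 0, ⟨0, 0⟩, 0⟩, 0, 0⟩ 0 0) (.pos 45 .mp ⟨⟨1045508949, 0, 0, 0, 0, 501548301, 0, 0, 0, ⟨0, 0⟩, 0⟩, 0, 0⟩ 0 0)) (.cut .s 14788096 (.pos 45 .mp ⟨⟨1047973632, 0, 0, 0, 0, 503107546, 0, 0, 0, ⟨0, 0⟩, 0⟩, 0, 0⟩ 0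 0) (.pos 45 .mp ⟨⟨1050445986, 0, 0, 0, 0, 504676586, 0, 0, 0, ⟨0, 0⟩, 0⟩, 0, 0⟩ 0 0))) (.pos 45 .mp ⟨⟨1025729619, 0, 0, 0, 0, 523243294, 0, 0, 0, ⟨0, 0⟩, 0⟩, 0, 0⟩ 0 0)) (.pos 46 .mp ⟨⟨1287172593, 0, 0, 0, 0, 0, 0, 0, 0, ⟨0, 0⟩, 0⟩, 0, 0⟩ 0 0)))) (.cut .s 14800896 (.cut .d (-4096) (.cut .s 14795776 (.pos 41 .mp ⟨⟨1041592053, 0, 0, 0, 0, 546063633, 0, 0, 0, ⟨0, 0⟩, 0⟩, 0, 0⟩ 0 0) (.pos 41 .mp ⟨⟨1047484984, 0, 0, 0, 0, 547396603, 0, 0, 0, ⟨0, 0⟩, 0⟩, 0, 0⟩ 0 0)) (.cut .v 16809984 (.cut .l 167772 (.cut .d (-2048) (.pos 45 .mp ⟨⟨1043011511, 0, 0, 0, 0, 545937151, 0, 0, 0, ⟨0, 0⟩, 0⟩, 0, 0⟩ 0 0) (.cut .s 14795776 (.pos 45 .mp ⟨⟨1048221935,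 0, 0, 0, 0, 518051061, 0, 0, 0, ⟨0, 0⟩, 0⟩, 0, 0⟩ 0 0) (.pos 45 .mp ⟨⟨1052772773, 0, 0, 0, 0, 522359123, 0, 0, 0, ⟨0, 0⟩, 0⟩, 0, 0⟩ 0 0))) (.pos 45 .mp ⟨⟨1035423397, 0, 0, 0, 0, 529105893, 0, 0, 0, ⟨0, 0⟩, 0⟩, 0, 0⟩ 0 0)) (.pos 46 .mp ⟨⟨1300301439, 0, 0, 0, 0, 0, 0, 0, 0, ⟨0, 0⟩, 0⟩, 0, 0⟩ 0 0))) (.cut .d (-4096) (.cut .s 14806016 (.pos 41 .mp ⟨⟨1053484953, 0, 0, 0, 0, 548605472, 0, 0, 0, ⟨0, 0⟩, 0⟩, 0, 0⟩ 0 0) (.pos 41 .mp ⟨⟨1059593594, 0, 0, 0, 0, 549687090, 0, 0, 0, ⟨0, 0⟩, 0⟩, 0, 0⟩ 0 0)) (.cut .v 16809984 (.cut .s 14806016 (.cut .s 14803456 (.pos 45 .mp ⟨⟨1066710606, 0, 0, 0, 0, 506230161, 0, 0, 0, ⟨0, 0⟩, 0⟩, 0, 0⟩ 0 0) (.pos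 45 .mp ⟨⟨1069835931, 0, 0, 0, 0, 506737143, 0, 0, 0, ⟨0, 0⟩, 0⟩, 0, 0⟩ 0 0)) (.pos 45 .mp ⟨⟨1070504530, 0, 0, 0, 0, 514026653, 0, 0, 0, ⟨0, 0⟩, 0⟩, 0, 0⟩ 0 0)) (.pos 46 .mp ⟨⟨1313683310, 0, 0, 0, 0, 0, 0, 0, 0, ⟨0, 0⟩, 0⟩, 0, 0⟩ 0 0))))) (.pos 42 .mp ⟨⟨1320722729, 0, 0, 0, 0, 0, 0, 0, 0, ⟨0, 0⟩, 0⟩, 0, 0⟩ 0 0)))) (.cut .s 14729216 (.pos 36 .mp ⟨⟨1216633007, 0, 0, 0, 0, 0, 0, 0, 0, ⟨0, 0⟩, 0⟩, 0, 0⟩ 0 0) (.pos 36 .mp ⟨⟨1313332877, 0, 0, 0, 0, 0, 0, 0, 0, ⟨0, 0⟩, 0⟩, 0, 0⟩ 0 0))))))) (.pos 32 .mp ⟨⟨1436589414, 0, 0, 0, 0, 0, 0, 0, 0, ⟨0, 0⟩, 0⟩, 0, 0⟩ 0 0))) (.void 30 ⟨⟨100000, 0, 0, 0, 0, 0, 0, 0, 0, ⟨0, 0⟩, 0⟩, 0, 0⟩ 0 0))) (.void 28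 ⟨⟨100000, 0, 0, 0, 0, 0, 0, 0, 0, ⟨0, 0⟩, 0⟩, 0, 0⟩ 0 0))) (.void 26 ⟨⟨100000, 0, 0, 0, 0, 0, 0, 0, 0, ⟨0, 0⟩, 0⟩, 0, 0⟩ 0 0))) (.void 24 ⟨⟨100000, 0, 0, 0, 0, 0, 0, 0, 0, ⟨0, 0⟩, 0⟩, 0, 0⟩ 0 0)))) (.void 22 ⟨⟨100000, 0, 0, 0, 0, 0, 0, 0, 0, ⟨0, 0⟩, 0⟩, 0, 0⟩ 0 0))) (.void 79 ⟨⟨100000, 0, 0, 0, 0, 0, 0, 0, 0, ⟨0, 0⟩, 0⟩, 0, 0⟩ 0 0)) (.void 88 ⟨⟨100000, 0, 0, 0, 0, 0, 0, 0, 0, ⟨0, 0⟩, 0⟩, 0, 0⟩ 0 0)) (.void 97 ⟨⟨93237, 0, 0, 6859, 0, 0, 0, 0, 0, ⟨0, 0⟩, 0⟩, 0, 0⟩ 0 0))) (.cut .v 16777216 (.cut .v 8388608 (.cut .v 4194304 (.cut .v 2097152 (.cut .v 1048576 (.pos 93 .pm ⟨⟨0, 0, 32824384, 0, 0, 0, 0, 0, 0, ⟨0, 0⟩, 0⟩, 0, 1665⟩ 0 0) (.pos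 94 .pm ⟨⟨0, 0, 52220771, 0, 0, 0, 0, 0, 0, ⟨0, 0⟩, 0⟩, 0, 4799⟩ 0 0)) (.pos 90 .pm ⟨⟨0, 0, 84357540, 0, 0, 0, 0, 0, 0, ⟨0, 0⟩, 0⟩, 0, 9065⟩ 0 0)) (.pos 5 .pm ⟨⟨0, 0, 250228327, 0, 0, 0, 0, 0, 0, ⟨0, 0⟩, 0⟩, 0, 21925⟩ 0 0)) (.pos 3 .pm ⟨⟨0, 0, 0, 0, 0, 0, 0, 0, 0, ⟨0, 0⟩, 0⟩, 0, 0⟩ 0 0)) (.cut .v 268435456 (.cut .v 67108864 (.cut .d 1219821 (.cut .v 33554432 (.cut .d 609910 (.cut .v 25165824 (.cut .d 304955 (.cut .d 152477 (.cut .v 20971520 (.cut .d 76238 (.cut .v 18874368 (.cut .v 17825792 (.cut .s 14729216 (.pos 27 .pp ⟨⟨951033089, 0, 0, 0, 0, 0, 0, 0, 0, ⟨0, 0⟩, 0⟩, 28767386, 0⟩ 0 0) (.pos 27 .pp ⟨⟨1018922993, 0, 0, 0, 0, 0, 0, 0,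 0, ⟨0, 0⟩, 0⟩, 31979917, 0⟩ 0 0)) (.pos 28 .pp ⟨⟨1334356428, 0, 0, 0, 0, 0, 0, 0, 0, ⟨0, 0⟩, 0⟩, 0, 0⟩ 0 0)) (.pos 26 .pp ⟨⟨1629198440, 0, 0, 0, 0, 0, 0, 0, 0, ⟨0, 0⟩, 0⟩, 0, 0⟩ 0 0)) (.pos 23 .pp ⟨⟨1123716314, 0, 0, 0, 0, 0, 0, 0, 0, ⟨0, 0⟩, 0⟩, 0, 309⟩ 0 0)) (.cut .v 23068672 (.cut .d 76238 (.void 53 ⟨⟨0, 0, 0, 0, 0, 0, 0, 0, 0, ⟨0, 0⟩, 0⟩, 100000, 0⟩ 0 0) (.pos 53 .pp ⟨⟨0, 0, 0, 0, 0, 0, 0, 0, 0, ⟨0, 0⟩, 0⟩, 239898097, 0⟩ 0 0)) (.pos 54 .pp ⟨⟨0, 0, 0, 0, 0, 0, 0, 0, 0, ⟨0, 0⟩, 0⟩, 341064141, 0⟩ 0 0))) (.cut .v 20971520 (.pos 23 .pp ⟨⟨0, 0, 0, 0, 0, 0, 0, 0, 0, ⟨0, 0⟩, 0⟩, 0, 60902⟩ 0 0) (.pos 24 .pp ⟨⟨0, 0, 0, 0, 0, 0, 15269, 0,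 0, ⟨0, 0⟩, 0⟩, 201232663, 0⟩ 0 0))) (.pos 21 .pp ⟨⟨0, 0, 0, 0, 0, 0, 0, 0, 0, ⟨0, 0⟩, 0⟩, 0, 65775⟩ 0 0)) (.cut .d 304955 (.cut .d 152477 (.void 22 ⟨⟨0, 0, 0, 0, 0, 0, 0, 0, 0, ⟨0, 0⟩, 0⟩, 100000, 0⟩ 0 0) (.pos 22 .pp ⟨⟨0, 0, 0, 0, 0, 0, 0, 0, 0, ⟨0, 0⟩, 0⟩, 306516665, 0⟩ 0 0)) (.pos 22 .pp ⟨⟨0, 0, 0, 0, 0, 0, 11288, 0, 0, ⟨0, 0⟩, 0⟩, 210921860, 0⟩ 0 0))) (.pos 20 .pp ⟨⟨0, 0, 0, 0, 0, 0, 219235, 0, 0, ⟨0, 0⟩, 0⟩, 0, 0⟩ 0 0)) (.cut .d 609910 (.cut .v 50331648 (.pos 80 .pp ⟨⟨0, 0, 0, 0, 0, 0, 0, 0, 0, ⟨0, 0⟩, 0⟩, 523598120, 0⟩ 0 0) (.void 81 ⟨⟨0, 0, 0, 0, 0, 0, 0, 0, 0, ⟨0, 0⟩, 0⟩, 100000, 0⟩ 0 0)) (.pos 79 .pp ⟨⟨0, 0, 0, 0, 0, 0, 0,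 0, 0, ⟨0, 0⟩, 0⟩, 311516150, 0⟩ 0 0))) (.pos 78 .pp ⟨⟨0, 0, 0, 0, 0, 0, 0, 0, 0, ⟨0, 0⟩, 0⟩, 0, 54812⟩ 0 0)) (.void 88 ⟨⟨0, 0, 0, 51427, 0, 0, 0, 0, 0, ⟨0, 0⟩, 0⟩, 52512, 0⟩ 0 0)) (.void 97 ⟨⟨0, 0, 0, 0, 0, 0, 0, 0, 0, ⟨0, 0⟩, 0⟩, 100000, 0⟩ 0 0)))),
    by decide +kernel⟩

def covers31 : cell.Covers Vale.Agent.P237.Petty.Cor.Grid.N11.table row31.1 :=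
  ⟨(.cut .d 0 (.cut .v 16777216 (.cut .v 8388608 (.void 2 ⟨⟨0, 0, 100000, 0, 0, 0, 0, 0, 0, ⟨0, 0⟩, 0⟩, 0, 0⟩ 0 0) (.cut .d (-8388608) (.void 3 ⟨⟨100000, 0, 0, 0, 0, 0, 0, 0, 0, ⟨0, 0⟩, 0⟩, 0, 0⟩ 0 0) (.cut .d (-4194304) (.void 3 ⟨⟨100000, 0, 0, 0, 0, 0, 0, 0, 0, ⟨0, 0⟩, 0⟩, 0, 0⟩ 0 0) (.cut .d (-2097152) (.void 3 ⟨⟨100000, 0, 0, 0, 0, 0, 0, 0, 0, ⟨0, 0⟩, 0⟩, 0, 0⟩ 0 0) (.cut .d (-1048576) (.void 3 ⟨⟨100000, 0, 0, 0, 0, 0, 0, 0, 0, ⟨0, 0⟩, 0⟩, 0, 0⟩ 0 0) (.cut .d (-524288) (.void 3 ⟨⟨0, 0, 0, 0, 0, 100000, 0, 0, 0, ⟨0, 0⟩, 0⟩, 0, 0⟩ 0 0) (.cut .d (-262144) (.void 3 ⟨⟨0, 0, 0, 0, 0, 100000, 0, 0, 0, ⟨0, 0⟩, 0⟩, 0, 0⟩ 0 0) (.cut .s 14876672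 (.pos 3 .mm ⟨⟨0, 0, 0, 0, 0, 2720698498, 0, 0, 0, ⟨0, 0⟩, 0⟩, 0, 0⟩ 0 0) (.pos 3 .mm ⟨⟨0, 0, 0, 0, 0, 2915655189, 0, 0, 0, ⟨0, 0⟩, 0⟩, 0, 0⟩ 0 0))))))))) (.cut .v 268435456 (.cut .v 67108864 (.cut .v 33554432 (.cut .d (-8388608) (.void 20 ⟨⟨99845, 0, 0, 0, 0, 0, 0, 0, 0, ⟨0, 0⟩, 0⟩, 0, 0⟩ 0 0) (.cut .v 25165824 (.cut .d (-4194304) (.void 21 ⟨⟨100000, 0, 0, 0, 0, 0, 0, 0, 0, ⟨0, 0⟩, 0⟩, 0, 0⟩ 0 0) (.cut .d (-2097152) (.void 21 ⟨⟨100000, 0, 0, 0, 0, 0, 0, 0, 0, ⟨0, 0⟩, 0⟩, 0, 0⟩ 0 0) (.cut .v 20971520 (.cut .d (-1048576) (.void 23 ⟨⟨100000, 0, 0, 0, 0, 0, 0, 0, 0, ⟨0, 0⟩, 0⟩, 0, 0⟩ 0 0) (.cut .v 18874368 (.cut .d (-524288) (.void 25 ⟨⟨100000,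 0, 0, 0, 0, 0, 0, 0, 0, ⟨0, 0⟩, 0⟩, 0, 0⟩ 0 0) (.cut .v 17825792 (.cut .d (-262144) (.void 27 ⟨⟨100000, 0, 0, 0, 0, 0, 0, 0, 0, ⟨0, 0⟩, 0⟩, 0, 0⟩ 0 0) (.cut .v 17301504 (.cut .d (-131072) (.void 29 ⟨⟨100000, 0, 0, 0, 0, 0, 0, 0, 0, ⟨0, 0⟩, 0⟩, 0, 0⟩ 0 0) (.cut .v 17039360 (.cut .d (-65536) (.void 31 ⟨⟨100000, 0, 0, 0, 0, 0, 0, 0, 0, ⟨0, 0⟩, 0⟩, 0, 0⟩ 0 0) (.cut .d (-32768) (.void 31 ⟨⟨100000, 0, 0, 0, 0, 0, 0, 0, 0, ⟨0, 0⟩, 0⟩, 0, 0⟩ 0 0) (.cut .d (-16384) (.void 31 ⟨⟨100000, 0, 0, 0, 0, 0, 0, 0, 0, ⟨0, 0⟩, 0⟩, 0, 0⟩ 0 0) (.cut .d (-8192) (.void 31 ⟨⟨0, 0, 0, 0, 0, 100000, 0, 0, 0, ⟨0, 0⟩, 0⟩, 0, 0⟩ 0 0) (.cut .v 16908288 (.cut .s 14876672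 (.cut .s 14843904 (.cut .v 16842752 (.cut .s 14827520 (.cut .d (-4096) (.cut .l 167772 (.void 41 ⟨⟨0, 0, 0, 0, 0, 100000, 0, 0, 0, ⟨0, 0⟩, 0⟩, 0, 0⟩ 0 0) (.pos 41 .mp ⟨⟨1043667099, 0, 0, 0, 0, 613568929, 0, 0, 0, ⟨0, 0⟩, 0⟩, 0, 0⟩ 0 0)) (.cut .v 16809984 (.cut .l 167772 (.cut .s 14819328 (.cut .s 14815232 (.pos 45 .mp ⟨⟨1074574176, 0, 0, 0, 0, 518073329, 0, 0, 0, ⟨0, 0⟩, 0⟩, 0, 0⟩ 0 0) (.pos 45 .mp ⟨⟨1078668207, 0, 0, 0, 0, 520005639, 0, 0, 0, ⟨0, 0⟩, 0⟩, 0, 0⟩ 0 0)) (.cut .s 14823424 (.pos 45 .mp ⟨⟨1082783452, 0, 0, 0, 0, 521971696, 0, 0, 0, ⟨0, 0⟩, 0⟩, 0, 0⟩ 0 0) (.pos 45 .mp ⟨⟨1086920044, 0, 0, 0, 0, 523971439, 0, 0, 0, ⟨0, 0⟩, 0⟩,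 0, 0⟩ 0 0))) (.pos 45 .mp ⟨⟨1068221182, 0, 0, 0, 0, 517887270, 0, 0, 0, ⟨0, 0⟩, 0⟩, 0, 0⟩ 0 0)) (.pos 46 .mp ⟨⟨1331521831, 0, 0, 0, 0, 0, 0, 0, 0, ⟨0, 0⟩, 0⟩, 0, 0⟩ 0 0))) (.cut .d (-4096) (.cut .l 167772 (.void 41 ⟨⟨0, 0, 0, 0, 0, 100000, 0, 0, 0, ⟨0, 0⟩, 0⟩, 0, 0⟩ 0 0) (.cut .s 14835712 (.pos 41 .mp ⟨⟨1063800590, 0, 0, 0, 0, 600439453, 0, 0, 0, ⟨0, 0⟩, 0⟩, 0, 0⟩ 0 0) (.pos 41 .mp ⟨⟨1070849553, 0, 0, 0, 0, 607868458, 0, 0, 0, ⟨0, 0⟩, 0⟩, 0, 0⟩ 0 0))) (.cut .v 16809984 (.cut .l 167772 (.cut .s 14835712 (.cut .s 14831616 (.pos 45 .mp ⟨⟨1091078117, 0, 0, 0, 0, 526004805, 0, 0, 0, ⟨0, 0⟩, 0⟩, 0, 0⟩ 0 0) (.pos 45 .mp ⟨⟨1095257804, 0, 0,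 0, 0, 528071731, 0, 0, 0, ⟨0, 0⟩, 0⟩, 0, 0⟩ 0 0)) (.cut .d (-2048) (.pos 45 .mp ⟨⟨1071977223, 0, 0, 0, 0, 609402672, 0, 0, 0, ⟨0, 0⟩, 0⟩, 0, 0⟩ 0 0) (.cut .s 14839808 (.pos 45 .mp ⟨⟨1090571193, 0, 0, 0, 0, 547938457, 0, 0, 0, ⟨0, 0⟩, 0⟩, 0, 0⟩ 0 0) (.pos 45 .mp ⟨⟨1095105135, 0, 0, 0, 0, 549249118, 0, 0, 0, ⟨0, 0⟩, 0⟩, 0, 0⟩ 0 0)))) (.pos 45 .mp ⟨⟨1084349566, 0, 0, 0, 0, 527687590, 0, 0, 0, ⟨0, 0⟩, 0⟩, 0, 0⟩ 0 0)) (.pos 46 .mp ⟨⟨1351205722, 0, 0, 0, 0, 0, 0, 0, 0, ⟨0, 0⟩, 0⟩, 0, 0⟩ 0 0)))) (.pos 42 .mp ⟨⟨1375526001, 0, 0, 0, 0, 0, 0, 0, 0, ⟨0, 0⟩, 0⟩, 0, 0⟩ 0 0)) (.cut .v 16842752 (.cut .s 14860288 (.cut .d (-4096) (.cut .l 167772 (.void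 41 ⟨⟨0, 0, 0, 0, 0, 100000, 0, 0, 0, ⟨0, 0⟩, 0⟩, 0, 0⟩ 0 0) (.cut .s 14852096 (.pos 41 .mp ⟨⟨1078087335, 0, 0, 0, 0, 615191866, 0, 0, 0, ⟨0, 0⟩, 0⟩, 0, 0⟩ 0 0) (.pos 41 .mp ⟨⟨1085519219, 0, 0, 0, 0, 622399372, 0, 0, 0, ⟨0, 0⟩, 0⟩, 0, 0⟩ 0 0))) (.cut .l 167772 (.cut .v 16809984 (.cut .s 14852096 (.cut .d (-2048) (.pos 45 .mp ⟨⟨1080191714, 0, 0, 0, 0, 613947462, 0, 0, 0, ⟨0, 0⟩, 0⟩, 0, 0⟩ 0 0) (.cut .s 14848000 (.pos 45 .mp ⟨⟨1099642271, 0, 0, 0, 0, 550641356, 0, 0, 0, ⟨0, 0⟩, 0⟩, 0, 0⟩ 0 0) (.pos 45 .mp ⟨⟨1104182210, 0, 0, 0, 0, 552116436, 0, 0, 0, ⟨0, 0⟩, 0⟩, 0, 0⟩ 0 0))) (.cut .d (-2048) (.pos 45 .mp ⟨⟨1088490888, 0, 0, 0, 0, 618701939,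 0, 0, 0, ⟨0, 0⟩, 0⟩, 0, 0⟩ 0 0) (.cut .s 14856192 (.pos 45 .mp ⟨⟨1108627421, 0, 0, 0, 0, 553897808, 0, 0, 0, ⟨0, 0⟩, 0⟩, 0, 0⟩ 0 0) (.pos 45 .mp ⟨⟨1112891712, 0, 0, 0, 0, 556183028, 0, 0, 0, ⟨0, 0⟩, 0⟩, 0, 0⟩ 0 0)))) (.pos 46 .mp ⟨⟨1410971620, 0, 0, 0, 0, 0, 0, 0, 0, ⟨0, 0⟩, 0⟩, 0, 0⟩ 0 0)) (.pos 41 .mp ⟨⟨1106714117, 0, 0, 0, 0, 527357584, 0, 0, 0, ⟨0, 0⟩, 0⟩, 0, 0⟩ 0 0))) (.cut .d (-4096) (.cut .l 167772 (.void 41 ⟨⟨0, 0, 0, 0, 0, 100000, 0, 0, 0, ⟨0, 0⟩, 0⟩, 0, 0⟩ 0 0) (.cut .s 14868480 (.pos 41 .mp ⟨⟨1093150563, 0, 0, 0, 0, 629480510, 0, 0, 0, ⟨0, 0⟩, 0⟩, 0, 0⟩ 0 0) (.pos 41 .mp ⟨⟨1101212576, 0, 0, 0, 0, 635893346, 0, 0, 0, ⟨0, 0⟩,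 0⟩, 0, 0⟩ 0 0))) (.cut .l 167772 (.cut .v 16809984 (.cut .s 14868480 (.cut .d (-2048) (.pos 45 .mp ⟨⟨1096875818, 0, 0, 0, 0, 623668891, 0, 0, 0, ⟨0, 0⟩, 0⟩, 0, 0⟩ 0 0) (.cut .s 14864384 (.pos 45 .mp ⟨⟨1117178220, 0, 0, 0, 0, 558507857, 0, 0, 0, ⟨0, 0⟩, 0⟩, 0, 0⟩ 0 0) (.pos 45 .mp ⟨⟨1121487086, 0, 0, 0, 0, 560872342, 0, 0, 0, ⟨0, 0⟩, 0⟩, 0, 0⟩ 0 0))) (.cut .d (-2048) (.cut .s 14872576 (.pos 45 .mp ⟨⟨1105347597, 0, 0, 0, 0, 621455141, 0, 0, 0, ⟨0, 0⟩, 0⟩, 0, 0⟩ 0 0) (.pos 45 .mp ⟨⟨1109616401, 0, 0, 0, 0, 624072707, 0, 0, 0, ⟨0, 0⟩, 0⟩, 0, 0⟩ 0 0)) (.cut .s 14872576 (.pos 45 .mp ⟨⟨1125818453, 0, 0, 0, 0, 563276529, 0, 0, 0, ⟨0, 0⟩, 0⟩,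 0, 0⟩ 0 0) (.cut .s 14874624 (.pos 45 .mp ⟨⟨1128112497, 0, 0, 0, 0, 568596611, 0, 0, 0, ⟨0, 0⟩, 0⟩, 0, 0⟩ 0 0) (.pos 45 .mp ⟨⟨1130170562, 0, 0, 0, 0, 570074217, 0, 0, 0, ⟨0, 0⟩, 0⟩, 0, 0⟩ 0 0))))) (.pos 46 .mp ⟨⟨1433307902, 0, 0, 0, 0, 0, 0, 0, 0, ⟨0, 0⟩, 0⟩, 0, 0⟩ 0 0)) (.pos 41 .mp ⟨⟨1123766602, 0, 0, 0, 0, 537312540, 0, 0, 0, ⟨0, 0⟩, 0⟩, 0, 0⟩ 0 0)))) (.pos 42 .mp ⟨⟨1418771781, 0, 0, 0, 0, 0, 0, 0, 0, ⟨0, 0⟩, 0⟩, 0, 0⟩ 0 0))) (.cut .s 14909440 (.cut .v 16842752 (.cut .s 14893056 (.cut .d (-4096) (.cut .l 167772 (.void 41 ⟨⟨0, 0, 0, 0, 0, 100000, 0, 0, 0, ⟨0, 0⟩, 0⟩, 0, 0⟩ 0 0) (.cut .s 14884864 (.pos 41 .mp ⟨⟨1109775609, 0, 0, 0,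 0, 641474786, 0, 0, 0, ⟨0, 0⟩, 0⟩, 0, 0⟩ 0 0) (.pos 41 .mp ⟨⟨1118427504, 0, 0, 0, 0, 647197045, 0, 0, 0, ⟨0, 0⟩, 0⟩, 0, 0⟩ 0 0))) (.cut .l 167772 (.cut .v 16809984 (.cut .s 14884864 (.cut .d (-2048) (.cut .s 14880768 (.pos 45 .mp ⟨⟨1113907336, 0, 0, 0, 0, 626744943, 0, 0, 0, ⟨0, 0⟩, 0⟩, 0, 0⟩ 0 0) (.pos 45 .mp ⟨⟨1118220544, 0, 0, 0, 0, 629472213, 0, 0, 0, ⟨0, 0⟩, 0⟩, 0, 0⟩ 0 0)) (.cut .v 16793600 (.cut .s 14880768 (.pos 55 .mp ⟨⟨1132526264, 0, 0, 0, 0, 572285087, 0, 0, 0, ⟨0, 0⟩, 0⟩, 0, 0⟩ 0 0) (.pos 55 .mp ⟨⟨1136918286, 0, 0, 0, 0, 574824771, 0, 0, 0, ⟨0, 0⟩, 0⟩, 0, 0⟩ 0 0)) (.pos 56 .mp ⟨⟨1406659881, 0, 0, 0, 0, 0, 0, 0, 0, ⟨0, 0⟩,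 0⟩, 0, 0⟩ 0 0))) (.cut .d (-2048) (.cut .s 14888960 (.pos 45 .mp ⟨⟨1122556167, 0, 0, 0, 0, 632254889, 0, 0, 0, ⟨0, 0⟩, 0⟩, 0, 0⟩ 0 0) (.pos 45 .mp ⟨⟨1126914350, 0, 0, 0, 0, 635093343, 0, 0, 0, ⟨0, 0⟩, 0⟩, 0, 0⟩ 0 0)) (.cut .v 16793600 (.cut .s 14888960 (.pos 55 .mp ⟨⟨1141333351, 0, 0, 0, 0, 577404421, 0, 0, 0, ⟨0, 0⟩, 0⟩, 0, 0⟩ 0 0) (.cut .s 14891008 (.pos 55 .mp ⟨⟨1149589123, 0, 0, 0, 0, 570691658, 0, 0, 0, ⟨0, 0⟩, 0⟩, 0, 0⟩ 0 0) (.pos 55 .mp ⟨⟨1151758705, 0, 0, 0, 0, 572124108, 0, 0, 0, ⟨0, 0⟩, 0⟩, 0, 0⟩ 0 0))) (.pos 56 .mp ⟨⟨1417767954, 0, 0, 0, 0, 0, 0, 0, 0, ⟨0, 0⟩, 0⟩, 0, 0⟩ 0 0)))) (.pos 46 .mp ⟨⟨1456132510, 0, 0, 0, 0, 0, 0,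 0, 0, ⟨0, 0⟩, 0⟩, 0, 0⟩ 0 0)) (.pos 41 .mp ⟨⟨1141165703, 0, 0, 0, 0, 547546302, 0, 0, 0, ⟨0, 0⟩, 0⟩, 0, 0⟩ 0 0))) (.cut .d (-4096) (.cut .l 167772 (.void 41 ⟨⟨0, 0, 0, 0, 0, 100000, 0, 0, 0, ⟨0, 0⟩, 0⟩, 0, 0⟩ 0 0) (.cut .s 14901248 (.pos 41 .mp ⟨⟨1127169409, 0, 0, 0, 0, 653059544, 0, 0, 0, ⟨0, 0⟩, 0⟩, 0, 0⟩ 0 0) (.pos 41 .mp ⟨⟨1136002492, 0, 0, 0, 0, 659061677, 0, 0, 0, ⟨0, 0⟩, 0⟩, 0, 0⟩ 0 0))) (.cut .l 167772 (.cut .v 16809984 (.cut .s 14901248 (.cut .d (-2048) (.cut .s 14897152 (.pos 45 .mp ⟨⟨1131295239, 0, 0, 0, 0, 637987951, 0, 0, 0, ⟨0, 0⟩, 0⟩, 0, 0⟩ 0 0) (.pos 45 .mp ⟨⟨1135698981, 0, 0, 0, 0, 640939094, 0, 0, 0, ⟨0, 0⟩, 0⟩, 0,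 0⟩ 0 0)) (.cut .v 16793600 (.cut .l 83886 (.cut .d (-1024) (.pos 55 .mp ⟨⟨1133366355, 0, 0, 0, 0, 637788420, 0, 0, 0, ⟨0, 0⟩, 0⟩, 0, 0⟩ 0 0) (.cut .s 14897152 (.pos 55 .mp ⟨⟨1145394245, 0, 0, 0, 0, 592397042, 0, 0, 0, ⟨0, 0⟩, 0⟩, 0, 0⟩ 0 0) (.pos 55 .mp ⟨⟨1149881201, 0, 0, 0, 0, 595085205, 0, 0, 0, ⟨0, 0⟩, 0⟩, 0, 0⟩ 0 0))) (.pos 55 .mp ⟨⟨1143592286, 0, 0, 0, 0, 583935966, 0, 0, 0, ⟨0, 0⟩, 0⟩, 0, 0⟩ 0 0)) (.pos 56 .mp ⟨⟨1429067905, 0, 0, 0, 0, 0, 0, 0, 0, ⟨0, 0⟩, 0⟩, 0, 0⟩ 0 0))) (.cut .d (-2048) (.cut .s 14905344 (.pos 45 .mp ⟨⟨1140125723, 0, 0, 0, 0, 643947154, 0, 0, 0, ⟨0, 0⟩, 0⟩, 0, 0⟩ 0 0) (.pos 45 .mp ⟨⟨1144575617, 0, 0, 0, 0,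 647012518, 0, 0, 0, ⟨0, 0⟩, 0⟩, 0, 0⟩ 0 0)) (.cut .v 16793600 (.cut .l 83886 (.cut .d (-1024) (.pos 55 .mp ⟨⟨1142195600, 0, 0, 0, 0, 643832440, 0, 0, 0, ⟨0, 0⟩, 0⟩, 0, 0⟩ 0 0) (.cut .s 14905344 (.pos 55 .mp ⟨⟨1154364847, 0, 0, 0, 0, 597875132, 0, 0, 0, ⟨0, 0⟩, 0⟩, 0, 0⟩ 0 0) (.pos 55 .mp ⟨⟨1158844686, 0, 0, 0, 0, 600768353, 0, 0, 0, ⟨0, 0⟩, 0⟩, 0, 0⟩ 0 0))) (.pos 55 .mp ⟨⟨1152426360, 0, 0, 0, 0, 589591938, 0, 0, 0, ⟨0, 0⟩, 0⟩, 0, 0⟩ 0 0)) (.pos 56 .mp ⟨⟨1440562172, 0, 0, 0, 0, 0, 0, 0, 0, ⟨0, 0⟩, 0⟩, 0, 0⟩ 0 0)))) (.pos 46 .mp ⟨⟨1479442076, 0, 0, 0, 0, 0, 0, 0, 0, ⟨0, 0⟩, 0⟩, 0, 0⟩ 0 0)) (.pos 41 .mp ⟨⟨1158920465, 0, 0, 0, 0, 558037614,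 0, 0, 0, ⟨0, 0⟩, 0⟩, 0, 0⟩ 0 0)))) (.pos 42 .mp ⟨⟨1463971611, 0, 0, 0, 0, 0, 0, 0, 0, ⟨0, 0⟩, 0⟩, 0, 0⟩ 0 0)) (.cut .v 16842752 (.cut .s 14925824 (.cut .d (-4096) (.cut .l 167772 (.void 41 ⟨⟨0, 0, 0, 0, 0, 100000, 0, 0, 0, ⟨0, 0⟩, 0⟩, 0, 0⟩ 0 0) (.cut .s 14917632 (.pos 41 .mp ⟨⟨1144927939, 0, 0, 0, 0, 665202808, 0, 0, 0, ⟨0, 0⟩, 0⟩, 0, 0⟩ 0 0) (.pos 41 .mp ⟨⟨1153946961, 0, 0, 0, 0, 671482271, 0, 0, 0, ⟨0, 0⟩, 0⟩, 0, 0⟩ 0 0))) (.cut .l 167772 (.cut .v 16809984 (.cut .s 14917632 (.cut .d (-2048) (.cut .s 14913536 (.pos 45 .mp ⟨⟨1149048811, 0, 0, 0, 0, 650135575, 0, 0, 0, ⟨0, 0⟩, 0⟩, 0, 0⟩ 0 0) (.pos 45 .mp ⟨⟨1153545459, 0, 0, 0, 0, 653316718,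 0, 0, 0, ⟨0, 0⟩, 0⟩, 0, 0⟩ 0 0)) (.cut .v 16793600 (.cut .s 14913536 (.cut .s 14911488 (.pos 55 .mp ⟨⟨1172220677, 0, 0, 0, 0, 584145080, 0, 0, 0, ⟨0, 0⟩, 0⟩, 0, 0⟩ 0 0) (.pos 55 .mp ⟨⟨1174601291, 0, 0, 0, 0, 585378516, 0, 0, 0, ⟨0, 0⟩, 0⟩, 0, 0⟩ 0 0)) (.pos 55 .mp ⟨⟨1172896685, 0, 0, 0, 0, 596584438, 0, 0, 0, ⟨0, 0⟩, 0⟩, 0, 0⟩ 0 0)) (.pos 56 .mp ⟨⟨1452253238, 0, 0, 0, 0, 0, 0, 0, 0, ⟨0, 0⟩, 0⟩, 0, 0⟩ 0 0))) (.cut .d (-2048) (.pos 45 .mp ⟨⟨1158065713, 0, 0, 0, 0, 664631358, 0, 0, 0, ⟨0, 0⟩, 0⟩, 0, 0⟩ 0 0) (.cut .v 16793600 (.cut .s 14921728 (.pos 55 .mp ⟨⟨1169129664, 0, 0, 0, 0, 617521808, 0, 0, 0, ⟨0, 0⟩, 0⟩, 0, 0⟩ 0 0) (.pos 55 .mp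 ⟨⟨1174076460, 0, 0, 0, 0, 619780342, 0, 0, 0, ⟨0, 0⟩, 0⟩, 0, 0⟩ 0 0)) (.pos 56 .mp ⟨⟨1245889363, 0, 0, 0, 0, 470026280, 0, 0, 0, ⟨0, 0⟩, 0⟩, 0, 0⟩ 0 0)))) (.pos 46 .mp ⟨⟨1503233256, 0, 0, 0, 0, 0, 0, 0, 0, ⟨0, 0⟩, 0⟩, 0, 0⟩ 0 0)) (.pos 41 .mp ⟨⟨1177040252, 0, 0, 0, 0, 568764596, 0, 0, 0, ⟨0, 0⟩, 0⟩, 0, 0⟩ 0 0))) (.cut .d (-4096) (.cut .l 167772 (.void 41 ⟨⟨0, 0, 0, 0, 0, 100000, 0, 0, 0, ⟨0, 0⟩, 0⟩, 0, 0⟩ 0 0) (.cut .s 14934016 (.pos 41 .mp ⟨⟨1163060788, 0, 0, 0, 0, 677899367, 0, 0, 0, ⟨0, 0⟩, 0⟩, 0, 0⟩ 0 0) (.pos 41 .mp ⟨⟨1172270673, 0, 0, 0, 0, 684453367, 0, 0, 0, ⟨0, 0⟩, 0⟩, 0, 0⟩ 0 0))) (.cut .l 167772 (.cut .v 16809984 (.cut .s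 14934016 (.cut .d (-2048) (.pos 45 .mp ⟨⟨1167177665, 0, 0, 0, 0, 671404433, 0, 0, 0, ⟨0, 0⟩, 0⟩, 0, 0⟩ 0 0) (.cut .s 14929920 (.cut .s 14927872 (.pos 45 .mp ⟨⟨1186736469, 0, 0, 0, 0, 604081146, 0, 0, 0, ⟨0, 0⟩, 0⟩, 0, 0⟩ 0 0) (.pos 45 .mp ⟨⟨1189218436, 0, 0, 0, 0, 605299943, 0, 0, 0, ⟨0, 0⟩, 0⟩, 0, 0⟩ 0 0)) (.pos 45 .mp ⟨⟨1193589977, 0, 0, 0, 0, 604132531, 0, 0, 0, ⟨0, 0⟩, 0⟩, 0, 0⟩ 0 0))) (.cut .d (-2048) (.pos 45 .mp ⟨⟨1176385920, 0, 0, 0, 0, 678417350, 0, 0, 0, ⟨0, 0⟩, 0⟩, 0, 0⟩ 0 0) (.cut .s 14938112 (.pos 45 .mp ⟨⟨1198301811, 0, 0, 0, 0, 607177551, 0, 0, 0, ⟨0, 0⟩, 0⟩, 0, 0⟩ 0 0) (.pos 45 .mp ⟨⟨1203038772, 0, 0, 0, 0, 610262925,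 0, 0, 0, ⟨0, 0⟩, 0⟩, 0, 0⟩ 0 0)))) (.pos 46 .mp ⟨⟨1527502727, 0, 0, 0, 0, 0, 0, 0, 0, ⟨0, 0⟩, 0⟩, 0, 0⟩ 0 0)) (.pos 41 .mp ⟨⟨1195534761, 0, 0, 0, 0, 579704720, 0, 0, 0, ⟨0, 0⟩, 0⟩, 0, 0⟩ 0 0)))) (.pos 42 .mp ⟨⟨1511098761, 0, 0, 0, 0, 0, 0, 0, 0, ⟨0, 0⟩, 0⟩, 0, 0⟩ 0 0)))) (.pos 36 .mp ⟨⟨1470969296, 0, 0, 0, 0, 0, 0, 0, 0, ⟨0, 0⟩, 0⟩, 0, 0⟩ 0 0)))))) (.pos 32 .mp ⟨⟨1634585584, 0, 0, 0, 0, 0, 0, 0, 0, ⟨0, 0⟩, 0⟩, 0, 0⟩ 0 0))) (.void 30 ⟨⟨100000, 0, 0, 0, 0, 0, 0, 0, 0, ⟨0, 0⟩, 0⟩, 0, 0⟩ 0 0))) (.void 28 ⟨⟨100000, 0, 0, 0, 0, 0, 0, 0, 0, ⟨0, 0⟩, 0⟩, 0, 0⟩ 0 0))) (.void 26 ⟨⟨100000, 0, 0, 0, 0, 0, 0, 0, 0, ⟨0, 0⟩, 0⟩, 0, 0⟩ 0 0))) (.void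 24 ⟨⟨100000, 0, 0, 0, 0, 0, 0, 0, 0, ⟨0, 0⟩, 0⟩, 0, 0⟩ 0 0)))) (.void 22 ⟨⟨100000, 0, 0, 0, 0, 0, 0, 0, 0, ⟨0, 0⟩, 0⟩, 0, 0⟩ 0 0))) (.void 79 ⟨⟨100000, 0, 0, 0, 0, 0, 0, 0, 0, ⟨0, 0⟩, 0⟩, 0, 0⟩ 0 0)) (.void 88 ⟨⟨100000, 0, 0, 0, 0, 0, 0, 0, 0, ⟨0, 0⟩, 0⟩, 0, 0⟩ 0 0)) (.void 97 ⟨⟨93096, 0, 0, 6909, 0, 0, 0, 0, 0, ⟨0, 0⟩, 0⟩, 0, 0⟩ 0 0))) (.cut .v 16777216 (.cut .v 8388608 (.cut .v 4194304 (.cut .v 2097152 (.cut .v 1048576 (.pos 93 .pm ⟨⟨0, 0, 37022312, 0, 0, 0, 0, 0, 0, ⟨0, 0⟩, 0⟩, 0, 1278⟩ 0 0) (.pos 94 .pm ⟨⟨0, 0, 64523317, 0, 0, 0, 0, 0, 0, ⟨0, 0⟩, 0⟩, 0, 3685⟩ 0 0)) (.pos 90 .pm ⟨⟨0, 0, 109645221, 0, 0, 0, 0, 0, 0, ⟨0, 0⟩, 0⟩, 0,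 6960⟩ 0 0)) (.pos 5 .pm ⟨⟨0, 0, 337549963, 0, 0, 0, 0, 0, 0, ⟨0, 0⟩, 0⟩, 0, 16318⟩ 0 0)) (.pos 3 .pm ⟨⟨0, 0, 0, 0, 0, 0, 0, 0, 0, ⟨0, 0⟩, 0⟩, 0, 0⟩ 0 0)) (.cut .v 268435456 (.cut .v 67108864 (.cut .d 1113533 (.cut .v 33554432 (.cut .d 556766 (.cut .v 25165824 (.cut .d 278383 (.cut .v 20971520 (.cut .d 139191 (.cut .d 69595 (.cut .v 18874368 (.cut .v 17825792 (.cut .s 14876672 (.pos 27 .pp ⟨⟨1035722040, 0, 0, 0, 0, 0, 0, 0, 0, ⟨0, 0⟩, 0⟩, 44133935, 0⟩ 0 0) (.pos 27 .pp ⟨⟨1092242349, 0, 0, 0, 0, 0, 0, 0, 0, ⟨0, 0⟩, 0⟩, 48695257, 0⟩ 0 0)) (.pos 28 .pp ⟨⟨1532217811, 0, 0, 0, 0, 0, 0, 0, 0, ⟨0, 0⟩, 0⟩, 0, 0⟩ 0 0)) (.pos 26 .pp ⟨⟨1853882235,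 0, 0, 0, 0, 0, 0, 0, 0, ⟨0, 0⟩, 0⟩, 0, 0⟩ 0 0)) (.pos 23 .pp ⟨⟨1304351986, 0, 0, 0, 0, 0, 0, 0, 0, ⟨0, 0⟩, 0⟩, 0, 404⟩ 0 0)) (.pos 23 .pp ⟨⟨0, 0, 0, 0, 0, 0, 0, 0, 0, ⟨0, 0⟩, 0⟩, 0, 45328⟩ 0 0)) (.cut .d 139191 (.cut .v 23068672 (.cut .d 69595 (.void 53 ⟨⟨0, 0, 0, 0, 0, 0, 0, 0, 0, ⟨0, 0⟩, 0⟩, 100000, 0⟩ 0 0) (.pos 53 .pp ⟨⟨0, 0, 0, 0, 0, 0, 0, 0, 0, ⟨0, 0⟩, 0⟩, 275245307, 0⟩ 0 0)) (.pos 54 .pp ⟨⟨0, 0, 0, 0, 0, 0, 0, 0, 0, ⟨0, 0⟩, 0⟩, 379486024, 0⟩ 0 0)) (.pos 24 .pp ⟨⟨0, 0, 0, 0, 0, 0, 12109, 0, 0, ⟨0, 0⟩, 0⟩, 232663613, 0⟩ 0 0))) (.pos 21 .pp ⟨⟨0, 0, 0, 0, 0, 0, 0, 0, 0, ⟨0, 0⟩, 0⟩, 0, 48954⟩ 0 0)) (.cut .d 278383 (.pos 22 .pp ⟨⟨0,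 0, 0, 0, 0, 0, 0, 0, 0, ⟨0, 0⟩, 0⟩, 407713183, 0⟩ 0 0) (.pos 22 .pp ⟨⟨0, 0, 0, 0, 0, 0, 8347, 0, 0, ⟨0, 0⟩, 0⟩, 246003594, 0⟩ 0 0))) (.pos 20 .pp ⟨⟨0, 0, 0, 0, 0, 0, 163174, 0, 0, ⟨0, 0⟩, 0⟩, 0, 0⟩ 0 0)) (.cut .d 556766 (.pos 79 .pp ⟨⟨0, 0, 0, 0, 0, 0, 0, 0, 0, ⟨0, 0⟩, 0⟩, 715529361, 0⟩ 0 0) (.pos 79 .pp ⟨⟨0, 0, 0, 0, 0, 0, 0, 0, 0, ⟨0, 0⟩, 0⟩, 368056749, 0⟩ 0 0))) (.pos 78 .pp ⟨⟨0, 0, 0, 0, 0, 0, 0, 0, 0, ⟨0, 0⟩, 0⟩, 0, 40795⟩ 0 0)) (.void 88 ⟨⟨0, 0, 0, 49602, 0, 0, 0, 0, 0, ⟨0, 0⟩, 0⟩, 50398, 0⟩ 0 0)) (.void 97 ⟨⟨0, 0, 0, 0, 0, 0, 0, 0, 0, ⟨0, 0⟩, 0⟩, 100000, 0⟩ 0 0)))),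
    by decide +kernel⟩

def covers32 : cell.Covers Vale.Agent.P237.Petty.Cor.Grid.N11.table row32.1 :=
  ⟨(.cut .d 0 (.cut .v 16777216 (.cut .v 8388608 (.void 2 ⟨⟨0, 0, 100000, 0, 0, 0, 0, 0, 0, ⟨0, 0⟩, 0⟩, 0, 0⟩ 0 0) (.cut .d (-8388608) (.void 3 ⟨⟨100000, 0, 0, 0, 0, 0, 0, 0, 0, ⟨0, 0⟩, 0⟩, 0, 0⟩ 0 0) (.cut .d (-4194304) (.void 3 ⟨⟨100000, 0, 0, 0, 0, 0, 0, 0, 0, ⟨0, 0⟩, 0⟩, 0, 0⟩ 0 0) (.cut .d (-2097152) (.void 3 ⟨⟨100000, 0, 0, 0, 0, 0, 0, 0, 0, ⟨0, 0⟩, 0⟩, 0, 0⟩ 0 0) (.cut .d (-1048576) (.void 3 ⟨⟨100000, 0, 0, 0, 0, 0, 0, 0, 0, ⟨0, 0⟩, 0⟩, 0, 0⟩ 0 0) (.cut .d (-524288) (.void 3 ⟨⟨0, 0, 0, 0, 0, 100000, 0, 0, 0, ⟨0, 0⟩, 0⟩, 0, 0⟩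 0 0) (.cut .d (-262144) (.void 3 ⟨⟨0, 0, 0, 0, 0, 100000, 0, 0, 0, ⟨0, 0⟩, 0⟩, 0, 0⟩ 0 0) (.cut .s 15007744 (.pos 3 .mm ⟨⟨0, 0, 0, 0, 0, 3129444331, 0, 0, 0, ⟨0, 0⟩, 0⟩, 0, 0⟩ 0 0) (.pos 3 .mm ⟨⟨0, 0, 0, 0, 0, 3363982684, 0, 0, 0, ⟨0, 0⟩, 0⟩, 0, 0⟩ 0 0))))))))) (.cut .v 268435456 (.cut .v 67108864 (.cut .v 33554432 (.cut .d (-8388608) (.void 20 ⟨⟨100000, 0, 0, 0, 0, 0, 0, 0, 0, ⟨0, 0⟩, 0⟩, 0, 0⟩ 0 0) (.cut .v 25165824 (.cut .d (-4194304) (.void 21 ⟨⟨100000, 0, 0, 0, 0, 0, 0, 0, 0, ⟨0, 0⟩, 0⟩, 0, 0⟩ 0 0) (.cut .d (-2097152) (.void 21 ⟨⟨100000, 0, 0, 0, 0, 0, 0, 0, 0, ⟨0, 0⟩, 0⟩, 0, 0⟩ 0 0) (.cut .v 20971520 (.cut .d (-1048576) (.void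 23 ⟨⟨100000, 0, 0, 0, 0, 0, 0, 0, 0, ⟨0, 0⟩, 0⟩, 0, 0⟩ 0 0) (.cut .v 18874368 (.cut .d (-524288) (.void 25 ⟨⟨100000, 0, 0, 0, 0, 0, 0, 0, 0, ⟨0, 0⟩, 0⟩, 0, 0⟩ 0 0) (.cut .v 17825792 (.cut .d (-262144) (.void 27 ⟨⟨100000, 0, 0, 0, 0, 0, 0, 0, 0, ⟨0, 0⟩, 0⟩, 0, 0⟩ 0 0) (.cut .v 17301504 (.cut .d (-131072) (.void 29 ⟨⟨100000, 0, 0, 0, 0, 0, 0, 0, 0, ⟨0, 0⟩, 0⟩, 0, 0⟩ 0 0) (.cut .v 17039360 (.cut .d (-65536) (.void 31 ⟨⟨100000, 0, 0, 0, 0, 0, 0, 0, 0, ⟨0, 0⟩, 0⟩, 0, 0⟩ 0 0) (.cut .d (-32768) (.void 31 ⟨⟨100000, 0, 0, 0, 0, 0, 0, 0, 0, ⟨0, 0⟩, 0⟩, 0, 0⟩ 0 0) (.cut .d (-16384) (.void 31 ⟨⟨100000, 0, 0, 0, 0, 0, 0, 0, 0, ⟨0, 0⟩, 0⟩, 0, 0⟩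 0 0) (.cut .d (-8192) (.void 31 ⟨⟨0, 0, 0, 0, 0, 100000, 0, 0, 0, ⟨0, 0⟩, 0⟩, 0, 0⟩ 0 0) (.cut .v 16908288 (.cut .s 15007744 (.cut .s 14974976 (.cut .v 16842752 (.cut .s 14958592 (.cut .d (-4096) (.cut .l 167772 (.void 41 ⟨⟨0, 0, 0, 0, 0, 100000, 0, 0, 0, ⟨0, 0⟩, 0⟩, 0, 0⟩ 0 0) (.cut .s 14950400 (.pos 41 .mp ⟨⟨1183300560, 0, 0, 0, 0, 688082897, 0, 0, 0, ⟨0, 0⟩, 0⟩, 0, 0⟩ 0 0) (.pos 41 .mp ⟨⟨1191795699, 0, 0, 0, 0, 696164637, 0, 0, 0, ⟨0, 0⟩, 0⟩, 0, 0⟩ 0 0))) (.cut .l 167772 (.cut .v 16809984 (.cut .s 14950400 (.cut .d (-2048) (.pos 45 .mp ⟨⟨1185693709, 0, 0, 0, 0, 685650938, 0, 0, 0, ⟨0, 0⟩, 0⟩, 0, 0⟩ 0 0) (.cut .s 14946304 (.pos 45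 .mp ⟨⟨1207802850, 0, 0, 0, 0, 613385449, 0, 0, 0, ⟨0, 0⟩, 0⟩, 0, 0⟩ 0 0) (.pos 45 .mp ⟨⟨1212591283, 0, 0, 0, 0, 615900379, 0, 0, 0, ⟨0, 0⟩, 0⟩, 0, 0⟩ 0 0))) (.cut .d (-2048) (.pos 45 .mp ⟨⟨1195108633, 0, 0, 0, 0, 691121539, 0, 0, 0, ⟨0, 0⟩, 0⟩, 0, 0⟩ 0 0) (.cut .s 14954496 (.pos 45 .mp ⟨⟨1217406086, 0, 0, 0, 0, 618465927, 0, 0, 0, ⟨0, 0⟩, 0⟩, 0, 0⟩ 0 0) (.cut .s 14956544 (.pos 45 .mp ⟨⟨1219988782, 0, 0, 0, 0, 624132654, 0, 0, 0, ⟨0, 0⟩, 0⟩, 0, 0⟩ 0 0) (.pos 45 .mp ⟨⟨1222204213, 0, 0, 0, 0, 625869245, 0, 0, 0, ⟨0, 0⟩, 0⟩, 0, 0⟩ 0 0))))) (.pos 46 .mp ⟨⟨1554318577, 0, 0, 0, 0, 0, 0, 0, 0, ⟨0, 0⟩, 0⟩, 0, 0⟩ 0 0)) (.pos 41 .mp ⟨⟨1218129378,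 0, 0, 0, 0, 585194065, 0, 0, 0, ⟨0, 0⟩, 0⟩, 0, 0⟩ 0 0))) (.cut .d (-4096) (.cut .l 167772 (.void 41 ⟨⟨0, 0, 0, 0, 0, 100000, 0, 0, 0, ⟨0, 0⟩, 0⟩, 0, 0⟩ 0 0) (.cut .s 14966784 (.pos 41 .mp ⟨⟨1200534103, 0, 0, 0, 0, 704100474, 0, 0, 0, ⟨0, 0⟩, 0⟩, 0, 0⟩ 0 0) (.pos 41 .mp ⟨⟨1210166775, 0, 0, 0, 0, 710364278, 0, 0, 0, ⟨0, 0⟩, 0⟩, 0, 0⟩ 0 0))) (.cut .l 167772 (.cut .v 16809984 (.cut .s 14966784 (.cut .d (-2048) (.pos 45 .mp ⟨⟨1204626589, 0, 0, 0, 0, 696860519, 0, 0, 0, ⟨0, 0⟩, 0⟩, 0, 0⟩ 0 0) (.cut .v 16793600 (.cut .s 14962688 (.pos 55 .mp ⟨⟨1216055787, 0, 0, 0, 0, 647303246, 0, 0, 0, ⟨0, 0⟩, 0⟩, 0, 0⟩ 0 0) (.cut .s 14964736 (.pos 55 .mp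 ⟨⟨1233976041, 0, 0, 0, 0, 620606839, 0, 0, 0, ⟨0, 0⟩, 0⟩, 0, 0⟩ 0 0) (.pos 55 .mp ⟨⟨1236194830, 0, 0, 0, 0, 622448370, 0, 0, 0, ⟨0, 0⟩, 0⟩, 0, 0⟩ 0 0))) (.pos 56 .mp ⟨⟨1298083956, 0, 0, 0, 0, 489400480, 0, 0, 0, ⟨0, 0⟩, 0⟩, 0, 0⟩ 0 0))) (.cut .d (-2048) (.pos 45 .mp ⟨⟨1214248960, 0, 0, 0, 0, 702871649, 0, 0, 0, ⟨0, 0⟩, 0⟩, 0, 0⟩ 0 0) (.cut .v 16793600 (.cut .l 83886 (.cut .d (-1024) (.pos 55 .mp ⟨⟨1216298811, 0, 0, 0, 0, 694691550, 0, 0, 0, ⟨0, 0⟩, 0⟩, 0, 0⟩ 0 0) (.cut .s 14970880 (.pos 55 .mp ⟨⟨1229575623, 0, 0, 0, 0, 643985070, 0, 0, 0, ⟨0, 0⟩, 0⟩, 0, 0⟩ 0 0) (.pos 55 .mp ⟨⟨1234680002, 0, 0, 0, 0, 646439390, 0, 0, 0, ⟨0, 0⟩, 0⟩, 0,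 0⟩ 0 0))) (.pos 55 .mp ⟨⟨1211665789, 0, 0, 0, 0, 670770284, 0, 0, 0, ⟨0, 0⟩, 0⟩, 0, 0⟩ 0 0)) (.pos 56 .mp ⟨⟨1307060045, 0, 0, 0, 0, 496661003, 0, 0, 0, ⟨0, 0⟩, 0⟩, 0, 0⟩ 0 0)))) (.pos 46 .mp ⟨⟨1579666182, 0, 0, 0, 0, 0, 0, 0, 0, ⟨0, 0⟩, 0⟩, 0, 0⟩ 0 0)) (.pos 41 .mp ⟨⟨1237783996, 0, 0, 0, 0, 595814317, 0, 0, 0, ⟨0, 0⟩, 0⟩, 0, 0⟩ 0 0)))) (.pos 42 .mp ⟨⟨1564292589, 0, 0, 0, 0, 0, 0, 0, 0, ⟨0, 0⟩, 0⟩, 0, 0⟩ 0 0)) (.cut .v 16842752 (.cut .s 14991360 (.cut .d (-4096) (.cut .l 167772 (.void 41 ⟨⟨0, 0, 0, 0, 0, 100000, 0, 0, 0, ⟨0, 0⟩, 0⟩, 0, 0⟩ 0 0) (.cut .s 14983168 (.pos 41 .mp ⟨⟨1219905092, 0, 0, 0, 0, 716811504, 0, 0, 0, ⟨0, 0⟩, 0⟩, 0,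 0⟩ 0 0) (.pos 41 .mp ⟨⟨1229750487, 0, 0, 0, 0, 723441459, 0, 0, 0, ⟨0, 0⟩, 0⟩, 0, 0⟩ 0 0))) (.cut .l 167772 (.cut .v 16809984 (.cut .s 14983168 (.cut .d (-2048) (.cut .s 14979072 (.pos 45 .mp ⟨⟨1223977156, 0, 0, 0, 0, 700146117, 0, 0, 0, ⟨0, 0⟩, 0⟩, 0, 0⟩ 0 0) (.pos 45 .mp ⟨⟨1228881385, 0, 0, 0, 0, 703321021, 0, 0, 0, ⟨0, 0⟩, 0⟩, 0, 0⟩ 0 0)) (.cut .v 16793600 (.cut .l 83886 (.cut .d (-1024) (.pos 55 .mp ⟨⟨1226022010, 0, 0, 0, 0, 700955300, 0, 0, 0, ⟨0, 0⟩, 0⟩, 0, 0⟩ 0 0) (.cut .s 14979072 (.pos 55 .mp ⟨⟨1239783135, 0, 0, 0, 0, 649010317, 0, 0, 0, ⟨0, 0⟩, 0⟩, 0, 0⟩ 0 0) (.pos 55 .mp ⟨⟨1244875272, 0, 0, 0, 0, 651720667, 0, 0, 0, ⟨0, 0⟩,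 0⟩, 0, 0⟩ 0 0))) (.pos 55 .mp ⟨⟨1221329754, 0, 0, 0, 0, 677182033, 0, 0, 0, ⟨0, 0⟩, 0⟩, 0, 0⟩ 0 0)) (.pos 56 .mp ⟨⟨1316608379, 0, 0, 0, 0, 503190221, 0, 0, 0, ⟨0, 0⟩, 0⟩, 0, 0⟩ 0 0))) (.cut .d (-2048) (.cut .s 14987264 (.pos 45 .mp ⟨⟨1233812612, 0, 0, 0, 0, 706566050, 0, 0, 0, ⟨0, 0⟩, 0⟩, 0, 0⟩ 0 0) (.pos 45 .mp ⟨⟨1238771018, 0, 0, 0, 0, 709881702, 0, 0, 0, ⟨0, 0⟩, 0⟩, 0, 0⟩ 0 0)) (.cut .l 83886 (.cut .v 16793600 (.cut .d (-1024) (.pos 55 .mp ⟨⟨1235852562, 0, 0, 0, 0, 707498194, 0, 0, 0, ⟨0, 0⟩, 0⟩, 0, 0⟩ 0 0) (.cut .s 14987264 (.pos 55 .mp ⟨⟨1249868158, 0, 0, 0, 0, 654773039, 0, 0, 0, ⟨0, 0⟩, 0⟩, 0, 0⟩ 0 0) (.pos 55 .mp ⟨⟨1254888757,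 0, 0, 0, 0, 657877190, 0, 0, 0, ⟨0, 0⟩, 0⟩, 0, 0⟩ 0 0))) (.pos 56 .mp ⟨⟨1613871480, 0, 0, 0, 0, 0, 0, 0, 0, ⟨0, 0⟩, 0⟩, 0, 0⟩ 0 0)) (.pos 45 .mp ⟨⟨1252847068, 0, 0, 0, 0, 637799127, 0, 0, 0, ⟨0, 0⟩, 0⟩, 0, 0⟩ 0 0)))) (.pos 46 .mp ⟨⟨1605643675, 0, 0, 0, 0, 0, 0, 0, 0, ⟨0, 0⟩, 0⟩, 0, 0⟩ 0 0)) (.pos 41 .mp ⟨⟨1257877132, 0, 0, 0, 0, 606794795, 0, 0, 0, ⟨0, 0⟩, 0⟩, 0, 0⟩ 0 0))) (.cut .d (-4096) (.cut .l 167772 (.void 41 ⟨⟨0, 0, 0, 0, 0, 100000, 0, 0, 0, ⟨0, 0⟩, 0⟩, 0, 0⟩ 0 0) (.cut .s 14999552 (.pos 41 .mp ⟨⟨1239704419, 0, 0, 0, 0, 730253408, 0, 0, 0, ⟨0, 0⟩, 0⟩, 0, 0⟩ 0 0) (.pos 41 .mp ⟨⟨1249768376, 0, 0, 0, 0, 737246580, 0, 0, 0, ⟨0, 0⟩,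 0⟩, 0, 0⟩ 0 0))) (.cut .l 167772 (.cut .v 16809984 (.cut .s 14999552 (.cut .d (-2048) (.cut .s 14995456 (.pos 45 .mp ⟨⟨1243756790, 0, 0, 0, 0, 713268478, 0, 0, 0, ⟨0, 0⟩, 0⟩, 0, 0⟩ 0 0) (.pos 45 .mp ⟨⟨1248770114, 0, 0, 0, 0, 716726887, 0, 0, 0, ⟨0, 0⟩, 0⟩, 0, 0⟩ 0 0)) (.cut .l 83886 (.cut .v 16793600 (.cut .d (-1024) (.pos 55 .mp ⟨⟨1245791929, 0, 0, 0, 0, 714324202, 0, 0, 0, ⟨0, 0⟩, 0⟩, 0, 0⟩ 0 0) (.cut .s 14995456 (.pos 55 .mp ⟨⟨1259937259, 0, 0, 0, 0, 661033179, 0, 0, 0, ⟨0, 0⟩, 0⟩, 0, 0⟩ 0 0) (.pos 55 .mp ⟨⟨1265013855, 0, 0, 0, 0, 664241063, 0, 0, 0, ⟨0, 0⟩, 0⟩, 0, 0⟩ 0 0))) (.pos 56 .mp ⟨⟨1627234178, 0, 0, 0, 0, 0, 0, 0, 0, ⟨0,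 0⟩, 0⟩, 0, 0⟩ 0 0)) (.pos 45 .mp ⟨⟨1262976850, 0, 0, 0, 0, 643880488, 0, 0, 0, ⟨0, 0⟩, 0⟩, 0, 0⟩ 0 0))) (.cut .d (-2048) (.cut .s 15003648 (.pos 45 .mp ⟨⟨1253811179, 0, 0, 0, 0, 720257439, 0, 0, 0, ⟨0, 0⟩, 0⟩, 0, 0⟩ 0 0) (.pos 45 .mp ⟨⟨1258880176, 0, 0, 0, 0, 723860651, 0, 0, 0, ⟨0, 0⟩, 0⟩, 0, 0⟩ 0 0)) (.cut .l 83886 (.cut .v 16793600 (.cut .d (-1024) (.pos 55 .mp ⟨⟨1255841602, 0, 0, 0, 0, 721437368, 0, 0, 0, ⟨0, 0⟩, 0⟩, 0, 0⟩ 0 0) (.cut .s 15003648 (.pos 55 .mp ⟨⟨1270118738, 0, 0, 0, 0, 667500901, 0, 0, 0, ⟨0, 0⟩, 0⟩, 0, 0⟩ 0 0) (.pos 55 .mp ⟨⟨1275252102, 0, 0, 0, 0, 670812747, 0, 0, 0, ⟨0, 0⟩, 0⟩, 0, 0⟩ 0 0))) (.pos 56 .mp ⟨⟨1640752737,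 0, 0, 0, 0, 0, 0, 0, 0, ⟨0, 0⟩, 0⟩, 0, 0⟩ 0 0)) (.pos 45 .mp ⟨⟨1273219684, 0, 0, 0, 0, 650044254, 0, 0, 0, ⟨0, 0⟩, 0⟩, 0, 0⟩ 0 0)))) (.pos 46 .mp ⟨⟨1632246767, 0, 0, 0, 0, 0, 0, 0, 0, ⟨0, 0⟩, 0⟩, 0, 0⟩ 0 0)) (.pos 41 .mp ⟨⟨1278420847, 0, 0, 0, 0, 618107382, 0, 0, 0, ⟨0, 0⟩, 0⟩, 0, 0⟩ 0 0)))) (.pos 42 .mp ⟨⟨1615768066, 0, 0, 0, 0, 0, 0, 0, 0, ⟨0, 0⟩, 0⟩, 0, 0⟩ 0 0))) (.cut .s 15040512 (.cut .v 16842752 (.cut .s 15024128 (.cut .d (-4096) (.cut .l 167772 (.void 41 ⟨⟨0, 0, 0, 0, 0, 100000, 0, 0, 0, ⟨0, 0⟩, 0⟩, 0, 0⟩ 0 0) (.cut .s 15015936 (.pos 41 .mp ⟨⟨1259943870, 0, 0, 0, 0, 744420161, 0, 0, 0, ⟨0, 0⟩, 0⟩, 0, 0⟩ 0 0) (.pos 41 .mp ⟨⟨1270232444,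 0, 0, 0, 0, 751773297, 0, 0, 0, ⟨0, 0⟩, 0⟩, 0, 0⟩ 0 0))) (.cut .l 167772 (.cut .v 16809984 (.cut .s 15015936 (.cut .d (-2048) (.pos 45 .mp ⟨⟨1263977296, 0, 0, 0, 0, 737146433, 0, 0, 0, ⟨0, 0⟩, 0⟩, 0, 0⟩ 0 0) (.cut .l 83886 (.cut .v 16793600 (.cut .d (-1024) (.pos 55 .mp ⟨⟨1266003098, 0, 0, 0, 0, 728841811, 0, 0, 0, ⟨0, 0⟩, 0⟩, 0, 0⟩ 0 0) (.cut .s 15011840 (.pos 55 .mp ⟨⟨1280414143, 0, 0, 0, 0, 674176655, 0, 0, 0, ⟨0, 0⟩, 0⟩, 0, 0⟩ 0 0) (.pos 55 .mp ⟨⟨1285549585, 0, 0, 0, 0, 677719739, 0, 0, 0, ⟨0, 0⟩, 0⟩, 0, 0⟩ 0 0))) (.pos 56 .mp ⟨⟨1654426625, 0, 0, 0, 0, 0, 0, 0, 0, ⟨0, 0⟩, 0⟩, 0, 0⟩ 0 0)) (.pos 45 .mp ⟨⟨1283577132, 0, 0, 0, 0, 656286801,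 0, 0, 0, ⟨0, 0⟩, 0⟩, 0, 0⟩ 0 0))) (.cut .d (-2048) (.pos 45 .mp ⟨⟨1274256684, 0, 0, 0, 0, 744873612, 0, 0, 0, ⟨0, 0⟩, 0⟩, 0, 0⟩ 0 0) (.cut .l 83886 (.cut .v 16793600 (.cut .d (-1024) (.pos 55 .mp ⟨⟨1276277963, 0, 0, 0, 0, 736541727, 0, 0, 0, ⟨0, 0⟩, 0⟩, 0, 0⟩ 0 0) (.cut .s 15020032 (.pos 55 .mp ⟨⟨1290604414, 0, 0, 0, 0, 681566229, 0, 0, 0, ⟨0, 0⟩, 0⟩, 0, 0⟩ 0 0) (.pos 55 .mp ⟨⟨1295650574, 0, 0, 0, 0, 685551865, 0, 0, 0, ⟨0, 0⟩, 0⟩, 0, 0⟩ 0 0))) (.pos 56 .mp ⟨⟨1668255311, 0, 0, 0, 0, 0, 0, 0, 0, ⟨0, 0⟩, 0⟩, 0, 0⟩ 0 0)) (.pos 45 .mp ⟨⟨1294050786, 0, 0, 0, 0, 662604447, 0, 0, 0, ⟨0, 0⟩, 0⟩, 0, 0⟩ 0 0)))) (.pos 46 .mp ⟨⟨1659471196, 0, 0,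 0, 0, 0, 0, 0, 0, ⟨0, 0⟩, 0⟩, 0, 0⟩ 0 0)) (.pos 41 .mp ⟨⟨1299427650, 0, 0, 0, 0, 629723071, 0, 0, 0, ⟨0, 0⟩, 0⟩, 0, 0⟩ 0 0))) (.cut .d (-4096) (.cut .l 167772 (.void 41 ⟨⟨0, 0, 0, 0, 0, 100000, 0, 0, 0, ⟨0, 0⟩, 0⟩, 0, 0⟩ 0 0) (.cut .s 15032320 (.pos 41 .mp ⟨⟨1280635669, 0, 0, 0, 0, 759305091, 0, 0, 0, ⟨0, 0⟩, 0⟩, 0, 0⟩ 0 0) (.pos 41 .mp ⟨⟨1291155145, 0, 0, 0, 0, 767014604, 0, 0, 0, ⟨0, 0⟩, 0⟩, 0, 0⟩ 0 0))) (.cut .l 167772 (.cut .v 16809984 (.cut .s 15032320 (.cut .d (-2048) (.pos 45 .mp ⟨⟨1284650917, 0, 0, 0, 0, 752901350, 0, 0, 0, ⟨0, 0⟩, 0⟩, 0, 0⟩ 0 0) (.cut .v 16793600 (.cut .s 15028224 (.cut .s 15026176 (.pos 55 .mp ⟨⟨1310942104,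 0, 0, 0, 0, 666867706, 0, 0, 0, ⟨0, 0⟩, 0⟩, 0, 0⟩ 0 0) (.pos 55 .mp ⟨⟨1313912283, 0, 0, 0, 0, 668029567, 0, 0, 0, ⟨0, 0⟩, 0⟩, 0, 0⟩ 0 0)) (.pos 55 .mp ⟨⟨1301790118, 0, 0, 0, 0, 703265290, 0, 0, 0, ⟨0, 0⟩, 0⟩, 0, 0⟩ 0 0)) (.pos 56 .mp ⟨⟨1387105642, 0, 0, 0, 0, 524754686, 0, 0, 0, ⟨0, 0⟩, 0⟩, 0, 0⟩ 0 0))) (.cut .d (-2048) (.pos 45 .mp ⟨⟨1295161598, 0, 0, 0, 0, 761234013, 0, 0, 0, ⟨0, 0⟩, 0⟩, 0, 0⟩ 0 0) (.cut .v 16793600 (.cut .s 15036416 (.pos 55 .mp ⟨⟨1308324684, 0, 0, 0, 0, 704366750, 0, 0, 0, ⟨0, 0⟩, 0⟩, 0, 0⟩ 0 0) (.pos 55 .mp ⟨⟨1316119235, 0, 0, 0, 0, 702864946, 0, 0, 0, ⟨0, 0⟩, 0⟩, 0, 0⟩ 0 0)) (.pos 56 .mp ⟨⟨1401262495, 0, 0, 0,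 0, 525022447, 0, 0, 0, ⟨0, 0⟩, 0⟩, 0, 0⟩ 0 0)))) (.pos 46 .mp ⟨⟨1687312732, 0, 0, 0, 0, 0, 0, 0, 0, ⟨0, 0⟩, 0⟩, 0, 0⟩ 0 0)) (.pos 41 .mp ⟨⟨1320910526, 0, 0, 0, 0, 641611930, 0, 0, 0, ⟨0, 0⟩, 0⟩, 0, 0⟩ 0 0)))) (.pos 42 .mp ⟨⟨1669729101, 0, 0, 0, 0, 0, 0, 0, 0, ⟨0, 0⟩, 0⟩, 0, 0⟩ 0 0)) (.cut .v 16842752 (.cut .s 15056896 (.cut .d (-4096) (.cut .s 15048704 (.cut .s 15044608 (.pos 41 .mp ⟨⟨1301792503, 0, 0, 0, 0, 776415511, 0, 0, 0, ⟨0, 0⟩, 0⟩, 0, 0⟩ 0 0) (.pos 41 .mp ⟨⟨1307155906, 0, 0, 0, 0, 780804803, 0, 0, 0, ⟨0, 0⟩, 0⟩, 0, 0⟩ 0 0)) (.pos 41 .mp ⟨⟨1312549405, 0, 0, 0, 0, 795682355, 0, 0, 0, ⟨0, 0⟩, 0⟩, 0, 0⟩ 0 0)) (.cut .l 167772 (.cut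 .v 16809984 (.cut .s 15048704 (.cut .d (-2048) (.pos 45 .mp ⟨⟨1305790360, 0, 0, 0, 0, 769876048, 0, 0, 0, ⟨0, 0⟩, 0⟩, 0, 0⟩ 0 0) (.cut .s 15044608 (.pos 45 .mp ⟨⟨1330377785, 0, 0, 0, 0, 687834560, 0, 0, 0, ⟨0, 0⟩, 0⟩, 0, 0⟩ 0 0) (.pos 45 .mp ⟨⟨1335851170, 0, 0, 0, 0, 691580001, 0, 0, 0, ⟨0, 0⟩, 0⟩, 0, 0⟩ 0 0))) (.cut .d (-2048) (.pos 45 .mp ⟨⟨1316538868, 0, 0, 0, 0, 778831989, 0, 0, 0, ⟨0, 0⟩, 0⟩, 0, 0⟩ 0 0) (.cut .s 15052800 (.pos 45 .mp ⟨⟨1341355635, 0, 0, 0, 0, 695377291, 0, 0, 0, ⟨0, 0⟩, 0⟩, 0, 0⟩ 0 0) (.pos 45 .mp ⟨⟨1346859647, 0, 0, 0, 0, 699299198, 0, 0, 0, ⟨0, 0⟩, 0⟩, 0, 0⟩ 0 0)))) (.pos 46 .mp ⟨⟨1715767168, 0, 0, 0, 0, 0, 0,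 0, 0, ⟨0, 0⟩, 0⟩, 0, 0⟩ 0 0)) (.pos 41 .mp ⟨⟨1342882951, 0, 0, 0, 0, 653743051, 0, 0, 0, ⟨0, 0⟩, 0⟩, 0, 0⟩ 0 0))) (.cut .d (-4096) (.cut .s 15065088 (.pos 41 .mp ⟨⟨1323427543, 0, 0, 0, 0, 805019352, 0, 0, 0, ⟨0, 0⟩, 0⟩, 0, 0⟩ 0 0) (.pos 41 .mp ⟨⟨1334428644, 0, 0, 0, 0, 814681320, 0, 0, 0, ⟨0, 0⟩, 0⟩, 0, 0⟩ 0 0)) (.cut .l 167772 (.cut .v 16809984 (.cut .s 15065088 (.cut .d (-2048) (.pos 45 .mp ⟨⟨1327408817, 0, 0, 0, 0, 788106454, 0, 0, 0, ⟨0, 0⟩, 0⟩, 0, 0⟩ 0 0) (.cut .s 15060992 (.pos 45 .mp ⟨⟨1351866182, 0, 0, 0, 0, 704484766, 0, 0, 0, ⟨0, 0⟩, 0⟩, 0, 0⟩ 0 0) (.pos 45 .mp ⟨⟨1356856564, 0, 0, 0, 0, 709832032, 0, 0, 0, ⟨0, 0⟩, 0⟩, 0, 0⟩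 0 0))) (.cut .s 15069184 (.pos 45 .mp ⟨⟨1353073758, 0, 0, 0, 0, 736025078, 0, 0, 0, ⟨0, 0⟩, 0⟩, 0, 0⟩ 0 0) (.pos 45 .mp ⟨⟨1359920089, 0, 0, 0, 0, 737376586, 0, 0, 0, ⟨0, 0⟩, 0⟩, 0, 0⟩ 0 0))) (.pos 46 .mp ⟨⟨1744830330, 0, 0, 0, 0, 0, 0, 0, 0, ⟨0, 0⟩, 0⟩, 0, 0⟩ 0 0)) (.pos 41 .mp ⟨⟨1365358923, 0, 0, 0, 0, 666084504, 0, 0, 0, ⟨0, 0⟩, 0⟩, 0, 0⟩ 0 0)))) (.pos 42 .mp ⟨⟨1726142099, 0, 0, 0, 0, 0, 0, 0, 0, ⟨0, 0⟩, 0⟩, 0, 0⟩ 0 0)))) (.pos 36 .mp ⟨⟨1679347225, 0, 0, 0, 0, 0, 0, 0, 0, ⟨0, 0⟩, 0⟩, 0, 0⟩ 0 0)))))) (.pos 32 .mp ⟨⟨1868857028, 0, 0, 0, 0, 0, 0, 0, 0, ⟨0, 0⟩, 0⟩, 0, 0⟩ 0 0))) (.void 30 ⟨⟨100000, 0, 0, 0, 0, 0, 0, 0, 0, ⟨0, 0⟩, 0⟩, 0,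 0⟩ 0 0))) (.void 28 ⟨⟨100000, 0, 0, 0, 0, 0, 0, 0, 0, ⟨0, 0⟩, 0⟩, 0, 0⟩ 0 0))) (.void 26 ⟨⟨100000, 0, 0, 0, 0, 0, 0, 0, 0, ⟨0, 0⟩, 0⟩, 0, 0⟩ 0 0))) (.void 24 ⟨⟨100000, 0, 0, 0, 0, 0, 0, 0, 0, ⟨0, 0⟩, 0⟩, 0, 0⟩ 0 0)))) (.void 22 ⟨⟨100000, 0, 0, 0, 0, 0, 0, 0, 0, ⟨0, 0⟩, 0⟩, 0, 0⟩ 0 0))) (.void 79 ⟨⟨100000, 0, 0, 0, 0, 0, 0, 0, 0, ⟨0, 0⟩, 0⟩, 0, 0⟩ 0 0)) (.void 88 ⟨⟨100000, 0, 0, 0, 0, 0, 0, 0, 0, ⟨0, 0⟩, 0⟩, 0, 0⟩ 0 0)) (.void 97 ⟨⟨93015, 0, 0, 6968, 0, 0, 0, 0, 0, ⟨0, 0⟩, 0⟩, 0, 0⟩ 0 0))) (.cut .v 16777216 (.cut .v 8388608 (.cut .v 4194304 (.cut .v 2097152 (.cut .v 1048576 (.pos 93 .pm ⟨⟨0, 0, 41928687, 0, 0, 0, 0, 0, 0, ⟨0, 0⟩, 0⟩,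 0, 961⟩ 0 0) (.pos 94 .pm ⟨⟨0, 0, 78387425, 0, 0, 0, 0, 0, 0, ⟨0, 0⟩, 0⟩, 0, 2770⟩ 0 0)) (.pos 90 .pm ⟨⟨0, 0, 137941360, 0, 0, 0, 0, 0, 0, ⟨0, 0⟩, 0⟩, 0, 6727⟩ 0 0)) (.pos 5 .pm ⟨⟨0, 0, 429258094, 0, 0, 0, 0, 0, 0, ⟨0, 0⟩, 0⟩, 0, 12524⟩ 0 0)) (.pos 3 .pm ⟨⟨0, 0, 0, 0, 0, 0, 0, 0, 0, ⟨0, 0⟩, 0⟩, 0, 0⟩ 0 0)) (.cut .v 268435456 (.cut .v 67108864 (.cut .d 1030181 (.cut .v 33554432 (.cut .d 515090 (.cut .v 25165824 (.cut .d 257545 (.cut .d 128772 (.cut .v 20971520 (.cut .d 64386 (.cut .v 18874368 (.cut .v 17825792 (.cut .s 15007744 (.pos 27 .pp ⟨⟨1157015774, 0, 0, 0, 0, 0, 0, 0, 0, ⟨0, 0⟩, 0⟩, 53292813, 0⟩ 0 0) (.pos 27 .pp ⟨⟨1228791148,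 0, 0, 0, 0, 0, 0, 0, 0, ⟨0, 0⟩, 0⟩, 58007905, 0⟩ 0 0)) (.pos 28 .pp ⟨⟨1741962552, 0, 0, 0, 0, 0, 0, 0, 0, ⟨0, 0⟩, 0⟩, 0, 0⟩ 0 0)) (.pos 26 .pp ⟨⟨2107830014, 0, 0, 0, 0, 0, 0, 0, 0, ⟨0, 0⟩, 0⟩, 0, 0⟩ 0 0)) (.pos 23 .pp ⟨⟨1479765470, 0, 0, 0, 0, 0, 0, 0, 0, ⟨0, 0⟩, 0⟩, 0, 264⟩ 0 0)) (.cut .v 23068672 (.cut .d 64386 (.void 53 ⟨⟨0, 0, 0, 0, 0, 0, 0, 0, 0, ⟨0, 0⟩, 0⟩, 100000, 0⟩ 0 0) (.pos 53 .pp ⟨⟨0, 0, 0, 0, 0, 0, 0, 0, 0, ⟨0, 0⟩, 0⟩, 312733498, 0⟩ 0 0)) (.pos 54 .pp ⟨⟨0, 0, 0, 0, 0, 0, 0, 0, 0, ⟨0, 0⟩, 0⟩, 436319232, 0⟩ 0 0))) (.cut .v 20971520 (.pos 23 .pp ⟨⟨0, 0, 0, 0, 0, 0, 0, 0, 0, ⟨0, 0⟩, 0⟩, 0, 34790⟩ 0 0) (.pos 24 .pp ⟨⟨0, 0, 0,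 0, 0, 0, 9214, 0, 0, ⟨0, 0⟩, 0⟩, 263860313, 0⟩ 0 0))) (.pos 21 .pp ⟨⟨0, 0, 0, 0, 0, 0, 0, 0, 0, ⟨0, 0⟩, 0⟩, 0, 37573⟩ 0 0)) (.cut .d 257545 (.pos 22 .pp ⟨⟨0, 0, 0, 0, 0, 0, 0, 0, 0, ⟨0, 0⟩, 0⟩, 462688441, 0⟩ 0 0) (.pos 22 .pp ⟨⟨0, 0, 0, 0, 0, 0, 5820, 0, 0, ⟨0, 0⟩, 0⟩, 280534419, 0⟩ 0 0))) (.pos 20 .pp ⟨⟨0, 0, 0, 0, 0, 0, 125238, 0, 0, ⟨0, 0⟩, 0⟩, 0, 0⟩ 0 0)) (.cut .d 515090 (.cut .v 50331648 (.pos 80 .pp ⟨⟨0, 0, 0, 0, 0, 0, 0, 0, 0, ⟨0, 0⟩, 0⟩, 669400137, 0⟩ 0 0) (.void 81 ⟨⟨0, 0, 0, 0, 0, 0, 0, 0, 0, ⟨0, 0⟩, 0⟩, 100000, 0⟩ 0 0)) (.pos 79 .pp ⟨⟨0, 0, 0, 0, 0, 0, 0, 0, 0, ⟨0, 0⟩, 0⟩, 424988005, 0⟩ 0 0))) (.pos 78 .pp ⟨⟨0, 0, 0, 0, 0,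 0, 0, 0, 0, ⟨0, 0⟩, 0⟩, 0, 31311⟩ 0 0)) (.void 88 ⟨⟨0, 0, 0, 49779, 0, 0, 0, 0, 0, ⟨0, 0⟩, 0⟩, 50221, 0⟩ 0 0)) (.void 97 ⟨⟨0, 0, 0, 0, 0, 0, 0, 0, 0, ⟨0, 0⟩, 0⟩, 100000, 0⟩ 0 0)))),
    by decide +kernel⟩

def covers33 : cell.Covers Vale.Agent.P237.Petty.Cor.Grid.N11.table row33.1 :=
  ⟨(.cut .d 0 (.cut .v 16777216 (.cut .v 8388608 (.void 2 ⟨⟨0, 0, 100000, 0, 0, 0, 0, 0, 0, ⟨0, 0⟩, 0⟩, 0, 0⟩ 0 0) (.cut .d (-8388608) (.void 3 ⟨⟨100000, 0, 0, 0, 0, 0, 0, 0, 0, ⟨0, 0⟩, 0⟩, 0, 0⟩ 0 0) (.cut .d (-4194304) (.void 3 ⟨⟨100000, 0, 0, 0, 0, 0, 0, 0, 0, ⟨0, 0⟩, 0⟩, 0, 0⟩ 0 0) (.cut .d (-2097152) (.void 3 ⟨⟨100000, 0, 0, 0, 0, 0, 0, 0, 0, ⟨0, 0⟩,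 0⟩, 0, 0⟩ 0 0) (.cut .d (-1048576) (.void 3 ⟨⟨100000, 0, 0, 0, 0, 0, 0, 0, 0, ⟨0, 0⟩, 0⟩, 0, 0⟩ 0 0) (.cut .d (-524288) (.void 3 ⟨⟨0, 0, 0, 0, 0, 100000, 0, 0, 0, ⟨0, 0⟩, 0⟩, 0, 0⟩ 0 0) (.cut .s 15122432 (.cut .d (-262144) (.void 3 ⟨⟨0, 0, 0, 0, 0, 100000, 0, 0, 0, ⟨0, 0⟩, 0⟩, 0, 0⟩ 0 0) (.pos 3 .mm ⟨⟨0, 0, 0, 0, 0, 3557150458, 0, 0, 0, ⟨0, 0⟩, 0⟩, 0, 0⟩ 0 0)) (.pos 3 .mm ⟨⟨0, 0, 0, 0, 0, 3997155281, 0, 0, 0, ⟨0, 0⟩, 0⟩, 0, 0⟩ 0 0)))))))) (.cut .v 268435456 (.cut .v 67108864 (.cut .v 33554432 (.cut .d (-8388608) (.void 20 ⟨⟨100000, 0, 0, 0, 0, 0, 0, 0, 0, ⟨0, 0⟩, 0⟩, 0, 0⟩ 0 0) (.cut .v 25165824 (.cut .d (-4194304) (.void 21 ⟨⟨100000,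 0, 0, 0, 0, 0, 0, 0, 0, ⟨0, 0⟩, 0⟩, 0, 0⟩ 0 0) (.cut .d (-2097152) (.void 21 ⟨⟨100000, 0, 0, 0, 0, 0, 0, 0, 0, ⟨0, 0⟩, 0⟩, 0, 0⟩ 0 0) (.cut .v 20971520 (.cut .d (-1048576) (.void 23 ⟨⟨100000, 0, 0, 0, 0, 0, 0, 0, 0, ⟨0, 0⟩, 0⟩, 0, 0⟩ 0 0) (.cut .v 18874368 (.cut .d (-524288) (.void 25 ⟨⟨100000, 0, 0, 0, 0, 0, 0, 0, 0, ⟨0, 0⟩, 0⟩, 0, 0⟩ 0 0) (.cut .v 17825792 (.cut .d (-262144) (.void 27 ⟨⟨100000, 0, 0, 0, 0, 0, 0, 0, 0, ⟨0, 0⟩, 0⟩, 0, 0⟩ 0 0) (.cut .s 15122432 (.cut .v 17301504 (.cut .d (-131072) (.void 29 ⟨⟨100000, 0, 0, 0, 0, 0, 0, 0, 0, ⟨0, 0⟩, 0⟩, 0, 0⟩ 0 0) (.cut .s 15097856 (.cut .v 17039360 (.cut .d (-65536) (.void 31 ⟨⟨100000,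 0, 0, 0, 0, 0, 0, 0, 0, ⟨0, 0⟩, 0⟩, 0, 0⟩ 0 0) (.cut .s 15085568 (.cut .v 16908288 (.cut .d (-32768) (.void 35 ⟨⟨100000, 0, 0, 0, 0, 0, 0, 0, 0, ⟨0, 0⟩, 0⟩, 0, 0⟩ 0 0) (.cut .s 15079424 (.cut .v 16842752 (.cut .s 15076352 (.cut .d (-16384) (.void 41 ⟨⟨100000, 0, 0, 0, 0, 0, 0, 0, 0, ⟨0, 0⟩, 0⟩, 0, 0⟩ 0 0) (.cut .s 15074816 (.cut .v 16809984 (.pos 45 .mp ⟨⟨1365853704, 0, 0, 0, 0, 741485514, 0, 0, 0, ⟨0, 0⟩, 0⟩, 0, 0⟩ 0 0) (.pos 46 .mp ⟨⟨1445471899, 0, 0, 0, 0, 593539302, 0, 0, 0, ⟨0, 0⟩, 0⟩, 0, 0⟩ 0 0)) (.pos 41 .mp ⟨⟨1466688427, 0, 0, 0, 0, 564200412, 0, 0, 0, ⟨0, 0⟩, 0⟩, 0, 0⟩ 0 0))) (.pos 41 .mp ⟨⟨1529906977, 0, 0, 0, 0, 474778888,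 0, 0, 0, ⟨0, 0⟩, 0⟩, 0, 0⟩ 0 0)) (.pos 42 .mp ⟨⟨1787730829, 0, 0, 0, 0, 0, 0, 0, 0, ⟨0, 0⟩, 0⟩, 0, 0⟩ 0 0)) (.pos 35 .mp ⟨⟨1627819177, 0, 0, 0, 0, 327517361, 0, 0, 0, ⟨0, 0⟩, 0⟩, 0, 0⟩ 0 0))) (.pos 36 .mp ⟨⟨1823464531, 0, 0, 0, 0, 0, 0, 0, 0, ⟨0, 0⟩, 0⟩, 0, 0⟩ 0 0)) (.pos 31 .mp ⟨⟨1716442090, 0, 0, 0, 0, 256028620, 0, 0, 0, ⟨0, 0⟩, 0⟩, 0, 0⟩ 0 0))) (.pos 32 .mp ⟨⟨1915902995, 0, 0, 0, 0, 0, 0, 0, 0, ⟨0, 0⟩, 0⟩, 0, 0⟩ 0 0)) (.pos 29 .mp ⟨⟨1802266276, 0, 0, 0, 0, 316199363, 0, 0, 0, ⟨0, 0⟩, 0⟩, 0, 0⟩ 0 0))) (.void 30 ⟨⟨100000, 0, 0, 0, 0, 0, 0, 0, 0, ⟨0, 0⟩, 0⟩, 0, 0⟩ 0 0)) (.pos 27 .mp ⟨⟨1929500252, 0, 0, 0, 0, 560303075, 0, 0, 0, ⟨0,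 0⟩, 0⟩, 0, 0⟩ 0 0))) (.void 28 ⟨⟨100000, 0, 0, 0, 0, 0, 0, 0, 0, ⟨0, 0⟩, 0⟩, 0, 0⟩ 0 0))) (.void 26 ⟨⟨100000, 0, 0, 0, 0, 0, 0, 0, 0, ⟨0, 0⟩, 0⟩, 0, 0⟩ 0 0))) (.void 24 ⟨⟨100000, 0, 0, 0, 0, 0, 0, 0, 0, ⟨0, 0⟩, 0⟩, 0, 0⟩ 0 0)))) (.void 22 ⟨⟨100000, 0, 0, 0, 0, 0, 0, 0, 0, ⟨0, 0⟩, 0⟩, 0, 0⟩ 0 0))) (.void 79 ⟨⟨100000, 0, 0, 0, 0, 0, 0, 0, 0, ⟨0, 0⟩, 0⟩, 0, 0⟩ 0 0)) (.void 88 ⟨⟨99919, 0, 0, 0, 0, 0, 0, 0, 0, ⟨0, 0⟩, 0⟩, 0, 0⟩ 0 0)) (.void 97 ⟨⟨92992, 0, 0, 7008, 0, 0, 0, 0, 0, ⟨0, 0⟩, 0⟩, 0, 0⟩ 0 0))) (.cut .v 16777216 (.cut .v 8388608 (.cut .v 4194304 (.cut .v 2097152 (.cut .v 1048576 (.pos 93 .pm ⟨⟨0, 0, 47301162, 0, 0, 0, 0, 0, 0, ⟨0,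 0⟩, 0⟩, 0, 1391⟩ 0 0) (.pos 94 .pm ⟨⟨0, 0, 94665823, 0, 0, 0, 0, 0, 0, ⟨0, 0⟩, 0⟩, 0, 2770⟩ 0 0)) (.pos 90 .pm ⟨⟨0, 0, 173437560, 0, 0, 0, 0, 0, 0, ⟨0, 0⟩, 0⟩, 0, 5233⟩ 0 0)) (.pos 5 .pm ⟨⟨0, 0, 547078489, 0, 0, 0, 0, 0, 0, ⟨0, 0⟩, 0⟩, 0, 9419⟩ 0 0)) (.pos 3 .pm ⟨⟨0, 0, 0, 0, 0, 0, 0, 0, 0, ⟨0, 0⟩, 0⟩, 0, 0⟩ 0 0)) (.cut .v 268435456 (.cut .v 67108864 (.cut .d 948278 (.cut .v 33554432 (.cut .d 474139 (.cut .v 25165824 (.cut .d 237069 (.cut .v 20971520 (.cut .d 118534 (.cut .d 59267 (.cut .v 18874368 (.cut .v 17825792 (.pos 27 .pp ⟨⟨1491406024, 0, 0, 0, 0, 0, 0, 0, 0, ⟨0, 0⟩, 0⟩, 36455955, 0⟩ 0 0) (.pos 28 .pp ⟨⟨1960218856, 0, 0, 0, 0,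 0, 0, 0, 0, ⟨0, 0⟩, 0⟩, 0, 0⟩ 0 0)) (.pos 26 .pp ⟨⟨2348861601, 0, 0, 0, 0, 0, 0, 0, 0, ⟨0, 0⟩, 0⟩, 0, 0⟩ 0 0)) (.pos 23 .pp ⟨⟨1687043717, 0, 0, 0, 0, 0, 0, 0, 0, ⟨0, 0⟩, 0⟩, 0, 280⟩ 0 0)) (.pos 23 .pp ⟨⟨0, 0, 0, 0, 0, 0, 0, 0, 0, ⟨0, 0⟩, 0⟩, 0, 26164⟩ 0 0)) (.cut .d 118534 (.cut .v 23068672 (.pos 53 .pp ⟨⟨2696521016, 0, 0, 0, 0, 0, 0, 0, 0, ⟨0, 0⟩, 0⟩, 0, 0⟩ 0 0) (.pos 54 .pp ⟨⟨0, 0, 0, 0, 0, 0, 0, 0, 0, ⟨0, 0⟩, 0⟩, 775002928, 0⟩ 0 0)) (.pos 24 .pp ⟨⟨0, 0, 0, 0, 0, 0, 7222, 0, 0, ⟨0, 0⟩, 0⟩, 300179707, 0⟩ 0 0))) (.pos 21 .pp ⟨⟨0, 0, 0, 0, 0, 0, 0, 0, 0, ⟨0, 0⟩, 0⟩, 0, 28257⟩ 0 0)) (.cut .d 237069 (.pos 22 .pp ⟨⟨0, 0, 0, 0, 0, 0, 0,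 0, 0, ⟨0, 0⟩, 0⟩, 510337240, 0⟩ 0 0) (.pos 22 .pp ⟨⟨0, 0, 0, 0, 0, 0, 4344, 0, 0, ⟨0, 0⟩, 0⟩, 321114956, 0⟩ 0 0))) (.pos 20 .pp ⟨⟨0, 0, 0, 0, 0, 0, 94188, 0, 0, ⟨0, 0⟩, 0⟩, 0, 0⟩ 0 0)) (.cut .d 474139 (.pos 79 .pp ⟨⟨0, 0, 0, 0, 0, 0, 0, 0, 0, ⟨0, 0⟩, 0⟩, 891949563, 0⟩ 0 0) (.pos 79 .pp ⟨⟨0, 0, 0, 0, 0, 0, 0, 0, 0, ⟨0, 0⟩, 0⟩, 488396560, 0⟩ 0 0))) (.pos 78 .pp ⟨⟨0, 0, 0, 0, 0, 0, 0, 0, 0, ⟨0, 0⟩, 0⟩, 0, 23548⟩ 0 0)) (.void 88 ⟨⟨0, 0, 0, 49911, 0, 0, 0, 0, 0, ⟨0, 0⟩, 0⟩, 50089, 0⟩ 0 0)) (.void 97 ⟨⟨0, 0, 0, 0, 0, 0, 0, 0, 0, ⟨0, 0⟩, 0⟩, 100000, 0⟩ 0 0)))),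
    by decide +kernel⟩

def covers34 : cell.Covers Vale.Agent.P237.Petty.Cor.Grid.N11.table row34.1 :=
  ⟨(.cut .d 0 (.cut .v 16777216 (.cut .v 8388608 (.void 2 ⟨⟨0, 0, 100000, 0, 0, 0, 0, 0, 0, ⟨0, 0⟩, 0⟩, 0, 0⟩ 0 0) (.cut .d (-8388608) (.void 3 ⟨⟨100000, 0, 0, 0, 0, 0, 0, 0, 0, ⟨0, 0⟩, 0⟩, 0, 0⟩ 0 0) (.cut .d (-4194304) (.void 3 ⟨⟨100000, 0, 0, 0, 0, 0, 0, 0, 0, ⟨0, 0⟩, 0⟩, 0, 0⟩ 0 0) (.cut .d (-2097152) (.void 3 ⟨⟨100000, 0, 0, 0, 0, 0, 0, 0, 0, ⟨0, 0⟩, 0⟩, 0, 0⟩ 0 0) (.pos 3 .mm ⟨⟨0, 0, 0, 0, 0, 5973311285, 0, 0, 0, ⟨0, 0⟩, 0⟩, 0, 0⟩ 0 0))))) (.cut .v 268435456 (.cut .v 67108864 (.cut .v 33554432 (.cut .d (-8388608) (.void 20 ⟨⟨99934,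 0, 0, 0, 0, 0, 0, 0, 0, ⟨0, 0⟩, 0⟩, 0, 0⟩ 0 0) (.cut .d (-4194304) (.void 20 ⟨⟨100000, 0, 0, 0, 0, 0, 0, 0, 0, ⟨0, 0⟩, 0⟩, 0, 0⟩ 0 0) (.cut .v 25165824 (.cut .d (-2097152) (.void 21 ⟨⟨100000, 0, 0, 0, 0, 0, 0, 0, 0, ⟨0, 0⟩, 0⟩, 0, 0⟩ 0 0) (.cut .v 20971520 (.cut .d (-1048576) (.void 23 ⟨⟨100000, 0, 0, 0, 0, 0, 0, 0, 0, ⟨0, 0⟩, 0⟩, 0, 0⟩ 0 0) (.pos 23 .mp ⟨⟨2524732002, 0, 0, 0, 0, 2000047073, 0, 0, 0, ⟨0, 0⟩, 0⟩, 0, 0⟩ 0 0)) (.void 24 ⟨⟨100000, 0, 0, 0, 0, 0, 0, 0, 0, ⟨0, 0⟩, 0⟩, 0, 0⟩ 0 0))) (.void 22 ⟨⟨100000, 0, 0, 0, 0, 0, 0, 0, 0, ⟨0, 0⟩, 0⟩, 0, 0⟩ 0 0)))) (.void 79 ⟨⟨100000, 0, 0, 0, 0, 0, 0, 0, 0, ⟨0, 0⟩, 0⟩, 0, 0⟩ 0 0)) (.void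 88 ⟨⟨100000, 0, 0, 0, 0, 0, 0, 0, 0, ⟨0, 0⟩, 0⟩, 0, 0⟩ 0 0)) (.void 97 ⟨⟨92950, 0, 0, 7050, 0, 0, 0, 0, 0, ⟨0, 0⟩, 0⟩, 0, 0⟩ 0 0))) (.cut .v 16777216 (.cut .v 8388608 (.cut .v 4194304 (.cut .v 2097152 (.cut .v 1048576 (.pos 93 .pm ⟨⟨0, 0, 53156474, 0, 0, 0, 0, 0, 0, ⟨0, 0⟩, 0⟩, 0, 1107⟩ 0 0) (.pos 94 .pm ⟨⟨0, 0, 111263490, 0, 0, 0, 0, 0, 0, ⟨0, 0⟩, 0⟩, 0, 3191⟩ 0 0)) (.pos 90 .pm ⟨⟨0, 0, 210260927, 0, 0, 0, 0, 0, 0, ⟨0, 0⟩, 0⟩, 0, 7574⟩ 0 0)) (.pos 5 .pm ⟨⟨0, 0, 657464528, 0, 0, 0, 0, 0, 0, ⟨0, 0⟩, 0⟩, 0, 13634⟩ 0 0)) (.pos 3 .pm ⟨⟨0, 0, 0, 0, 0, 0, 0, 0, 0, ⟨0, 0⟩, 0⟩, 0, 0⟩ 0 0)) (.cut .v 268435456 (.cut .v 67108864 (.cut .d 887780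 (.cut .v 33554432 (.cut .d 443890 (.cut .v 25165824 (.cut .d 221945 (.cut .v 20971520 (.cut .d 110972 (.cut .d 55486 (.cut .v 18874368 (.cut .v 17825792 (.pos 27 .pp ⟨⟨1910260314, 0, 0, 0, 0, 0, 0, 0, 0, ⟨0, 0⟩, 0⟩, 0, 12995⟩ 0 0) (.pos 28 .pp ⟨⟨2192247552, 0, 0, 0, 0, 0, 0, 0, 0, ⟨0, 0⟩, 0⟩, 0, 14462⟩ 0 0)) (.pos 26 .pp ⟨⟨2645421667, 0, 0, 0, 0, 0, 0, 0, 0, ⟨0, 0⟩, 0⟩, 0, 12172⟩ 0 0)) (.pos 23 .pp ⟨⟨1870281037, 0, 0, 0, 0, 0, 0, 0, 0, ⟨0, 0⟩, 0⟩, 0, 15690⟩ 0 0)) (.pos 23 .pp ⟨⟨0, 0, 0, 0, 0, 0, 0, 0, 0, ⟨0, 0⟩, 0⟩, 0, 37872⟩ 0 0)) (.cut .d 110972 (.cut .v 23068672 (.pos 53 .pp ⟨⟨3021465918, 0, 0, 0, 0, 0, 28373, 0, 0, ⟨0, 0⟩, 0⟩, 0,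 0⟩ 0 0) (.pos 54 .pp ⟨⟨0, 0, 0, 0, 0, 0, 0, 0, 0, ⟨0, 0⟩, 0⟩, 792511430, 0⟩ 0 0)) (.pos 24 .pp ⟨⟨0, 0, 0, 0, 0, 0, 44388, 0, 0, ⟨0, 0⟩, 0⟩, 332721331, 0⟩ 0 0))) (.pos 21 .pp ⟨⟨0, 0, 0, 0, 0, 0, 0, 0, 0, ⟨0, 0⟩, 0⟩, 0, 40901⟩ 0 0)) (.cut .d 221945 (.pos 22 .pp ⟨⟨0, 0, 0, 0, 0, 0, 18302, 0, 0, ⟨0, 0⟩, 0⟩, 570203878, 0⟩ 0 0) (.pos 22 .pp ⟨⟨0, 0, 0, 0, 0, 0, 49565, 0, 0, ⟨0, 0⟩, 0⟩, 357860600, 0⟩ 0 0))) (.pos 20 .pp ⟨⟨0, 0, 0, 0, 0, 0, 136334, 0, 0, ⟨0, 0⟩, 0⟩, 0, 0⟩ 0 0)) (.cut .d 443890 (.pos 79 .pp ⟨⟨0, 0, 0, 0, 0, 0, 0, 0, 0, ⟨0, 0⟩, 0⟩, 989661385, 0⟩ 0 0) (.pos 79 .pp ⟨⟨0, 0, 0, 0, 0, 0, 28180, 0, 0, ⟨0, 0⟩, 0⟩, 550964678, 0⟩ 0 0)))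 (.pos 78 .pp ⟨⟨0, 0, 0, 0, 0, 0, 0, 0, 0, ⟨0, 0⟩, 0⟩, 6360096, 33772⟩ 0 0)) (.void 88 ⟨⟨0, 0, 0, 50043, 0, 0, 0, 0, 0, ⟨0, 0⟩, 0⟩, 49957, 0⟩ 0 0)) (.void 97 ⟨⟨0, 0, 0, 0, 0, 0, 0, 0, 0, ⟨0, 0⟩, 0⟩, 100000, 0⟩ 0 0)))),
    by decide +kernel⟩

def covers35 : cell.Covers Vale.Agent.P237.Petty.Cor.Grid.N11.table row35.1 :=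
  ⟨(.cut .d 0 (.cut .v 16777216 (.cut .v 8388608 (.void 2 ⟨⟨0, 0, 100000, 0, 0, 0, 0, 0, 0, ⟨0, 0⟩, 0⟩, 0, 0⟩ 0 0) (.cut .d (-8388608) (.void 3 ⟨⟨100000, 0, 0, 0, 0, 0, 0, 0, 0, ⟨0, 0⟩, 0⟩, 0, 0⟩ 0 0) (.cut .d (-4194304) (.void 3 ⟨⟨100000, 0, 0, 0, 0, 0, 0, 0, 0, ⟨0, 0⟩, 0⟩, 0, 0⟩ 0 0) (.cut .d (-2097152) (.void 3 ⟨⟨100000, 0, 0, 0, 0, 0, 0, 0, 0, ⟨0, 0⟩, 0⟩, 0, 0⟩ 0 0) (.pos 3 .mm ⟨⟨0, 0, 0, 0, 0, 7073185815, 0, 0, 0, ⟨0, 0⟩, 0⟩, 0, 0⟩ 0 0))))) (.cut .v 268435456 (.cut .v 67108864 (.cut .v 33554432 (.cut .d (-8388608) (.void 20 ⟨⟨99916, 0, 0, 0, 0, 0, 0, 0, 0, ⟨0, 0⟩, 0⟩, 0, 0⟩ 0 0) (.cut .d (-4194304) (.void 20 ⟨⟨100000, 0, 0, 0,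 0, 0, 0, 0, 0, ⟨0, 0⟩, 0⟩, 0, 0⟩ 0 0) (.cut .v 25165824 (.cut .d (-2097152) (.void 21 ⟨⟨100000, 0, 0, 0, 0, 0, 0, 0, 0, ⟨0, 0⟩, 0⟩, 0, 0⟩ 0 0) (.cut .v 20971520 (.cut .d (-1048576) (.void 23 ⟨⟨100000, 0, 0, 0, 0, 0, 0, 0, 0, ⟨0, 0⟩, 0⟩, 0, 0⟩ 0 0) (.cut .v 18874368 (.pos 25 .mp ⟨⟨2480144897, 0, 0, 0, 0, 2307488672, 0, 0, 0, ⟨0, 0⟩, 0⟩, 0, 0⟩ 0 0) (.void 26 ⟨⟨100000, 0, 0, 0, 0, 0, 0, 0, 0, ⟨0, 0⟩, 0⟩, 0, 0⟩ 0 0))) (.void 24 ⟨⟨100000, 0, 0, 0, 0, 0, 0, 0, 0, ⟨0, 0⟩, 0⟩, 0, 0⟩ 0 0))) (.void 22 ⟨⟨100000, 0, 0, 0, 0, 0, 0, 0, 0, ⟨0, 0⟩, 0⟩, 0, 0⟩ 0 0)))) (.void 79 ⟨⟨100000, 0, 0, 0, 0, 0, 0, 0, 0, ⟨0, 0⟩, 0⟩, 0, 0⟩ 0 0)) (.void 88 ⟨⟨100000,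 0, 0, 0, 0, 0, 0, 0, 0, ⟨0, 0⟩, 0⟩, 0, 0⟩ 0 0)) (.void 97 ⟨⟨92894, 0, 0, 7106, 0, 0, 0, 0, 0, ⟨0, 0⟩, 0⟩, 0, 0⟩ 0 0))) (.cut .v 16777216 (.cut .v 8388608 (.cut .v 4194304 (.cut .v 2097152 (.cut .v 1048576 (.pos 93 .pm ⟨⟨0, 0, 62261076, 0, 0, 0, 0, 0, 0, ⟨0, 0⟩, 0⟩, 0, 792⟩ 0 0) (.pos 94 .pm ⟨⟨0, 0, 134346123, 0, 0, 0, 0, 0, 0, ⟨0, 0⟩, 0⟩, 0, 2282⟩ 0 0)) (.pos 90 .pm ⟨⟨0, 0, 257815820, 0, 0, 0, 0, 0, 0, ⟨0, 0⟩, 0⟩, 0, 6020⟩ 0 0)) (.pos 5 .pm ⟨⟨0, 0, 791787863, 0, 0, 0, 0, 0, 0, ⟨0, 0⟩, 0⟩, 0, 10836⟩ 0 0)) (.pos 3 .pm ⟨⟨0, 0, 0, 0, 0, 0, 0, 0, 0, ⟨0, 0⟩, 0⟩, 0, 0⟩ 0 0)) (.cut .v 268435456 (.cut .v 67108864 (.cut .d 828061 (.cut .v 33554432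 (.cut .d 414030 (.cut .v 25165824 (.cut .d 207015 (.cut .d 103507 (.cut .v 20971520 (.cut .d 51753 (.cut .v 18874368 (.cut .v 17825792 (.cut .s 15335424 (.pos 27 .pp ⟨⟨2114648477, 0, 0, 0, 0, 0, 0, 0, 0, ⟨0, 0⟩, 0⟩, 0, 10389⟩ 0 0) (.pos 27 .pp ⟨⟨2283435522, 0, 0, 0, 0, 0, 0, 0, 0, ⟨0, 0⟩, 0⟩, 0, 8935⟩ 0 0)) (.pos 28 .pp ⟨⟨2498862917, 0, 0, 0, 0, 0, 0, 0, 0, ⟨0, 0⟩, 0⟩, 0, 11190⟩ 0 0)) (.pos 26 .pp ⟨⟨3051503080, 0, 0, 0, 0, 0, 0, 0, 0, ⟨0, 0⟩, 0⟩, 0, 9467⟩ 0 0)) (.pos 23 .pp ⟨⟨2086232744, 0, 0, 0, 0, 0, 0, 0, 0, ⟨0, 0⟩, 0⟩, 0, 12798⟩ 0 0)) (.cut .v 23068672 (.pos 53 .pp ⟨⟨3473884199, 0, 0, 0, 0, 0, 22207, 0, 0, ⟨0, 0⟩, 0⟩, 0, 0⟩ 0 0)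 (.pos 54 .pp ⟨⟨0, 0, 0, 0, 0, 0, 0, 0, 0, ⟨0, 0⟩, 0⟩, 955230361, 0⟩ 0 0))) (.cut .v 20971520 (.pos 23 .pp ⟨⟨0, 0, 0, 0, 0, 0, 0, 0, 0, ⟨0, 0⟩, 0⟩, 0, 30099⟩ 0 0) (.pos 24 .pp ⟨⟨0, 0, 0, 0, 0, 0, 35881, 0, 0, ⟨0, 0⟩, 0⟩, 372606365, 0⟩ 0 0))) (.pos 21 .pp ⟨⟨0, 0, 0, 0, 0, 0, 0, 0, 0, ⟨0, 0⟩, 0⟩, 0, 32507⟩ 0 0)) (.cut .d 207015 (.pos 22 .pp ⟨⟨0, 0, 0, 0, 0, 0, 13868, 0, 0, ⟨0, 0⟩, 0⟩, 657255294, 0⟩ 0 0) (.pos 22 .pp ⟨⟨0, 0, 0, 0, 0, 0, 40014, 0, 0, ⟨0, 0⟩, 0⟩, 402286709, 0⟩ 0 0))) (.pos 20 .pp ⟨⟨0, 0, 0, 0, 0, 0, 108354, 0, 0, ⟨0, 0⟩, 0⟩, 0, 0⟩ 0 0)) (.cut .d 414030 (.cut .v 50331648 (.pos 80 .pp ⟨⟨0, 0, 0, 0, 0, 0, 0, 0, 0, ⟨0, 0⟩, 0⟩,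 942140466, 0⟩ 0 0) (.void 81 ⟨⟨0, 0, 0, 0, 0, 0, 0, 0, 0, ⟨0, 0⟩, 0⟩, 100000, 0⟩ 0 0)) (.pos 79 .pp ⟨⟨0, 0, 0, 0, 0, 0, 22159, 0, 0, ⟨0, 0⟩, 0⟩, 630423925, 0⟩ 0 0))) (.pos 78 .pp ⟨⟨0, 0, 0, 0, 0, 0, 0, 0, 0, ⟨0, 0⟩, 0⟩, 24665601, 26246⟩ 0 0)) (.void 88 ⟨⟨0, 0, 0, 50218, 0, 0, 0, 0, 0, ⟨0, 0⟩, 0⟩, 49782, 0⟩ 0 0)) (.void 97 ⟨⟨0, 0, 0, 0, 0, 0, 0, 0, 0, ⟨0, 0⟩, 0⟩, 100000, 0⟩ 0 0)))),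
    by decide +kernel⟩

def covers36 : cell.Covers Vale.Agent.P237.Petty.Cor.Grid.N11.table row36.1 :=
  ⟨(.cut .d 0 (.cut .v 16777216 (.cut .v 8388608 (.void 2 ⟨⟨0, 0, 100000, 0, 0, 0, 0, 0, 0, ⟨0, 0⟩, 0⟩, 0, 0⟩ 0 0) (.cut .d (-8388608) (.void 3 ⟨⟨100000, 0, 0, 0, 0, 0, 0, 0, 0, ⟨0, 0⟩, 0⟩, 0, 0⟩ 0 0) (.cut .d (-4194304) (.void 3 ⟨⟨100000, 0, 0, 0, 0, 0, 0, 0, 0, ⟨0, 0⟩, 0⟩, 0, 0⟩ 0 0) (.cut .d (-2097152) (.void 3 ⟨⟨100000, 0, 0, 0, 0, 0, 0, 0, 0, ⟨0, 0⟩, 0⟩, 0, 0⟩ 0 0) (.pos 3 .mm ⟨⟨0, 0, 0, 0, 0, 8463679582, 0, 0, 0, ⟨0, 0⟩, 0⟩, 0, 0⟩ 0 0))))) (.cut .v 268435456 (.cut .v 67108864 (.cut .v 33554432 (.cut .d (-8388608) (.void 20 ⟨⟨99940,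 0, 0, 0, 0, 0, 0, 0, 0, ⟨0, 0⟩, 0⟩, 0, 0⟩ 0 0) (.cut .d (-4194304) (.void 20 ⟨⟨100000, 0, 0, 0, 0, 0, 0, 0, 0, ⟨0, 0⟩, 0⟩, 0, 0⟩ 0 0) (.cut .v 25165824 (.cut .d (-2097152) (.void 21 ⟨⟨100000, 0, 0, 0, 0, 0, 0, 0, 0, ⟨0, 0⟩, 0⟩, 0, 0⟩ 0 0) (.cut .v 20971520 (.cut .d (-1048576) (.void 23 ⟨⟨100000, 0, 0, 0, 0, 0, 0, 0, 0, ⟨0, 0⟩, 0⟩, 0, 0⟩ 0 0) (.pos 23 .mp ⟨⟨3436461100, 0, 0, 0, 0, 2866132336, 0, 0, 0, ⟨0, 0⟩, 0⟩, 0, 0⟩ 0 0)) (.void 24 ⟨⟨100000, 0, 0, 0, 0, 0, 0, 0, 0, ⟨0, 0⟩, 0⟩, 0, 0⟩ 0 0))) (.void 22 ⟨⟨100000, 0, 0, 0, 0, 0, 0, 0, 0, ⟨0, 0⟩, 0⟩, 0, 0⟩ 0 0)))) (.void 79 ⟨⟨100000, 0, 0, 0, 0, 0, 0, 0, 0, ⟨0, 0⟩, 0⟩, 0, 0⟩ 0 0)) (.void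 88 ⟨⟨100102, 0, 0, 0, 0, 0, 1, 0, 0, ⟨0, 0⟩, 0⟩, 0, 0⟩ 0 0)) (.void 97 ⟨⟨92838, 0, 0, 7162, 0, 0, 0, 0, 0, ⟨0, 0⟩, 0⟩, 0, 0⟩ 0 0))) (.cut .v 16777216 (.cut .v 8388608 (.cut .v 4194304 (.cut .v 2097152 (.cut .v 1048576 (.pos 93 .pm ⟨⟨0, 0, 75440489, 0, 0, 0, 0, 0, 0, ⟨0, 0⟩, 0⟩, 0, 664⟩ 0 0) (.pos 94 .pm ⟨⟨0, 0, 170341894, 0, 0, 0, 0, 0, 0, ⟨0, 0⟩, 0⟩, 0, 1568⟩ 0 0)) (.pos 90 .pm ⟨⟨0, 0, 337342823, 0, 0, 0, 0, 0, 0, ⟨0, 0⟩, 0⟩, 0, 4306⟩ 0 0)) (.pos 5 .pm ⟨⟨0, 0, 1019952252, 0, 0, 0, 0, 0, 0, ⟨0, 0⟩, 0⟩, 0, 7750⟩ 0 0)) (.pos 3 .pm ⟨⟨0, 0, 0, 0, 0, 0, 0, 0, 0, ⟨0, 0⟩, 0⟩, 0, 0⟩ 0 0)) (.cut .v 268435456 (.cut .v 67108864 (.cut .d 749621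 (.cut .v 33554432 (.cut .d 374810 (.cut .v 25165824 (.cut .d 187405 (.cut .d 93702 (.cut .v 20971520 (.cut .d 46851 (.cut .v 18874368 (.cut .v 17825792 (.cut .s 15466496 (.pos 27 .pp ⟨⟨2466008398, 0, 0, 0, 0, 0, 0, 0, 0, ⟨0, 0⟩, 0⟩, 0, 7643⟩ 0 0) (.pos 27 .pp ⟨⟨2677829165, 0, 0, 0, 0, 0, 0, 0, 0, ⟨0, 0⟩, 0⟩, 0, 6442⟩ 0 0)) (.pos 28 .pp ⟨⟨2926001718, 0, 0, 0, 0, 0, 0, 0, 0, ⟨0, 0⟩, 0⟩, 0, 7964⟩ 0 0)) (.pos 26 .pp ⟨⟨3579317136, 0, 0, 0, 0, 0, 0, 0, 0, ⟨0, 0⟩, 0⟩, 0, 7140⟩ 0 0)) (.pos 23 .pp ⟨⟨2425305555, 0, 0, 0, 0, 0, 0, 0, 0, ⟨0, 0⟩, 0⟩, 0, 9517⟩ 0 0)) (.cut .v 23068672 (.pos 53 .pp ⟨⟨4069515988, 0, 0, 0, 0, 0, 16798, 0, 0, ⟨0, 0⟩,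 0⟩, 0, 0⟩ 0 0) (.pos 54 .pp ⟨⟨0, 0, 0, 0, 0, 0, 14936, 0, 0, ⟨0, 0⟩, 0⟩, 692297766, 0⟩ 0 0))) (.cut .v 20971520 (.pos 23 .pp ⟨⟨0, 0, 0, 0, 0, 0, 0, 0, 0, ⟨0, 0⟩, 0⟩, 0, 21528⟩ 0 0) (.pos 24 .pp ⟨⟨0, 0, 0, 0, 0, 0, 26397, 0, 0, ⟨0, 0⟩, 0⟩, 434648188, 0⟩ 0 0))) (.pos 21 .pp ⟨⟨0, 0, 0, 0, 0, 0, 0, 0, 0, ⟨0, 0⟩, 0⟩, 0, 23250⟩ 0 0)) (.cut .d 187405 (.pos 22 .pp ⟨⟨0, 0, 0, 0, 0, 0, 11281, 0, 0, ⟨0, 0⟩, 0⟩, 769833551, 0⟩ 0 0) (.pos 22 .pp ⟨⟨0, 0, 0, 0, 0, 0, 29376, 0, 0, ⟨0, 0⟩, 0⟩, 472447072, 0⟩ 0 0))) (.pos 20 .pp ⟨⟨0, 0, 0, 0, 0, 0, 77499, 0, 0, ⟨0, 0⟩, 0⟩, 0, 0⟩ 0 0)) (.cut .d 374810 (.cut .v 50331648 (.pos 80 .pp ⟨⟨0, 0, 0, 0, 0, 0, 0,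 0, 0, ⟨0, 0⟩, 0⟩, 1101813202, 0⟩ 0 0) (.void 81 ⟨⟨0, 0, 0, 0, 0, 0, 0, 0, 0, ⟨0, 0⟩, 0⟩, 100000, 0⟩ 0 0)) (.pos 79 .pp ⟨⟨0, 0, 0, 0, 0, 0, 16519, 0, 0, ⟨0, 0⟩, 0⟩, 751615886, 0⟩ 0 0))) (.pos 78 .pp ⟨⟨0, 0, 0, 0, 0, 0, 0, 0, 0, ⟨0, 0⟩, 0⟩, 56541564, 18228⟩ 0 0)) (.void 88 ⟨⟨0, 0, 0, 50392, 0, 0, 0, 0, 0, ⟨0, 0⟩, 0⟩, 49608, 0⟩ 0 0)) (.void 97 ⟨⟨0, 0, 0, 0, 0, 0, 0, 0, 0, ⟨0, 0⟩, 0⟩, 100000, 0⟩ 0 0)))),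
    by decide +kernel⟩

def covers37 : cell.Covers Vale.Agent.P237.Petty.Cor.Grid.N11.table row37.1 :=
  ⟨(.cut .d 0 (.cut .v 16777216 (.cut .v 8388608 (.void 2 ⟨⟨0, 0, 100000, 0, 0, 0, 0, 0, 0, ⟨0, 0⟩, 0⟩, 0, 0⟩ 0 0) (.cut .d (-8388608) (.void 3 ⟨⟨100000, 0, 0, 0, 0, 0, 0, 0, 0, ⟨0, 0⟩, 0⟩, 0, 0⟩ 0 0) (.cut .d (-4194304) (.void 3 ⟨⟨100000, 0, 0, 0, 0, 0, 0, 0, 0, ⟨0, 0⟩, 0⟩, 0, 0⟩ 0 0) (.cut .d (-2097152) (.void 3 ⟨⟨100000, 0, 0, 0, 0, 0, 0, 0, 0, ⟨0, 0⟩, 0⟩, 0, 0⟩ 0 0) (.pos 3 .mm ⟨⟨0, 0, 0, 0, 0, 12307983459, 0, 0, 0, ⟨0, 0⟩, 0⟩, 0, 0⟩ 0 0))))) (.cut .v 268435456 (.cut .v 67108864 (.cut .v 33554432 (.cut .d (-8388608) (.void 20 ⟨⟨100097,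 0, 0, 0, 0, 0, 0, 0, 0, ⟨0, 0⟩, 0⟩, 0, 0⟩ 0 0) (.cut .d (-4194304) (.void 20 ⟨⟨100000, 0, 0, 0, 0, 0, 0, 0, 0, ⟨0, 0⟩, 0⟩, 0, 0⟩ 0 0) (.cut .v 25165824 (.cut .d (-2097152) (.void 21 ⟨⟨100000, 0, 0, 0, 0, 0, 0, 0, 0, ⟨0, 0⟩, 0⟩, 0, 0⟩ 0 0) (.cut .v 20971520 (.cut .d (-1048576) (.void 23 ⟨⟨100000, 0, 0, 0, 0, 0, 0, 0, 0, ⟨0, 0⟩, 0⟩, 0, 0⟩ 0 0) (.cut .s 15654912 (.pos 23 .mp ⟨⟨4063499164, 0, 0, 0, 0, 3420047330, 0, 0, 0, ⟨0, 0⟩, 0⟩, 0, 0⟩ 0 0) (.pos 23 .mp ⟨⟨4874695919, 0, 0, 0, 0, 4128554548, 0, 0, 0, ⟨0, 0⟩, 0⟩, 0, 0⟩ 0 0))) (.void 24 ⟨⟨100000, 0, 0, 0, 0, 0, 0, 0, 0, ⟨0, 0⟩, 0⟩, 0, 0⟩ 0 0))) (.void 22 ⟨⟨100000, 0, 0, 0, 0, 0, 0, 0,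 0, ⟨0, 0⟩, 0⟩, 0, 0⟩ 0 0)))) (.void 79 ⟨⟨100000, 0, 0, 0, 0, 0, 0, 0, 0, ⟨0, 0⟩, 0⟩, 0, 0⟩ 0 0)) (.void 88 ⟨⟨100216, 0, 0, 0, 0, 0, 0, 0, 0, ⟨0, 0⟩, 0⟩, 0, 0⟩ 0 0)) (.void 97 ⟨⟨92733, 0, 0, 7267, 0, 0, 0, 0, 0, ⟨0, 0⟩, 0⟩, 0, 0⟩ 0 0))) (.cut .v 16777216 (.cut .v 8388608 (.cut .v 4194304 (.cut .v 2097152 (.cut .v 1048576 (.pos 93 .pm ⟨⟨0, 0, 100744998, 0, 0, 0, 0, 0, 0, ⟨0, 0⟩, 0⟩, 0, 0⟩ 0 0) (.pos 94 .pm ⟨⟨0, 0, 239803892, 0, 0, 0, 0, 0, 0, ⟨0, 0⟩, 0⟩, 0, 668⟩ 0 0)) (.pos 90 .pm ⟨⟨0, 0, 465036111, 0, 0, 0, 0, 0, 0, ⟨0, 0⟩, 0⟩, 0, 2272⟩ 0 0)) (.pos 5 .pm ⟨⟨0, 0, 1318940149, 0, 0, 0, 0, 0, 0, ⟨0, 0⟩, 0⟩, 0, 5191⟩ 0 0)) (.pos 3 .pm ⟨⟨0,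 0, 0, 0, 0, 0, 0, 0, 0, ⟨0, 0⟩, 0⟩, 0, 0⟩ 0 0)) (.cut .v 268435456 (.cut .v 67108864 (.cut .d 672505 (.cut .v 33554432 (.cut .d 336252 (.cut .v 25165824 (.cut .d 168126 (.cut .d 84063 (.cut .v 20971520 (.cut .d 42031 (.cut .v 18874368 (.cut .d 21015 (.cut .v 17825792 (.cut .d 10507 (.cut .s 15654912 (.pos 27 .pp ⟨⟨2984702576, 0, 0, 0, 0, 0, 0, 0, 0, ⟨0, 0⟩, 0⟩, 0, 5142⟩ 0 0) (.cut .s 15716352 (.pos 27 .pp ⟨⟨3332763166, 0, 0, 0, 0, 0, 0, 0, 0, ⟨0, 0⟩, 0⟩, 0, 3897⟩ 0 0) (.pos 27 .pp ⟨⟨3655073404, 0, 0, 0, 0, 0, 0, 0, 0, ⟨0, 0⟩, 0⟩, 0, 3193⟩ 0 0))) (.pos 27 .pp ⟨⟨2475359837, 0, 0, 0, 0, 0, 0, 0, 0, ⟨0, 0⟩, 0⟩, 0, 4641⟩ 0 0)) (.pos 28 .pp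 ⟨⟨4217934390, 0, 0, 0, 0, 0, 0, 0, 0, ⟨0, 0⟩, 0⟩, 0, 3554⟩ 0 0)) (.pos 25 .pp ⟨⟨2610626139, 0, 0, 0, 0, 0, 0, 0, 0, ⟨0, 0⟩, 0⟩, 0, 5125⟩ 0 0)) (.pos 26 .pp ⟨⟨4890675068, 0, 0, 0, 0, 0, 2129, 0, 0, ⟨0, 0⟩, 0⟩, 0, 2728⟩ 0 0)) (.pos 23 .pp ⟨⟨2894599084, 0, 0, 0, 0, 0, 6494, 0, 0, ⟨0, 0⟩, 0⟩, 0, 3285⟩ 0 0)) (.cut .d 42031 (.void 24 ⟨⟨100000, 0, 0, 0, 0, 0, 0, 0, 0, ⟨0, 0⟩, 0⟩, 0, 0⟩ 0 0) (.cut .d 63047 (.pos 24 .pp ⟨⟨0, 0, 0, 0, 0, 0, 9805, 0, 0, ⟨0, 0⟩, 0⟩, 761869328, 0⟩ 0 0) (.pos 24 .pp ⟨⟨0, 0, 0, 0, 0, 0, 11067, 0, 0, ⟨0, 0⟩, 0⟩, 628969653, 0⟩ 0 0)))) (.cut .v 20971520 (.pos 23 .pp ⟨⟨0, 0, 0, 0, 0, 0, 0, 0, 0, ⟨0, 0⟩, 0⟩, 0, 14420⟩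 0 0) (.pos 24 .pp ⟨⟨0, 0, 0, 0, 0, 0, 17698, 0, 0, ⟨0, 0⟩, 0⟩, 530823490, 0⟩ 0 0))) (.pos 21 .pp ⟨⟨0, 0, 0, 0, 0, 0, 0, 0, 0, ⟨0, 0⟩, 0⟩, 0, 15574⟩ 0 0)) (.cut .d 168126 (.cut .d 84063 (.void 22 ⟨⟨0, 0, 0, 0, 0, 0, 0, 0, 0, ⟨0, 0⟩, 0⟩, 100000, 0⟩ 0 0) (.pos 22 .pp ⟨⟨0, 0, 0, 0, 0, 0, 9477, 0, 0, ⟨0, 0⟩, 0⟩, 883596597, 0⟩ 0 0)) (.pos 22 .pp ⟨⟨0, 0, 0, 0, 0, 0, 19672, 0, 0, ⟨0, 0⟩, 0⟩, 577777128, 0⟩ 0 0))) (.pos 20 .pp ⟨⟨0, 0, 0, 0, 0, 0, 51912, 0, 0, ⟨0, 0⟩, 0⟩, 0, 0⟩ 0 0)) (.cut .d 336252 (.cut .v 50331648 (.pos 80 .pp ⟨⟨0, 0, 0, 0, 0, 0, 0, 0, 0, ⟨0, 0⟩, 0⟩, 1502224093, 0⟩ 0 0) (.void 81 ⟨⟨0, 0, 0, 0, 0, 0, 0, 0, 0, ⟨0, 0⟩, 0⟩, 100000,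 0⟩ 0 0)) (.pos 79 .pp ⟨⟨0, 0, 0, 0, 0, 0, 10003, 0, 0, ⟨0, 0⟩, 0⟩, 942818066, 0⟩ 0 0))) (.pos 78 .pp ⟨⟨0, 0, 0, 0, 0, 0, 0, 0, 0, ⟨0, 0⟩, 0⟩, 101779501, 11847⟩ 0 0)) (.void 88 ⟨⟨0, 0, 0, 50716, 0, 0, 0, 0, 0, ⟨0, 0⟩, 0⟩, 49284, 0⟩ 0 0)) (.void 97 ⟨⟨0, 0, 0, 0, 0, 0, 0, 0, 0, ⟨0, 0⟩, 0⟩, 100000, 0⟩ 0 0)))),
    by decide +kernel⟩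

def covers38 : cell.Covers Vale.Agent.P237.Petty.Cor.Grid.N11.table row38.1 :=
  ⟨(.cut .d 0 (.cut .v 16777216 (.cut .v 8388608 (.void 2 ⟨⟨0, 0, 100000, 0, 0, 0, 0, 0, 0, ⟨0, 0⟩, 0⟩, 0, 0⟩ 0 0) (.cut .d (-8388608) (.void 3 ⟨⟨100000, 0, 0, 0, 0, 0, 0, 0, 0, ⟨0, 0⟩, 0⟩, 0, 0⟩ 0 0) (.cut .d (-4194304) (.void 3 ⟨⟨100000, 0, 0, 0, 0, 0, 0, 0, 0, ⟨0, 0⟩, 0⟩, 0, 0⟩ 0 0) (.cut .d (-2097152) (.void 3 ⟨⟨100000, 0, 0, 0, 0, 0, 0, 0, 0, ⟨0, 0⟩, 0⟩, 0, 0⟩ 0 0) (.pos 3 .mm ⟨⟨0, 0, 0, 0, 0, 17482414078, 0, 0, 0, ⟨0, 0⟩, 0⟩, 0, 0⟩ 0 0))))) (.cut .v 268435456 (.cut .v 67108864 (.cut .v 33554432 (.cut .d (-8388608) (.void 20 ⟨⟨100000, 0, 0, 0, 0, 0,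 0, 0, 0, ⟨0, 0⟩, 0⟩, 0, 0⟩ 0 0) (.cut .d (-4194304) (.void 20 ⟨⟨100000, 0, 0, 0, 0, 0, 0, 0, 0, ⟨0, 0⟩, 0⟩, 0, 0⟩ 0 0) (.cut .v 25165824 (.cut .d (-2097152) (.void 21 ⟨⟨100000, 0, 0, 0, 0, 0, 0, 0, 0, ⟨0, 0⟩, 0⟩, 0, 0⟩ 0 0) (.cut .v 20971520 (.cut .d (-1048576) (.void 23 ⟨⟨100000, 0, 0, 0, 0, 0, 0, 0, 0, ⟨0, 0⟩, 0⟩, 0, 0⟩ 0 0) (.cut .s 15876096 (.pos 23 .mp ⟨⟨5760081032, 0, 0, 0, 0, 4787394301, 0, 0, 0, ⟨0, 0⟩, 0⟩, 0, 0⟩ 0 0) (.pos 23 .mp ⟨⟨6875650442, 0, 0, 0, 0, 5693054185, 0, 0, 0, ⟨0, 0⟩, 0⟩, 0, 0⟩ 0 0))) (.void 24 ⟨⟨100000, 0, 0, 0, 0, 0, 0, 0, 0, ⟨0, 0⟩, 0⟩, 0, 0⟩ 0 0))) (.void 22 ⟨⟨100000, 0, 0, 0, 0, 0, 0, 0, 0, ⟨0, 0⟩, 0⟩,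 0, 0⟩ 0 0)))) (.void 79 ⟨⟨100000, 0, 0, 0, 0, 0, 0, 0, 0, ⟨0, 0⟩, 0⟩, 0, 0⟩ 0 0)) (.void 88 ⟨⟨100000, 0, 0, 0, 0, 0, 0, 0, 0, ⟨0, 0⟩, 0⟩, 0, 0⟩ 0 0)) (.void 97 ⟨⟨92649, 0, 0, 7351, 0, 0, 0, 0, 0, ⟨0, 0⟩, 0⟩, 0, 0⟩ 0 0))) (.cut .v 16777216 (.cut .v 8388608 (.cut .v 4194304 (.cut .v 2097152 (.cut .d 531367 (.void 89 ⟨⟨0, 0, 100000, 0, 0, 0, 0, 0, 0, ⟨0, 0⟩, 0⟩, 0, 0⟩ 0 0) (.pos 89 .pm ⟨⟨0, 0, 124493630, 0, 0, 0, 0, 0, 0, ⟨0, 0⟩, 0⟩, 0, 0⟩ 0 0)) (.pos 90 .pm ⟨⟨0, 0, 806247543, 0, 0, 0, 0, 0, 0, ⟨0, 0⟩, 0⟩, 0, 956⟩ 0 0)) (.pos 5 .pm ⟨⟨0, 0, 2224486945, 0, 0, 0, 0, 0, 0, ⟨0, 0⟩, 0⟩, 0, 2040⟩ 0 0)) (.pos 3 .pm ⟨⟨0, 0, 0, 0, 0, 0, 0, 0, 0,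 ⟨0, 0⟩, 0⟩, 0, 0⟩ 0 0)) (.cut .v 268435456 (.cut .v 67108864 (.cut .d 531367 (.cut .v 33554432 (.cut .d 265683 (.cut .v 25165824 (.cut .d 132841 (.cut .d 66420 (.cut .v 20971520 (.cut .d 33210 (.cut .v 18874368 (.cut .d 16605 (.cut .v 17825792 (.cut .s 15876096 (.pos 27 .pp ⟨⟨4206697075, 0, 0, 0, 0, 0, 0, 0, 0, ⟨0, 0⟩, 0⟩, 0, 2272⟩ 0 0) (.pos 27 .pp ⟨⟨4970038140, 0, 0, 0, 0, 0, 0, 0, 0, ⟨0, 0⟩, 0⟩, 0, 1509⟩ 0 0)) (.pos 28 .pp ⟨⟨5899815989, 0, 0, 0, 0, 0, 0, 0, 0, ⟨0, 0⟩, 0⟩, 0, 1556⟩ 0 0)) (.pos 25 .pp ⟨⟨3668630811, 0, 0, 0, 0, 0, 0, 0, 0, ⟨0, 0⟩, 0⟩, 0, 2177⟩ 0 0)) (.pos 26 .pp ⟨⟨6832501853, 0, 0, 0, 0, 0, 3667, 0, 0, ⟨0, 0⟩, 0⟩, 0,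 0⟩ 0 0)) (.pos 23 .pp ⟨⟨4079911201, 0, 0, 0, 0, 0, 5813, 0, 0, ⟨0, 0⟩, 0⟩, 0, 0⟩ 0 0)) (.cut .d 33210 (.void 24 ⟨⟨100000, 0, 0, 0, 0, 0, 0, 0, 0, ⟨0, 0⟩, 0⟩, 0, 0⟩ 0 0) (.cut .d 49815 (.pos 24 .pp ⟨⟨0, 0, 0, 0, 0, 0, 4346, 0, 0, ⟨0, 0⟩, 0⟩, 1068203076, 0⟩ 0 0) (.pos 24 .pp ⟨⟨0, 0, 0, 0, 0, 0, 4825, 0, 0, ⟨0, 0⟩, 0⟩, 887093122, 0⟩ 0 0)))) (.cut .v 20971520 (.pos 23 .pp ⟨⟨0, 0, 0, 0, 0, 0, 0, 0, 0, ⟨0, 0⟩, 0⟩, 0, 6197⟩ 0 0) (.pos 24 .pp ⟨⟨0, 0, 0, 0, 0, 0, 7742, 0, 0, ⟨0, 0⟩, 0⟩, 750894142, 0⟩ 0 0))) (.pos 21 .pp ⟨⟨0, 0, 0, 0, 0, 0, 0, 0, 0, ⟨0, 0⟩, 0⟩, 0, 6693⟩ 0 0)) (.cut .d 132841 (.cut .d 66420 (.void 22 ⟨⟨0, 0, 0, 0, 0, 0, 0, 0,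 0, ⟨0, 0⟩, 0⟩, 100000, 0⟩ 0 0) (.pos 22 .pp ⟨⟨0, 0, 0, 0, 0, 0, 5124, 0, 0, ⟨0, 0⟩, 0⟩, 1244765186, 0⟩ 0 0)) (.pos 22 .pp ⟨⟨0, 0, 0, 0, 0, 0, 8978, 0, 0, ⟨0, 0⟩, 0⟩, 831509447, 0⟩ 0 0))) (.pos 20 .pp ⟨⟨0, 0, 0, 0, 0, 0, 22310, 0, 0, ⟨0, 0⟩, 0⟩, 0, 0⟩ 0 0)) (.cut .v 50331648 (.cut .d 265683 (.pos 80 .pp ⟨⟨0, 0, 0, 0, 0, 0, 621, 0, 0, ⟨0, 0⟩, 0⟩, 2090639790, 0⟩ 0 0) (.pos 80 .pp ⟨⟨0, 0, 0, 0, 0, 0, 10191, 0, 0, ⟨0, 0⟩, 0⟩, 974594746, 0⟩ 0 0)) (.pos 81 .pp ⟨⟨0, 4898492495, 0, 0, 0, 0, 0, 0, 0, ⟨0, 0⟩, 0⟩, 3173853092, 0⟩ 0 0))) (.pos 78 .pp ⟨⟨0, 0, 0, 0, 0, 0, 0, 0, 0, ⟨0, 0⟩, 0⟩, 235379279, 4846⟩ 0 0)) (.void 88 ⟨⟨0, 0, 0, 50972, 0, 0,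 0, 0, 0, ⟨0, 0⟩, 0⟩, 49028, 0⟩ 0 0)) (.void 97 ⟨⟨0, 0, 0, 0, 0, 0, 0, 0, 0, ⟨0, 0⟩, 0⟩, 100000, 0⟩ 0 0)))),
    by decide +kernel⟩

def covers39 : cell.Covers Vale.Agent.P237.Petty.Cor.Grid.N11.table row39.1 :=
  ⟨(.cut .d 0 (.cut .v 16777216 (.cut .v 8388608 (.void 2 ⟨⟨0, 0, 100000, 0, 0, 0, 0, 0, 0, ⟨0, 0⟩, 0⟩, 0, 0⟩ 0 0) (.cut .d (-8388608) (.void 3 ⟨⟨43645, 0, 0, 0, 0, 0, 0, 42606, 0, ⟨(-1), 11781326⟩, 0⟩, 0, 0⟩ 0 124) (.cut .d (-4194304) (.void 3 ⟨⟨100000, 0, 0, 0, 0, 0, 0, 0, 0, ⟨0, 0⟩, 0⟩, 0, 0⟩ 0 0) (.cut .d (-2097152) (.void 3 ⟨⟨100000, 0, 0, 0, 0, 0, 0, 0, 0, ⟨0, 0⟩, 0⟩, 0, 0⟩ 0 0) (.pos 3 .mm ⟨⟨0, 0, 0, 0, 0, 24777723512,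 0, 0, 0, ⟨0, 0⟩, 0⟩, 0, 0⟩ 0 0))))) (.cut .v 268435456 (.cut .v 67108864 (.cut .v 33554432 (.cut .d (-8388608) (.void 20 ⟨⟨100000, 0, 0, 0, 0, 0, 0, 0, 0, ⟨0, 0⟩, 0⟩, 0, 0⟩ 0 0) (.cut .d (-4194304) (.void 20 ⟨⟨100000, 0, 0, 0, 0, 0, 0, 0, 0, ⟨0, 0⟩, 0⟩, 0, 0⟩ 0 0) (.cut .v 25165824 (.cut .d (-2097152) (.void 21 ⟨⟨100000, 0, 0, 0, 0, 0, 0, 0, 0, ⟨0, 0⟩, 0⟩, 0, 0⟩ 0 0) (.cut .v 20971520 (.cut .d (-1048576) (.void 23 ⟨⟨100000, 0, 0, 0, 0, 0, 0, 0, 0, ⟨0, 0⟩, 0⟩, 0, 0⟩ 0 0) (.pos 23 .mp ⟨⟨9464461568, 0, 0, 0, 0, 8354415180, 0, 0, 0, ⟨0, 0⟩, 0⟩, 0, 0⟩ 0 0)) (.void 24 ⟨⟨100000, 0, 0, 0, 0, 0, 0, 0, 0, ⟨0, 0⟩, 0⟩, 0, 0⟩ 0 0))) (.void 22 ⟨⟨100000,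 0, 0, 0, 0, 0, 0, 0, 0, ⟨0, 0⟩, 0⟩, 0, 0⟩ 0 0)))) (.void 79 ⟨⟨100000, 0, 0, 0, 0, 0, 0, 0, 0, ⟨0, 0⟩, 0⟩, 0, 0⟩ 0 0)) (.void 88 ⟨⟨99942, 0, 0, 0, 0, 0, 0, 0, 0, ⟨0, 0⟩, 0⟩, 0, 0⟩ 0 0)) (.void 97 ⟨⟨92664, 0, 0, 7424, 0, 0, 0, 0, 0, ⟨0, 0⟩, 0⟩, 0, 0⟩ 0 0))) (.cut .v 16777216 (.cut .v 8388608 (.cut .v 4194304 (.cut .d 421582 (.pos 4 .pm ⟨⟨0, 0, 10749140823, 0, 0, 0, 0, 0, 0, ⟨0, 0⟩, 0⟩, 0, 271⟩ 0 0) (.cut .d 632373 (.pos 4 .pm ⟨⟨0, 0, 1554552116, 0, 0, 0, 0, 0, 0, ⟨0, 0⟩, 0⟩, 0, 0⟩ 0 0) (.pos 4 .pm ⟨⟨0, 0, 29052585, 0, 0, 0, 0, 0, 0, ⟨0, 0⟩, 0⟩, 0, 0⟩ 0 0))) (.pos 5 .pm ⟨⟨0, 0, 3544401332, 0, 0, 0, 0, 0, 0, ⟨0, 0⟩, 0⟩, 0, 675⟩ 0 0)) (.pos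 3 .pm ⟨⟨0, 0, 0, 0, 0, 0, 0, 0, 0, ⟨0, 0⟩, 0⟩, 0, 0⟩ 0 0)) (.cut .v 268435456 (.cut .v 67108864 (.cut .d 421582 (.cut .v 33554432 (.cut .d 210791 (.cut .v 25165824 (.cut .d 105395 (.cut .d 52697 (.cut .v 20971520 (.cut .d 26348 (.cut .v 18874368 (.cut .d 13174 (.cut .v 17825792 (.cut .s 16056320 (.pos 27 .pp ⟨⟨5881385953, 0, 0, 0, 0, 0, 0, 0, 0, ⟨0, 0⟩, 0⟩, 0, 972⟩ 0 0) (.pos 27 .pp ⟨⟨6981274917, 0, 0, 0, 0, 0, 0, 0, 0, ⟨0, 0⟩, 0⟩, 0, 623⟩ 0 0)) (.pos 28 .pp ⟨⟨8283166541, 0, 0, 0, 0, 0, 0, 0, 0, ⟨0, 0⟩, 0⟩, 0, 643⟩ 0 0)) (.pos 25 .pp ⟨⟨5109690215, 0, 0, 0, 0, 0, 0, 0, 0, ⟨0, 0⟩, 0⟩, 0, 886⟩ 0 0)) (.pos 26 .pp ⟨⟨9582544667, 0, 0, 0,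 0, 0, 1526, 0, 0, ⟨0, 0⟩, 0⟩, 0, 0⟩ 0 0)) (.pos 23 .pp ⟨⟨5691933259, 0, 0, 0, 0, 0, 2358, 0, 0, ⟨0, 0⟩, 0⟩, 0, 0⟩ 0 0)) (.cut .d 26348 (.void 24 ⟨⟨100000, 0, 0, 0, 0, 0, 0, 0, 0, ⟨0, 0⟩, 0⟩, 0, 0⟩ 0 0) (.cut .d 39522 (.pos 24 .pp ⟨⟨0, 0, 0, 0, 0, 0, 1811, 0, 0, ⟨0, 0⟩, 0⟩, 1498494339, 0⟩ 0 0) (.pos 24 .pp ⟨⟨0, 0, 0, 0, 0, 0, 1989, 0, 0, ⟨0, 0⟩, 0⟩, 1241243151, 0⟩ 0 0)))) (.cut .v 20971520 (.pos 23 .pp ⟨⟨0, 0, 0, 0, 0, 0, 0, 0, 0, ⟨0, 0⟩, 0⟩, 0, 2596⟩ 0 0) (.pos 24 .pp ⟨⟨0, 0, 0, 0, 0, 0, 3135, 0, 0, ⟨0, 0⟩, 0⟩, 1054363221, 0⟩ 0 0))) (.pos 21 .pp ⟨⟨0, 0, 0, 0, 0, 0, 0, 0, 0, ⟨0, 0⟩, 0⟩, 0, 2804⟩ 0 0)) (.cut .d 105395 (.cut .d 52697 (.void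 22 ⟨⟨0, 0, 0, 0, 0, 0, 0, 0, 0, ⟨0, 0⟩, 0⟩, 100000, 0⟩ 0 0) (.pos 22 .pp ⟨⟨0, 0, 0, 0, 0, 0, 2180, 0, 0, ⟨0, 0⟩, 0⟩, 1752283259, 0⟩ 0 0)) (.pos 22 .pp ⟨⟨0, 0, 0, 0, 0, 0, 3949, 0, 0, ⟨0, 0⟩, 0⟩, 1183665750, 0⟩ 0 0))) (.pos 20 .pp ⟨⟨0, 0, 0, 0, 0, 0, 9346, 0, 0, ⟨0, 0⟩, 0⟩, 0, 0⟩ 0 0)) (.cut .v 50331648 (.cut .d 210791 (.pos 80 .pp ⟨⟨0, 0, 0, 0, 0, 0, 814, 0, 0, ⟨0, 0⟩, 0⟩, 2923206718, 0⟩ 0 0) (.pos 80 .pp ⟨⟨0, 0, 0, 0, 0, 0, 4401, 0, 0, ⟨0, 0⟩, 0⟩, 1434307226, 0⟩ 0 0)) (.pos 81 .pp ⟨⟨0, 7376852699, 0, 0, 0, 0, 0, 0, 0, ⟨0, 0⟩, 0⟩, 4428952709, 0⟩ 0 0))) (.pos 78 .pp ⟨⟨0, 0, 0, 0, 0, 0, 0, 0, 0, ⟨0, 0⟩, 0⟩, 434195616, 1962⟩ 0 0)) (.void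 88 ⟨⟨0, 0, 0, 50486, 0, 0, 0, 0, 0, ⟨0, 0⟩, 0⟩, 49514, 0⟩ 0 0)) (.void 97 ⟨⟨0, 0, 0, 0, 0, 0, 0, 0, 0, ⟨0, 0⟩, 0⟩, 100000, 0⟩ 0 0)))),
    by decide +kernel⟩

def covers40 : cell.Covers Vale.Agent.P237.Petty.Cor.Grid.N11.table row40.1 :=
  ⟨(.cut .d 0 (.cut .v 16777216 (.cut .v 8388608 (.void 2 ⟨⟨0, 0, 100000, 0, 0, 0, 0, 0, 0, ⟨0, 0⟩, 0⟩, 0, 0⟩ 0 0) (.cut .d (-8388608) (.void 3 ⟨⟨100000, 0, 0, 0, 0, 0, 0, 0, 0, ⟨0, 0⟩, 0⟩, 0, 0⟩ 0 0) (.cut .d (-4194304) (.void 3 ⟨⟨100000, 0, 0, 0, 0, 0, 0, 0, 0, ⟨0, 0⟩, 0⟩, 0, 0⟩ 0 0) (.pos 3 .mm ⟨⟨0, 0, 0, 0, 0, 46420784336, 0, 0, 0, ⟨0, 0⟩, 0⟩, 0, 0⟩ 0 0)))) (.cut .v 268435456 (.cut .v 67108864 (.cut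 .v 33554432 (.cut .d (-8388608) (.void 20 ⟨⟨100001, 0, 0, 0, 0, 0, 0, 0, 0, ⟨0, 0⟩, 0⟩, 0, 0⟩ 0 0) (.cut .d (-4194304) (.void 20 ⟨⟨100000, 0, 0, 0, 0, 0, 0, 0, 0, ⟨0, 0⟩, 0⟩, 0, 0⟩ 0 0) (.cut .v 25165824 (.cut .d (-2097152) (.void 21 ⟨⟨100000, 0, 0, 0, 0, 0, 0, 0, 0, ⟨0, 0⟩, 0⟩, 0, 0⟩ 0 0) (.cut .v 20971520 (.cut .d (-1048576) (.void 23 ⟨⟨100000, 0, 0, 0, 0, 0, 0, 0, 0, ⟨0, 0⟩, 0⟩, 0, 0⟩ 0 0) (.pos 23 .mp ⟨⟨13426320205, 0, 0, 0, 0, 11261422140, 0, 0, 0, ⟨0, 0⟩, 0⟩, 0, 0⟩ 0 0)) (.void 24 ⟨⟨100000, 0, 0, 0, 0, 0, 0, 0, 0, ⟨0, 0⟩, 0⟩, 0, 0⟩ 0 0))) (.void 22 ⟨⟨100000, 0, 0, 0, 0, 0, 0, 0, 0, ⟨0, 0⟩, 0⟩, 0, 0⟩ 0 0)))) (.void 79 ⟨⟨100000,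 0, 0, 0, 0, 0, 0, 0, 0, ⟨0, 0⟩, 0⟩, 0, 0⟩ 0 0)) (.void 88 ⟨⟨100009, 0, 0, 0, 0, 0, 0, 0, 0, ⟨0, 0⟩, 0⟩, 0, 0⟩ 0 0)) (.void 97 ⟨⟨92532, 0, 0, 7489, 0, 0, 0, 0, 0, ⟨0, 0⟩, 0⟩, 0, 0⟩ 0 0))) (.cut .v 16777216 (.cut .v 8388608 (.cut .d 332139 (.pos 2 .pm ⟨⟨0, 0, 6055008455, 0, 0, 0, 0, 0, 0, ⟨0, 0⟩, 0⟩, 0, 105⟩ 0 0) (.cut .d 498208 (.pos 2 .pm ⟨⟨0, 0, 2109893140, 0, 0, 0, 0, 0, 0, ⟨0, 0⟩, 0⟩, 0, 213⟩ 0 0) (.pos 2 .pm ⟨⟨0, 0, 21240036, 0, 182, 0, 0, 0, 0, ⟨0, 0⟩, 0⟩, 0, 0⟩ 0 0))) (.pos 3 .pm ⟨⟨0, 0, 0, 0, 0, 0, 0, 0, 0, ⟨0, 0⟩, 0⟩, 0, 0⟩ 0 0)) (.cut .v 268435456 (.cut .v 67108864 (.cut .d 332139 (.cut .v 33554432 (.cut .d 166069 (.cut .v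 25165824 (.cut .d 83034 (.cut .d 41517 (.cut .v 20971520 (.cut .d 20758 (.cut .v 18874368 (.cut .d 10379 (.cut .v 17825792 (.cut .s 16203776 (.pos 27 .pp ⟨⟨8259789138, 0, 0, 0, 0, 0, 0, 0, 0, ⟨0, 0⟩, 0⟩, 0, 396⟩ 0 0) (.pos 27 .pp ⟨⟨9799635320, 0, 0, 0, 0, 0, 0, 0, 0, ⟨0, 0⟩, 0⟩, 0, 249⟩ 0 0)) (.pos 28 .pp ⟨⟨11619835446, 0, 0, 0, 0, 0, 0, 0, 0, ⟨0, 0⟩, 0⟩, 0, 257⟩ 0 0)) (.pos 25 .pp ⟨⟨7159166852, 0, 0, 0, 0, 0, 0, 0, 0, ⟨0, 0⟩, 0⟩, 0, 348⟩ 0 0)) (.pos 26 .pp ⟨⟨13433244012, 0, 0, 0, 0, 0, 616, 0, 0, ⟨0, 0⟩, 0⟩, 0, 0⟩ 0 0)) (.pos 23 .pp ⟨⟨7987541197, 0, 0, 0, 0, 0, 919, 0, 0, ⟨0, 0⟩, 0⟩, 0, 0⟩ 0 0)) (.cut .d 20758 (.void 24 ⟨⟨100000, 0,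 0, 0, 0, 0, 0, 0, 0, ⟨0, 0⟩, 0⟩, 0, 0⟩ 0 0) (.cut .d 31137 (.pos 24 .pp ⟨⟨0, 0, 0, 0, 0, 0, 731, 0, 0, ⟨0, 0⟩, 0⟩, 2104603627, 0⟩ 0 0) (.pos 24 .pp ⟨⟨0, 0, 0, 0, 0, 0, 795, 0, 0, ⟨0, 0⟩, 0⟩, 1746493425, 0⟩ 0 0)))) (.pos 21 .pp ⟨⟨0, 0, 0, 0, 0, 0, 1077, 0, 0, ⟨0, 0⟩, 0⟩, 1259513668, 105⟩ 0 0)) (.pos 21 .pp ⟨⟨0, 0, 0, 0, 0, 0, 0, 0, 0, ⟨0, 0⟩, 0⟩, 0, 1114⟩ 0 0)) (.cut .d 83034 (.cut .d 41517 (.void 22 ⟨⟨0, 0, 0, 0, 0, 0, 0, 0, 0, ⟨0, 0⟩, 0⟩, 100000, 0⟩ 0 0) (.pos 22 .pp ⟨⟨0, 0, 0, 0, 0, 0, 887, 0, 0, ⟨0, 0⟩, 0⟩, 2469051815, 0⟩ 0 0)) (.pos 22 .pp ⟨⟨0, 0, 0, 0, 0, 0, 1642, 0, 0, ⟨0, 0⟩, 0⟩, 1687951821, 0⟩ 0 0))) (.pos 20 .pp ⟨⟨0, 0, 0,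 0, 0, 0, 3712, 0, 0, ⟨0, 0⟩, 0⟩, 0, 0⟩ 0 0)) (.cut .v 50331648 (.cut .d 166069 (.pos 80 .pp ⟨⟨0, 0, 0, 0, 0, 0, 521, 0, 0, ⟨0, 0⟩, 0⟩, 4090138865, 0⟩ 0 0) (.pos 80 .pp ⟨⟨0, 0, 0, 0, 0, 0, 1817, 0, 0, ⟨0, 0⟩, 0⟩, 2100095330, 0⟩ 0 0)) (.pos 81 .pp ⟨⟨0, 10763763689, 0, 0, 0, 0, 0, 0, 0, ⟨0, 0⟩, 0⟩, 6182952509, 0⟩ 0 0))) (.pos 78 .pp ⟨⟨0, 0, 0, 0, 0, 0, 0, 0, 0, ⟨0, 0⟩, 0⟩, 734310208, 762⟩ 0 0)) (.void 88 ⟨⟨0, 0, 0, 51123, 0, 0, 0, 0, 0, ⟨0, 0⟩, 0⟩, 47012, 0⟩ 0 0)) (.void 97 ⟨⟨0, 0, 0, 0, 0, 0, 0, 0, 0, ⟨0, 0⟩, 0⟩, 100000, 0⟩ 0 0)))),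
    by decide +kernel⟩

def covers41 : cell.Covers Vale.Agent.P237.Petty.Cor.Grid.N11.table row41.1 :=
  ⟨(.cut .d 0 (.cut .v 16777216 (.cut .v 8388608 (.pos 2 .mm ⟨⟨0, 0, 1677721600000000, 0, 0, 0, 0, 0, 0, ⟨0, 0⟩, 0⟩, 0, 0⟩ 0 0) (.cut .d (-8388608) (.void 3 ⟨⟨48102, 0, 0, 717, 0, 0, 0, 37772, 0, ⟨(-1), 11721893⟩, 0⟩, 0, 0⟩ 0 125) (.cut .d (-4194304) (.void 3 ⟨⟨100000, 0, 0, 0, 0, 0, 0, 0, 0, ⟨0, 0⟩, 0⟩, 0, 0⟩ 0 0) (.pos 3 .mm ⟨⟨0, 0, 0, 0, 0, 62728096834, 0, 0, 0, ⟨0, 0⟩, 0⟩, 0, 0⟩ 0 0)))) (.cut .v 268435456 (.cut .v 67108864 (.cut .v 33554432 (.cut .d (-8388608) (.void 20 ⟨⟨100000, 0, 0, 0, 0, 0, 0, 0, 0, ⟨0, 0⟩, 0⟩, 0, 0⟩ 0 0) (.cut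 .d (-4194304) (.void 20 ⟨⟨100000, 0, 0, 0, 0, 0, 0, 0, 0, ⟨0, 0⟩, 0⟩, 0, 0⟩ 0 0) (.cut .v 25165824 (.cut .d (-2097152) (.void 21 ⟨⟨100000, 0, 0, 0, 0, 0, 0, 0, 0, ⟨0, 0⟩, 0⟩, 0, 0⟩ 0 0) (.cut .v 20971520 (.pos 23 .mp ⟨⟨18156569713, 0, 0, 0, 0, 26278422277, 0, 0, 0, ⟨0, 0⟩, 0⟩, 0, 0⟩ 0 0) (.void 24 ⟨⟨100000, 0, 0, 0, 0, 0, 0, 0, 0, ⟨0, 0⟩, 0⟩, 0, 0⟩ 0 0))) (.void 22 ⟨⟨100000, 0, 0, 0, 0, 0, 0, 0, 0, ⟨0, 0⟩, 0⟩, 0, 0⟩ 0 0)))) (.void 79 ⟨⟨100000, 0, 0, 0, 0, 0, 0, 0, 0, ⟨0, 0⟩, 0⟩, 0, 0⟩ 0 0)) (.void 88 ⟨⟨100000, 0, 0, 0, 0, 0, 0, 0, 0, ⟨0, 0⟩, 0⟩, 0, 0⟩ 0 0)) (.void 97 ⟨⟨91697, 0, 0, 7459, 0, 0, 0, 0, 0, ⟨0, 0⟩, 0⟩, 0, 0⟩ 0 0))) (.cut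 .v 16777216 (.cut .v 8388608 (.cut .d 261881 (.pos 2 .pm ⟨⟨0, 0, 8727056938, 0, 0, 0, 0, 0, 0, ⟨0, 0⟩, 0⟩, 0, 43⟩ 0 0) (.cut .d 392822 (.pos 2 .pm ⟨⟨0, 0, 3304765162, 0, 0, 0, 0, 0, 0, ⟨0, 0⟩, 0⟩, 0, 27⟩ 0 0) (.pos 2 .pm ⟨⟨0, 0, 21035013, 0, 123, 0, 0, 0, 0, ⟨0, 0⟩, 0⟩, 0, 0⟩ 0 0))) (.pos 3 .pm ⟨⟨0, 0, 0, 0, 0, 0, 0, 0, 0, ⟨0, 0⟩, 0⟩, 0, 0⟩ 0 0)) (.cut .v 268435456 (.cut .v 67108864 (.cut .d 261881 (.cut .v 33554432 (.cut .d 130940 (.cut .v 25165824 (.cut .d 65470 (.cut .d 32735 (.cut .v 20971520 (.cut .d 16367 (.cut .v 18874368 (.cut .d 8183 (.cut .v 17825792 (.cut .s 16318464 (.pos 27 .pp ⟨⟨11509174077, 0, 0, 0, 0, 0, 0, 0, 0, ⟨0,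 0⟩, 0⟩, 0, 161⟩ 0 0) (.pos 27 .pp ⟨⟨13497373795, 0, 0, 0, 0, 0, 0, 0, 0, ⟨0, 0⟩, 0⟩, 0, 103⟩ 0 0)) (.pos 28 .pp ⟨⟨15982583498, 0, 0, 0, 0, 0, 0, 0, 0, ⟨0, 0⟩, 0⟩, 0, 107⟩ 0 0)) (.pos 25 .pp ⟨⟨9984266587, 0, 0, 0, 0, 0, 0, 0, 0, ⟨0, 0⟩, 0⟩, 0, 140⟩ 0 0)) (.pos 26 .pp ⟨⟨18472153466, 0, 0, 0, 0, 0, 258, 0, 0, ⟨0, 0⟩, 0⟩, 0, 0⟩ 0 0)) (.pos 23 .pp ⟨⟨11155676246, 0, 0, 0, 0, 0, 364, 0, 0, ⟨0, 0⟩, 0⟩, 0, 0⟩ 0 0)) (.cut .d 16367 (.void 24 ⟨⟨100000, 0, 0, 0, 0, 0, 0, 0, 0, ⟨0, 0⟩, 0⟩, 0, 0⟩ 0 0) (.cut .d 24551 (.pos 24 .pp ⟨⟨0, 0, 0, 0, 0, 0, 306, 0, 0, ⟨0, 0⟩, 0⟩, 2909264400, 0⟩ 0 0) (.pos 24 .pp ⟨⟨0, 0, 0, 0, 0, 0, 329, 0, 0, ⟨0, 0⟩, 0⟩, 2442341672,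 0⟩ 0 0)))) (.pos 21 .pp ⟨⟨0, 0, 0, 0, 0, 0, 514, 0, 0, ⟨0, 0⟩, 0⟩, 1775345245, 0⟩ 0 0)) (.pos 21 .pp ⟨⟨0, 0, 0, 0, 0, 0, 0, 0, 0, ⟨0, 0⟩, 0⟩, 0, 436⟩ 0 0)) (.cut .d 65470 (.cut .d 32735 (.void 22 ⟨⟨0, 0, 0, 0, 0, 0, 0, 0, 0, ⟨0, 0⟩, 0⟩, 100000, 0⟩ 0 0) (.pos 22 .pp ⟨⟨0, 0, 0, 0, 0, 0, 373, 0, 0, ⟨0, 0⟩, 0⟩, 3424441467, 0⟩ 0 0)) (.pos 22 .pp ⟨⟨0, 0, 0, 0, 0, 0, 670, 0, 0, ⟨0, 0⟩, 0⟩, 2380995402, 0⟩ 0 0))) (.pos 20 .pp ⟨⟨0, 0, 0, 0, 0, 0, 1452, 0, 0, ⟨0, 0⟩, 0⟩, 0, 0⟩ 0 0)) (.cut .v 50331648 (.cut .d 130940 (.pos 80 .pp ⟨⟨0, 0, 0, 0, 0, 0, 272, 0, 0, ⟨0, 0⟩, 0⟩, 5617329632, 0⟩ 0 0) (.pos 80 .pp ⟨⟨0, 0, 0, 0, 0, 0, 744, 0, 0, ⟨0, 0⟩, 0⟩,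 3021190938, 0⟩ 0 0)) (.pos 81 .pp ⟨⟨0, 14708945621, 0, 0, 0, 0, 0, 0, 0, ⟨0, 0⟩, 0⟩, 8466406519, 0⟩ 0 0))) (.pos 78 .pp ⟨⟨0, 0, 0, 0, 0, 0, 0, 0, 0, ⟨0, 0⟩, 0⟩, 1165313501, 295⟩ 0 0)) (.void 88 ⟨⟨0, 0, 0, 51768, 0, 0, 0, 0, 0, ⟨0, 0⟩, 0⟩, 48950, 0⟩ 0 0)) (.void 97 ⟨⟨0, 0, 0, 0, 0, 0, 0, 0, 0, ⟨0, 0⟩, 0⟩, 100000, 0⟩ 0 0)))),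
    by decide +kernel⟩

def covers42 : cell.Covers Vale.Agent.P237.Petty.Cor.Grid.N11.table row42.1 :=
  ⟨(.cut .d 0 (.cut .v 16777216 (.cut .v 8388608 (.void 2 ⟨⟨0, 0, 100000, 0, 0, 0, 0, 0, 0, ⟨0, 0⟩, 0⟩, 0, 0⟩ 0 0) (.cut .d (-8388608) (.void 3 ⟨⟨0, 0, 0, 3947, 0, 67479, 0, 28915, 0, ⟨(-1), 11662551⟩, 0⟩, 0, 0⟩ 0 126) (.cut .d (-4194304) (.void 3 ⟨⟨100000, 0, 0, 0, 0, 0, 0, 0, 0, ⟨0, 0⟩, 0⟩, 0, 0⟩ 0 0) (.pos 3 .mm ⟨⟨0, 0, 0, 0, 0, 85106970860, 0, 0, 0, ⟨0, 0⟩, 0⟩, 0, 0⟩ 0 0)))) (.cut .v 4294967296 (.cut .v 268435456 (.cut .v 67108864 (.cut .v 33554432 (.cut .d (-8388608) (.void 20 ⟨⟨99999, 0, 0, 0, 0, 0, 0, 0, 0, ⟨0, 0⟩, 0⟩, 0, 0⟩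 0 0) (.cut .d (-4194304) (.void 20 ⟨⟨100000, 0, 0, 0, 0, 0, 0, 0, 0, ⟨0, 0⟩, 0⟩, 0, 0⟩ 0 0) (.cut .v 25165824 (.cut .d (-2097152) (.void 21 ⟨⟨100000, 0, 0, 0, 0, 0, 0, 0, 0, ⟨0, 0⟩, 0⟩, 0, 0⟩ 0 0) (.cut .v 20971520 (.pos 23 .mp ⟨⟨25389507338, 0, 0, 0, 0, 34657030064, 0, 0, 0, ⟨0, 0⟩, 0⟩, 0, 0⟩ 0 0) (.void 24 ⟨⟨100000, 0, 0, 0, 0, 0, 0, 0, 0, ⟨0, 0⟩, 0⟩, 0, 0⟩ 0 0))) (.void 22 ⟨⟨100000, 0, 0, 0, 0, 0, 0, 0, 0, ⟨0, 0⟩, 0⟩, 0, 0⟩ 0 0)))) (.void 79 ⟨⟨100000, 0, 0, 0, 0, 0, 0, 0, 0, ⟨0, 0⟩, 0⟩, 0, 0⟩ 0 0)) (.void 88 ⟨⟨100003, 0, 0, 0, 0, 0, 0, 0, 0, ⟨0, 0⟩, 0⟩, 0, 0⟩ 0 0)) (.void 97 ⟨⟨92441, 0, 0, 7543, 0, 0, 0, 0, 0, ⟨0, 0⟩, 0⟩, 0, 0⟩ 0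 0)) (.void 108 ⟨⟨288919, 0, 0, 20171, 0, 0, 0, 0, 0, ⟨0, 0⟩, 0⟩, 0, 0⟩ 0 0))) (.cut .v 16777216 (.cut .v 8388608 (.cut .d 209926 (.pos 2 .pm ⟨⟨0, 0, 12539684846, 0, 0, 0, 0, 0, 0, ⟨0, 0⟩, 0⟩, 0, 17⟩ 0 0) (.cut .d 314889 (.pos 2 .pm ⟨⟨0, 0, 5747238236, 0, 0, 0, 0, 0, 0, ⟨0, 0⟩, 0⟩, 0, 0⟩ 0 0) (.pos 2 .pm ⟨⟨0, 0, 20892520, 0, 60, 0, 0, 0, 0, ⟨0, 0⟩, 0⟩, 0, 0⟩ 0 0))) (.pos 3 .pm ⟨⟨0, 0, 0, 0, 0, 0, 0, 0, 0, ⟨0, 0⟩, 0⟩, 0, 0⟩ 0 0)) (.cut .v 4294967296 (.cut .v 268435456 (.cut .v 67108864 (.cut .d 209926 (.cut .v 33554432 (.cut .d 104963 (.cut .v 25165824 (.cut .d 52481 (.cut .d 26240 (.cut .v 20971520 (.cut .d 13120 (.cut .v 18874368 (.cut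 .d 6560 (.cut .v 17825792 (.cut .s 16408576 (.pos 27 .pp ⟨⟨15797208051, 0, 0, 0, 0, 0, 0, 0, 0, ⟨0, 0⟩, 0⟩, 0, 66⟩ 0 0) (.pos 27 .pp ⟨⟨18624697721, 0, 0, 0, 0, 0, 0, 0, 0, ⟨0, 0⟩, 0⟩, 0, 41⟩ 0 0)) (.pos 28 .pp ⟨⟨22074417061, 0, 0, 0, 0, 0, 0, 0, 0, ⟨0, 0⟩, 0⟩, 0, 43⟩ 0 0)) (.pos 25 .pp ⟨⟨13651660432, 0, 0, 0, 0, 0, 0, 0, 0, ⟨0, 0⟩, 0⟩, 0, 56⟩ 0 0)) (.pos 26 .pp ⟨⟨25501640326, 0, 0, 0, 0, 0, 0, 0, 0, ⟨0, 0⟩, 0⟩, 0, 46⟩ 0 0)) (.pos 23 .pp ⟨⟨15268599869, 0, 0, 0, 0, 0, 144, 0, 0, ⟨0, 0⟩, 0⟩, 0, 0⟩ 0 0)) (.cut .d 13120 (.void 24 ⟨⟨100000, 0, 0, 0, 0, 0, 0, 0, 0, ⟨0, 0⟩, 0⟩, 0, 0⟩ 0 0) (.cut .d 19680 (.pos 24 .pp ⟨⟨0, 0, 0, 0, 0, 0, 122,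 0, 0, ⟨0, 0⟩, 0⟩, 4012694102, 0⟩ 0 0) (.pos 24 .pp ⟨⟨0, 0, 0, 0, 0, 0, 131, 0, 0, ⟨0, 0⟩, 0⟩, 3353527318, 0⟩ 0 0)))) (.pos 21 .pp ⟨⟨0, 0, 0, 0, 0, 0, 203, 0, 0, ⟨0, 0⟩, 0⟩, 2441236257, 0⟩ 0 0)) (.pos 21 .pp ⟨⟨0, 0, 0, 0, 0, 0, 0, 0, 0, ⟨0, 0⟩, 0⟩, 0, 177⟩ 0 0)) (.cut .d 52481 (.cut .d 26240 (.void 22 ⟨⟨0, 0, 0, 0, 0, 0, 0, 0, 0, ⟨0, 0⟩, 0⟩, 100000, 0⟩ 0 0) (.pos 22 .pp ⟨⟨0, 0, 0, 0, 0, 0, 150, 0, 0, ⟨0, 0⟩, 0⟩, 4730939734, 0⟩ 0 0)) (.pos 22 .pp ⟨⟨0, 0, 0, 0, 0, 0, 280, 0, 0, ⟨0, 0⟩, 0⟩, 3295274554, 0⟩ 0 0))) (.pos 20 .pp ⟨⟨0, 0, 0, 0, 0, 0, 589, 0, 0, ⟨0, 0⟩, 0⟩, 0, 0⟩ 0 0)) (.cut .v 50331648 (.cut .d 104963 (.pos 80 .pp ⟨⟨0, 0, 0,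 0, 0, 0, 130, 0, 0, ⟨0, 0⟩, 0⟩, 7752296877, 0⟩ 0 0) (.pos 80 .pp ⟨⟨0, 0, 0, 0, 0, 0, 312, 0, 0, ⟨0, 0⟩, 0⟩, 4241210495, 0⟩ 0 0)) (.pos 81 .pp ⟨⟨0, 21040546675, 0, 0, 0, 0, 0, 0, 0, ⟨0, 0⟩, 0⟩, 11690435296, 0⟩ 0 0))) (.pos 78 .pp ⟨⟨0, 0, 0, 0, 0, 0, 0, 0, 0, ⟨0, 0⟩, 0⟩, 1733004146, 119⟩ 0 0)) (.pos 88 .pp ⟨⟨0, 0, 0, 865440254501527, 0, 0, 0, 0, 0, ⟨0, 0⟩, 0⟩, 812281345498473, 0⟩ 0 0)) (.void 97 ⟨⟨0, 0, 0, 0, 0, 0, 0, 0, 0, ⟨0, 0⟩, 0⟩, 100000, 0⟩ 0 0)) (.void 108 ⟨⟨0, 0, 0, 0, 0, 0, 0, 0, 0, ⟨0, 0⟩, 0⟩, 100000, 0⟩ 0 0)))),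
    by decide +kernel⟩

def covers43 : cell.Covers Vale.Agent.P237.Petty.Cor.Grid.N11.table row43.1 :=
  ⟨(.cut .d 0 (.cut .v 16777216 (.cut .v 8388608 (.pos 2 .mm ⟨⟨0, 0, 1677721600000000, 0, 0, 0, 0, 0, 0, ⟨0, 0⟩, 0⟩, 0, 0⟩ 0 0) (.cut .d (-8388608) (.pos 3 .mm ⟨⟨1677721599999999, 0, 0, 0, 0, 0, 0, 0, 0, ⟨0, 0⟩, 0⟩, 0, 0⟩ 0 0) (.cut .d (-4194304) (.void 3 ⟨⟨100000, 0, 0, 0, 0, 0, 0, 0, 0, ⟨0, 0⟩, 0⟩, 0, 0⟩ 0 0) (.pos 3 .mm ⟨⟨0, 0, 0, 0, 0, 114860722090, 0, 0, 0, ⟨0, 0⟩, 0⟩, 0, 0⟩ 0 0)))) (.cut .v 4294967296 (.cut .v 268435456 (.cut .d (-8388608) (.void 87 ⟨⟨99975, 0, 0, 0, 0, 0, 0, 0, 0, ⟨0, 0⟩, 0⟩, 0, 0⟩ 0 0) (.cut .d (-4194304) (.void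 87 ⟨⟨100000, 0, 0, 0, 0, 0, 0, 0, 0, ⟨0, 0⟩, 0⟩, 0, 0⟩ 0 0) (.cut .d (-2097152) (.void 87 ⟨⟨100000, 0, 0, 0, 0, 0, 0, 0, 0, ⟨0, 0⟩, 0⟩, 0, 0⟩ 0 0) (.cut .d (-1048576) (.void 87 ⟨⟨100000, 0, 0, 0, 0, 0, 0, 0, 0, ⟨0, 0⟩, 0⟩, 0, 0⟩ 0 0) (.cut .d (-524288) (.void 87 ⟨⟨100000, 0, 0, 0, 0, 0, 0, 0, 0, ⟨0, 0⟩, 0⟩, 0, 0⟩ 0 0) (.cut .d (-262144) (.void 87 ⟨⟨100000, 0, 0, 0, 0, 0, 0, 0, 0, ⟨0, 0⟩, 0⟩, 0, 0⟩ 0 0) (.cut .d (-131072) (.void 87 ⟨⟨100000, 0, 0, 0, 0, 0, 0, 0, 0, ⟨0, 0⟩, 0⟩, 0, 0⟩ 0 0) (.cut .d (-65536) (.void 87 ⟨⟨100000, 0, 0, 0, 0, 0, 0, 0, 0, ⟨0, 0⟩, 0⟩, 0, 0⟩ 0 0) (.cut .d (-32768) (.void 87 ⟨⟨100000, 0, 0, 0, 0, 0, 0, 0, 0, ⟨0,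 0⟩, 0⟩, 0, 0⟩ 0 0) (.cut .d (-16384) (.void 87 ⟨⟨100000, 0, 0, 0, 0, 0, 0, 0, 0, ⟨0, 0⟩, 0⟩, 0, 0⟩ 0 0) (.cut .d (-8192) (.void 87 ⟨⟨100000, 0, 0, 0, 0, 0, 0, 0, 0, ⟨0, 0⟩, 0⟩, 0, 0⟩ 0 0) (.cut .d (-4096) (.void 87 ⟨⟨100000, 0, 0, 0, 0, 0, 0, 0, 0, ⟨0, 0⟩, 0⟩, 0, 0⟩ 0 0) (.cut .d (-2048) (.void 87 ⟨⟨100000, 0, 0, 0, 0, 0, 0, 0, 0, ⟨0, 0⟩, 0⟩, 0, 0⟩ 0 0) (.cut .v 67108864 (.cut .v 33554432 (.cut .v 25165824 (.pos 21 .mp ⟨⟨49709447348, 0, 0, 0, 0, 2589231601, 0, 0, 0, ⟨0, 0⟩, 0⟩, 0, 0⟩ 0 0) (.void 22 ⟨⟨100000, 0, 0, 0, 0, 0, 0, 0, 0, ⟨0, 0⟩, 0⟩, 0, 0⟩ 0 0)) (.void 79 ⟨⟨100000, 0, 0, 0, 0, 0, 0, 0, 0, ⟨0, 0⟩, 0⟩, 0, 0⟩ 0 0)) (.void 88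 ⟨⟨100000, 0, 0, 0, 0, 0, 0, 0, 0, ⟨0, 0⟩, 0⟩, 0, 0⟩ 0 0))))))))))))))) (.void 97 ⟨⟨6, 0, 0, 7700, 0, 92256, 0, 0, 0, ⟨0, 0⟩, 0⟩, 0, 0⟩ 0 0)) (.void 108 ⟨⟨78596, 0, 0, 8583, 0, 0, 0, 0, 0, ⟨0, 0⟩, 0⟩, 0, 0⟩ 0 0))) (.cut .v 16777216 (.cut .v 8388608 (.cut .d 167105 (.pos 2 .pm ⟨⟨0, 0, 17865342157, 0, 0, 0, 0, 0, 0, ⟨0, 0⟩, 0⟩, 0, 6⟩ 0 0) (.cut .d 250657 (.pos 2 .pm ⟨⟨0, 0, 8879559606, 0, 0, 0, 0, 0, 0, ⟨0, 0⟩, 0⟩, 0, 0⟩ 0 0) (.pos 2 .pm ⟨⟨0, 0, 20770745, 0, 23, 0, 0, 0, 0, ⟨0, 0⟩, 0⟩, 0, 0⟩ 0 0))) (.pos 3 .pm ⟨⟨0, 0, 0, 0, 0, 0, 0, 0, 0, ⟨0, 0⟩, 0⟩, 0, 0⟩ 0 0)) (.cut .v 4294967296 (.cut .v 268435456 (.cut .v 67108864 (.cut .d 167105 (.cut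 .v 33554432 (.cut .d 83552 (.cut .v 25165824 (.cut .d 41776 (.cut .d 20888 (.cut .v 20971520 (.cut .d 10444 (.cut .v 18874368 (.cut .d 5222 (.cut .v 17825792 (.cut .s 16482304 (.pos 27 .pp ⟨⟨21850128396, 0, 0, 0, 0, 0, 52, 0, 0, ⟨0, 0⟩, 0⟩, 0, 0⟩ 0 0) (.pos 27 .pp ⟨⟨25757205686, 0, 0, 0, 0, 0, 32, 0, 0, ⟨0, 0⟩, 0⟩, 0, 0⟩ 0 0)) (.pos 28 .pp ⟨⟨30535280648, 0, 0, 0, 0, 0, 35, 0, 0, ⟨0, 0⟩, 0⟩, 0, 0⟩ 0 0)) (.pos 25 .pp ⟨⟨18840829058, 0, 0, 0, 0, 0, 46, 0, 0, ⟨0, 0⟩, 0⟩, 0, 0⟩ 0 0)) (.pos 26 .pp ⟨⟨35267964908, 0, 0, 0, 0, 0, 41, 0, 0, ⟨0, 0⟩, 0⟩, 0, 0⟩ 0 0)) (.pos 23 .pp ⟨⟨21091000279, 0, 0, 0, 0, 0, 56, 0, 0, ⟨0, 0⟩, 0⟩, 0, 0⟩ 0 0)) (.cut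 .d 10444 (.void 24 ⟨⟨100000, 0, 0, 0, 0, 0, 0, 0, 0, ⟨0, 0⟩, 0⟩, 0, 0⟩ 0 0) (.cut .d 15666 (.pos 24 .pp ⟨⟨0, 0, 0, 0, 0, 0, 48, 0, 0, ⟨0, 0⟩, 0⟩, 5553268716, 0⟩ 0 0) (.pos 24 .pp ⟨⟨0, 0, 0, 0, 0, 0, 51, 0, 0, ⟨0, 0⟩, 0⟩, 4643009862, 0⟩ 0 0)))) (.pos 21 .pp ⟨⟨0, 0, 0, 0, 0, 0, 78, 0, 0, ⟨0, 0⟩, 0⟩, 3380176337, 0⟩ 0 0)) (.pos 21 .pp ⟨⟨0, 0, 0, 0, 0, 0, 0, 0, 0, ⟨0, 0⟩, 0⟩, 0, 69⟩ 0 0)) (.cut .d 41776 (.cut .d 20888 (.void 22 ⟨⟨0, 0, 0, 0, 0, 0, 0, 0, 0, ⟨0, 0⟩, 0⟩, 100000, 0⟩ 0 0) (.pos 22 .pp ⟨⟨0, 0, 0, 0, 0, 0, 60, 0, 0, ⟨0, 0⟩, 0⟩, 6558371739, 0⟩ 0 0)) (.pos 22 .pp ⟨⟨0, 0, 0, 0, 0, 0, 112, 0, 0, ⟨0, 0⟩, 0⟩, 4588151622, 0⟩ 0 0))) (.pos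 20 .pp ⟨⟨0, 0, 0, 0, 0, 0, 230, 0, 0, ⟨0, 0⟩, 0⟩, 0, 0⟩ 0 0)) (.cut .v 50331648 (.cut .d 83552 (.pos 80 .pp ⟨⟨0, 0, 0, 0, 0, 0, 57, 0, 0, ⟨0, 0⟩, 0⟩, 10720093640, 0⟩ 0 0) (.pos 80 .pp ⟨⟨0, 0, 0, 0, 0, 0, 126, 0, 0, ⟨0, 0⟩, 0⟩, 5971523321, 0⟩ 0 0)) (.pos 81 .pp ⟨⟨0, 29487766607, 0, 0, 0, 0, 0, 0, 0, ⟨0, 0⟩, 0⟩, 16161252712, 0⟩ 0 0))) (.pos 78 .pp ⟨⟨0, 0, 0, 0, 0, 0, 0, 0, 0, ⟨0, 0⟩, 0⟩, 2548168162, 46⟩ 0 0)) (.pos 88 .pp ⟨⟨0, 0, 0, 866838610860597, 0, 0, 0, 0, 0, ⟨0, 0⟩, 0⟩, 810882989139403, 0⟩ 0 0)) (.void 97 ⟨⟨0, 0, 0, 0, 0, 0, 0, 0, 0, ⟨0, 0⟩, 0⟩, 100000, 0⟩ 0 0)) (.void 108 ⟨⟨0, 0, 0, 0, 0, 0, 0, 0, 0, ⟨0, 0⟩, 0⟩, 100000, 0⟩ 0 0)))),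
    by decide +kernel⟩

def covers44 : cell.Covers Vale.Agent.P237.Petty.Cor.Grid.N11.table row44.1 :=
  ⟨(.cut .d 0 (.cut .v 16777216 (.cut .v 8388608 (.void 2 ⟨⟨0, 0, 100000, 0, 0, 0, 0, 0, 0, ⟨0, 0⟩, 0⟩, 0, 0⟩ 0 0) (.cut .d (-8388608) (.void 3 ⟨⟨100000, 0, 0, 0, 0, 0, 0, 0, 0, ⟨0, 0⟩, 0⟩, 0, 0⟩ 0 0) (.pos 3 .mm ⟨⟨0, 0, 0, 0, 0, 218774704384, 0, 0, 0, ⟨0, 0⟩, 0⟩, 0, 0⟩ 0 0))) (.cut .v 4294967296 (.cut .v 268435456 (.cut .v 67108864 (.cut .v 33554432 (.cut .d (-8388608) (.void 20 ⟨⟨651259006, 0, 0, 0, 0, 3590174043, 0, 0, 0, ⟨0, 0⟩, 0⟩, 0, 0⟩ 0 0) (.cut .d (-4194304) (.void 20 ⟨⟨100000, 0, 0, 0, 0, 0, 0, 0, 0, ⟨0, 0⟩, 0⟩, 0, 0⟩ 0 0)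 (.cut .v 25165824 (.cut .d (-2097152) (.void 21 ⟨⟨100000, 0, 0, 0, 0, 0, 0, 0, 0, ⟨0, 0⟩, 0⟩, 0, 0⟩ 0 0) (.pos 21 .mp ⟨⟨66241132774, 0, 0, 0, 0, 54829013768, 0, 0, 0, ⟨0, 0⟩, 0⟩, 0, 0⟩ 0 0)) (.void 22 ⟨⟨100000, 0, 0, 0, 0, 0, 0, 0, 0, ⟨0, 0⟩, 0⟩, 0, 0⟩ 0 0)))) (.void 79 ⟨⟨100000, 0, 0, 0, 0, 0, 0, 0, 0, ⟨0, 0⟩, 0⟩, 0, 0⟩ 0 0)) (.void 88 ⟨⟨100024, 0, 0, 0, 0, 0, 0, 0, 0, ⟨0, 0⟩, 0⟩, 0, 0⟩ 0 0)) (.void 97 ⟨⟨92350, 0, 0, 7596, 0, 0, 0, 0, 0, ⟨0, 0⟩, 0⟩, 0, 0⟩ 0 0)) (.void 108 ⟨⟨58381, 0, 0, 5355, 0, 0, 0, 0, 0, ⟨0, 0⟩, 0⟩, 0, 0⟩ 0 0))) (.cut .v 16777216 (.cut .v 8388608 (.cut .d 133154 (.pos 2 .pm ⟨⟨0, 0, 24649656387, 0, 0, 0, 0, 0, 0,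 ⟨0, 0⟩, 0⟩, 0, 3⟩ 0 0) (.cut .d 199731 (.pos 2 .pm ⟨⟨0, 0, 12359740762, 0, 0, 0, 0, 0, 0, ⟨0, 0⟩, 0⟩, 0, 0⟩ 0 0) (.pos 2 .pm ⟨⟨0, 0, 20669552, 0, 9, 0, 0, 0, 0, ⟨0, 0⟩, 0⟩, 0, 0⟩ 0 0))) (.pos 3 .pm ⟨⟨0, 0, 0, 0, 0, 0, 0, 0, 0, ⟨0, 0⟩, 0⟩, 0, 0⟩ 0 0)) (.cut .v 4294967296 (.cut .v 268435456 (.cut .v 67108864 (.cut .d 133154 (.cut .v 33554432 (.cut .d 66577 (.cut .v 25165824 (.cut .d 33288 (.cut .d 16644 (.cut .v 20971520 (.cut .d 8322 (.cut .v 18874368 (.cut .v 17825792 (.cut .s 16539648 (.pos 27 .pp ⟨⟨30461483015, 0, 0, 0, 0, 0, 0, 0, 0, ⟨0, 0⟩, 0⟩, 0, 10⟩ 0 0) (.cut .s 16551936 (.pos 27 .pp ⟨⟨34855516929, 0, 0, 0, 0, 0, 0, 0, 0, ⟨0,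 0⟩, 0⟩, 0, 8⟩ 0 0) (.pos 27 .pp ⟨⟨37781940472, 0, 0, 0, 0, 0, 0, 0, 0, ⟨0, 0⟩, 0⟩, 0, 6⟩ 0 0))) (.pos 28 .pp ⟨⟨38084085647, 0, 0, 0, 0, 0, 0, 0, 0, ⟨0, 0⟩, 0⟩, 0, 7⟩ 0 0)) (.pos 26 .pp ⟨⟨47903293291, 0, 0, 0, 0, 0, 17, 0, 0, ⟨0, 0⟩, 0⟩, 0, 0⟩ 0 0)) (.pos 23 .pp ⟨⟨29058197045, 0, 0, 0, 0, 0, 22, 0, 0, ⟨0, 0⟩, 0⟩, 0, 0⟩ 0 0)) (.cut .d 8322 (.void 24 ⟨⟨100000, 0, 0, 0, 0, 0, 0, 0, 0, ⟨0, 0⟩, 0⟩, 0, 0⟩ 0 0) (.cut .d 12483 (.pos 24 .pp ⟨⟨0, 0, 0, 0, 0, 0, 20, 0, 0, ⟨0, 0⟩, 0⟩, 7572444391, 0⟩ 0 0) (.pos 24 .pp ⟨⟨0, 0, 0, 0, 0, 0, 21, 0, 0, ⟨0, 0⟩, 0⟩, 6398128871, 0⟩ 0 0)))) (.pos 21 .pp ⟨⟨0, 0, 0, 0, 0, 0, 30, 0, 0, ⟨0, 0⟩, 0⟩, 4666539864,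 0⟩ 0 0)) (.pos 21 .pp ⟨⟨0, 0, 0, 0, 0, 0, 0, 0, 0, ⟨0, 0⟩, 0⟩, 0, 27⟩ 0 0)) (.cut .d 33288 (.cut .d 16644 (.void 22 ⟨⟨0, 0, 0, 0, 0, 0, 0, 0, 0, ⟨0, 0⟩, 0⟩, 100000, 0⟩ 0 0) (.pos 22 .pp ⟨⟨0, 0, 0, 0, 0, 0, 25, 0, 0, ⟨0, 0⟩, 0⟩, 8963236649, 0⟩ 0 0)) (.pos 22 .pp ⟨⟨0, 0, 0, 0, 0, 0, 43, 0, 0, ⟨0, 0⟩, 0⟩, 6341849841, 0⟩ 0 0))) (.pos 20 .pp ⟨⟨0, 0, 0, 0, 0, 0, 89, 0, 0, ⟨0, 0⟩, 0⟩, 0, 0⟩ 0 0)) (.cut .v 50331648 (.cut .d 66577 (.pos 80 .pp ⟨⟨0, 0, 0, 0, 0, 0, 25, 0, 0, ⟨0, 0⟩, 0⟩, 14556167816, 0⟩ 0 0) (.pos 80 .pp ⟨⟨0, 0, 0, 0, 0, 0, 51, 0, 0, ⟨0, 0⟩, 0⟩, 8319720509, 0⟩ 0 0)) (.pos 81 .pp ⟨⟨0, 39250590428, 0, 0, 0, 0, 3, 0, 0, ⟨0, 0⟩, 0⟩,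 21892698970, 0⟩ 0 0))) (.pos 78 .pp ⟨⟨0, 0, 0, 0, 0, 0, 0, 0, 0, ⟨0, 0⟩, 0⟩, 3677199003, 18⟩ 0 0)) (.void 88 ⟨⟨0, 0, 0, 51669, 0, 0, 0, 0, 0, ⟨0, 0⟩, 0⟩, 46871, 0⟩ 0 0)) (.void 97 ⟨⟨0, 0, 0, 0, 0, 0, 0, 0, 0, ⟨0, 0⟩, 0⟩, 100000, 0⟩ 0 0)) (.void 108 ⟨⟨0, 0, 0, 0, 0, 0, 0, 0, 0, ⟨0, 0⟩, 0⟩, 100000, 0⟩ 0 0)))),
    by decide +kernel⟩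

def covers45 : cell.Covers Vale.Agent.P237.Petty.Cor.Grid.N11.table row45.1 :=
  ⟨(.cut .d 0 (.cut .v 16777216 (.cut .v 8388608 (.void 2 ⟨⟨0, 0, 100000, 0, 0, 0, 0, 0, 0, ⟨0, 0⟩, 0⟩, 0, 0⟩ 0 0) (.cut .d (-8388608) (.void 3 ⟨⟨99968, 0, 0, 0, 0, 0, 0, 0, 0, ⟨0, 0⟩, 0⟩, 0, 0⟩ 0 0) (.pos 3 .mm ⟨⟨0, 0, 0, 0, 0, 304601886786, 0, 0, 0, ⟨0, 0⟩, 0⟩, 0, 0⟩ 0 0))) (.cut .v 4294967296 (.cut .v 268435456 (.cut .v 67108864 (.cut .v 33554432 (.cut .d (-8388608) (.void 20 ⟨⟨96055, 0, 0, 3959, 0, 0, 0, 0, 0, ⟨0, 0⟩, 0⟩, 0, 0⟩ 0 0) (.cut .d (-4194304) (.void 20 ⟨⟨100000, 0, 0, 0, 0, 0, 0, 0, 0, ⟨0, 0⟩, 0⟩, 0, 0⟩ 0 0) (.cut .v 25165824 (.cut .d (-2097152)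 (.void 21 ⟨⟨100000, 0, 0, 0, 0, 0, 0, 0, 0, ⟨0, 0⟩, 0⟩, 0, 0⟩ 0 0) (.pos 21 .mp ⟨⟨96805820715, 0, 0, 0, 0, 74581132718, 0, 0, 0, ⟨0, 0⟩, 0⟩, 0, 0⟩ 0 0)) (.void 22 ⟨⟨100000, 0, 0, 0, 0, 0, 0, 0, 0, ⟨0, 0⟩, 0⟩, 0, 0⟩ 0 0)))) (.void 79 ⟨⟨100000, 0, 0, 0, 0, 0, 0, 0, 0, ⟨0, 0⟩, 0⟩, 0, 0⟩ 0 0)) (.void 88 ⟨⟨100000, 0, 0, 0, 0, 0, 0, 0, 0, ⟨0, 0⟩, 0⟩, 0, 0⟩ 0 0)) (.pos 97 .mp ⟨⟨1550455380628918, 0, 0, 127266219371082, 0, 0, 0, 0, 0, ⟨0, 0⟩, 0⟩, 0, 0⟩ 0 0)) (.cut .v 68719476736 (.void 109 ⟨⟨92772, 0, 0, 7620, 0, 0, 0, 0, 0, ⟨0, 0⟩, 0⟩, 0, 0⟩ 0 0) (.void 110 ⟨⟨0, 0, 0, 100000, 0, 0, 0, 0, 0, ⟨0, 0⟩, 0⟩, 0, 0⟩ 0 0)))) (.cut .v 16777216 (.cut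 .v 8388608 (.cut .d 107866 (.pos 2 .pm ⟨⟨0, 0, 37054492885, 0, 0, 0, 0, 0, 0, ⟨0, 0⟩, 0⟩, 0, 1⟩ 0 0) (.cut .d 161799 (.pos 2 .pm ⟨⟨0, 0, 21794399322, 0, 0, 0, 0, 0, 0, ⟨0, 0⟩, 0⟩, 0, 0⟩ 0 0) (.pos 2 .pm ⟨⟨0, 0, 20609112, 0, 3, 0, 0, 0, 0, ⟨0, 0⟩, 0⟩, 0, 0⟩ 0 0))) (.pos 3 .pm ⟨⟨0, 0, 0, 0, 0, 0, 0, 0, 0, ⟨0, 0⟩, 0⟩, 0, 0⟩ 0 0)) (.cut .v 4294967296 (.cut .v 268435456 (.cut .v 67108864 (.cut .d 107866 (.cut .v 33554432 (.cut .d 53933 (.cut .v 25165824 (.cut .d 26966 (.cut .d 13483 (.cut .v 20971520 (.cut .d 6741 (.cut .v 18874368 (.cut .d 3370 (.cut .v 17825792 (.cut .s 16588800 (.pos 27 .pp ⟨⟨41418586460, 0, 0, 0, 0, 0, 0, 0, 0, ⟨0, 0⟩,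 0⟩, 0, 4⟩ 0 0) (.pos 27 .pp ⟨⟨50240921599, 0, 0, 0, 0, 0, 0, 0, 0, ⟨0, 0⟩, 0⟩, 0, 2⟩ 0 0)) (.pos 28 .pp ⟨⟨59822083461, 0, 0, 0, 0, 0, 0, 0, 0, ⟨0, 0⟩, 0⟩, 0, 2⟩ 0 0)) (.pos 25 .pp ⟨⟨35296783645, 0, 0, 0, 0, 0, 0, 0, 0, ⟨0, 0⟩, 0⟩, 0, 3⟩ 0 0)) (.pos 26 .pp ⟨⟨69030934265, 0, 0, 0, 0, 0, 6, 0, 0, ⟨0, 0⟩, 0⟩, 0, 0⟩ 0 0)) (.pos 23 .pp ⟨⟨39550612760, 0, 0, 0, 0, 0, 8, 0, 0, ⟨0, 0⟩, 0⟩, 0, 0⟩ 0 0)) (.cut .d 6741 (.pos 24 .pp ⟨⟨271755585926, 0, 0, 0, 0, 0, 0, 0, 0, ⟨0, 0⟩, 0⟩, 0, 0⟩ 0 0) (.cut .v 23068672 (.pos 53 .pp ⟨⟨0, 0, 0, 0, 0, 0, 6, 0, 0, ⟨0, 0⟩, 0⟩, 9286515193, 0⟩ 0 0) (.pos 54 .pp ⟨⟨0, 0, 0, 0, 0, 0, 6, 0, 0, ⟨0, 0⟩, 0⟩, 11914797044,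 0⟩ 0 0)))) (.pos 21 .pp ⟨⟨0, 0, 0, 0, 0, 0, 11, 0, 0, ⟨0, 0⟩, 0⟩, 6359418282, 0⟩ 0 0)) (.pos 21 .pp ⟨⟨0, 0, 0, 0, 0, 0, 0, 0, 0, ⟨0, 0⟩, 0⟩, 0, 11⟩ 0 0)) (.cut .d 26966 (.cut .d 13483 (.void 22 ⟨⟨0, 0, 0, 0, 0, 0, 0, 0, 0, ⟨0, 0⟩, 0⟩, 100000, 0⟩ 0 0) (.pos 22 .pp ⟨⟨0, 0, 0, 0, 0, 0, 8, 0, 0, ⟨0, 0⟩, 0⟩, 12720316035, 0⟩ 0 0)) (.pos 22 .pp ⟨⟨0, 0, 0, 0, 0, 0, 17, 0, 0, ⟨0, 0⟩, 0⟩, 8775756887, 0⟩ 0 0))) (.pos 20 .pp ⟨⟨0, 0, 0, 0, 0, 0, 35, 0, 0, ⟨0, 0⟩, 0⟩, 0, 0⟩ 0 0)) (.cut .v 50331648 (.cut .d 53933 (.pos 80 .pp ⟨⟨0, 0, 0, 0, 0, 0, 9, 0, 0, ⟨0, 0⟩, 0⟩, 21005166426, 0⟩ 0 0) (.pos 80 .pp ⟨⟨0, 0, 0, 0, 0, 0, 20, 0, 0, ⟨0, 0⟩, 0⟩, 11605924896,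 0⟩ 0 0)) (.pos 81 .pp ⟨⟨0, 63832973648, 0, 0, 0, 0, 1, 0, 0, ⟨0, 0⟩, 0⟩, 31840988298, 0⟩ 0 0))) (.pos 78 .pp ⟨⟨0, 0, 0, 0, 0, 0, 0, 0, 0, ⟨0, 0⟩, 0⟩, 5139064700, 7⟩ 0 0)) (.void 88 ⟨⟨0, 0, 0, 51793, 0, 0, 0, 0, 0, ⟨0, 0⟩, 0⟩, 48207, 0⟩ 0 0)) (.void 97 ⟨⟨0, 0, 0, 0, 0, 0, 0, 0, 0, ⟨0, 0⟩, 0⟩, 100000, 0⟩ 0 0)) (.void 108 ⟨⟨0, 0, 0, 0, 0, 0, 0, 0, 0, ⟨0, 0⟩, 0⟩, 100000, 0⟩ 0 0)))),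
    by decide +kernel⟩

def covers46 : cell.Covers Vale.Agent.P237.Petty.Cor.Grid.N11.table row46.1 :=
  ⟨(.cut .d 0 (.cut .v 16777216 (.cut .v 8388608 (.void 2 ⟨⟨0, 0, 100000, 0, 0, 0, 0, 0, 0, ⟨0, 0⟩, 0⟩, 0, 0⟩ 0 0) (.cut .d (-8388608) (.void 3 ⟨⟨100002, 0, 0, 0, 0, 0, 0, 0, 0, ⟨0, 0⟩, 0⟩, 0, 0⟩ 0 0) (.pos 3 .mm ⟨⟨0, 0, 0, 0, 0, 402551562688, 0, 0, 0, ⟨0, 0⟩, 0⟩, 0, 0⟩ 0 0))) (.cut .d (-8388608) (.void 107 ⟨⟨98431, 0, 5540, 5130, 0, 0, 0, 0, 0, ⟨0, 0⟩, 0⟩, 0, 0⟩ 0 0) (.cut .d (-4194304) (.void 107 ⟨⟨100108, 0, 0, 0, 0, 0, 0, 0, 0, ⟨0, 0⟩, 0⟩, 0, 0⟩ 0 0) (.cut .v 4294967296 (.cut .v 268435456 (.cut .v 67108864 (.cut .v 33554432 (.cut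 .v 25165824 (.cut .d (-2097152) (.void 21 ⟨⟨100000, 0, 0, 0, 0, 0, 0, 0, 0, ⟨0, 0⟩, 0⟩, 0, 0⟩ 0 0) (.pos 21 .mp ⟨⟨135390353868, 0, 0, 0, 0, 93186177595, 0, 0, 0, ⟨0, 0⟩, 0⟩, 0, 0⟩ 0 0)) (.void 22 ⟨⟨100000, 0, 0, 0, 0, 0, 0, 0, 0, ⟨0, 0⟩, 0⟩, 0, 0⟩ 0 0)) (.void 79 ⟨⟨100000, 0, 0, 0, 0, 0, 0, 0, 0, ⟨0, 0⟩, 0⟩, 0, 0⟩ 0 0)) (.void 88 ⟨⟨100000, 0, 0, 0, 0, 0, 0, 0, 0, ⟨0, 0⟩, 0⟩, 0, 0⟩ 0 0)) (.void 97 ⟨⟨87360, 0, 0, 12640, 0, 0, 0, 0, 0, ⟨0, 0⟩, 0⟩, 0, 0⟩ 0 0)) (.void 108 ⟨⟨0, 0, 0, 100000, 0, 0, 0, 0, 0, ⟨0, 0⟩, 0⟩, 0, 0⟩ 0 0))))) (.cut .v 16777216 (.cut .v 8388608 (.cut .d 82729 (.pos 2 .pm ⟨⟨0, 0, 51659487065, 0, 0, 0, 0, 0, 0, ⟨0, 0⟩,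 0⟩, 0, 0⟩ 0 0) (.cut .d 124093 (.pos 2 .pm ⟨⟨0, 0, 28061956075, 0, 0, 0, 0, 0, 0, ⟨0, 0⟩, 0⟩, 0, 0⟩ 0 0) (.pos 2 .pm ⟨⟨0, 0, 20528478, 0, 1, 0, 0, 0, 0, ⟨0, 0⟩, 0⟩, 0, 0⟩ 0 0))) (.pos 3 .pm ⟨⟨0, 0, 0, 0, 0, 0, 0, 0, 0, ⟨0, 0⟩, 0⟩, 0, 0⟩ 0 0)) (.cut .v 4294967296 (.cut .v 268435456 (.cut .v 67108864 (.cut .d 82729 (.cut .v 33554432 (.cut .d 41364 (.cut .v 25165824 (.cut .d 20682 (.cut .d 10341 (.cut .v 20971520 (.cut .d 5170 (.cut .v 18874368 (.cut .d 2585 (.cut .v 17825792 (.cut .s 16629760 (.pos 27 .pp ⟨⟨59814666728, 0, 0, 0, 0, 0, 0, 0, 0, ⟨0, 0⟩, 0⟩, 0, 1⟩ 0 0) (.cut .s 16637952 (.pos 27 .pp ⟨⟨68233292554, 0, 0, 0, 0, 0, 0, 0, 0,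 ⟨0, 0⟩, 0⟩, 0, 1⟩ 0 0) (.cut .l 167772 (.cut .l 83886 (.cut .l 41943 (.cut .s 16642048 (.pos 27 .pp ⟨⟨73604819837, 0, 0, 0, 0, 0, 0, 0, 0, ⟨0, 0⟩, 0⟩, 0, 0⟩ 0 0) (.pos 27 .pp ⟨⟨77026132387, 0, 0, 0, 0, 0, 0, 0, 0, ⟨0, 0⟩, 0⟩, 0, 0⟩ 0 0)) (.pos 27 .pp ⟨⟨15613266383, 0, 0, 0, 0, 0, 0, 0, 0, ⟨0, 0⟩, 0⟩, 9736302620, 0⟩ 0 0)) (.pos 27 .pp ⟨⟨8700725968, 0, 0, 0, 0, 0, 0, 0, 0, ⟨0, 0⟩, 0⟩, 10798478781, 0⟩ 0 0)) (.pos 27 .pp ⟨⟨0, 0, 0, 0, 0, 0, 0, 0, 0, ⟨0, 0⟩, 0⟩, 11976214365, 0⟩ 0 0)))) (.pos 28 .pp ⟨⟨83733462058, 0, 0, 0, 0, 0, 0, 0, 0, ⟨0, 0⟩, 0⟩, 0, 1⟩ 0 0)) (.pos 25 .pp ⟨⟨51238952300, 0, 0, 0, 0, 0, 0, 0, 0, ⟨0, 0⟩, 0⟩, 0, 1⟩ 0 0)) (.pos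 26 .pp ⟨⟨96681158807, 0, 0, 0, 0, 0, 0, 0, 0, ⟨0, 0⟩, 0⟩, 0, 1⟩ 0 0)) (.pos 23 .pp ⟨⟨57460240986, 0, 0, 0, 0, 0, 0, 0, 0, ⟨0, 0⟩, 0⟩, 0, 1⟩ 0 0)) (.cut .d 5170 (.void 24 ⟨⟨100000, 0, 0, 0, 0, 0, 0, 0, 0, ⟨0, 0⟩, 0⟩, 0, 0⟩ 0 0) (.cut .d 7755 (.pos 24 .pp ⟨⟨0, 0, 0, 0, 0, 0, 0, 0, 0, ⟨0, 0⟩, 0⟩, 15231360677, 1⟩ 0 0) (.pos 24 .pp ⟨⟨0, 0, 0, 0, 0, 0, 0, 0, 0, ⟨0, 0⟩, 0⟩, 12728615242, 1⟩ 0 0)))) (.cut .v 20971520 (.pos 23 .pp ⟨⟨0, 0, 0, 0, 0, 0, 0, 0, 0, ⟨0, 0⟩, 0⟩, 0, 3⟩ 0 0) (.pos 24 .pp ⟨⟨0, 0, 0, 0, 0, 0, 0, 0, 0, ⟨0, 0⟩, 0⟩, 10823545407, 1⟩ 0 0))) (.pos 21 .pp ⟨⟨0, 0, 0, 0, 0, 0, 0, 0, 0, ⟨0, 0⟩, 0⟩, 0, 3⟩ 0 0)) (.cut .d 20682 (.cut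 .d 10341 (.void 22 ⟨⟨0, 0, 0, 0, 0, 0, 0, 0, 0, ⟨0, 0⟩, 0⟩, 100000, 0⟩ 0 0) (.pos 22 .pp ⟨⟨0, 0, 0, 0, 0, 0, 0, 0, 0, ⟨0, 0⟩, 0⟩, 18050725324, 1⟩ 0 0)) (.pos 22 .pp ⟨⟨0, 0, 0, 0, 0, 0, 0, 0, 0, ⟨0, 0⟩, 0⟩, 12697234175, 2⟩ 0 0))) (.pos 20 .pp ⟨⟨0, 0, 0, 0, 0, 0, 0, 0, 0, ⟨0, 0⟩, 0⟩, 0, 4⟩ 0 0)) (.cut .v 50331648 (.cut .d 41364 (.pos 80 .pp ⟨⟨0, 0, 0, 0, 0, 0, 0, 0, 0, ⟨0, 0⟩, 0⟩, 29414545855, 1⟩ 0 0) (.pos 80 .pp ⟨⟨0, 0, 0, 0, 0, 0, 0, 0, 0, ⟨0, 0⟩, 0⟩, 16866704616, 2⟩ 0 0)) (.pos 81 .pp ⟨⟨0, 83212674297, 0, 0, 0, 0, 0, 0, 0, ⟨0, 0⟩, 0⟩, 44319987573, 0⟩ 0 0))) (.pos 78 .pp ⟨⟨0, 0, 0, 0, 0, 0, 0, 0, 0, ⟨0, 0⟩, 0⟩, 7703222665, 2⟩ 0 0))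 (.void 88 ⟨⟨0, 0, 0, 25217, 0, 0, 0, 0, 0, ⟨0, 0⟩, 0⟩, 13025, 0⟩ 0 0)) (.void 97 ⟨⟨0, 0, 0, 0, 0, 0, 0, 0, 0, ⟨0, 0⟩, 0⟩, 100000, 0⟩ 0 0)) (.void 108 ⟨⟨0, 0, 0, 0, 0, 0, 0, 0, 0, ⟨0, 0⟩, 0⟩, 100000, 0⟩ 0 0)))),
    by decide +kernel⟩

def covers47 : cell.Covers Vale.Agent.P237.Petty.Cor.Grid.N11.table row47.1 :=
  ⟨(.cut .d 0 (.cut .v 16777216 (.cut .v 8388608 (.pos 2 .mm ⟨⟨0, 0, 1677721600000000, 0, 0, 0, 0, 0, 0, ⟨0, 0⟩, 0⟩, 0, 0⟩ 0 0) (.cut .d (-8388608) (.void 3 ⟨⟨98355, 0, 0, 0, 0, 0, 0, 0, 0, ⟨0, 0⟩, 0⟩, 0, 0⟩ 0 0) (.pos 3 .mm ⟨⟨0, 0, 0, 0, 0, 475346512999, 0, 0, 0, ⟨0, 0⟩, 0⟩, 0, 0⟩ 0 0))) (.cut .v 4294967296 (.cut .v 268435456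 (.cut .v 67108864 (.cut .v 33554432 (.cut .d (-8388608) (.void 20 ⟨⟨100001, 0, 0, 0, 0, 0, 0, 0, 0, ⟨0, 0⟩, 0⟩, 0, 0⟩ 0 0) (.cut .v 25165824 (.cut .d (-4194304) (.void 21 ⟨⟨100000, 0, 0, 0, 0, 0, 0, 0, 0, ⟨0, 0⟩, 0⟩, 0, 0⟩ 0 0) (.pos 21 .mp ⟨⟨164064137137, 0, 0, 0, 0, 228986859370, 0, 0, 0, ⟨0, 0⟩, 0⟩, 0, 0⟩ 0 0)) (.void 22 ⟨⟨100000, 0, 0, 0, 0, 0, 0, 0, 0, ⟨0, 0⟩, 0⟩, 0, 0⟩ 0 0))) (.pos 79 .mp ⟨⟨1677721599996620, 0, 0, 0, 0, 0, 0, 0, 0, ⟨0, 0⟩, 0⟩, 0, 0⟩ 0 0)) (.pos 88 .mp ⟨⟨1677721600001526, 0, 0, 0, 0, 0, 0, 0, 0, ⟨0, 0⟩, 0⟩, 0, 0⟩ 0 0)) (.void 97 ⟨⟨92384, 0, 0, 7646, 0, 0, 0, 0, 0, ⟨0, 0⟩, 0⟩, 0, 0⟩ 0 0)) (.void 108 ⟨⟨93039, 0,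 0, 7251, 0, 0, 0, 0, 0, ⟨0, 0⟩, 0⟩, 0, 0⟩ 0 0))) (.cut .v 16777216 (.cut .v 8388608 (.cut .d 66053 (.pos 2 .pm ⟨⟨0, 0, 64419974483, 0, 0, 0, 0, 0, 0, ⟨0, 0⟩, 0⟩, 0, 0⟩ 0 0) (.cut .d 99080 (.pos 2 .pm ⟨⟨0, 0, 30261183683, 0, 0, 0, 0, 0, 0, ⟨0, 0⟩, 0⟩, 0, 0⟩ 0 0) (.pos 2 .pm ⟨⟨0, 0, 20468150, 0, 0, 0, 0, 0, 0, ⟨0, 0⟩, 0⟩, 0, 0⟩ 0 0))) (.pos 3 .pm ⟨⟨0, 0, 0, 0, 0, 0, 0, 0, 0, ⟨0, 0⟩, 0⟩, 0, 0⟩ 0 0)) (.cut .v 4294967296 (.cut .v 268435456 (.cut .v 67108864 (.cut .d 66053 (.cut .v 33554432 (.cut .d 33026 (.cut .v 25165824 (.cut .d 16513 (.cut .d 8256 (.cut .v 20971520 (.cut .v 18874368 (.cut .s 16654336 (.cut .l 167772 (.cut .l 83886 (.cut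 .s 16650240 (.pos 25 .pp ⟨⟨83810076940, 0, 0, 0, 0, 0, 0, 0, 0, ⟨0, 0⟩, 0⟩, 0, 0⟩ 0 0) (.pos 25 .pp ⟨⟨87879579057, 0, 0, 0, 0, 0, 0, 0, 0, ⟨0, 0⟩, 0⟩, 0, 0⟩ 0 0)) (.pos 25 .pp ⟨⟨50807902114, 0, 0, 0, 0, 0, 0, 0, 0, ⟨0, 0⟩, 0⟩, 5440584456, 0⟩ 0 0)) (.pos 25 .pp ⟨⟨32796493413, 0, 0, 0, 0, 0, 0, 0, 0, ⟨0, 0⟩, 0⟩, 8208885518, 0⟩ 0 0)) (.pos 25 .pp ⟨⟨94202319362, 0, 0, 0, 0, 0, 0, 0, 0, ⟨0, 0⟩, 0⟩, 0, 0⟩ 0 0)) (.cut .l 167772 (.cut .l 83886 (.cut .d 4128 (.pos 26 .pp ⟨⟨120567655030, 0, 0, 0, 0, 0, 0, 0, 0, ⟨0, 0⟩, 0⟩, 0, 1⟩ 0 0) (.pos 26 .pp ⟨⟨97684214803, 0, 0, 0, 0, 0, 0, 0, 0, ⟨0, 0⟩, 0⟩, 0, 1⟩ 0 0)) (.pos 26 .pp ⟨⟨109968497019, 0, 0,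 0, 0, 0, 0, 0, 0, ⟨0, 0⟩, 0⟩, 0, 0⟩ 0 0)) (.pos 26 .pp ⟨⟨108875830798, 0, 0, 0, 0, 0, 0, 0, 0, ⟨0, 0⟩, 0⟩, 0, 0⟩ 0 0))) (.cut .d 4128 (.void 24 ⟨⟨0, 0, 0, 0, 0, 0, 0, 0, 0, ⟨0, 0⟩, 0⟩, 100000, 0⟩ 0 0) (.cut .v 23068672 (.cut .s 16654336 (.pos 53 .pp ⟨⟨7402890939, 0, 0, 0, 0, 0, 0, 0, 0, ⟨0, 0⟩, 0⟩, 15850889847, 1⟩ 0 0) (.cut .l 167772 (.cut .s 16658432 (.pos 53 .pp ⟨⟨24078574923, 0, 0, 0, 0, 0, 0, 0, 0, ⟨0, 0⟩, 0⟩, 14706126119, 1⟩ 0 0) (.pos 53 .pp ⟨⟨26639968369, 0, 0, 0, 0, 0, 0, 0, 0, ⟨0, 0⟩, 0⟩, 15226277605, 1⟩ 0 0)) (.pos 53 .pp ⟨⟨14478581216, 0, 0, 0, 0, 0, 0, 0, 0, ⟨0, 0⟩, 0⟩, 16092209910, 0⟩ 0 0))) (.pos 54 .pp ⟨⟨0, 0, 0, 0,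 0, 0, 0, 0, 0, ⟨0, 0⟩, 0⟩, 25553997954, 0⟩ 0 0)))) (.cut .v 20971520 (.pos 23 .pp ⟨⟨0, 0, 0, 0, 0, 0, 0, 0, 0, ⟨0, 0⟩, 0⟩, 0, 1⟩ 0 0) (.cut .v 23068672 (.pos 53 .pp ⟨⟨0, 0, 0, 0, 0, 0, 0, 0, 0, ⟨0, 0⟩, 0⟩, 13197997709, 1⟩ 0 0) (.pos 54 .pp ⟨⟨0, 0, 0, 0, 0, 0, 0, 0, 0, ⟨0, 0⟩, 0⟩, 18285519682, 1⟩ 0 0)))) (.pos 21 .pp ⟨⟨0, 0, 0, 0, 0, 0, 0, 0, 0, ⟨0, 0⟩, 0⟩, 0, 1⟩ 0 0)) (.cut .d 16513 (.pos 22 .pp ⟨⟨0, 0, 0, 0, 0, 0, 2, 0, 0, ⟨0, 0⟩, 0⟩, 25763430879, 0⟩ 0 0) (.pos 22 .pp ⟨⟨0, 0, 0, 0, 0, 0, 2, 0, 0, ⟨0, 0⟩, 0⟩, 17166963085, 0⟩ 0 0))) (.pos 20 .pp ⟨⟨0, 0, 0, 0, 0, 0, 0, 0, 0, ⟨0, 0⟩, 0⟩, 0, 2⟩ 0 0)) (.cut .v 50331648 (.cut .d 33026 (.pos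 80 .pp ⟨⟨0, 0, 0, 0, 0, 0, 1, 0, 0, ⟨0, 0⟩, 0⟩, 36508412208, 0⟩ 0 0) (.pos 80 .pp ⟨⟨0, 0, 0, 0, 0, 0, 2, 0, 0, ⟨0, 0⟩, 0⟩, 22797445361, 0⟩ 0 0)) (.pos 81 .pp ⟨⟨0, 88781473880, 0, 0, 0, 0, 1, 0, 0, ⟨0, 0⟩, 0⟩, 54379631904, 0⟩ 0 0))) (.pos 78 .pp ⟨⟨0, 0, 0, 0, 0, 0, 0, 0, 0, ⟨0, 0⟩, 0⟩, 10791587276, 1⟩ 0 0)) (.void 88 ⟨⟨0, 0, 0, 51640, 0, 0, 0, 0, 0, ⟨0, 0⟩, 0⟩, 48360, 0⟩ 0 0)) (.void 97 ⟨⟨0, 0, 0, 0, 0, 0, 0, 0, 0, ⟨0, 0⟩, 0⟩, 100000, 0⟩ 0 0)) (.void 108 ⟨⟨0, 0, 0, 0, 0, 0, 0, 0, 0, ⟨0, 0⟩, 0⟩, 100000, 0⟩ 0 0)))),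
    by decide +kernel⟩

def covers48 : cell.Covers Vale.Agent.P237.Petty.Cor.Grid.N11.table row48.1 :=
  ⟨(.cut .d 0 (.cut .v 16777216 (.cut .v 8388608 (.void 2 ⟨⟨0, 0, 100000, 0, 0, 0, 0, 0, 0, ⟨0, 0⟩, 0⟩, 0, 0⟩ 0 0) (.cut .d (-8388608) (.void 3 ⟨⟨100000, 0, 0, 0, 0, 0, 0, 0, 0, ⟨0, 0⟩, 0⟩, 0, 0⟩ 0 0) (.pos 3 .mm ⟨⟨0, 0, 0, 0, 0, 725446608799, 0, 0, 0, ⟨0, 0⟩, 0⟩, 0, 0⟩ 0 0))) (.cut .v 4294967296 (.cut .v 268435456 (.cut .v 67108864 (.cut .v 33554432 (.cut .d (-8388608) (.void 20 ⟨⟨84709, 0, 10484, 4341, 0, 0, 0, 427, 0, ⟨(-1), 11544164⟩, 0⟩, 0, 0⟩ 0 128) (.cut .v 25165824 (.cut .d (-4194304) (.void 21 ⟨⟨100000, 0, 0, 0, 0, 0, 0, 0,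 0, ⟨0, 0⟩, 0⟩, 0, 0⟩ 0 0) (.cut .s 16678912 (.pos 21 .mp ⟨⟨205659010757, 0, 0, 0, 0, 273889320997, 0, 0, 0, ⟨0, 0⟩, 0⟩, 0, 0⟩ 0 0) (.pos 21 .mp ⟨⟨268525459171, 0, 0, 0, 0, 335385935376, 0, 0, 0, ⟨0, 0⟩, 0⟩, 0, 0⟩ 0 0))) (.void 22 ⟨⟨100000, 0, 0, 0, 0, 0, 0, 0, 0, ⟨0, 0⟩, 0⟩, 0, 0⟩ 0 0))) (.pos 79 .mp ⟨⟨1677721599990393, 0, 0, 0, 0, 0, 0, 0, 0, ⟨0, 0⟩, 0⟩, 0, 0⟩ 0 0)) (.pos 88 .mp ⟨⟨1677721600006006, 0, 0, 0, 0, 0, 0, 0, 0, ⟨0, 0⟩, 0⟩, 0, 0⟩ 0 0)) (.pos 97 .mp ⟨⟨1558682650890742, 0, 0, 119038949110197, 0, 0, 0, 0, 0, ⟨0, 0⟩, 0⟩, 0, 0⟩ 0 0)) (.void 108 ⟨⟨131810, 0, 0, 12376, 0, 0, 0, 0, 0, ⟨0, 0⟩, 0⟩, 0, 0⟩ 0 0))) (.cut .v 16777216 (.cut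 .v 8388608 (.cut .d 57740 (.pos 2 .pm ⟨⟨0, 0, 91600716052, 0, 0, 0, 0, 0, 0, ⟨0, 0⟩, 0⟩, 0, 0⟩ 0 0) (.cut .d 86610 (.cut .s 16678912 (.pos 2 .pm ⟨⟨0, 0, 36800479888, 0, 0, 0, 0, 0, 0, ⟨0, 0⟩, 0⟩, 0, 0⟩ 0 0) (.pos 2 .pm ⟨⟨0, 0, 20468173, 0, 0, 0, 0, 0, 0, ⟨0, 0⟩, 0⟩, 0, 0⟩ 0 0)) (.pos 2 .pm ⟨⟨0, 0, 0, 1121077, 0, 0, 0, 0, 0, ⟨0, 0⟩, 0⟩, 0, 0⟩ 0 0))) (.pos 3 .pm ⟨⟨0, 0, 0, 0, 0, 0, 0, 0, 0, ⟨0, 0⟩, 0⟩, 0, 0⟩ 0 0)) (.cut .v 4294967296 (.cut .v 268435456 (.cut .v 67108864 (.cut .d 57740 (.cut .v 33554432 (.cut .d 28870 (.cut .v 25165824 (.cut .d 14435 (.cut .d 7217 (.cut .v 20971520 (.cut .d 3608 (.cut .v 18874368 (.cut .d 1804 (.cut .v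 17825792 (.cut .d 902 (.cut .v 17301504 (.cut .s 16678912 (.pos 29 .pp ⟨⟨101555884247, 0, 0, 0, 0, 0, 0, 0, 0, ⟨0, 0⟩, 0⟩, 0, 0⟩ 0 0) (.pos 29 .pp ⟨⟨130096323993, 0, 0, 0, 0, 0, 0, 0, 0, ⟨0, 0⟩, 0⟩, 0, 0⟩ 0 0)) (.pos 30 .pp ⟨⟨151482027192, 0, 0, 0, 0, 0, 0, 0, 0, ⟨0, 0⟩, 0⟩, 0, 0⟩ 0 0)) (.pos 27 .pp ⟨⟨82944042019, 0, 0, 0, 0, 0, 0, 0, 0, ⟨0, 0⟩, 0⟩, 0, 0⟩ 0 0)) (.pos 28 .pp ⟨⟨160284053759, 0, 0, 0, 0, 0, 0, 0, 0, ⟨0, 0⟩, 0⟩, 0, 0⟩ 0 0)) (.pos 25 .pp ⟨⟨87845413194, 0, 0, 0, 0, 0, 0, 0, 0, ⟨0, 0⟩, 0⟩, 0, 0⟩ 0 0)) (.cut .d 1804 (.pos 26 .pp ⟨⟨728841943948, 0, 0, 0, 0, 0, 0, 0, 0, ⟨0, 0⟩, 0⟩, 0, 0⟩ 0 0) (.pos 26 .pp ⟨⟨166063464147, 0, 0,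 0, 0, 0, 0, 0, 0, ⟨0, 0⟩, 0⟩, 0, 0⟩ 0 0))) (.pos 23 .pp ⟨⟨98535027790, 0, 0, 0, 0, 0, 0, 0, 0, ⟨0, 0⟩, 0⟩, 0, 0⟩ 0 0)) (.cut .d 3608 (.pos 24 .pp ⟨⟨296147334606, 0, 0, 0, 0, 0, 0, 0, 0, ⟨0, 0⟩, 0⟩, 0, 0⟩ 0 0) (.cut .v 23068672 (.pos 53 .pp ⟨⟨0, 0, 0, 0, 0, 0, 0, 0, 0, ⟨0, 0⟩, 0⟩, 23348323353, 0⟩ 0 0) (.pos 54 .pp ⟨⟨0, 0, 0, 0, 0, 0, 0, 0, 0, ⟨0, 0⟩, 0⟩, 31093940196, 0⟩ 0 0)))) (.pos 21 .pp ⟨⟨0, 0, 0, 0, 0, 0, 0, 0, 0, ⟨0, 0⟩, 0⟩, 15899387503, 0⟩ 0 0)) (.pos 21 .pp ⟨⟨0, 0, 0, 0, 0, 0, 0, 0, 0, ⟨0, 0⟩, 0⟩, 0, 1⟩ 0 0)) (.cut .d 14435 (.cut .d 7217 (.pos 22 .pp ⟨⟨0, 0, 0, 0, 0, 0, 0, 0, 0, ⟨0, 0⟩, 0⟩, 126808936378, 0⟩ 0 0) (.cut .v 29360128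 (.pos 67 .pp ⟨⟨0, 0, 0, 0, 0, 0, 0, 0, 0, ⟨0, 0⟩, 0⟩, 28937486174, 0⟩ 0 0) (.pos 68 .pp ⟨⟨0, 0, 0, 0, 0, 0, 0, 0, 0, ⟨0, 0⟩, 0⟩, 57740656372, 0⟩ 0 0))) (.pos 22 .pp ⟨⟨0, 0, 0, 0, 0, 0, 0, 0, 0, ⟨0, 0⟩, 0⟩, 22550621794, 0⟩ 0 0))) (.pos 20 .pp ⟨⟨0, 0, 0, 0, 0, 0, 0, 0, 0, ⟨0, 0⟩, 0⟩, 0, 1⟩ 0 0)) (.cut .v 50331648 (.cut .d 28870 (.cut .v 41943040 (.pos 104 .pp ⟨⟨0, 0, 0, 0, 0, 0, 0, 0, 0, ⟨0, 0⟩, 0⟩, 50581142824, 0⟩ 0 0) (.pos 105 .pp ⟨⟨0, 0, 0, 0, 0, 0, 0, 0, 0, ⟨0, 0⟩, 0⟩, 70051581080, 0⟩ 0 0)) (.pos 80 .pp ⟨⟨0, 0, 0, 0, 0, 0, 0, 0, 0, ⟨0, 0⟩, 0⟩, 30247624842, 0⟩ 0 0)) (.pos 81 .pp ⟨⟨0, 204316766106, 0, 0, 0, 0, 0, 0, 0, ⟨0, 0⟩, 0⟩,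 86699771358, 0⟩ 0 0))) (.pos 78 .pp ⟨⟨0, 0, 0, 0, 0, 0, 0, 0, 0, ⟨0, 0⟩, 0⟩, 13394348653, 0⟩ 0 0)) (.void 88 ⟨⟨0, 0, 0, 51897, 0, 0, 0, 0, 0, ⟨0, 0⟩, 0⟩, 48103, 0⟩ 0 0)) (.void 97 ⟨⟨0, 0, 0, 0, 0, 0, 0, 0, 0, ⟨0, 0⟩, 0⟩, 100000, 0⟩ 0 0)) (.void 108 ⟨⟨0, 0, 0, 0, 0, 0, 0, 0, 0, ⟨0, 0⟩, 0⟩, 100000, 0⟩ 0 0)))),
    by decide +kernel⟩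

def covers49 : cell.Covers Vale.Agent.P237.Petty.Cor.Grid.N11.table row49.1 :=
  ⟨(.cut .d 0 (.cut .v 16777216 (.cut .v 8388608 (.void 2 ⟨⟨0, 0, 100000, 0, 0, 0, 0, 0, 0, ⟨0, 0⟩, 0⟩, 0, 0⟩ 0 0) (.pos 3 .mm ⟨⟨0, 0, 0, 0, 0, 1439936381422, 0, 0, 0, ⟨0, 0⟩, 0⟩, 0, 0⟩ 0 0)) (.cut .v 4294967296 (.cut .v 268435456 (.cut .v 67108864 (.cut .v 33554432 (.cut .d (-8388608) (.void 20 ⟨⟨100000, 0, 0, 0, 0, 0, 0, 0, 0, ⟨0, 0⟩, 0⟩, 0, 0⟩ 0 0) (.cut .v 25165824 (.cut .d (-4194304) (.void 21 ⟨⟨100000, 0, 0, 0, 0, 0, 0, 0, 0, ⟨0, 0⟩, 0⟩, 0, 0⟩ 0 0) (.pos 21 .mp ⟨⟨371885600998, 0, 0, 0, 0, 429276677438, 0, 0, 0, ⟨0, 0⟩, 0⟩, 0, 0⟩ 0 0)) (.void 22 ⟨⟨100000,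 0, 0, 0, 0, 0, 0, 0, 0, ⟨0, 0⟩, 0⟩, 0, 0⟩ 0 0))) (.pos 79 .mp ⟨⟨1677721599984400, 0, 0, 0, 0, 0, 0, 0, 0, ⟨0, 0⟩, 0⟩, 0, 0⟩ 0 0)) (.pos 88 .mp ⟨⟨1677721599983543, 0, 0, 0, 0, 0, 0, 0, 0, ⟨0, 0⟩, 0⟩, 0, 0⟩ 0 0)) (.pos 97 .mp ⟨⟨1571619892372569, 0, 0, 106101707627431, 0, 0, 0, 0, 0, ⟨0, 0⟩, 0⟩, 0, 0⟩ 0 0)) (.void 108 ⟨⟨67535, 0, 0, 5268, 0, 0, 0, 0, 0, ⟨0, 0⟩, 0⟩, 0, 0⟩ 0 0))) (.cut .v 16777216 (.cut .v 8388608 (.cut .d 41162 (.pos 2 .pm ⟨⟨0, 0, 145486707458, 0, 0, 0, 0, 0, 0, ⟨0, 0⟩, 0⟩, 0, 0⟩ 0 0) (.cut .d 61743 (.pos 2 .pm ⟨⟨0, 0, 78645895320, 0, 0, 0, 0, 0, 0, ⟨0, 0⟩, 0⟩, 0, 0⟩ 0 0) (.pos 2 .pm ⟨⟨0, 0, 20407960, 0, 0, 0, 0, 0, 0,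 ⟨0, 0⟩, 0⟩, 0, 0⟩ 0 0))) (.pos 3 .pm ⟨⟨0, 0, 0, 0, 0, 0, 0, 0, 0, ⟨0, 0⟩, 0⟩, 0, 0⟩ 0 0)) (.cut .v 4294967296 (.cut .v 268435456 (.cut .v 67108864 (.cut .d 41162 (.cut .v 33554432 (.cut .d 20581 (.cut .v 25165824 (.cut .d 10290 (.cut .d 5145 (.cut .v 20971520 (.cut .d 2572 (.cut .v 18874368 (.cut .v 17825792 (.cut .s 16703488 (.pos 27 .pp ⟨⟨167227743254, 0, 0, 0, 0, 0, 0, 0, 0, ⟨0, 0⟩, 0⟩, 0, 0⟩ 0 0) (.pos 27 .pp ⟨⟨196338676307, 0, 0, 0, 0, 0, 0, 0, 0, ⟨0, 0⟩, 0⟩, 0, 0⟩ 0 0)) (.pos 28 .pp ⟨⟨210938616250, 0, 0, 0, 0, 0, 0, 0, 0, ⟨0, 0⟩, 0⟩, 0, 0⟩ 0 0)) (.pos 26 .pp ⟨⟨266564465738, 0, 0, 0, 0, 0, 0, 0, 0, ⟨0, 0⟩, 0⟩, 0, 0⟩ 0 0)) (.pos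 23 .pp ⟨⟨157323719201, 0, 0, 0, 0, 0, 0, 0, 0, ⟨0, 0⟩, 0⟩, 0, 0⟩ 0 0)) (.cut .d 2572 (.void 24 ⟨⟨100000, 0, 0, 0, 0, 0, 0, 0, 0, ⟨0, 0⟩, 0⟩, 0, 0⟩ 0 0) (.pos 24 .pp ⟨⟨0, 0, 0, 0, 0, 0, 0, 0, 0, ⟨0, 0⟩, 0⟩, 39990882737, 0⟩ 0 0))) (.pos 21 .pp ⟨⟨0, 0, 0, 0, 0, 0, 0, 0, 0, ⟨0, 0⟩, 0⟩, 25402545974, 0⟩ 0 0)) (.pos 21 .pp ⟨⟨0, 0, 0, 0, 0, 0, 0, 0, 0, ⟨0, 0⟩, 0⟩, 0, 0⟩ 0 0)) (.cut .d 10290 (.cut .d 5145 (.void 22 ⟨⟨0, 0, 0, 0, 0, 0, 0, 0, 0, ⟨0, 0⟩, 0⟩, 100000, 0⟩ 0 0) (.pos 22 .pp ⟨⟨0, 0, 0, 0, 0, 0, 0, 0, 0, ⟨0, 0⟩, 0⟩, 49832030546, 0⟩ 0 0)) (.pos 22 .pp ⟨⟨0, 0, 0, 0, 0, 0, 0, 0, 0, ⟨0, 0⟩, 0⟩, 35040254398, 0⟩ 0 0))) (.pos 20 .pp ⟨⟨0, 0,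 0, 0, 0, 0, 1, 0, 0, ⟨0, 0⟩, 0⟩, 0, 0⟩ 0 0)) (.cut .v 50331648 (.cut .d 20581 (.pos 80 .pp ⟨⟨0, 0, 0, 0, 0, 0, 0, 0, 0, ⟨0, 0⟩, 0⟩, 81220372674, 0⟩ 0 0) (.pos 80 .pp ⟨⟨0, 0, 0, 0, 0, 0, 0, 0, 0, ⟨0, 0⟩, 0⟩, 46973007398, 0⟩ 0 0)) (.pos 81 .pp ⟨⟨0, 232439858025, 0, 0, 0, 0, 0, 0, 0, ⟨0, 0⟩, 0⟩, 122386049602, 0⟩ 0 0))) (.pos 78 .pp ⟨⟨0, 0, 0, 0, 0, 0, 0, 0, 0, ⟨0, 0⟩, 0⟩, 21931416500, 0⟩ 0 0)) (.pos 88 .pp ⟨⟨0, 0, 0, 870952994297395, 0, 0, 0, 0, 0, ⟨0, 0⟩, 0⟩, 806768605702605, 0⟩ 0 0)) (.void 97 ⟨⟨0, 0, 0, 0, 0, 0, 0, 0, 0, ⟨0, 0⟩, 0⟩, 100000, 0⟩ 0 0)) (.void 108 ⟨⟨0, 0, 0, 0, 0, 0, 0, 0, 0, ⟨0, 0⟩, 0⟩, 100000, 0⟩ 0 0)))),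
    by decide +kernel⟩

def covers50 : cell.Covers Vale.Agent.P237.Petty.Cor.Grid.N11.table row50.1 :=
  ⟨(.cut .d 0 (.cut .v 16777216 (.cut .v 8388608 (.void 2 ⟨⟨0, 0, 100000, 0, 0, 0, 0, 0, 0, ⟨0, 0⟩, 0⟩, 0, 0⟩ 0 0) (.pos 3 .mm ⟨⟨0, 0, 0, 0, 0, 2028408046579, 0, 0, 0, ⟨0, 0⟩, 0⟩, 0, 0⟩ 0 0)) (.cut .d (-8388608) (.void 107 ⟨⟨91047, 0, 4549, 4194, 0, 0, 0, 0, 0, ⟨0, 0⟩, 0⟩, 0, 0⟩ 0 0) (.cut .v 4294967296 (.cut .v 268435456 (.cut .v 67108864 (.cut .v 33554432 (.cut .v 25165824 (.cut .d (-4194304) (.void 21 ⟨⟨100000, 0, 0, 0, 0, 0, 0, 0, 0, ⟨0, 0⟩, 0⟩, 0, 0⟩ 0 0) (.pos 21 .mp ⟨⟨565241201752, 0, 0, 0, 0, 597003715399, 0, 0, 0, ⟨0, 0⟩,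 0⟩, 0, 0⟩ 0 0)) (.void 22 ⟨⟨100000, 0, 0, 0, 0, 0, 0, 0, 0, ⟨0, 0⟩, 0⟩, 0, 0⟩ 0 0)) (.void 79 ⟨⟨100000, 0, 0, 0, 0, 0, 0, 0, 0, ⟨0, 0⟩, 0⟩, 0, 0⟩ 0 0)) (.void 88 ⟨⟨100000, 0, 0, 0, 0, 0, 0, 0, 0, ⟨0, 0⟩, 0⟩, 0, 0⟩ 0 0)) (.void 97 ⟨⟨88924, 0, 0, 11082, 0, 0, 0, 0, 0, ⟨0, 0⟩, 0⟩, 0, 0⟩ 0 0)) (.void 108 ⟨⟨88924, 0, 0, 11082, 0, 0, 0, 0, 0, ⟨0, 0⟩, 0⟩, 0, 0⟩ 0 0)))) (.cut .v 16777216 (.cut .v 8388608 (.cut .d 32898 (.pos 2 .pm ⟨⟨0, 0, 226262088185, 0, 0, 0, 0, 0, 0, ⟨0, 0⟩, 0⟩, 0, 0⟩ 0 0) (.cut .d 49347 (.cut .d 41122 (.pos 2 .pm ⟨⟨0, 0, 91655270806, 0, 0, 0, 0, 0, 0, ⟨0, 0⟩, 0⟩, 0, 0⟩ 0 0) (.pos 2 .pm ⟨⟨0, 0, 20387900, 0, 0, 0, 0, 0, 0,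 ⟨0, 0⟩, 0⟩, 0, 0⟩ 0 0)) (.pos 2 .pm ⟨⟨0, 0, 0, 1133863, 0, 0, 0, 0, 0, ⟨0, 0⟩, 0⟩, 0, 0⟩ 0 0))) (.pos 3 .pm ⟨⟨0, 0, 0, 0, 0, 0, 0, 0, 0, ⟨0, 0⟩, 0⟩, 0, 0⟩ 0 0)) (.cut .v 4294967296 (.cut .v 268435456 (.cut .v 67108864 (.cut .d 32898 (.cut .v 33554432 (.cut .d 16449 (.cut .v 25165824 (.cut .d 8224 (.cut .d 4112 (.cut .v 20971520 (.cut .d 2056 (.cut .v 18874368 (.cut .d 1028 (.cut .v 17825792 (.cut .s 16719872 (.pos 27 .pp ⟨⟨233534157420, 0, 0, 0, 0, 0, 0, 0, 0, ⟨0, 0⟩, 0⟩, 0, 0⟩ 0 0) (.pos 27 .pp ⟨⟨289217566105, 0, 0, 0, 0, 0, 0, 0, 0, ⟨0, 0⟩, 0⟩, 0, 0⟩ 0 0)) (.pos 28 .pp ⟨⟨345748686661, 0, 0, 0, 0, 0, 0, 0, 0, ⟨0, 0⟩, 0⟩, 0, 0⟩ 0 0))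 (.pos 25 .pp ⟨⟨196225206612, 0, 0, 0, 0, 0, 0, 0, 0, ⟨0, 0⟩, 0⟩, 0, 0⟩ 0 0)) (.pos 26 .pp ⟨⟨398621237608, 0, 0, 0, 0, 0, 0, 0, 0, ⟨0, 0⟩, 0⟩, 0, 0⟩ 0 0)) (.pos 23 .pp ⟨⟨220209705056, 0, 0, 0, 0, 0, 0, 0, 0, ⟨0, 0⟩, 0⟩, 0, 0⟩ 0 0)) (.cut .d 2056 (.pos 24 .pp ⟨⟨1850139875117, 0, 0, 0, 0, 0, 0, 0, 0, ⟨0, 0⟩, 0⟩, 0, 0⟩ 0 0) (.cut .v 23068672 (.pos 53 .pp ⟨⟨0, 0, 0, 0, 0, 0, 0, 0, 0, ⟨0, 0⟩, 0⟩, 52520991152, 0⟩ 0 0) (.pos 54 .pp ⟨⟨0, 0, 0, 0, 0, 0, 0, 0, 0, ⟨0, 0⟩, 0⟩, 68401682512, 0⟩ 0 0)))) (.pos 21 .pp ⟨⟨0, 0, 0, 0, 0, 0, 0, 0, 0, ⟨0, 0⟩, 0⟩, 35582278760, 0⟩ 0 0)) (.pos 21 .pp ⟨⟨0, 0, 0, 0, 0, 0, 0, 0, 0, ⟨0, 0⟩, 0⟩, 0, 0⟩ 0 0)) (.cut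 .d 8224 (.cut .d 4112 (.void 22 ⟨⟨0, 0, 0, 0, 0, 0, 0, 0, 0, ⟨0, 0⟩, 0⟩, 100000, 0⟩ 0 0) (.pos 22 .pp ⟨⟨0, 0, 0, 0, 0, 0, 0, 0, 0, ⟨0, 0⟩, 0⟩, 73032578214, 0⟩ 0 0)) (.pos 22 .pp ⟨⟨0, 0, 0, 0, 0, 0, 0, 0, 0, ⟨0, 0⟩, 0⟩, 49905966731, 0⟩ 0 0))) (.pos 20 .pp ⟨⟨0, 0, 0, 0, 0, 0, 0, 0, 0, ⟨0, 0⟩, 0⟩, 0, 0⟩ 0 0)) (.cut .v 50331648 (.cut .d 16449 (.pos 80 .pp ⟨⟨0, 0, 0, 0, 0, 0, 0, 0, 0, ⟨0, 0⟩, 0⟩, 121686734628, 0⟩ 0 0) (.pos 80 .pp ⟨⟨0, 0, 0, 0, 0, 0, 0, 0, 0, ⟨0, 0⟩, 0⟩, 67200277251, 0⟩ 0 0)) (.pos 81 .pp ⟨⟨0, 0, 0, 33151487881, 0, 0, 0, 0, 0, ⟨0, 0⟩, 0⟩, 185221994035, 0⟩ 0 0))) (.pos 78 .pp ⟨⟨0, 0, 0, 0, 0, 0, 0, 0, 0, ⟨0, 0⟩, 0⟩, 30725537763,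 0⟩ 0 0)) (.void 88 ⟨⟨0, 0, 0, 12639, 0, 81983, 0, 0, 0, ⟨0, 0⟩, 0⟩, 5378, 0⟩ 0 0)) (.void 97 ⟨⟨0, 0, 0, 0, 0, 0, 0, 0, 0, ⟨0, 0⟩, 0⟩, 100000, 0⟩ 0 0)) (.void 108 ⟨⟨0, 0, 0, 0, 0, 0, 0, 0, 0, ⟨0, 0⟩, 0⟩, 100000, 0⟩ 0 0)))),
    by decide +kernel⟩

end Vale.Agent.P237.Petty.Cor.Grid.Tiny.N11
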