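import Vale.Agent.P237.Petty.Cor.Grid.Tiny.N11.Cov0
import Vale.Agent.P237.Petty.Cor.Grid.Tiny.N11.Cov1
import Vale.Agent.P237.Petty.Cor.Grid.Tiny.N11.Rows0
import Vale.Agent.P237.Petty.Cor.Grid.Tiny.N11.Rows1

/-!
# P237: the cell down to zero in dimension 11
-/

namespace Vale.Agent.P237.Petty.Cor.Grid.Tiny.N11

theorem rows_ok : cell.rows.all (cell.rowOk Vale.Agent.P237.Petty.Cor.Grid.N11.table) = true := by
  show List.all [row0, row1, row2, row3, row4, row5, row6, row7, row8, row9, row10, row11, row12, row13, row14, row15, row16, row17, row18, row19, row20, row21, row22, row23, row24, row25, row26, row27, row28, row29, row30, row31, row32, row33, row34, row35, row36, row37, row38, row39, row40, row41, row42, row43, row44, row45, row46, row47, row48, row49, row50] (cell.rowOk Vale.Agent.P237.Petty.Cor.Grid.N11.table) = true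
  simp only [List.all_cons, List.all_nil, row0_ok, row1_ok, row2_ok, row3_ok, row4_ok, row5_ok, row6_ok, row7_ok, row8_ok, row9_ok, row10_ok, row11_ok, row12_ok, row13_ok, row14_ok, row15_ok, row16_ok, row17_ok, row18_ok, row19_ok, row20_ok, row21_ok, row22_ok, row23_ok, row24_ok, row25_ok, row26_ok, row27_ok, row28_ok, row29_ok, row30_ok, row31_ok, row32_ok, row33_ok, row34_ok, row35_ok, row36_ok, row37_ok, row38_ok, row39_ok, row40_ok, row41_ok, row42_ok, row43_ok, row44_ok, row45_ok, row46_ok, row47_ok, row48_ok, row49_ok, row50_ok, Bool.and_self]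

theorem covers : ∀ e ∈ cell.rows, cell.Covers Vale.Agent.P237.Petty.Cor.Grid.N11.table e.1 := by
  simp only [cell, List.forall_mem_cons]
  exact ⟨covers0, covers1, covers2, covers3, covers4, covers5, covers6, covers7, covers8, covers9, covers10, covers11, covers12, covers13, covers14, covers15, covers16, covers17, covers18, covers19, covers20, covers21, covers22, covers23, covers24, covers25, covers26, covers27, covers28, covers29, covers30, covers31, covers32, covers33, covers34, covers35, covers36, covers37, covers38, covers39, covers40, covers41, covers42, covers43, covers44, covers45, covers46, covers47, covers48, covers49, covers50, List.forall_mem_nil _⟩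

/-- From zero to `11 / 550`. -/
theorem corCell : CorCell 9 0 ((11 : ℝ) / 550) := fun ell hl => by
  have h := CellT.corCell head_ok Vale.Agent.P237.Petty.Cor.Grid.N11.table_ok pieces_ok rows_ok mean_ok covers
  refine (show CorCell 9 0 ((335545 : ℝ) / 16777216) from ?_) ell ⟨hl.1, hl.2.trans (by norm_num)⟩
  simpa [cell, par, sR] using h

end Vale.Agent.P237.Petty.Cor.Grid.Tiny.N11
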