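import Vale.Agent.P237.Petty.Cor.Grid.Tiny.N11.Cert

/-!
# P237: a cell down to zero in dimension 11, subdivisions
-/

namespace Vale.Agent.P237.Petty.Cor.Grid.Tiny.N11

theorem covers0 : cell.Covers Vale.Agent.P237.Petty.Cor.Grid.N11.table row0.1 :=
  ⟨(.cut .d 0 (.cut .v 16777216 (.cut .v 8388608 (.cut .v 4194304 (.pos 4 .mm ⟨⟨0, 0, 22730348, 0, 0, 0, 0, 0, 0, ⟨0, 0⟩, 0⟩, 0, 0⟩ 0 0) (.pos 5 .mm ⟨⟨0, 0, 0, 0, 0, 0, 0, 0, 0, ⟨0, 0⟩, 0⟩, 0, 0⟩ 0 0)) (.cut .v 12582912 (.cut .d (-8388608) (.pos 6 .mm ⟨⟨0, 0, 0, 0, 0, 0, 0, 0, 0, ⟨0, 0⟩, 0⟩, 0, 0⟩ 0 0) (.cut .d (-4194304) (.cut .d (-6291456) (.pos 6 .mm ⟨⟨0, 0, 0, 0, 0, 0, 0, 0, 0,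 ⟨0, 0⟩, 0⟩, 0, 0⟩ 0 0) (.pos 6 .mm ⟨⟨0, 0, 0, 0, 0, 0, 0, 0, 0, ⟨0, 0⟩, 0⟩, 0, 0⟩ 0 0)) (.pos 6 .mm ⟨⟨0, 0, 0, 0, 0, 0, 0, 0, 0, ⟨0, 0⟩, 0⟩, 0, 0⟩ 0 0))) (.cut .d (-8388608) (.pos 7 .mm ⟨⟨0, 0, 0, 0, 0, 0, 0, 0, 0, ⟨0, 0⟩, 0⟩, 0, 0⟩ 0 0) (.cut .d (-4194304) (.cut .v 14680064 (.cut .v 13631488 (.pos 12 .mm ⟨⟨0, 0, 0, 0, 0, 0, 0, 0, 0, ⟨0, 0⟩, 0⟩, 0, 0⟩ 0 0) (.pos 13 .mm ⟨⟨0, 0, 0, 0, 0, 0, 0, 0, 0, ⟨0, 0⟩, 0⟩, 0, 0⟩ 0 0)) (.pos 11 .mm ⟨⟨0, 0, 0, 0, 0, 0, 0, 0, 0, ⟨0, 0⟩, 0⟩, 0, 0⟩ 0 0)) (.cut .v 14680064 (.cut .d (-2097152) (.cut .s 851968 (.cut .v 13631488 (.cut .d (-3145728) (.pos 12 .mm ⟨⟨0, 0, 0, 0, 0, 0, 0, 0, 0, ⟨0, 0⟩, 0⟩,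 0, 0⟩ 0 0) (.pos 12 .mm ⟨⟨0, 0, 0, 0, 0, 0, 0, 0, 0, ⟨0, 0⟩, 0⟩, 0, 0⟩ 0 0)) (.cut .d (-3145728) (.pos 13 .mm ⟨⟨0, 0, 0, 0, 0, 0, 0, 0, 0, ⟨0, 0⟩, 0⟩, 0, 0⟩ 0 0) (.cut .d (-2621440) (.pos 13 .mm ⟨⟨0, 0, 0, 0, 0, 0, 0, 0, 0, ⟨0, 0⟩, 0⟩, 0, 0⟩ 0 0) (.pos 13 .mm ⟨⟨0, 0, 0, 0, 0, 0, 0, 0, 0, ⟨0, 0⟩, 0⟩, 0, 0⟩ 0 0)))) (.pos 10 .mm ⟨⟨0, 0, 0, 0, 470599, 3552630, 0, 0, 0, ⟨0, 0⟩, 0⟩, 0, 0⟩ 0 0)) (.pos 10 .mm ⟨⟨0, 0, 0, 0, 0, 0, 0, 0, 0, ⟨0, 0⟩, 0⟩, 0, 0⟩ 0 0)) (.cut .d (-2097152) (.pos 11 .mm ⟨⟨0, 0, 0, 0, 0, 0, 0, 0, 0, ⟨0, 0⟩, 0⟩, 0, 0⟩ 0 0) (.cut .d (-1048576) (.cut .v 15728640 (.pos 18 .mm ⟨⟨0, 0, 0, 0, 0, 0, 0, 0, 0, ⟨0, 0⟩, 0⟩,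 0, 0⟩ 0 0) (.pos 19 .mm ⟨⟨0, 0, 0, 0, 0, 0, 0, 0, 0, ⟨0, 0⟩, 0⟩, 0, 0⟩ 0 0)) (.pos 11 .mm ⟨⟨0, 0, 0, 0, 0, 229247, 0, 0, 0, ⟨0, 0⟩, 0⟩, 0, 0⟩ 0 0)))))))) (.cut .v 25165824 (.cut .v 20971520 (.cut .v 18874368 (.pos 25 .mp ⟨⟨1041428, 0, 0, 0, 0, 25399, 689, 0, 0, ⟨0, 0⟩, 0⟩, 0, 0⟩ 0 0) (.void 26 ⟨⟨0, 0, 0, 0, 0, 0, 100000, 0, 0, ⟨0, 0⟩, 0⟩, 0, 0⟩ 0 0)) (.void 24 ⟨⟨0, 0, 0, 0, 0, 0, 100000, 0, 0, ⟨0, 0⟩, 0⟩, 0, 0⟩ 0 0)) (.void 22 ⟨⟨0, 0, 0, 0, 0, 0, 100000, 0, 0, ⟨0, 0⟩, 0⟩, 0, 0⟩ 0 0))) (.cut .v 16777216 (.cut .v 8388608 (.cut .v 4194304 (.pos 4 .pm ⟨⟨0, 0, 23050116, 0, 0, 0, 0, 0, 0, ⟨0, 0⟩, 0⟩, 0, 0⟩ 0 0) (.pos 5 .pm ⟨⟨0, 0, 0,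 0, 626041, 0, 0, 0, 0, ⟨0, 0⟩, 0⟩, 0, 0⟩ 0 0)) (.cut .v 12582912 (.pos 6 .pm ⟨⟨0, 0, 0, 0, 505326, 0, 0, 0, 0, ⟨0, 0⟩, 0⟩, 0, 0⟩ 0 0) (.pos 7 .pm ⟨⟨0, 0, 0, 0, 0, 0, 0, 0, 0, ⟨0, 0⟩, 0⟩, 0, 997058⟩ 0 0))) (.cut .v 25165824 (.cut .v 20971520 (.cut .v 18874368 (.cut .v 17825792 (.cut .v 17301504 (.cut .d 328999 (.cut .s 851968 (.pos 29 .pp ⟨⟨0, 0, 0, 0, 0, 0, 655144, 0, 0, ⟨0, 0⟩, 0⟩, 0, 437806⟩ 0 0) (.cut .d 164499 (.pos 29 .pp ⟨⟨957702, 0, 0, 0, 0, 0, 0, 0, 0, ⟨0, 0⟩, 0⟩, 0, 550086⟩ 0 0) (.pos 29 .pp ⟨⟨1081426, 0, 0, 0, 0, 0, 0, 0, 0, ⟨0, 0⟩, 0⟩, 0, 442771⟩ 0 0))) (.cut .s 851968 (.pos 29 .pp ⟨⟨0, 0, 0, 0, 0, 0, 756408, 0, 0, ⟨0,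 0⟩, 0⟩, 0, 318103⟩ 0 0) (.pos 29 .pp ⟨⟨1048970, 0, 0, 0, 0, 0, 0, 0, 0, ⟨0, 0⟩, 0⟩, 0, 743906⟩ 0 0))) (.void 30 ⟨⟨90616, 0, 0, 0, 0, 0, 0, 0, 0, ⟨0, 0⟩, 0⟩, 0, 9384⟩ 0 0)) (.void 28 ⟨⟨0, 0, 0, 0, 0, 0, 100000, 0, 0, ⟨0, 0⟩, 0⟩, 0, 0⟩ 0 0)) (.void 26 ⟨⟨0, 0, 0, 0, 0, 0, 0, 0, 0, ⟨0, 0⟩, 0⟩, 100000, 0⟩ 0 0)) (.void 24 ⟨⟨0, 0, 0, 0, 0, 0, 0, 0, 0, ⟨0, 0⟩, 0⟩, 100000, 0⟩ 0 0)) (.void 22 ⟨⟨0, 0, 0, 0, 0, 0, 0, 0, 0, ⟨0, 0⟩, 0⟩, 100000, 0⟩ 0 0)))),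
    by decide +kernel⟩

theorem covers1 : cell.Covers Vale.Agent.P237.Petty.Cor.Grid.N11.table row1.1 :=
  ⟨(.cut .d 0 (.cut .v 16777216 (.cut .v 8388608 (.void 2 ⟨⟨0, 0, 0, 0, 50000, 50000, 0, 0, 0, ⟨0, 0⟩, 0⟩, 0, 0⟩ 0 0) (.cut .v 12582912 (.void 6 ⟨⟨0, 0, 0, 0, 50000, 50000, 0, 0, 0, ⟨0, 0⟩, 0⟩, 0, 0⟩ 0 0) (.cut .v 14680064 (.pos 10 .mm ⟨⟨0, 0, 0, 0, 2485117, 20758023, 0, 0, 8140378, ⟨0, 0⟩, 15100357⟩, 0, 0⟩ 0 0) (.cut .v 15728640 (.pos 18 .mm ⟨⟨0, 0, 0, 0, 0, 3190862, 0, 0, 0, ⟨0, 0⟩, 0⟩, 0, 0⟩ 0 0) (.cut .v 16252928 (.pos 33 .mm ⟨⟨0, 0, 0, 0, 0, 1431484, 0, 0, 0, ⟨0, 0⟩, 0⟩, 0, 0⟩ 0 0) (.pos 34 .mm ⟨⟨0, 0, 0, 0, 0, 352363,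 0, 0, 0, ⟨0, 0⟩, 0⟩, 0, 0⟩ 0 0)))))) (.cut .v 25165824 (.cut .v 20971520 (.cut .v 18874368 (.pos 25 .mp ⟨⟨1068412, 0, 0, 0, 0, 0, 0, 0, 0, ⟨0, 0⟩, 0⟩, 0, 0⟩ 0 0) (.void 26 ⟨⟨0, 0, 0, 0, 0, 0, 100000, 0, 0, ⟨0, 0⟩, 0⟩, 0, 0⟩ 0 0)) (.void 24 ⟨⟨0, 0, 0, 0, 0, 0, 100000, 0, 0, ⟨0, 0⟩, 0⟩, 0, 0⟩ 0 0)) (.void 22 ⟨⟨0, 0, 0, 0, 0, 0, 100000, 0, 0, ⟨0, 0⟩, 0⟩, 0, 0⟩ 0 0))) (.cut .v 16777216 (.cut .v 8388608 (.void 2 ⟨⟨0, 0, 0, 0, 100000, 0, 0, 0, 0, ⟨0, 0⟩, 0⟩, 0, 0⟩ 0 0) (.cut .v 12582912 (.void 6 ⟨⟨0, 0, 0, 0, 100000, 0, 0, 0, 0, ⟨0, 0⟩, 0⟩, 0, 0⟩ 0 0) (.pos 7 .pm ⟨⟨0, 0, 0, 0, 0, 0, 0, 0, 0, ⟨0, 0⟩, 0⟩, 0, 654512⟩ 0 0))) (.cut .v 25165824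 (.cut .v 20971520 (.cut .v 18874368 (.cut .d 678972 (.cut .v 17825792 (.cut .v 17301504 (.cut .d 339486 (.cut .v 17039360 (.cut .l 167772 (.cut .d 169743 (.cut .s 2359296 (.pos 31 .pp ⟨⟨809411, 0, 0, 0, 0, 0, 0, 0, 0, ⟨0, 0⟩, 0⟩, 0, 585909⟩ 0 0) (.cut .s 2686976 (.pos 31 .pp ⟨⟨720973, 0, 0, 0, 0, 0, 0, 0, 0, ⟨0, 0⟩, 0⟩, 0, 585148⟩ 0 0) (.pos 31 .pp ⟨⟨616727, 0, 0, 0, 0, 0, 0, 0, 0, ⟨0, 0⟩, 0⟩, 0, 582563⟩ 0 0))) (.pos 31 .pp ⟨⟨614330, 0, 0, 0, 0, 0, 0, 0, 0, ⟨0, 0⟩, 0⟩, 0, 895450⟩ 0 0)) (.pos 31 .pp ⟨⟨703687, 0, 0, 0, 0, 0, 0, 0, 0, ⟨0, 0⟩, 0⟩, 0, 480084⟩ 0 0)) (.pos 32 .pp ⟨⟨890325, 0, 0, 0, 0, 0, 0, 0, 0, ⟨0, 0⟩, 0⟩, 0, 594214⟩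 0 0)) (.cut .s 2359296 (.pos 29 .pp ⟨⟨915509, 0, 0, 0, 0, 0, 0, 0, 0, ⟨0, 0⟩, 0⟩, 0, 665116⟩ 0 0) (.pos 29 .pp ⟨⟨677769, 0, 0, 0, 0, 0, 0, 0, 0, ⟨0, 0⟩, 0⟩, 0, 707201⟩ 0 0))) (.void 30 ⟨⟨84508, 0, 0, 0, 0, 0, 0, 0, 0, ⟨0, 0⟩, 0⟩, 0, 15492⟩ 0 0)) (.void 28 ⟨⟨0, 0, 0, 0, 0, 0, 100000, 0, 0, ⟨0, 0⟩, 0⟩, 0, 0⟩ 0 0)) (.void 25 ⟨⟨0, 0, 0, 0, 0, 0, 744, 0, 0, ⟨0, 0⟩, 0⟩, 0, 99256⟩ 0 0)) (.void 26 ⟨⟨0, 0, 0, 0, 0, 0, 100000, 0, 0, ⟨0, 0⟩, 0⟩, 0, 0⟩ 0 0)) (.void 24 ⟨⟨0, 0, 0, 0, 0, 0, 0, 0, 0, ⟨0, 0⟩, 0⟩, 100000, 0⟩ 0 0)) (.void 22 ⟨⟨0, 0, 0, 0, 0, 0, 0, 0, 0, ⟨0, 0⟩, 0⟩, 100000, 0⟩ 0 0)))),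
    by decide +kernel⟩

theorem covers2 : cell.Covers Vale.Agent.P237.Petty.Cor.Grid.N11.table row2.1 :=
  ⟨(.cut .d 0 (.cut .v 16777216 (.cut .v 8388608 (.void 2 ⟨⟨0, 0, 0, 0, 50000, 50000, 0, 0, 0, ⟨0, 0⟩, 0⟩, 0, 0⟩ 0 0) (.cut .v 12582912 (.void 6 ⟨⟨0, 0, 0, 0, 50000, 50000, 0, 0, 0, ⟨0, 0⟩, 0⟩, 0, 0⟩ 0 0) (.cut .d (-8388608) (.void 7 ⟨⟨0, 0, 0, 0, 0, 100000, 0, 0, 0, ⟨0, 0⟩, 0⟩, 0, 0⟩ 0 0) (.cut .d (-4194304) (.void 7 ⟨⟨0, 0, 0, 0, 0, 100000, 0, 0, 0, ⟨0, 0⟩, 0⟩, 0, 0⟩ 0 0) (.cut .v 14680064 (.pos 10 .mm ⟨⟨0, 0, 0, 0, 0, 1194974, 0, 0, 92766, ⟨0, 0⟩, 15100357⟩, 0, 0⟩ 0 0) (.pos 11 .mm ⟨⟨0, 0, 0, 0, 0, 1302449, 0, 0, 0, ⟨0, 0⟩,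 0⟩, 0, 0⟩ 0 0)))))) (.cut .v 25165824 (.cut .d (-8388608) (.void 21 ⟨⟨0, 0, 0, 0, 0, 100000, 0, 0, 0, ⟨0, 0⟩, 0⟩, 0, 0⟩ 0 0) (.cut .v 20971520 (.cut .d (-4194304) (.void 23 ⟨⟨0, 0, 0, 0, 0, 100000, 0, 0, 0, ⟨0, 0⟩, 0⟩, 0, 0⟩ 0 0) (.cut .d (-2097152) (.void 23 ⟨⟨0, 0, 0, 0, 0, 100000, 0, 0, 0, ⟨0, 0⟩, 0⟩, 0, 0⟩ 0 0) (.cut .v 18874368 (.pos 25 .mp ⟨⟨850257, 0, 0, 0, 0, 114326, 0, 0, 0, ⟨0, 0⟩, 0⟩, 0, 0⟩ 0 0) (.void 26 ⟨⟨100000, 0, 0, 0, 0, 0, 0, 0, 0, ⟨0, 0⟩, 0⟩, 0, 0⟩ 0 0)))) (.void 24 ⟨⟨0, 0, 0, 0, 0, 0, 100000, 0, 0, ⟨0, 0⟩, 0⟩, 0, 0⟩ 0 0))) (.void 22 ⟨⟨0, 0, 0, 0, 0, 0, 100000, 0, 0, ⟨0, 0⟩, 0⟩, 0, 0⟩ 0 0))) (.cut .v 16777216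 (.cut .v 8388608 (.void 2 ⟨⟨0, 0, 0, 0, 100000, 0, 0, 0, 0, ⟨0, 0⟩, 0⟩, 0, 0⟩ 0 0) (.cut .v 12582912 (.void 6 ⟨⟨0, 0, 0, 0, 12306, 0, 0, 0, 87694, ⟨0, 0⟩, 13128881⟩, 0, 0⟩ 0 0) (.cut .v 14680064 (.void 10 ⟨⟨0, 0, 0, 0, 0, 0, 0, 0, 100000, ⟨0, 0⟩, 15100357⟩, 0, 0⟩ 0 0) (.cut .d 972217 (.pos 11 .pm ⟨⟨0, 0, 0, 0, 0, 0, 0, 0, 0, ⟨0, 0⟩, 0⟩, 0, 499150⟩ 0 0) (.void 11 ⟨⟨0, 0, 0, 0, 0, 0, 0, 0, 0, ⟨0, 0⟩, 0⟩, 0, 100000⟩ 0 0))))) (.cut .v 25165824 (.cut .v 20971520 (.cut .v 18874368 (.cut .d 972217 (.cut .d 486108 (.cut .v 17825792 (.cut .v 17301504 (.cut .s 3407872 (.cut .d 243054 (.cut .s 3211264 (.pos 29 .pp ⟨⟨564224, 0, 0, 0, 0, 0,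 0, 0, 0, ⟨0, 0⟩, 0⟩, 0, 537078⟩ 0 0) (.pos 29 .pp ⟨⟨471827, 0, 0, 0, 0, 0, 0, 0, 0, ⟨0, 0⟩, 0⟩, 0, 510485⟩ 0 0)) (.pos 29 .pp ⟨⟨445284, 0, 0, 0, 0, 0, 0, 0, 0, ⟨0, 0⟩, 0⟩, 0, 621468⟩ 0 0)) (.cut .d 243054 (.cut .s 3604480 (.pos 29 .pp ⟨⟨398828, 0, 0, 0, 0, 0, 0, 0, 0, ⟨0, 0⟩, 0⟩, 0, 478925⟩ 0 0) (.pos 29 .pp ⟨⟨357773, 0, 0, 0, 0, 0, 0, 0, 0, ⟨0, 0⟩, 0⟩, 0, 438513⟩ 0 0)) (.pos 29 .pp ⟨⟨277145, 0, 0, 0, 0, 0, 0, 0, 0, ⟨0, 0⟩, 0⟩, 0, 584679⟩ 0 0))) (.pos 30 .pp ⟨⟨1045848, 0, 0, 0, 0, 0, 0, 0, 0, ⟨0, 0⟩, 0⟩, 0, 621520⟩ 0 0)) (.void 28 ⟨⟨100000, 0, 0, 0, 0, 0, 0, 0, 0, ⟨0, 0⟩, 0⟩, 0, 0⟩ 0 0)) (.void 25 ⟨⟨2996, 0, 0, 0, 0, 0, 0, 0, 0,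 ⟨0, 0⟩, 0⟩, 0, 97004⟩ 0 0)) (.void 25 ⟨⟨0, 0, 0, 0, 0, 0, 1701, 0, 0, ⟨0, 0⟩, 0⟩, 0, 98299⟩ 0 0)) (.void 26 ⟨⟨0, 0, 0, 0, 0, 0, 100000, 0, 0, ⟨0, 0⟩, 0⟩, 0, 0⟩ 0 0)) (.void 24 ⟨⟨0, 0, 0, 0, 0, 0, 0, 0, 0, ⟨0, 0⟩, 0⟩, 100000, 0⟩ 0 0)) (.void 22 ⟨⟨0, 0, 0, 0, 0, 0, 0, 0, 0, ⟨0, 0⟩, 0⟩, 100000, 0⟩ 0 0)))),
    by decide +kernel⟩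

theorem covers3 : cell.Covers Vale.Agent.P237.Petty.Cor.Grid.N11.table row3.1 :=
  ⟨(.cut .d 0 (.cut .v 16777216 (.cut .v 8388608 (.void 2 ⟨⟨0, 0, 0, 0, 50000, 50000, 0, 0, 0, ⟨0, 0⟩, 0⟩, 0, 0⟩ 0 0) (.cut .v 12582912 (.void 6 ⟨⟨0, 0, 0, 0, 0, 61015, 0, 0, 38985, ⟨0, 0⟩, 13128881⟩, 0, 0⟩ 0 0) (.cut .d (-8388608) (.void 7 ⟨⟨0, 0, 0, 0, 0, 100000, 0, 0, 0, ⟨0, 0⟩, 0⟩, 0, 0⟩ 0 0) (.cut .d (-4194304) (.void 7 ⟨⟨0, 0, 0, 0, 0, 100000, 0, 0, 0, ⟨0, 0⟩, 0⟩, 0, 0⟩ 0 0) (.cut .v 14680064 (.pos 10 .mm ⟨⟨0, 0, 0, 0, 0, 3327022, 0, 0, 0, ⟨0, 0⟩, 0⟩, 0, 0⟩ 0 0) (.cut .d (-2097152) (.void 11 ⟨⟨0, 0, 0, 0, 0, 100000, 0, 0, 0, ⟨0, 0⟩, 0⟩, 0, 0⟩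 0 0) (.cut .d (-1048576) (.void 11 ⟨⟨0, 0, 0, 0, 0, 100000, 0, 0, 0, ⟨0, 0⟩, 0⟩, 0, 0⟩ 0 0) (.cut .s 4161536 (.pos 11 .mm ⟨⟨0, 0, 0, 0, 0, 610735, 0, 0, 0, ⟨0, 0⟩, 0⟩, 0, 0⟩ 0 0) (.cut .s 4341760 (.pos 11 .mm ⟨⟨0, 0, 0, 0, 0, 901831, 0, 0, 0, ⟨0, 0⟩, 0⟩, 0, 0⟩ 0 0) (.cut .s 4431872 (.pos 11 .mm ⟨⟨0, 0, 0, 0, 0, 1034442, 0, 0, 0, ⟨0, 0⟩, 0⟩, 0, 0⟩ 0 0) (.cut .d (-524288) (.void 11 ⟨⟨0, 0, 0, 0, 0, 100000, 0, 0, 0, ⟨0, 0⟩, 0⟩, 0, 0⟩ 0 0) (.cut .v 15728640 (.pos 18 .mm ⟨⟨0, 0, 0, 0, 0, 280140, 0, 0, 0, ⟨0, 0⟩, 0⟩, 0, 0⟩ 0 0) (.pos 19 .mm ⟨⟨0, 0, 0, 0, 0, 666078, 0, 0, 0, ⟨0, 0⟩, 0⟩, 0, 0⟩ 0 0))))))))))))) (.cut .v 25165824 (.cut .d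 (-8388608) (.void 21 ⟨⟨0, 0, 0, 0, 0, 100000, 0, 0, 0, ⟨0, 0⟩, 0⟩, 0, 0⟩ 0 0) (.cut .d (-4194304) (.void 21 ⟨⟨0, 0, 0, 0, 0, 100000, 0, 0, 0, ⟨0, 0⟩, 0⟩, 0, 0⟩ 0 0) (.cut .v 20971520 (.cut .d (-2097152) (.void 23 ⟨⟨0, 0, 0, 0, 0, 100000, 0, 0, 0, ⟨0, 0⟩, 0⟩, 0, 0⟩ 0 0) (.cut .d (-1048576) (.void 23 ⟨⟨0, 0, 0, 0, 0, 100000, 0, 0, 0, ⟨0, 0⟩, 0⟩, 0, 0⟩ 0 0) (.cut .v 18874368 (.cut .d (-524288) (.void 25 ⟨⟨0, 0, 0, 0, 0, 100000, 0, 0, 0, ⟨0, 0⟩, 0⟩, 0, 0⟩ 0 0) (.pos 25 .mp ⟨⟨850319, 0, 0, 0, 0, 189999, 0, 0, 0, ⟨0, 0⟩, 0⟩, 0, 0⟩ 0 0)) (.void 26 ⟨⟨100000, 0, 0, 0, 0, 0, 0, 0, 0, ⟨0, 0⟩, 0⟩, 0, 0⟩ 0 0)))) (.void 24 ⟨⟨100000, 0, 0, 0,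 0, 0, 0, 0, 0, ⟨0, 0⟩, 0⟩, 0, 0⟩ 0 0)))) (.void 22 ⟨⟨0, 0, 0, 0, 0, 0, 100000, 0, 0, ⟨0, 0⟩, 0⟩, 0, 0⟩ 0 0))) (.cut .v 16777216 (.cut .v 8388608 (.void 2 ⟨⟨0, 0, 0, 0, 100000, 0, 0, 0, 0, ⟨0, 0⟩, 0⟩, 0, 0⟩ 0 0) (.cut .v 12582912 (.void 6 ⟨⟨0, 0, 0, 0, 0, 0, 0, 0, 100000, ⟨0, 0⟩, 13128881⟩, 0, 0⟩ 0 0) (.cut .v 14680064 (.pos 10 .pm ⟨⟨0, 0, 0, 0, 0, 0, 0, 0, 1557488, ⟨0, 0⟩, 15100357⟩, 0, 0⟩ 0 0) (.cut .d 1303476 (.cut .d 651738 (.cut .s 4161536 (.pos 11 .pm ⟨⟨0, 0, 0, 0, 0, 0, 0, 0, 0, ⟨0, 0⟩, 0⟩, 0, 402189⟩ 0 0) (.cut .v 15728640 (.pos 18 .pm ⟨⟨0, 0, 0, 0, 0, 0, 0, 0, 0, ⟨0, 0⟩, 0⟩, 0, 449363⟩ 0 0) (.cut .d 325869 (.pos 19 .pm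 ⟨⟨0, 0, 0, 0, 0, 0, 0, 0, 0, ⟨0, 0⟩, 0⟩, 0, 276405⟩ 0 0) (.pos 19 .pm ⟨⟨0, 0, 0, 0, 0, 0, 0, 0, 0, ⟨0, 0⟩, 0⟩, 0, 585684⟩ 0 0)))) (.void 11 ⟨⟨0, 0, 0, 0, 0, 0, 0, 0, 0, ⟨0, 0⟩, 0⟩, 0, 100000⟩ 0 0)) (.void 11 ⟨⟨0, 0, 0, 0, 0, 0, 0, 0, 0, ⟨0, 0⟩, 0⟩, 0, 100000⟩ 0 0))))) (.cut .v 25165824 (.cut .v 20971520 (.cut .v 18874368 (.cut .d 1303476 (.cut .d 651738 (.cut .v 17825792 (.cut .d 325869 (.cut .v 17301504 (.cut .s 4161536 (.cut .l 167772 (.cut .d 162934 (.cut .s 3981312 (.pos 29 .pp ⟨⟨299778, 0, 0, 0, 0, 0, 0, 0, 0, ⟨0, 0⟩, 0⟩, 0, 374075⟩ 0 0) (.pos 29 .pp ⟨⟨250020, 0, 0, 0, 0, 0, 0, 0, 0, ⟨0, 0⟩, 0⟩, 0, 320995⟩ 0 0)) (.pos 29 .pp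 ⟨⟨160426, 0, 0, 0, 0, 0, 0, 0, 0, ⟨0, 0⟩, 0⟩, 0, 521186⟩ 0 0)) (.pos 29 .pp ⟨⟨202789, 0, 0, 0, 0, 0, 0, 0, 0, ⟨0, 0⟩, 0⟩, 0, 312868⟩ 0 0)) (.cut .s 4341760 (.cut .s 4251648 (.pos 29 .pp ⟨⟨194553, 0, 0, 0, 0, 0, 0, 0, 0, ⟨0, 0⟩, 0⟩, 0, 311522⟩ 0 0) (.pos 29 .pp ⟨⟨179226, 0, 0, 0, 0, 0, 0, 0, 0, ⟨0, 0⟩, 0⟩, 0, 286738⟩ 0 0)) (.pos 29 .pp ⟨⟨141805, 0, 0, 0, 0, 0, 0, 0, 0, ⟨0, 0⟩, 0⟩, 0, 249721⟩ 0 0))) (.pos 30 .pp ⟨⟨1495408, 0, 0, 0, 0, 0, 0, 0, 0, ⟨0, 0⟩, 0⟩, 0, 0⟩ 0 0)) (.cut .v 17301504 (.pos 29 .pp ⟨⟨32717, 0, 0, 0, 0, 0, 0, 0, 0, ⟨0, 0⟩, 0⟩, 0, 521119⟩ 0 0) (.pos 30 .pp ⟨⟨120875, 0, 0, 0, 0, 0, 0, 0, 0, ⟨0, 0⟩, 0⟩, 0, 521517⟩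 0 0))) (.void 28 ⟨⟨78446, 0, 0, 0, 0, 0, 0, 0, 0, ⟨0, 0⟩, 0⟩, 0, 21554⟩ 0 0)) (.void 25 ⟨⟨3389, 0, 0, 0, 0, 0, 0, 0, 0, ⟨0, 0⟩, 0⟩, 0, 96611⟩ 0 0)) (.void 25 ⟨⟨0, 0, 0, 0, 0, 0, 0, 0, 0, ⟨0, 0⟩, 0⟩, 0, 100000⟩ 0 0)) (.void 26 ⟨⟨0, 0, 0, 0, 0, 0, 100000, 0, 0, ⟨0, 0⟩, 0⟩, 0, 0⟩ 0 0)) (.void 24 ⟨⟨0, 0, 0, 0, 0, 0, 0, 0, 0, ⟨0, 0⟩, 0⟩, 22360, 77640⟩ 0 0)) (.void 22 ⟨⟨0, 0, 0, 0, 0, 0, 0, 0, 0, ⟨0, 0⟩, 0⟩, 100000, 0⟩ 0 0)))),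
    by decide +kernel⟩

theorem covers4 : cell.Covers Vale.Agent.P237.Petty.Cor.Grid.N11.table row4.1 :=
  ⟨(.cut .d 0 (.cut .v 16777216 (.cut .v 8388608 (.void 2 ⟨⟨0, 0, 0, 0, 50000, 50000, 0, 0, 0, ⟨0, 0⟩, 0⟩, 0, 0⟩ 0 0) (.cut .v 12582912 (.void 6 ⟨⟨0, 0, 0, 0, 0, 61015, 0, 0, 38985, ⟨0, 0⟩, 13128881⟩, 0, 0⟩ 0 0) (.cut .d (-8388608) (.void 7 ⟨⟨0, 0, 0, 0, 0, 100000, 0, 0, 0, ⟨0, 0⟩, 0⟩, 0, 0⟩ 0 0) (.cut .d (-4194304) (.void 7 ⟨⟨0, 0, 0, 0, 0, 100000, 0, 0, 0, ⟨0, 0⟩, 0⟩, 0, 0⟩ 0 0) (.cut .d (-2097152) (.void 7 ⟨⟨0, 0, 0, 0, 0, 100000, 0, 0, 0, ⟨0, 0⟩, 0⟩, 0, 0⟩ 0 0) (.cut .d (-1048576) (.void 7 ⟨⟨0, 0, 0, 0, 0, 100000, 0, 0,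 0, ⟨0, 0⟩, 0⟩, 0, 0⟩ 0 0) (.cut .v 14680064 (.pos 10 .mm ⟨⟨0, 0, 0, 0, 0, 1529623, 0, 0, 0, ⟨0, 0⟩, 0⟩, 0, 0⟩ 0 0) (.cut .d (-524288) (.void 11 ⟨⟨0, 0, 0, 0, 0, 100000, 0, 0, 0, ⟨0, 0⟩, 0⟩, 0, 0⟩ 0 0) (.cut .d (-262144) (.void 11 ⟨⟨0, 0, 0, 0, 0, 100000, 0, 0, 0, ⟨0, 0⟩, 0⟩, 0, 0⟩ 0 0) (.cut .v 15728640 (.pos 18 .mm ⟨⟨0, 0, 0, 0, 0, 805750, 0, 0, 0, ⟨0, 0⟩, 0⟩, 0, 0⟩ 0 0) (.cut .s 4882432 (.pos 19 .mm ⟨⟨0, 0, 0, 0, 0, 856349, 0, 0, 0, ⟨0, 0⟩, 0⟩, 0, 0⟩ 0 0) (.cut .d (-131072) (.pos 19 .mm ⟨⟨0, 0, 0, 0, 0, 1599504, 0, 0, 0, ⟨0, 0⟩, 0⟩, 0, 0⟩ 0 0) (.cut .v 16252928 (.pos 33 .mm ⟨⟨0, 0, 0, 0, 0, 858083, 0, 0, 0, ⟨0, 0⟩, 0⟩, 0, 0⟩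 0 0) (.pos 34 .mm ⟨⟨0, 0, 0, 0, 0, 1177202, 0, 0, 0, ⟨0, 0⟩, 0⟩, 0, 0⟩ 0 0)))))))))))))) (.cut .v 25165824 (.cut .d (-8388608) (.void 21 ⟨⟨0, 0, 0, 0, 0, 100000, 0, 0, 0, ⟨0, 0⟩, 0⟩, 0, 0⟩ 0 0) (.cut .d (-4194304) (.void 21 ⟨⟨0, 0, 0, 0, 0, 100000, 0, 0, 0, ⟨0, 0⟩, 0⟩, 0, 0⟩ 0 0) (.cut .d (-2097152) (.void 21 ⟨⟨0, 0, 0, 0, 0, 100000, 0, 0, 0, ⟨0, 0⟩, 0⟩, 0, 0⟩ 0 0) (.cut .v 20971520 (.cut .d (-1048576) (.void 23 ⟨⟨0, 0, 0, 0, 0, 100000, 0, 0, 0, ⟨0, 0⟩, 0⟩, 0, 0⟩ 0 0) (.cut .d (-524288) (.void 23 ⟨⟨0, 0, 0, 0, 0, 100000, 0, 0, 0, ⟨0, 0⟩, 0⟩, 0, 0⟩ 0 0) (.cut .v 18874368 (.cut .d (-262144) (.void 25 ⟨⟨0, 0, 0, 0, 0, 100000, 0, 0,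 0, ⟨0, 0⟩, 0⟩, 0, 0⟩ 0 0) (.cut .v 17825792 (.cut .s 4882432 (.pos 27 .mp ⟨⟨369412, 0, 0, 0, 0, 650562, 0, 0, 0, ⟨0, 0⟩, 0⟩, 0, 0⟩ 0 0) (.cut .d (-131072) (.pos 27 .mp ⟨⟨456673, 0, 0, 0, 0, 1311211, 0, 0, 0, ⟨0, 0⟩, 0⟩, 0, 0⟩ 0 0) (.cut .s 5062656 (.pos 27 .mp ⟨⟨281491, 0, 0, 0, 0, 868302, 0, 0, 0, ⟨0, 0⟩, 0⟩, 0, 0⟩ 0 0) (.pos 27 .mp ⟨⟨326600, 0, 0, 0, 0, 1017951, 0, 0, 0, ⟨0, 0⟩, 0⟩, 0, 0⟩ 0 0)))) (.void 28 ⟨⟨100000, 0, 0, 0, 0, 0, 0, 0, 0, ⟨0, 0⟩, 0⟩, 0, 0⟩ 0 0))) (.void 26 ⟨⟨100000, 0, 0, 0, 0, 0, 0, 0, 0, ⟨0, 0⟩, 0⟩, 0, 0⟩ 0 0)))) (.void 24 ⟨⟨100000, 0, 0, 0, 0, 0, 0, 0, 0, ⟨0, 0⟩, 0⟩, 0, 0⟩ 0 0))))) (.void 22 ⟨⟨0, 0, 0, 0,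 0, 0, 100000, 0, 0, ⟨0, 0⟩, 0⟩, 0, 0⟩ 0 0))) (.cut .v 16777216 (.cut .v 8388608 (.void 2 ⟨⟨0, 0, 0, 0, 100000, 0, 0, 0, 0, ⟨0, 0⟩, 0⟩, 0, 0⟩ 0 0) (.cut .v 12582912 (.void 6 ⟨⟨0, 0, 0, 0, 0, 0, 0, 0, 100000, ⟨0, 0⟩, 13128881⟩, 0, 0⟩ 0 0) (.cut .d 1735653 (.cut .d 867826 (.cut .v 14680064 (.cut .d 433913 (.pos 10 .pm ⟨⟨0, 0, 0, 0, 0, 0, 0, 0, 0, ⟨0, 0⟩, 0⟩, 0, 282216⟩ 0 0) (.pos 10 .pm ⟨⟨0, 0, 0, 0, 0, 0, 0, 0, 0, ⟨0, 0⟩, 0⟩, 0, 1024636⟩ 0 0)) (.cut .d 433913 (.cut .v 15728640 (.pos 18 .pm ⟨⟨0, 0, 0, 0, 0, 0, 0, 0, 0, ⟨0, 0⟩, 0⟩, 0, 264765⟩ 0 0) (.cut .v 16252928 (.pos 33 .pm ⟨⟨0, 0, 0, 0, 0, 0, 0, 0, 0, ⟨0, 0⟩, 0⟩, 0, 250975⟩ 0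 0) (.pos 34 .pm ⟨⟨0, 0, 0, 0, 0, 0, 0, 0, 0, ⟨0, 0⟩, 0⟩, 0, 236438⟩ 0 0))) (.cut .v 15728640 (.pos 18 .pm ⟨⟨0, 0, 0, 0, 0, 0, 0, 0, 0, ⟨0, 0⟩, 0⟩, 0, 929474⟩ 0 0) (.cut .s 4882432 (.pos 19 .pm ⟨⟨0, 0, 0, 0, 0, 0, 0, 0, 0, ⟨0, 0⟩, 0⟩, 0, 798459⟩ 0 0) (.pos 19 .pm ⟨⟨0, 0, 0, 0, 0, 0, 0, 0, 0, ⟨0, 0⟩, 0⟩, 0, 849494⟩ 0 0))))) (.void 7 ⟨⟨0, 0, 0, 0, 0, 0, 0, 0, 0, ⟨0, 0⟩, 0⟩, 0, 100000⟩ 0 0)) (.void 7 ⟨⟨0, 0, 0, 0, 0, 0, 0, 0, 0, ⟨0, 0⟩, 0⟩, 0, 100000⟩ 0 0)))) (.cut .v 25165824 (.cut .v 20971520 (.cut .d 1735653 (.cut .v 18874368 (.cut .d 867826 (.cut .v 17825792 (.cut .d 433913 (.cut .d 216956 (.pos 27 .pp ⟨⟨204235, 0, 0, 0, 0, 0,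 0, 0, 0, ⟨0, 0⟩, 0⟩, 0, 204088⟩ 0 0) (.pos 27 .pp ⟨⟨4855, 0, 0, 0, 0, 0, 0, 0, 0, ⟨0, 0⟩, 0⟩, 0, 294595⟩ 0 0)) (.pos 27 .pp ⟨⟨0, 0, 0, 0, 0, 0, 0, 0, 0, ⟨0, 0⟩, 0⟩, 0, 690074⟩ 0 0)) (.void 28 ⟨⟨75724, 0, 0, 0, 0, 0, 0, 0, 0, ⟨0, 0⟩, 0⟩, 0, 24276⟩ 0 0)) (.void 25 ⟨⟨0, 0, 0, 0, 0, 0, 0, 0, 0, ⟨0, 0⟩, 0⟩, 0, 100000⟩ 0 0)) (.void 26 ⟨⟨0, 0, 0, 0, 0, 0, 100000, 0, 0, ⟨0, 0⟩, 0⟩, 0, 0⟩ 0 0)) (.void 23 ⟨⟨0, 0, 0, 0, 0, 0, 0, 0, 0, ⟨0, 0⟩, 0⟩, 625, 99375⟩ 0 0)) (.void 24 ⟨⟨0, 0, 0, 0, 0, 0, 0, 0, 0, ⟨0, 0⟩, 0⟩, 22346, 77654⟩ 0 0)) (.void 22 ⟨⟨0, 0, 0, 0, 0, 0, 0, 0, 0, ⟨0, 0⟩, 0⟩, 22346, 77654⟩ 0 0)))),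
    by decide +kernel⟩

theorem covers5 : cell.Covers Vale.Agent.P237.Petty.Cor.Grid.N11.table row5.1 :=
  ⟨(.cut .d 0 (.cut .v 16777216 (.cut .v 8388608 (.void 2 ⟨⟨0, 0, 0, 0, 50000, 50000, 0, 0, 0, ⟨0, 0⟩, 0⟩, 0, 0⟩ 0 0) (.cut .d (-8388608) (.void 3 ⟨⟨0, 0, 0, 0, 0, 100000, 0, 0, 0, ⟨0, 0⟩, 0⟩, 0, 0⟩ 0 0) (.cut .d (-4194304) (.void 3 ⟨⟨0, 0, 0, 0, 0, 100000, 0, 0, 0, ⟨0, 0⟩, 0⟩, 0, 0⟩ 0 0) (.cut .v 12582912 (.pos 6 .mm ⟨⟨0, 0, 0, 0, 0, 7712215, 0, 0, 11506, ⟨0, 0⟩, 13128881⟩, 0, 0⟩ 0 0) (.cut .d (-2097152) (.void 7 ⟨⟨0, 0, 0, 0, 0, 100000, 0, 0, 0, ⟨0, 0⟩, 0⟩, 0, 0⟩ 0 0) (.cut .d (-1048576) (.void 7 ⟨⟨0, 0, 0, 0, 0, 100000, 0,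 0, 0, ⟨0, 0⟩, 0⟩, 0, 0⟩ 0 0) (.cut .d (-524288) (.void 7 ⟨⟨0, 0, 0, 0, 0, 100000, 0, 0, 0, ⟨0, 0⟩, 0⟩, 0, 0⟩ 0 0) (.cut .v 14680064 (.pos 10 .mm ⟨⟨0, 0, 0, 0, 0, 1936172, 0, 0, 0, ⟨0, 0⟩, 0⟩, 0, 0⟩ 0 0) (.cut .d (-262144) (.void 11 ⟨⟨0, 0, 0, 0, 0, 100000, 0, 0, 0, ⟨0, 0⟩, 0⟩, 0, 0⟩ 0 0) (.cut .v 15728640 (.cut .s 5636096 (.pos 18 .mm ⟨⟨0, 0, 0, 0, 0, 1376388, 0, 0, 0, ⟨0, 0⟩, 0⟩, 0, 0⟩ 0 0) (.pos 18 .mm ⟨⟨0, 0, 0, 0, 0, 2010275, 0, 0, 0, ⟨0, 0⟩, 0⟩, 0, 0⟩ 0 0)) (.cut .d (-131072) (.cut .s 5636096 (.pos 19 .mm ⟨⟨0, 0, 0, 0, 0, 2211278, 0, 0, 0, ⟨0, 0⟩, 0⟩, 0, 0⟩ 0 0) (.pos 19 .mm ⟨⟨0, 0, 0, 0, 0, 3113099, 0, 0, 0, ⟨0, 0⟩, 0⟩, 0,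 0⟩ 0 0)) (.cut .s 5636096 (.cut .d (-65536) (.pos 19 .mm ⟨⟨0, 0, 0, 0, 0, 1859763, 0, 0, 0, ⟨0, 0⟩, 0⟩, 0, 0⟩ 0 0) (.cut .v 16252928 (.pos 33 .mm ⟨⟨0, 0, 0, 0, 0, 1183547, 0, 0, 0, ⟨0, 0⟩, 0⟩, 0, 0⟩ 0 0) (.cut .s 5439488 (.pos 34 .mm ⟨⟨0, 0, 0, 0, 0, 1393147, 0, 0, 0, ⟨0, 0⟩, 0⟩, 0, 0⟩ 0 0) (.pos 34 .mm ⟨⟨0, 0, 0, 0, 0, 1763946, 0, 0, 0, ⟨0, 0⟩, 0⟩, 0, 0⟩ 0 0)))) (.cut .s 5832704 (.cut .s 5734400 (.pos 19 .mm ⟨⟨0, 0, 0, 0, 0, 2069097, 0, 0, 0, ⟨0, 0⟩, 0⟩, 0, 0⟩ 0 0) (.pos 19 .mm ⟨⟨0, 0, 0, 0, 0, 2333975, 0, 0, 0, ⟨0, 0⟩, 0⟩, 0, 0⟩ 0 0)) (.pos 19 .mm ⟨⟨0, 0, 0, 0, 0, 2695530, 0, 0, 0, ⟨0, 0⟩, 0⟩, 0, 0⟩ 0 0)))))))))))))) (.cut .v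 25165824 (.cut .d (-8388608) (.void 21 ⟨⟨0, 0, 0, 0, 0, 100000, 0, 0, 0, ⟨0, 0⟩, 0⟩, 0, 0⟩ 0 0) (.cut .d (-4194304) (.void 21 ⟨⟨0, 0, 0, 0, 0, 100000, 0, 0, 0, ⟨0, 0⟩, 0⟩, 0, 0⟩ 0 0) (.cut .d (-2097152) (.void 21 ⟨⟨0, 0, 0, 0, 0, 100000, 0, 0, 0, ⟨0, 0⟩, 0⟩, 0, 0⟩ 0 0) (.cut .v 20971520 (.cut .d (-1048576) (.void 23 ⟨⟨0, 0, 0, 0, 0, 100000, 0, 0, 0, ⟨0, 0⟩, 0⟩, 0, 0⟩ 0 0) (.cut .d (-524288) (.void 23 ⟨⟨0, 0, 0, 0, 0, 100000, 0, 0, 0, ⟨0, 0⟩, 0⟩, 0, 0⟩ 0 0) (.cut .d (-262144) (.void 23 ⟨⟨0, 0, 0, 0, 0, 100000, 0, 0, 0, ⟨0, 0⟩, 0⟩, 0, 0⟩ 0 0) (.cut .v 18874368 (.cut .v 17825792 (.cut .v 17301504 (.cut .v 17039360 (.cut .d (-131072)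 (.cut .d (-196608) (.void 31 ⟨⟨0, 0, 0, 0, 0, 100000, 0, 0, 0, ⟨0, 0⟩, 0⟩, 0, 0⟩ 0 0) (.cut .s 5636096 (.pos 31 .mp ⟨⟨150647, 0, 0, 0, 0, 2107340, 0, 0, 0, ⟨0, 0⟩, 0⟩, 0, 0⟩ 0 0) (.pos 31 .mp ⟨⟨256124, 0, 0, 0, 0, 2958841, 0, 0, 0, ⟨0, 0⟩, 0⟩, 0, 0⟩ 0 0))) (.cut .v 16908288 (.cut .s 5636096 (.cut .s 5439488 (.pos 35 .mp ⟨⟨213165, 0, 0, 0, 0, 1352095, 0, 0, 0, ⟨0, 0⟩, 0⟩, 0, 0⟩ 0 0) (.cut .s 5537792 (.pos 35 .mp ⟨⟨321969, 0, 0, 0, 0, 1496264, 0, 0, 0, ⟨0, 0⟩, 0⟩, 0, 0⟩ 0 0) (.pos 35 .mp ⟨⟨320468, 0, 0, 0, 0, 1674758, 0, 0, 0, ⟨0, 0⟩, 0⟩, 0, 0⟩ 0 0))) (.cut .s 5832704 (.cut .s 5734400 (.pos 35 .mp ⟨⟨337127, 0, 0, 0, 0, 1852127, 0,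 0, 0, ⟨0, 0⟩, 0⟩, 0, 0⟩ 0 0) (.pos 35 .mp ⟨⟨379013, 0, 0, 0, 0, 2021433, 0, 0, 0, ⟨0, 0⟩, 0⟩, 0, 0⟩ 0 0)) (.cut .s 5931008 (.pos 35 .mp ⟨⟨438870, 0, 0, 0, 0, 2188698, 0, 0, 0, ⟨0, 0⟩, 0⟩, 0, 0⟩ 0 0) (.pos 35 .mp ⟨⟨515752, 0, 0, 0, 0, 2354299, 0, 0, 0, ⟨0, 0⟩, 0⟩, 0, 0⟩ 0 0)))) (.pos 36 .mp ⟨⟨2451946, 0, 0, 0, 0, 0, 0, 0, 0, ⟨0, 0⟩, 0⟩, 0, 0⟩ 0 0))) (.pos 32 .mp ⟨⟨3548904, 0, 0, 0, 0, 0, 0, 0, 0, ⟨0, 0⟩, 0⟩, 0, 0⟩ 0 0)) (.void 30 ⟨⟨100000, 0, 0, 0, 0, 0, 0, 0, 0, ⟨0, 0⟩, 0⟩, 0, 0⟩ 0 0)) (.void 28 ⟨⟨100000, 0, 0, 0, 0, 0, 0, 0, 0, ⟨0, 0⟩, 0⟩, 0, 0⟩ 0 0)) (.void 26 ⟨⟨100000, 0, 0, 0, 0, 0, 0, 0, 0, ⟨0, 0⟩, 0⟩, 0, 0⟩ 0 0))))) (.void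 24 ⟨⟨100000, 0, 0, 0, 0, 0, 0, 0, 0, ⟨0, 0⟩, 0⟩, 0, 0⟩ 0 0))))) (.void 22 ⟨⟨100000, 0, 0, 0, 0, 0, 0, 0, 0, ⟨0, 0⟩, 0⟩, 0, 0⟩ 0 0))) (.cut .v 16777216 (.cut .v 8388608 (.void 2 ⟨⟨0, 0, 0, 0, 100000, 0, 0, 0, 0, ⟨0, 0⟩, 0⟩, 0, 0⟩ 0 0) (.cut .d 2290185 (.cut .v 12582912 (.pos 6 .pm ⟨⟨0, 0, 0, 0, 0, 0, 0, 0, 2596260, ⟨0, 0⟩, 13128881⟩, 0, 0⟩ 0 0) (.cut .d 1145092 (.cut .d 572546 (.cut .v 14680064 (.pos 10 .pm ⟨⟨0, 0, 0, 0, 0, 0, 0, 0, 0, ⟨0, 0⟩, 0⟩, 0, 415164⟩ 0 0) (.cut .v 15728640 (.cut .d 286273 (.pos 18 .pm ⟨⟨0, 0, 0, 0, 0, 0, 0, 0, 0, ⟨0, 0⟩, 0⟩, 0, 27281⟩ 0 0) (.pos 18 .pm ⟨⟨0, 0, 0, 0, 0, 0, 0, 0, 0, ⟨0, 0⟩, 0⟩, 0, 629115⟩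 0 0)) (.cut .v 16252928 (.pos 33 .pm ⟨⟨0, 0, 0, 0, 0, 0, 0, 0, 0, ⟨0, 0⟩, 0⟩, 0, 260799⟩ 0 0) (.pos 34 .pm ⟨⟨0, 0, 0, 0, 0, 0, 0, 0, 0, ⟨0, 0⟩, 0⟩, 0, 178699⟩ 0 0)))) (.void 7 ⟨⟨0, 0, 0, 0, 0, 0, 0, 0, 0, ⟨0, 0⟩, 0⟩, 0, 100000⟩ 0 0)) (.void 7 ⟨⟨0, 0, 0, 0, 0, 0, 0, 0, 0, ⟨0, 0⟩, 0⟩, 0, 100000⟩ 0 0))) (.void 3 ⟨⟨0, 0, 0, 0, 0, 0, 0, 0, 0, ⟨0, 0⟩, 0⟩, 0, 100000⟩ 0 0))) (.cut .v 25165824 (.cut .v 20971520 (.cut .d 2290185 (.cut .d 1145092 (.cut .v 18874368 (.cut .d 572546 (.cut .d 286273 (.cut .s 5636096 (.pos 25 .pp ⟨⟨838358, 0, 0, 0, 0, 0, 0, 0, 0, ⟨0, 0⟩, 0⟩, 0, 109857⟩ 0 0) (.pos 25 .pp ⟨⟨1235512, 0, 0, 0, 0, 0, 0, 0, 0, ⟨0, 0⟩,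 0⟩, 0, 78725⟩ 0 0)) (.pos 25 .pp ⟨⟨195314, 0, 0, 0, 0, 0, 0, 0, 0, ⟨0, 0⟩, 0⟩, 0, 283817⟩ 0 0)) (.pos 25 .pp ⟨⟨529771, 0, 0, 0, 0, 0, 0, 0, 0, ⟨0, 0⟩, 0⟩, 0, 6712329⟩ 0 0)) (.void 26 ⟨⟨72905, 0, 0, 0, 0, 0, 0, 0, 0, ⟨0, 0⟩, 0⟩, 0, 27095⟩ 0 0)) (.void 23 ⟨⟨0, 0, 0, 0, 0, 0, 0, 0, 0, ⟨0, 0⟩, 0⟩, 985, 99015⟩ 0 0)) (.void 23 ⟨⟨0, 0, 0, 0, 0, 0, 0, 0, 0, ⟨0, 0⟩, 0⟩, 0, 100000⟩ 0 0)) (.void 24 ⟨⟨0, 0, 0, 0, 0, 0, 0, 0, 0, ⟨0, 0⟩, 0⟩, 21990, 78010⟩ 0 0)) (.void 22 ⟨⟨0, 0, 0, 0, 0, 0, 0, 0, 0, ⟨0, 0⟩, 0⟩, 21990, 78010⟩ 0 0)))),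
    by decide +kernel⟩

theorem covers6 : cell.Covers Vale.Agent.P237.Petty.Cor.Grid.N11.table row6.1 :=
  ⟨(.cut .d 0 (.cut .v 16777216 (.cut .v 8388608 (.void 2 ⟨⟨0, 0, 0, 0, 50000, 50000, 0, 0, 0, ⟨0, 0⟩, 0⟩, 0, 0⟩ 0 0) (.cut .d (-8388608) (.void 3 ⟨⟨0, 0, 0, 0, 0, 100000, 0, 0, 0, ⟨0, 0⟩, 0⟩, 0, 0⟩ 0 0) (.cut .d (-4194304) (.void 3 ⟨⟨0, 0, 0, 0, 0, 100000, 0, 0, 0, ⟨0, 0⟩, 0⟩, 0, 0⟩ 0 0) (.cut .v 12582912 (.pos 6 .mm ⟨⟨0, 0, 0, 0, 0, 11235745, 0, 0, 0, ⟨0, 0⟩, 0⟩, 0, 0⟩ 0 0) (.cut .d (-2097152) (.void 7 ⟨⟨0, 0, 0, 0, 0, 100000, 0, 0, 0, ⟨0, 0⟩, 0⟩, 0, 0⟩ 0 0) (.cut .d (-1048576) (.void 7 ⟨⟨0, 0, 0, 0, 0, 100000, 0, 0, 0, ⟨0,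 0⟩, 0⟩, 0, 0⟩ 0 0) (.cut .d (-524288) (.void 7 ⟨⟨0, 0, 0, 0, 0, 100000, 0, 0, 0, ⟨0, 0⟩, 0⟩, 0, 0⟩ 0 0) (.cut .v 14680064 (.pos 10 .mm ⟨⟨0, 0, 0, 0, 0, 3302589, 0, 0, 0, ⟨0, 0⟩, 0⟩, 0, 0⟩ 0 0) (.cut .d (-262144) (.void 11 ⟨⟨0, 0, 0, 0, 0, 100000, 0, 0, 0, ⟨0, 0⟩, 0⟩, 0, 0⟩ 0 0) (.cut .d (-131072) (.pos 11 .mm ⟨⟨0, 0, 0, 0, 0, 5563437, 0, 0, 0, ⟨0, 0⟩, 0⟩, 0, 0⟩ 0 0) (.cut .v 15728640 (.pos 18 .mm ⟨⟨0, 0, 0, 0, 0, 2101800, 0, 0, 0, ⟨0, 0⟩, 0⟩, 0, 0⟩ 0 0) (.cut .v 16252928 (.pos 33 .mm ⟨⟨0, 0, 0, 0, 0, 3170833, 0, 0, 0, ⟨0, 0⟩, 0⟩, 0, 0⟩ 0 0) (.cut .s 6422528 (.cut .s 6225920 (.pos 34 .mm ⟨⟨0, 0, 0, 0, 0, 3209535, 0, 0, 0, ⟨0, 0⟩,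 0⟩, 0, 0⟩ 0 0) (.cut .s 6324224 (.pos 34 .mm ⟨⟨0, 0, 0, 0, 0, 3559608, 0, 0, 0, ⟨0, 0⟩, 0⟩, 0, 0⟩ 0 0) (.pos 34 .mm ⟨⟨0, 0, 0, 0, 0, 3830745, 0, 0, 0, ⟨0, 0⟩, 0⟩, 0, 0⟩ 0 0))) (.cut .d (-65536) (.pos 34 .mm ⟨⟨0, 0, 0, 0, 0, 4995395, 0, 0, 0, ⟨0, 0⟩, 0⟩, 0, 0⟩ 0 0) (.cut .s 6619136 (.pos 34 .mm ⟨⟨0, 0, 0, 0, 0, 4203612, 0, 0, 0, ⟨0, 0⟩, 0⟩, 0, 0⟩ 0 0) (.pos 34 .mm ⟨⟨0, 0, 0, 0, 0, 4887224, 0, 0, 0, ⟨0, 0⟩, 0⟩, 0, 0⟩ 0 0)))))))))))))))) (.cut .v 25165824 (.cut .d (-8388608) (.void 21 ⟨⟨0, 0, 0, 0, 0, 100000, 0, 0, 0, ⟨0, 0⟩, 0⟩, 0, 0⟩ 0 0) (.cut .d (-4194304) (.void 21 ⟨⟨0, 0, 0, 0, 0, 100000, 0, 0, 0, ⟨0, 0⟩, 0⟩, 0, 0⟩ 0 0) (.cut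 .d (-2097152) (.void 21 ⟨⟨0, 0, 0, 0, 0, 100000, 0, 0, 0, ⟨0, 0⟩, 0⟩, 0, 0⟩ 0 0) (.cut .v 20971520 (.cut .d (-1048576) (.void 23 ⟨⟨0, 0, 0, 0, 0, 100000, 0, 0, 0, ⟨0, 0⟩, 0⟩, 0, 0⟩ 0 0) (.cut .d (-524288) (.void 23 ⟨⟨0, 0, 0, 0, 0, 100000, 0, 0, 0, ⟨0, 0⟩, 0⟩, 0, 0⟩ 0 0) (.cut .d (-262144) (.void 23 ⟨⟨0, 0, 0, 0, 0, 100000, 0, 0, 0, ⟨0, 0⟩, 0⟩, 0, 0⟩ 0 0) (.cut .v 18874368 (.cut .v 17825792 (.cut .v 17301504 (.cut .v 17039360 (.cut .d (-131072) (.cut .s 6422528 (.pos 31 .mp ⟨⟨653328, 0, 0, 0, 0, 4265295, 0, 0, 0, ⟨0, 0⟩, 0⟩, 0, 0⟩ 0 0) (.void 31 ⟨⟨0, 0, 0, 0, 0, 100000, 0, 0, 0, ⟨0, 0⟩, 0⟩, 0, 0⟩ 0 0)) (.cut .s 6422528 (.cut .v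 16908288 (.cut .s 6225920 (.cut .s 6127616 (.pos 35 .mp ⟨⟨615878, 0, 0, 0, 0, 2513942, 0, 0, 0, ⟨0, 0⟩, 0⟩, 0, 0⟩ 0 0) (.pos 35 .mp ⟨⟨675056, 0, 0, 0, 0, 2674802, 0, 0, 0, ⟨0, 0⟩, 0⟩, 0, 0⟩ 0 0)) (.cut .d (-65536) (.pos 35 .mp ⟨⟨479125, 0, 0, 0, 0, 3558593, 0, 0, 0, ⟨0, 0⟩, 0⟩, 0, 0⟩ 0 0) (.cut .s 6324224 (.pos 35 .mp ⟨⟨790225, 0, 0, 0, 0, 2734196, 0, 0, 0, ⟨0, 0⟩, 0⟩, 0, 0⟩ 0 0) (.pos 35 .mp ⟨⟨837347, 0, 0, 0, 0, 2944827, 0, 0, 0, ⟨0, 0⟩, 0⟩, 0, 0⟩ 0 0)))) (.pos 36 .mp ⟨⟨4096143, 0, 0, 0, 0, 0, 0, 0, 0, ⟨0, 0⟩, 0⟩, 0, 0⟩ 0 0)) (.cut .v 16908288 (.cut .s 6619136 (.cut .d (-65536) (.cut .s 6520832 (.pos 35 .mp ⟨⟨678751, 0, 0, 0,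 0, 3732475, 0, 0, 0, ⟨0, 0⟩, 0⟩, 0, 0⟩ 0 0) (.pos 35 .mp ⟨⟨798750, 0, 0, 0, 0, 3943724, 0, 0, 0, ⟨0, 0⟩, 0⟩, 0, 0⟩ 0 0)) (.cut .s 6520832 (.pos 35 .mp ⟨⟨912487, 0, 0, 0, 0, 3153040, 0, 0, 0, ⟨0, 0⟩, 0⟩, 0, 0⟩ 0 0) (.pos 35 .mp ⟨⟨1019831, 0, 0, 0, 0, 3354013, 0, 0, 0, ⟨0, 0⟩, 0⟩, 0, 0⟩ 0 0))) (.cut .d (-65536) (.cut .s 6717440 (.pos 35 .mp ⟨⟨932531, 0, 0, 0, 0, 4166655, 0, 0, 0, ⟨0, 0⟩, 0⟩, 0, 0⟩ 0 0) (.pos 35 .mp ⟨⟨1080354, 0, 0, 0, 0, 4400869, 0, 0, 0, ⟨0, 0⟩, 0⟩, 0, 0⟩ 0 0)) (.cut .s 6717440 (.pos 35 .mp ⟨⟨1174321, 0, 0, 0, 0, 3531426, 0, 0, 0, ⟨0, 0⟩, 0⟩, 0, 0⟩ 0 0) (.pos 35 .mp ⟨⟨1343719, 0, 0, 0, 0, 3718585, 0, 0, 0, ⟨0, 0⟩,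 0⟩, 0, 0⟩ 0 0)))) (.pos 36 .mp ⟨⟨5094676, 0, 0, 0, 0, 0, 0, 0, 0, ⟨0, 0⟩, 0⟩, 0, 0⟩ 0 0)))) (.pos 32 .mp ⟨⟨6317872, 0, 0, 0, 0, 0, 0, 0, 0, ⟨0, 0⟩, 0⟩, 0, 0⟩ 0 0)) (.void 30 ⟨⟨100000, 0, 0, 0, 0, 0, 0, 0, 0, ⟨0, 0⟩, 0⟩, 0, 0⟩ 0 0)) (.void 28 ⟨⟨100000, 0, 0, 0, 0, 0, 0, 0, 0, ⟨0, 0⟩, 0⟩, 0, 0⟩ 0 0)) (.void 26 ⟨⟨100000, 0, 0, 0, 0, 0, 0, 0, 0, ⟨0, 0⟩, 0⟩, 0, 0⟩ 0 0))))) (.void 24 ⟨⟨100000, 0, 0, 0, 0, 0, 0, 0, 0, ⟨0, 0⟩, 0⟩, 0, 0⟩ 0 0))))) (.void 22 ⟨⟨100000, 0, 0, 0, 0, 0, 0, 0, 0, ⟨0, 0⟩, 0⟩, 0, 0⟩ 0 0))) (.cut .v 16777216 (.cut .v 8388608 (.void 2 ⟨⟨0, 0, 0, 0, 100000, 0, 0, 0, 0, ⟨0, 0⟩, 0⟩, 0, 0⟩ 0 0) (.cut .d 2936903 (.cut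 .d 1468451 (.cut .v 12582912 (.pos 6 .pm ⟨⟨0, 0, 0, 0, 0, 0, 0, 0, 0, ⟨0, 0⟩, 0⟩, 0, 1264371⟩ 0 0) (.cut .d 734225 (.cut .v 14680064 (.pos 10 .pm ⟨⟨0, 0, 0, 0, 0, 0, 0, 0, 0, ⟨0, 0⟩, 0⟩, 0, 427771⟩ 0 0) (.cut .v 15728640 (.pos 18 .pm ⟨⟨0, 0, 0, 0, 0, 0, 0, 0, 0, ⟨0, 0⟩, 0⟩, 0, 271904⟩ 0 0) (.pos 19 .pm ⟨⟨0, 0, 0, 0, 0, 0, 0, 0, 0, ⟨0, 0⟩, 0⟩, 0, 82886⟩ 0 0))) (.void 7 ⟨⟨0, 0, 0, 0, 0, 0, 0, 0, 0, ⟨0, 0⟩, 0⟩, 0, 100000⟩ 0 0))) (.void 3 ⟨⟨0, 0, 0, 0, 0, 0, 0, 0, 0, ⟨0, 0⟩, 0⟩, 0, 100000⟩ 0 0)) (.void 3 ⟨⟨0, 0, 0, 0, 0, 0, 0, 0, 0, ⟨0, 0⟩, 0⟩, 0, 100000⟩ 0 0))) (.cut .v 25165824 (.cut .v 20971520 (.cut .d 2936903 (.cut .d 1468451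 (.cut .v 18874368 (.cut .d 734225 (.cut .d 367112 (.cut .s 6422528 (.pos 25 .pp ⟨⟨1816415, 0, 0, 0, 0, 0, 0, 0, 0, ⟨0, 0⟩, 0⟩, 0, 85482⟩ 0 0) (.pos 25 .pp ⟨⟨2671849, 0, 0, 0, 0, 0, 0, 0, 0, ⟨0, 0⟩, 0⟩, 0, 50959⟩ 0 0)) (.pos 25 .pp ⟨⟨427288, 0, 0, 0, 0, 0, 0, 0, 0, ⟨0, 0⟩, 0⟩, 0, 462559⟩ 0 0)) (.void 25 ⟨⟨0, 0, 0, 0, 0, 0, 0, 0, 0, ⟨0, 0⟩, 0⟩, 0, 100000⟩ 0 0)) (.void 26 ⟨⟨70223, 0, 0, 0, 0, 0, 0, 0, 0, ⟨0, 0⟩, 0⟩, 0, 29777⟩ 0 0)) (.void 23 ⟨⟨0, 0, 0, 0, 0, 0, 0, 0, 0, ⟨0, 0⟩, 0⟩, 0, 100000⟩ 0 0)) (.void 23 ⟨⟨0, 0, 0, 0, 0, 0, 0, 0, 0, ⟨0, 0⟩, 0⟩, 0, 100000⟩ 0 0)) (.void 24 ⟨⟨0, 0, 0, 0, 0, 0, 0, 0, 0, ⟨0, 0⟩, 0⟩, 21421, 78579⟩ 0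 0)) (.void 22 ⟨⟨0, 0, 0, 0, 0, 0, 0, 0, 0, ⟨0, 0⟩, 0⟩, 21421, 78579⟩ 0 0)))),
    by decide +kernel⟩

theorem covers7 : cell.Covers Vale.Agent.P237.Petty.Cor.Grid.N11.table row7.1 :=
  ⟨(.cut .d 0 (.cut .v 16777216 (.cut .d (-8388608) (.void 1 ⟨⟨0, 0, 0, 0, 0, 100000, 0, 0, 0, ⟨0, 0⟩, 0⟩, 0, 0⟩ 0 0) (.cut .d (-4194304) (.void 1 ⟨⟨0, 0, 0, 0, 0, 100000, 0, 0, 0, ⟨0, 0⟩, 0⟩, 0, 0⟩ 0 0) (.cut .d (-2097152) (.void 1 ⟨⟨0, 0, 0, 0, 0, 100000, 0, 0, 0, ⟨0, 0⟩, 0⟩, 0, 0⟩ 0 0) (.cut .d (-1048576) (.void 1 ⟨⟨0, 0, 0, 0, 0, 100000, 0, 0, 0, ⟨0, 0⟩, 0⟩, 0, 0⟩ 0 0) (.cut .d (-524288) (.void 1 ⟨⟨0, 0, 0, 0, 0, 100000, 0, 0, 0, ⟨0, 0⟩, 0⟩, 0,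 0⟩ 0 0) (.cut .d (-262144) (.void 1 ⟨⟨0, 0, 0, 0, 0, 100000, 0, 0, 0, ⟨0, 0⟩, 0⟩, 0, 0⟩ 0 0) (.cut .d (-131072) (.void 1 ⟨⟨0, 0, 0, 0, 0, 100000, 0, 0, 0, ⟨0, 0⟩, 0⟩, 0, 0⟩ 0 0) (.cut .v 8388608 (.cut .v 4194304 (.void 4 ⟨⟨0, 0, 100000, 0, 0, 0, 0, 0, 0, ⟨0, 0⟩, 0⟩, 0, 0⟩ 0 0) (.void 5 ⟨⟨0, 0, 0, 0, 0, 0, 0, 0, 100000, ⟨0, 0⟩, 9975792⟩, 0, 0⟩ 0 0)) (.cut .v 12582912 (.pos 6 .mm ⟨⟨0, 0, 0, 0, 0, 1807077, 0, 0, 0, ⟨0, 0⟩, 0⟩, 0, 0⟩ 0 0) (.cut .v 14680064 (.pos 10 .mm ⟨⟨0, 0, 0, 0, 0, 3062034, 0, 0, 0, ⟨0, 0⟩, 0⟩, 0, 0⟩ 0 0) (.cut .v 15728640 (.pos 18 .mm ⟨⟨0, 0, 0, 0, 0, 3937339, 0, 0, 0, ⟨0, 0⟩, 0⟩, 0, 0⟩ 0 0) (.cut .v 16252928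 (.pos 33 .mm ⟨⟨0, 0, 0, 0, 0, 5241613, 0, 0, 0, ⟨0, 0⟩, 0⟩, 0, 0⟩ 0 0) (.cut .v 16515072 (.pos 39 .mm ⟨⟨0, 0, 0, 0, 0, 6274009, 0, 0, 0, ⟨0, 0⟩, 0⟩, 0, 0⟩ 0 0) (.cut .s 7176192 (.cut .s 6995968 (.pos 40 .mm ⟨⟨0, 0, 0, 0, 0, 5729279, 0, 0, 0, ⟨0, 0⟩, 0⟩, 0, 0⟩ 0 0) (.pos 40 .mm ⟨⟨0, 0, 0, 0, 0, 6479711, 0, 0, 0, ⟨0, 0⟩, 0⟩, 0, 0⟩ 0 0)) (.cut .s 7356416 (.pos 40 .mm ⟨⟨0, 0, 0, 0, 0, 7363177, 0, 0, 0, ⟨0, 0⟩, 0⟩, 0, 0⟩ 0 0) (.pos 40 .mm ⟨⟨0, 0, 0, 0, 0, 8378242, 0, 0, 0, ⟨0, 0⟩, 0⟩, 0, 0⟩ 0 0)))))))))))))))) (.cut .v 25165824 (.cut .d (-8388608) (.void 21 ⟨⟨0, 0, 0, 0, 0, 100000, 0, 0, 0, ⟨0, 0⟩, 0⟩, 0, 0⟩ 0 0) (.cut .d (-4194304)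 (.void 21 ⟨⟨0, 0, 0, 0, 0, 100000, 0, 0, 0, ⟨0, 0⟩, 0⟩, 0, 0⟩ 0 0) (.cut .d (-2097152) (.void 21 ⟨⟨0, 0, 0, 0, 0, 100000, 0, 0, 0, ⟨0, 0⟩, 0⟩, 0, 0⟩ 0 0) (.cut .v 20971520 (.cut .d (-1048576) (.void 23 ⟨⟨0, 0, 0, 0, 0, 100000, 0, 0, 0, ⟨0, 0⟩, 0⟩, 0, 0⟩ 0 0) (.cut .d (-524288) (.void 23 ⟨⟨0, 0, 0, 0, 0, 100000, 0, 0, 0, ⟨0, 0⟩, 0⟩, 0, 0⟩ 0 0) (.cut .v 18874368 (.cut .d (-262144) (.void 25 ⟨⟨0, 0, 0, 0, 0, 100000, 0, 0, 0, ⟨0, 0⟩, 0⟩, 0, 0⟩ 0 0) (.cut .d (-131072) (.void 25 ⟨⟨0, 0, 0, 0, 0, 100000, 0, 0, 0, ⟨0, 0⟩, 0⟩, 0, 0⟩ 0 0) (.cut .v 17825792 (.cut .v 17301504 (.cut .v 17039360 (.cut .s 7176192 (.cut .v 16908288 (.cut .d (-65536)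 (.cut .s 6995968 (.pos 35 .mp ⟨⟨1242846, 0, 0, 0, 0, 4929017, 0, 0, 0, ⟨0, 0⟩, 0⟩, 0, 0⟩ 0 0) (.cut .s 7086080 (.pos 35 .mp ⟨⟨1594544, 0, 0, 0, 0, 4990077, 0, 0, 0, ⟨0, 0⟩, 0⟩, 0, 0⟩ 0 0) (.pos 35 .mp ⟨⟨1799617, 0, 0, 0, 0, 5191994, 0, 0, 0, ⟨0, 0⟩, 0⟩, 0, 0⟩ 0 0))) (.cut .l 167772 (.cut .v 16842752 (.cut .s 6995968 (.cut .s 6905856 (.pos 41 .mp ⟨⟨1623191, 0, 0, 0, 0, 3789466, 0, 0, 0, ⟨0, 0⟩, 0⟩, 0, 0⟩ 0 0) (.pos 41 .mp ⟨⟨1689102, 0, 0, 0, 0, 4048106, 0, 0, 0, ⟨0, 0⟩, 0⟩, 0, 0⟩ 0 0)) (.cut .d (-32768) (.pos 41 .mp ⟨⟨1526115, 0, 0, 0, 0, 5317876, 0, 0, 0, ⟨0, 0⟩, 0⟩, 0, 0⟩ 0 0) (.cut .s 7086080 (.pos 41 .mp ⟨⟨1914903, 0, 0, 0,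 0, 4128738, 0, 0, 0, ⟨0, 0⟩, 0⟩, 0, 0⟩ 0 0) (.pos 41 .mp ⟨⟨2068756, 0, 0, 0, 0, 4354078, 0, 0, 0, ⟨0, 0⟩, 0⟩, 0, 0⟩ 0 0)))) (.pos 42 .mp ⟨⟨6387767, 0, 0, 0, 0, 0, 0, 0, 0, ⟨0, 0⟩, 0⟩, 0, 0⟩ 0 0)) (.pos 35 .mp ⟨⟨2088160, 0, 0, 0, 0, 3216272, 0, 0, 0, ⟨0, 0⟩, 0⟩, 0, 0⟩ 0 0))) (.pos 36 .mp ⟨⟨6769309, 0, 0, 0, 0, 0, 0, 0, 0, ⟨0, 0⟩, 0⟩, 0, 0⟩ 0 0)) (.cut .v 16908288 (.cut .d (-65536) (.cut .d (-98304) (.pos 35 .mp ⟨⟨2129639, 0, 0, 0, 0, 7010279, 0, 0, 0, ⟨0, 0⟩, 0⟩, 0, 0⟩ 0 0) (.cut .l 167772 (.void 35 ⟨⟨0, 0, 0, 0, 0, 100000, 0, 0, 0, ⟨0, 0⟩, 0⟩, 0, 0⟩ 0 0) (.cut .s 7356416 (.pos 35 .mp ⟨⟨2024660, 0, 0, 0, 0, 5606979, 0, 0, 0, ⟨0,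 0⟩, 0⟩, 0, 0⟩ 0 0) (.pos 35 .mp ⟨⟨2536206, 0, 0, 0, 0, 6082542, 0, 0, 0, ⟨0, 0⟩, 0⟩, 0, 0⟩ 0 0)))) (.cut .s 7356416 (.cut .v 16842752 (.cut .l 167772 (.cut .d (-32768) (.pos 41 .mp ⟨⟨1948657, 0, 0, 0, 0, 5781669, 0, 0, 0, ⟨0, 0⟩, 0⟩, 0, 0⟩ 0 0) (.cut .s 7266304 (.pos 41 .mp ⟨⟨2260754, 0, 0, 0, 0, 4572160, 0, 0, 0, ⟨0, 0⟩, 0⟩, 0, 0⟩ 0 0) (.pos 41 .mp ⟨⟨2524201, 0, 0, 0, 0, 4745370, 0, 0, 0, ⟨0, 0⟩, 0⟩, 0, 0⟩ 0 0))) (.pos 41 .mp ⟨⟨1847074, 0, 0, 0, 0, 4929901, 0, 0, 0, ⟨0, 0⟩, 0⟩, 0, 0⟩ 0 0)) (.pos 42 .mp ⟨⟨4552203, 0, 0, 0, 0, 2385444, 0, 0, 0, ⟨0, 0⟩, 0⟩, 0, 0⟩ 0 0)) (.cut .l 167772 (.cut .d (-32768) (.pos 35 .mp ⟨⟨2870954, 0,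 0, 0, 0, 5749154, 0, 0, 0, ⟨0, 0⟩, 0⟩, 0, 0⟩ 0 0) (.cut .s 7446528 (.pos 35 .mp ⟨⟨2857392, 0, 0, 0, 0, 4874184, 0, 0, 0, ⟨0, 0⟩, 0⟩, 0, 0⟩ 0 0) (.pos 35 .mp ⟨⟨3170735, 0, 0, 0, 0, 5058092, 0, 0, 0, ⟨0, 0⟩, 0⟩, 0, 0⟩ 0 0))) (.pos 35 .mp ⟨⟨3214894, 0, 0, 0, 0, 4264735, 0, 0, 0, ⟨0, 0⟩, 0⟩, 0, 0⟩ 0 0)))) (.pos 36 .mp ⟨⟨8176024, 0, 0, 0, 0, 0, 0, 0, 0, ⟨0, 0⟩, 0⟩, 0, 0⟩ 0 0))) (.pos 32 .mp ⟨⟨8355440, 0, 0, 0, 0, 0, 0, 0, 0, ⟨0, 0⟩, 0⟩, 0, 0⟩ 0 0)) (.void 30 ⟨⟨100000, 0, 0, 0, 0, 0, 0, 0, 0, ⟨0, 0⟩, 0⟩, 0, 0⟩ 0 0)) (.void 28 ⟨⟨100000, 0, 0, 0, 0, 0, 0, 0, 0, ⟨0, 0⟩, 0⟩, 0, 0⟩ 0 0)))) (.void 26 ⟨⟨100000, 0, 0, 0, 0, 0, 0, 0, 0, ⟨0, 0⟩,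 0⟩, 0, 0⟩ 0 0)))) (.void 24 ⟨⟨100000, 0, 0, 0, 0, 0, 0, 0, 0, ⟨0, 0⟩, 0⟩, 0, 0⟩ 0 0))))) (.void 22 ⟨⟨100000, 0, 0, 0, 0, 0, 0, 0, 0, ⟨0, 0⟩, 0⟩, 0, 0⟩ 0 0))) (.cut .v 16777216 (.cut .d 3616385 (.cut .d 1808192 (.cut .d 904096 (.cut .v 8388608 (.cut .v 4194304 (.void 4 ⟨⟨0, 0, 50000, 0, 50000, 0, 0, 0, 0, ⟨0, 0⟩, 0⟩, 0, 0⟩ 0 0) (.void 5 ⟨⟨0, 0, 0, 0, 0, 0, 0, 0, 100000, ⟨0, 0⟩, 9975792⟩, 0, 0⟩ 0 0)) (.cut .v 12582912 (.pos 6 .pm ⟨⟨0, 0, 0, 0, 0, 0, 0, 0, 0, ⟨0, 0⟩, 0⟩, 0, 327706⟩ 0 0) (.cut .v 14680064 (.pos 10 .pm ⟨⟨0, 0, 0, 0, 0, 0, 0, 0, 0, ⟨0, 0⟩, 0⟩, 0, 174427⟩ 0 0) (.pos 11 .pm ⟨⟨0, 0, 0, 0, 0, 0, 0, 0, 0, ⟨0, 0⟩, 0⟩, 0, 0⟩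 0 0)))) (.void 1 ⟨⟨0, 0, 0, 0, 0, 0, 0, 0, 0, ⟨0, 0⟩, 0⟩, 0, 100000⟩ 0 0)) (.void 1 ⟨⟨0, 0, 0, 0, 0, 0, 0, 0, 0, ⟨0, 0⟩, 0⟩, 0, 100000⟩ 0 0)) (.void 1 ⟨⟨0, 0, 0, 0, 0, 0, 0, 0, 0, ⟨0, 0⟩, 0⟩, 0, 100000⟩ 0 0)) (.cut .v 25165824 (.cut .d 3616385 (.cut .v 20971520 (.cut .d 1808192 (.cut .d 904096 (.cut .v 18874368 (.cut .d 452048 (.cut .s 7176192 (.pos 25 .pp ⟨⟨3727553, 0, 0, 0, 0, 0, 0, 0, 0, ⟨0, 0⟩, 0⟩, 0, 82751⟩ 0 0) (.cut .s 7356416 (.pos 25 .pp ⟨⟨4583652, 0, 0, 0, 0, 0, 0, 0, 0, ⟨0, 0⟩, 0⟩, 0, 16150⟩ 0 0) (.pos 25 .pp ⟨⟨5387604, 0, 0, 0, 0, 0, 0, 0, 0, ⟨0, 0⟩, 0⟩, 0, 14723⟩ 0 0))) (.pos 25 .pp ⟨⟨1153273, 0, 0, 0, 0, 0, 0, 0,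 0, ⟨0, 0⟩, 0⟩, 0, 442255⟩ 0 0)) (.pos 26 .pp ⟨⟨9971628, 0, 0, 0, 0, 0, 0, 0, 0, ⟨0, 0⟩, 0⟩, 0, 1308513⟩ 0 0)) (.void 23 ⟨⟨12818, 0, 0, 0, 0, 0, 0, 0, 0, ⟨0, 0⟩, 0⟩, 0, 87182⟩ 0 0)) (.void 23 ⟨⟨0, 0, 0, 0, 0, 0, 0, 0, 0, ⟨0, 0⟩, 0⟩, 0, 100000⟩ 0 0)) (.void 24 ⟨⟨0, 0, 0, 0, 0, 0, 100000, 0, 0, ⟨0, 0⟩, 0⟩, 0, 0⟩ 0 0)) (.void 21 ⟨⟨0, 0, 0, 0, 0, 0, 0, 0, 0, ⟨0, 0⟩, 0⟩, 0, 100000⟩ 0 0)) (.void 22 ⟨⟨0, 0, 0, 0, 0, 0, 0, 0, 0, ⟨0, 0⟩, 0⟩, 20797, 79203⟩ 0 0)))),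
    by decide +kernel⟩

theorem covers8 : cell.Covers Vale.Agent.P237.Petty.Cor.Grid.N11.table row8.1 :=
  ⟨(.cut .d 0 (.cut .v 16777216 (.cut .d (-8388608) (.void 1 ⟨⟨0, 0, 0, 0, 0, 100000, 0, 0, 0, ⟨0, 0⟩, 0⟩, 0, 0⟩ 0 0) (.cut .d (-4194304) (.void 1 ⟨⟨0, 0, 0, 0, 0, 100000, 0, 0, 0, ⟨0, 0⟩, 0⟩, 0, 0⟩ 0 0) (.cut .d (-2097152) (.void 1 ⟨⟨0, 0, 0, 0, 0, 100000, 0, 0, 0, ⟨0, 0⟩, 0⟩, 0, 0⟩ 0 0) (.cut .d (-1048576) (.void 1 ⟨⟨0, 0, 0, 0, 0, 100000, 0, 0, 0, ⟨0, 0⟩, 0⟩, 0, 0⟩ 0 0) (.cut .d (-524288) (.void 1 ⟨⟨0, 0, 0, 0, 0, 100000, 0, 0, 0, ⟨0, 0⟩, 0⟩, 0, 0⟩ 0 0) (.cut .d (-262144) (.void 1 ⟨⟨0, 0, 0, 0, 0, 100000, 0, 0, 0, ⟨0, 0⟩,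 0⟩, 0, 0⟩ 0 0) (.cut .d (-131072) (.void 1 ⟨⟨0, 0, 0, 0, 0, 100000, 0, 0, 0, ⟨0, 0⟩, 0⟩, 0, 0⟩ 0 0) (.cut .v 8388608 (.cut .v 4194304 (.void 4 ⟨⟨0, 0, 100000, 0, 0, 0, 0, 0, 0, ⟨0, 0⟩, 0⟩, 0, 0⟩ 0 0) (.void 5 ⟨⟨0, 0, 0, 0, 0, 0, 0, 0, 100000, ⟨0, 0⟩, 9975792⟩, 0, 0⟩ 0 0)) (.cut .v 12582912 (.pos 6 .mm ⟨⟨0, 0, 0, 0, 0, 4013554, 0, 0, 0, ⟨0, 0⟩, 0⟩, 0, 0⟩ 0 0) (.cut .d (-65536) (.pos 7 .mm ⟨⟨0, 0, 0, 0, 0, 12365816, 0, 0, 0, ⟨0, 0⟩, 0⟩, 0, 0⟩ 0 0) (.cut .s 7798784 (.pos 7 .mm ⟨⟨0, 0, 0, 0, 0, 9753635, 0, 0, 0, ⟨0, 0⟩, 0⟩, 0, 0⟩ 0 0) (.pos 7 .mm ⟨⟨0, 0, 0, 0, 0, 11690507, 0, 0, 0, ⟨0, 0⟩, 0⟩, 0, 0⟩ 0 0)))))))))))) (.cut .v 25165824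 (.cut .d (-8388608) (.void 21 ⟨⟨0, 0, 0, 0, 0, 100000, 0, 0, 0, ⟨0, 0⟩, 0⟩, 0, 0⟩ 0 0) (.cut .d (-4194304) (.void 21 ⟨⟨0, 0, 0, 0, 0, 100000, 0, 0, 0, ⟨0, 0⟩, 0⟩, 0, 0⟩ 0 0) (.cut .v 20971520 (.cut .d (-2097152) (.void 23 ⟨⟨0, 0, 0, 0, 0, 100000, 0, 0, 0, ⟨0, 0⟩, 0⟩, 0, 0⟩ 0 0) (.cut .d (-1048576) (.void 23 ⟨⟨0, 0, 0, 0, 0, 100000, 0, 0, 0, ⟨0, 0⟩, 0⟩, 0, 0⟩ 0 0) (.cut .d (-524288) (.void 23 ⟨⟨0, 0, 0, 0, 0, 100000, 0, 0, 0, ⟨0, 0⟩, 0⟩, 0, 0⟩ 0 0) (.cut .v 18874368 (.cut .d (-262144) (.void 25 ⟨⟨0, 0, 0, 0, 0, 100000, 0, 0, 0, ⟨0, 0⟩, 0⟩, 0, 0⟩ 0 0) (.cut .d (-131072) (.void 25 ⟨⟨0, 0, 0, 0, 0, 100000, 0, 0, 0, ⟨0, 0⟩, 0⟩, 0, 0⟩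 0 0) (.cut .v 17825792 (.cut .v 17301504 (.cut .v 17039360 (.cut .s 7798784 (.cut .v 16908288 (.cut .d (-65536) (.cut .s 7667712 (.pos 35 .mp ⟨⟨3130209, 0, 0, 0, 0, 6635924, 0, 0, 0, ⟨0, 0⟩, 0⟩, 0, 0⟩ 0 0) (.pos 35 .mp ⟨⟨3633532, 0, 0, 0, 0, 6967916, 0, 0, 0, ⟨0, 0⟩, 0⟩, 0, 0⟩ 0 0)) (.cut .s 7667712 (.cut .s 7602176 (.pos 35 .mp ⟨⟨3545754, 0, 0, 0, 0, 5210889, 0, 0, 0, ⟨0, 0⟩, 0⟩, 0, 0⟩ 0 0) (.cut .s 7634944 (.pos 35 .mp ⟨⟨3775850, 0, 0, 0, 0, 5256630, 0, 0, 0, ⟨0, 0⟩, 0⟩, 0, 0⟩ 0 0) (.pos 35 .mp ⟨⟨3871061, 0, 0, 0, 0, 5348967, 0, 0, 0, ⟨0, 0⟩, 0⟩, 0, 0⟩ 0 0))) (.cut .v 16842752 (.cut .l 167772 (.cut .d (-32768) (.pos 41 .mp ⟨⟨3532776,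 0, 0, 0, 0, 7000310, 0, 0, 0, ⟨0, 0⟩, 0⟩, 0, 0⟩ 0 0) (.cut .s 7733248 (.pos 41 .mp ⟨⟨3959323, 0, 0, 0, 0, 5482186, 0, 0, 0, ⟨0, 0⟩, 0⟩, 0, 0⟩ 0 0) (.pos 41 .mp ⟨⟨4189321, 0, 0, 0, 0, 5659432, 0, 0, 0, ⟨0, 0⟩, 0⟩, 0, 0⟩ 0 0))) (.pos 41 .mp ⟨⟨3398785, 0, 0, 0, 0, 6140442, 0, 0, 0, ⟨0, 0⟩, 0⟩, 0, 0⟩ 0 0)) (.pos 42 .mp ⟨⟨6543332, 0, 0, 0, 0, 2907914, 0, 0, 0, ⟨0, 0⟩, 0⟩, 0, 0⟩ 0 0)))) (.pos 36 .mp ⟨⟨10111635, 0, 0, 0, 0, 0, 0, 0, 0, ⟨0, 0⟩, 0⟩, 0, 0⟩ 0 0)) (.cut .v 16908288 (.cut .d (-65536) (.cut .s 7929856 (.pos 35 .mp ⟨⟨4201945, 0, 0, 0, 0, 7331002, 0, 0, 0, ⟨0, 0⟩, 0⟩, 0, 0⟩ 0 0) (.pos 35 .mp ⟨⟨4837525, 0, 0, 0, 0, 7721466, 0,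 0, 0, ⟨0, 0⟩, 0⟩, 0, 0⟩ 0 0)) (.cut .s 7929856 (.cut .s 7864320 (.cut .s 7831552 (.pos 35 .mp ⟨⟨4554009, 0, 0, 0, 0, 5674238, 0, 0, 0, ⟨0, 0⟩, 0⟩, 0, 0⟩ 0 0) (.pos 35 .mp ⟨⟨4715262, 0, 0, 0, 0, 5730639, 0, 0, 0, ⟨0, 0⟩, 0⟩, 0, 0⟩ 0 0)) (.cut .s 7897088 (.pos 35 .mp ⟨⟨4880925, 0, 0, 0, 0, 5788451, 0, 0, 0, ⟨0, 0⟩, 0⟩, 0, 0⟩ 0 0) (.pos 35 .mp ⟨⟨5051032, 0, 0, 0, 0, 5847611, 0, 0, 0, ⟨0, 0⟩, 0⟩, 0, 0⟩ 0 0))) (.cut .s 7995392 (.cut .s 7962624 (.pos 35 .mp ⟨⟨5225620, 0, 0, 0, 0, 5908051, 0, 0, 0, ⟨0, 0⟩, 0⟩, 0, 0⟩ 0 0) (.pos 35 .mp ⟨⟨5404726, 0, 0, 0, 0, 5969704, 0, 0, 0, ⟨0, 0⟩, 0⟩, 0, 0⟩ 0 0)) (.cut .s 8028160 (.pos 35 .mp ⟨⟨5588390,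 0, 0, 0, 0, 6032500, 0, 0, 0, ⟨0, 0⟩, 0⟩, 0, 0⟩ 0 0) (.pos 35 .mp ⟨⟨5776648, 0, 0, 0, 0, 6096369, 0, 0, 0, ⟨0, 0⟩, 0⟩, 0, 0⟩ 0 0))))) (.pos 36 .mp ⟨⟨11670043, 0, 0, 0, 0, 0, 0, 0, 0, ⟨0, 0⟩, 0⟩, 0, 0⟩ 0 0))) (.pos 32 .mp ⟨⟨12036900, 0, 0, 0, 0, 0, 0, 0, 0, ⟨0, 0⟩, 0⟩, 0, 0⟩ 0 0)) (.void 30 ⟨⟨100000, 0, 0, 0, 0, 0, 0, 0, 0, ⟨0, 0⟩, 0⟩, 0, 0⟩ 0 0)) (.void 28 ⟨⟨100000, 0, 0, 0, 0, 0, 0, 0, 0, ⟨0, 0⟩, 0⟩, 0, 0⟩ 0 0)))) (.void 26 ⟨⟨100000, 0, 0, 0, 0, 0, 0, 0, 0, ⟨0, 0⟩, 0⟩, 0, 0⟩ 0 0))))) (.void 24 ⟨⟨100000, 0, 0, 0, 0, 0, 0, 0, 0, ⟨0, 0⟩, 0⟩, 0, 0⟩ 0 0)))) (.void 22 ⟨⟨100000, 0, 0, 0, 0, 0, 0, 0, 0, ⟨0, 0⟩, 0⟩, 0, 0⟩ 0 0))) (.cut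 .v 16777216 (.cut .d 4242245 (.cut .d 2121122 (.cut .d 1060561 (.cut .v 8388608 (.cut .v 4194304 (.void 4 ⟨⟨0, 0, 50000, 0, 50000, 0, 0, 0, 0, ⟨0, 0⟩, 0⟩, 0, 0⟩ 0 0) (.void 5 ⟨⟨0, 0, 0, 0, 0, 0, 0, 0, 100000, ⟨0, 0⟩, 9975792⟩, 0, 0⟩ 0 0)) (.cut .v 12582912 (.pos 6 .pm ⟨⟨0, 0, 0, 0, 0, 0, 0, 0, 0, ⟨0, 0⟩, 0⟩, 0, 0⟩ 0 0) (.pos 7 .pm ⟨⟨0, 0, 0, 0, 0, 0, 0, 0, 0, ⟨0, 0⟩, 0⟩, 0, 0⟩ 0 0))) (.void 1 ⟨⟨0, 0, 0, 0, 0, 0, 0, 0, 0, ⟨0, 0⟩, 0⟩, 0, 100000⟩ 0 0)) (.void 1 ⟨⟨0, 0, 0, 0, 0, 0, 0, 0, 0, ⟨0, 0⟩, 0⟩, 0, 100000⟩ 0 0)) (.void 1 ⟨⟨0, 0, 0, 0, 0, 0, 0, 0, 0, ⟨0, 0⟩, 0⟩, 0, 100000⟩ 0 0)) (.cut .v 25165824 (.cut .d 4242245 (.cut .v 20971520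 (.cut .d 2121122 (.cut .d 1060561 (.cut .v 18874368 (.cut .d 530280 (.cut .v 17825792 (.cut .s 7798784 (.pos 27 .pp ⟨⟨5802882, 0, 0, 0, 0, 0, 0, 0, 0, ⟨0, 0⟩, 0⟩, 0, 9392⟩ 0 0) (.pos 27 .pp ⟨⟨7081136, 0, 0, 0, 0, 0, 0, 0, 0, ⟨0, 0⟩, 0⟩, 18308, 0⟩ 0 0)) (.pos 28 .pp ⟨⟨9445767, 0, 0, 0, 0, 0, 0, 0, 0, ⟨0, 0⟩, 0⟩, 0, 0⟩ 0 0)) (.pos 25 .pp ⟨⟨2732130, 0, 0, 0, 0, 0, 0, 0, 0, ⟨0, 0⟩, 0⟩, 0, 429068⟩ 0 0)) (.cut .d 530280 (.void 26 ⟨⟨100000, 0, 0, 0, 0, 0, 0, 0, 0, ⟨0, 0⟩, 0⟩, 0, 0⟩ 0 0) (.pos 26 .pp ⟨⟨7691542, 0, 0, 0, 0, 0, 0, 0, 0, ⟨0, 0⟩, 0⟩, 0, 312339⟩ 0 0))) (.void 23 ⟨⟨0, 0, 0, 0, 0, 0, 0, 0, 0, ⟨0, 0⟩, 0⟩, 0, 100000⟩ 0 0)) (.void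 23 ⟨⟨0, 0, 0, 0, 0, 0, 0, 0, 0, ⟨0, 0⟩, 0⟩, 0, 100000⟩ 0 0)) (.void 24 ⟨⟨0, 0, 0, 0, 0, 0, 100000, 0, 0, ⟨0, 0⟩, 0⟩, 0, 0⟩ 0 0)) (.void 21 ⟨⟨0, 0, 0, 0, 0, 0, 0, 0, 0, ⟨0, 0⟩, 0⟩, 0, 100000⟩ 0 0)) (.void 22 ⟨⟨0, 0, 0, 0, 0, 0, 0, 0, 0, ⟨0, 0⟩, 0⟩, 20311, 79689⟩ 0 0)))),
    by decide +kernel⟩

theorem covers9 : cell.Covers Vale.Agent.P237.Petty.Cor.Grid.N11.table row9.1 :=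
  ⟨(.cut .d 0 (.cut .v 16777216 (.cut .d (-8388608) (.void 1 ⟨⟨0, 0, 0, 0, 0, 100000, 0, 0, 0, ⟨0, 0⟩, 0⟩, 0, 0⟩ 0 0) (.cut .d (-4194304) (.void 1 ⟨⟨0, 0, 0, 0, 0, 100000, 0, 0, 0, ⟨0, 0⟩, 0⟩, 0, 0⟩ 0 0) (.cut .d (-2097152) (.void 1 ⟨⟨0, 0, 0, 0, 0, 100000, 0, 0, 0, ⟨0, 0⟩, 0⟩, 0, 0⟩ 0 0) (.cut .d (-1048576) (.void 1 ⟨⟨0, 0, 0, 0, 0, 100000, 0, 0, 0, ⟨0, 0⟩, 0⟩, 0, 0⟩ 0 0) (.cut .d (-524288) (.void 1 ⟨⟨0, 0, 0, 0, 0, 100000, 0, 0, 0, ⟨0, 0⟩, 0⟩, 0, 0⟩ 0 0) (.cut .d (-262144) (.void 1 ⟨⟨0, 0, 0, 0, 0, 100000, 0, 0, 0, ⟨0, 0⟩, 0⟩, 0, 0⟩ 0 0) (.cut .d (-131072) (.void 1 ⟨⟨0, 0, 0, 0, 0, 100000, 0, 0, 0, ⟨0, 0⟩, 0⟩, 0, 0⟩ 0 0) (.cut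 .v 8388608 (.cut .v 4194304 (.void 4 ⟨⟨0, 0, 100000, 0, 0, 0, 0, 0, 0, ⟨0, 0⟩, 0⟩, 0, 0⟩ 0 0) (.pos 5 .mm ⟨⟨0, 0, 0, 0, 0, 5908779, 0, 0, 934312, ⟨0, 0⟩, 9975792⟩, 0, 0⟩ 0 0)) (.cut .v 12582912 (.pos 6 .mm ⟨⟨0, 0, 0, 0, 0, 4717460, 0, 0, 0, ⟨0, 0⟩, 0⟩, 0, 0⟩ 0 0) (.cut .d (-65536) (.pos 7 .mm ⟨⟨0, 0, 0, 0, 0, 18560896, 0, 0, 0, ⟨0, 0⟩, 0⟩, 0, 0⟩ 0 0) (.cut .s 8323072 (.pos 7 .mm ⟨⟨0, 0, 0, 0, 0, 14153444, 0, 0, 0, ⟨0, 0⟩, 0⟩, 0, 0⟩ 0 0) (.pos 7 .mm ⟨⟨0, 0, 0, 0, 0, 17081583, 0, 0, 0, ⟨0, 0⟩, 0⟩, 0, 0⟩ 0 0)))))))))))) (.cut .v 25165824 (.cut .d (-8388608) (.void 21 ⟨⟨0, 0, 0, 0, 0, 100000, 0, 0, 0, ⟨0, 0⟩, 0⟩, 0, 0⟩ 0 0) (.cut .v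 20971520 (.cut .d (-4194304) (.void 23 ⟨⟨0, 0, 0, 0, 0, 100000, 0, 0, 0, ⟨0, 0⟩, 0⟩, 0, 0⟩ 0 0) (.cut .d (-2097152) (.void 23 ⟨⟨0, 0, 0, 0, 0, 100000, 0, 0, 0, ⟨0, 0⟩, 0⟩, 0, 0⟩ 0 0) (.cut .d (-1048576) (.void 23 ⟨⟨0, 0, 0, 0, 0, 100000, 0, 0, 0, ⟨0, 0⟩, 0⟩, 0, 0⟩ 0 0) (.cut .v 18874368 (.cut .d (-524288) (.void 25 ⟨⟨0, 0, 0, 0, 0, 100000, 0, 0, 0, ⟨0, 0⟩, 0⟩, 0, 0⟩ 0 0) (.cut .d (-262144) (.void 25 ⟨⟨0, 0, 0, 0, 0, 100000, 0, 0, 0, ⟨0, 0⟩, 0⟩, 0, 0⟩ 0 0) (.cut .d (-131072) (.void 25 ⟨⟨0, 0, 0, 0, 0, 100000, 0, 0, 0, ⟨0, 0⟩, 0⟩, 0, 0⟩ 0 0) (.cut .v 17825792 (.cut .v 17301504 (.cut .v 17039360 (.cut .d (-65536) (.cut .d (-98304)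 (.void 31 ⟨⟨0, 0, 0, 0, 0, 100000, 0, 0, 0, ⟨0, 0⟩, 0⟩, 0, 0⟩ 0 0) (.cut .d (-81920) (.void 31 ⟨⟨0, 0, 0, 0, 0, 100000, 0, 0, 0, ⟨0, 0⟩, 0⟩, 0, 0⟩ 0 0) (.cut .v 16908288 (.cut .l 167772 (.void 35 ⟨⟨0, 0, 0, 0, 0, 100000, 0, 0, 0, ⟨0, 0⟩, 0⟩, 0, 0⟩ 0 0) (.cut .v 16842752 (.pos 41 .mp ⟨⟨0, 0, 0, 0, 0, 18194119, 0, 0, 0, ⟨0, 0⟩, 0⟩, 0, 0⟩ 0 0) (.cut .l 251658 (.void 42 ⟨⟨0, 0, 0, 0, 0, 100000, 0, 0, 0, ⟨0, 0⟩, 0⟩, 0, 0⟩ 0 0) (.cut .v 16875520 (.cut .s 8323072 (.pos 49 .mp ⟨⟨5577245, 0, 0, 0, 0, 8732566, 0, 0, 0, ⟨0, 0⟩, 0⟩, 0, 0⟩ 0 0) (.pos 49 .mp ⟨⟨7252276, 0, 0, 0, 0, 9751039, 0, 0, 0, ⟨0, 0⟩, 0⟩, 0, 0⟩ 0 0)) (.pos 50 .mp ⟨⟨14786000,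 0, 0, 0, 0, 0, 0, 0, 0, ⟨0, 0⟩, 0⟩, 0, 0⟩ 0 0))))) (.pos 36 .mp ⟨⟨16104961, 0, 0, 0, 0, 0, 0, 0, 0, ⟨0, 0⟩, 0⟩, 0, 0⟩ 0 0)))) (.cut .s 8323072 (.cut .v 16908288 (.cut .s 8192000 (.cut .s 8126464 (.cut .s 8093696 (.pos 35 .mp ⟨⟨5970418, 0, 0, 0, 0, 6161584, 0, 0, 0, ⟨0, 0⟩, 0⟩, 0, 0⟩ 0 0) (.cut .s 8110080 (.pos 35 .mp ⟨⟨6069225, 0, 0, 0, 0, 6267058, 0, 0, 0, ⟨0, 0⟩, 0⟩, 0, 0⟩ 0 0) (.pos 35 .mp ⟨⟨6169497, 0, 0, 0, 0, 6291514, 0, 0, 0, ⟨0, 0⟩, 0⟩, 0, 0⟩ 0 0))) (.cut .v 16842752 (.cut .s 8159232 (.pos 41 .mp ⟨⟨5968595, 0, 0, 0, 0, 6781924, 0, 0, 0, ⟨0, 0⟩, 0⟩, 0, 0⟩ 0 0) (.cut .s 8175616 (.pos 41 .mp ⟨⟨6502640, 0, 0, 0, 0, 6340559,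 0, 0, 0, ⟨0, 0⟩, 0⟩, 0, 0⟩ 0 0) (.pos 41 .mp ⟨⟨6588574, 0, 0, 0, 0, 6391323, 0, 0, 0, ⟨0, 0⟩, 0⟩, 0, 0⟩ 0 0))) (.pos 42 .mp ⟨⟨8217211, 0, 0, 0, 0, 4344570, 0, 0, 0, ⟨0, 0⟩, 0⟩, 0, 0⟩ 0 0))) (.cut .s 8257536 (.cut .v 16842752 (.cut .d (-32768) (.pos 41 .mp ⟨⟨6061103, 0, 0, 0, 0, 7752513, 0, 0, 0, ⟨0, 0⟩, 0⟩, 0, 0⟩ 0 0) (.cut .s 8224768 (.pos 41 .mp ⟨⟨6655701, 0, 0, 0, 0, 6481710, 0, 0, 0, ⟨0, 0⟩, 0⟩, 0, 0⟩ 0 0) (.pos 41 .mp ⟨⟨6839798, 0, 0, 0, 0, 6580794, 0, 0, 0, ⟨0, 0⟩, 0⟩, 0, 0⟩ 0 0))) (.pos 42 .mp ⟨⟨8653464, 0, 0, 0, 0, 4441406, 0, 0, 0, ⟨0, 0⟩, 0⟩, 0, 0⟩ 0 0)) (.cut .v 16842752 (.cut .d (-32768) (.pos 41 .mp ⟨⟨6476775, 0, 0,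 0, 0, 7924824, 0, 0, 0, ⟨0, 0⟩, 0⟩, 0, 0⟩ 0 0) (.cut .s 8290304 (.pos 41 .mp ⟨⟨7033243, 0, 0, 0, 0, 6678361, 0, 0, 0, ⟨0, 0⟩, 0⟩, 0, 0⟩ 0 0) (.pos 41 .mp ⟨⟨7236505, 0, 0, 0, 0, 6773809, 0, 0, 0, ⟨0, 0⟩, 0⟩, 0, 0⟩ 0 0))) (.pos 42 .mp ⟨⟨9135089, 0, 0, 0, 0, 4521234, 0, 0, 0, ⟨0, 0⟩, 0⟩, 0, 0⟩ 0 0)))) (.pos 36 .mp ⟨⟨12500302, 0, 0, 0, 0, 0, 0, 0, 0, ⟨0, 0⟩, 0⟩, 0, 0⟩ 0 0)) (.cut .v 16908288 (.cut .s 8454144 (.cut .s 8388608 (.cut .v 16842752 (.cut .d (-32768) (.pos 41 .mp ⟨⟨6915352, 0, 0, 0, 0, 8112648, 0, 0, 0, ⟨0, 0⟩, 0⟩, 0, 0⟩ 0 0) (.cut .s 8355840 (.pos 41 .mp ⟨⟨7450054, 0, 0, 0, 0, 6866524, 0, 0, 0, ⟨0, 0⟩, 0⟩, 0, 0⟩ 0 0) (.pos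 41 .mp ⟨⟨7674367, 0, 0, 0, 0, 6955882, 0, 0, 0, ⟨0, 0⟩, 0⟩, 0, 0⟩ 0 0))) (.pos 42 .mp ⟨⟨9667995, 0, 0, 0, 0, 4576332, 0, 0, 0, ⟨0, 0⟩, 0⟩, 0, 0⟩ 0 0)) (.cut .v 16842752 (.cut .d (-32768) (.pos 41 .mp ⟨⟨7377241, 0, 0, 0, 0, 8316436, 0, 0, 0, ⟨0, 0⟩, 0⟩, 0, 0⟩ 0 0) (.cut .s 8421376 (.pos 41 .mp ⟨⟨7914337, 0, 0, 0, 0, 7035641, 0, 0, 0, ⟨0, 0⟩, 0⟩, 0, 0⟩ 0 0) (.pos 41 .mp ⟨⟨8167161, 0, 0, 0, 0, 7109300, 0, 0, 0, ⟨0, 0⟩, 0⟩, 0, 0⟩ 0 0))) (.pos 42 .mp ⟨⟨10258152, 0, 0, 0, 0, 4598754, 0, 0, 0, ⟨0, 0⟩, 0⟩, 0, 0⟩ 0 0))) (.cut .s 8519680 (.cut .v 16842752 (.cut .d (-32768) (.pos 41 .mp ⟨⟨7862863, 0, 0, 0, 0, 8536649, 0, 0, 0, ⟨0, 0⟩, 0⟩,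 0, 0⟩ 0 0) (.cut .s 8486912 (.pos 41 .mp ⟨⟨8426227, 0, 0, 0, 0, 7185257, 0, 0, 0, ⟨0, 0⟩, 0⟩, 0, 0⟩ 0 0) (.pos 41 .mp ⟨⟨8691590, 0, 0, 0, 0, 7263454, 0, 0, 0, ⟨0, 0⟩, 0⟩, 0, 0⟩ 0 0))) (.pos 42 .mp ⟨⟨10911600, 0, 0, 0, 0, 4580323, 0, 0, 0, ⟨0, 0⟩, 0⟩, 0, 0⟩ 0 0)) (.cut .v 16842752 (.cut .d (-32768) (.pos 41 .mp ⟨⟨8372655, 0, 0, 0, 0, 8773761, 0, 0, 0, ⟨0, 0⟩, 0⟩, 0, 0⟩ 0 0) (.cut .s 8552448 (.pos 41 .mp ⟨⟨8974449, 0, 0, 0, 0, 7329545, 0, 0, 0, ⟨0, 0⟩, 0⟩, 0, 0⟩ 0 0) (.pos 41 .mp ⟨⟨9273657, 0, 0, 0, 0, 7384921, 0, 0, 0, ⟨0, 0⟩, 0⟩, 0, 0⟩ 0 0))) (.pos 42 .mp ⟨⟨11634452, 0, 0, 0, 0, 4512624, 0, 0, 0, ⟨0, 0⟩, 0⟩, 0, 0⟩ 0 0)))) (.pos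 36 .mp ⟨⟨14787556, 0, 0, 0, 0, 0, 0, 0, 0, ⟨0, 0⟩, 0⟩, 0, 0⟩ 0 0)))) (.pos 32 .mp ⟨⟨16455366, 0, 0, 0, 0, 0, 0, 0, 0, ⟨0, 0⟩, 0⟩, 0, 0⟩ 0 0)) (.void 30 ⟨⟨100000, 0, 0, 0, 0, 0, 0, 0, 0, ⟨0, 0⟩, 0⟩, 0, 0⟩ 0 0)) (.void 28 ⟨⟨100000, 0, 0, 0, 0, 0, 0, 0, 0, ⟨0, 0⟩, 0⟩, 0, 0⟩ 0 0))))) (.void 26 ⟨⟨100000, 0, 0, 0, 0, 0, 0, 0, 0, ⟨0, 0⟩, 0⟩, 0, 0⟩ 0 0))))) (.void 24 ⟨⟨100000, 0, 0, 0, 0, 0, 0, 0, 0, ⟨0, 0⟩, 0⟩, 0, 0⟩ 0 0))) (.void 22 ⟨⟨100000, 0, 0, 0, 0, 0, 0, 0, 0, ⟨0, 0⟩, 0⟩, 0, 0⟩ 0 0))) (.cut .v 16777216 (.cut .d 4920233 (.cut .d 2460116 (.cut .d 1230058 (.cut .v 8388608 (.cut .v 4194304 (.void 4 ⟨⟨0, 0, 100000, 0, 0, 0, 0, 0, 0,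 ⟨0, 0⟩, 0⟩, 0, 0⟩ 0 0) (.pos 5 .pm ⟨⟨0, 0, 0, 0, 0, 0, 0, 0, 839860, ⟨0, 0⟩, 9975792⟩, 0, 0⟩ 0 0)) (.cut .v 12582912 (.pos 6 .pm ⟨⟨0, 0, 0, 0, 0, 0, 0, 0, 0, ⟨0, 0⟩, 0⟩, 0, 0⟩ 0 0) (.pos 7 .pm ⟨⟨0, 0, 0, 0, 0, 0, 0, 0, 0, ⟨0, 0⟩, 0⟩, 0, 0⟩ 0 0))) (.void 1 ⟨⟨0, 0, 0, 0, 0, 0, 0, 0, 0, ⟨0, 0⟩, 0⟩, 0, 100000⟩ 0 0)) (.void 1 ⟨⟨0, 0, 0, 0, 0, 0, 0, 0, 0, ⟨0, 0⟩, 0⟩, 0, 100000⟩ 0 0)) (.void 1 ⟨⟨0, 0, 0, 0, 0, 0, 0, 0, 0, ⟨0, 0⟩, 0⟩, 0, 100000⟩ 0 0)) (.cut .v 25165824 (.cut .d 4920233 (.cut .d 2460116 (.cut .d 1230058 (.cut .v 20971520 (.cut .v 18874368 (.cut .d 615029 (.cut .v 17825792 (.cut .s 8323072 (.pos 27 .pp ⟨⟨8816768, 0, 0, 0,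 0, 0, 0, 0, 0, ⟨0, 0⟩, 0⟩, 0, 43338⟩ 0 0) (.pos 27 .pp ⟨⟨10936736, 0, 0, 0, 0, 0, 0, 0, 0, ⟨0, 0⟩, 0⟩, 0, 53337⟩ 0 0)) (.pos 28 .pp ⟨⟨13260451, 0, 0, 0, 0, 0, 0, 0, 0, ⟨0, 0⟩, 0⟩, 0, 0⟩ 0 0)) (.pos 25 .pp ⟨⟨0, 0, 0, 0, 0, 0, 0, 0, 0, ⟨0, 0⟩, 0⟩, 0, 674869⟩ 0 0)) (.cut .d 615029 (.pos 26 .pp ⟨⟨19208005, 0, 0, 0, 0, 0, 0, 0, 0, ⟨0, 0⟩, 0⟩, 0, 0⟩ 0 0) (.pos 26 .pp ⟨⟨9740365, 0, 0, 0, 0, 0, 0, 0, 0, ⟨0, 0⟩, 0⟩, 0, 381322⟩ 0 0))) (.cut .v 23068672 (.pos 53 .pp ⟨⟨22958060, 0, 0, 0, 0, 0, 0, 0, 0, ⟨0, 0⟩, 0⟩, 0, 0⟩ 0 0) (.void 54 ⟨⟨0, 0, 0, 0, 0, 0, 100000, 0, 0, ⟨0, 0⟩, 0⟩, 0, 0⟩ 0 0))) (.void 21 ⟨⟨0, 0, 0, 0, 0, 0, 23597, 0, 0, ⟨0,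 0⟩, 0⟩, 0, 76403⟩ 0 0)) (.void 21 ⟨⟨0, 0, 0, 0, 0, 0, 0, 0, 0, ⟨0, 0⟩, 0⟩, 0, 100000⟩ 0 0)) (.void 21 ⟨⟨0, 0, 0, 0, 0, 0, 0, 0, 0, ⟨0, 0⟩, 0⟩, 0, 100000⟩ 0 0)) (.void 22 ⟨⟨0, 0, 0, 0, 0, 0, 0, 0, 0, ⟨0, 0⟩, 0⟩, 19812, 80188⟩ 0 0)))),
    by decide +kernel⟩

theorem covers10 : cell.Covers Vale.Agent.P237.Petty.Cor.Grid.N11.table row10.1 :=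
  ⟨(.cut .d 0 (.cut .v 16777216 (.cut .d (-8388608) (.void 1 ⟨⟨0, 0, 0, 0, 0, 100000, 0, 0, 0, ⟨0, 0⟩, 0⟩, 0, 0⟩ 0 0) (.cut .d (-4194304) (.void 1 ⟨⟨0, 0, 0, 0, 0, 100000, 0, 0, 0, ⟨0, 0⟩, 0⟩, 0, 0⟩ 0 0) (.cut .d (-2097152) (.void 1 ⟨⟨0, 0, 0, 0, 0, 100000, 0, 0, 0, ⟨0, 0⟩, 0⟩, 0, 0⟩ 0 0) (.cut .d (-1048576) (.void 1 ⟨⟨0, 0, 0, 0, 0, 100000, 0, 0, 0, ⟨0, 0⟩, 0⟩, 0, 0⟩ 0 0) (.cut .d (-524288) (.void 1 ⟨⟨0, 0, 0, 0, 0, 100000, 0, 0, 0, ⟨0, 0⟩, 0⟩, 0, 0⟩ 0 0) (.cut .d (-262144) (.void 1 ⟨⟨0, 0, 0, 0, 0, 100000, 0, 0, 0, ⟨0, 0⟩, 0⟩, 0, 0⟩ 0 0) (.cut .d (-131072) (.void 1 ⟨⟨0, 0, 0, 0, 0, 100000, 0, 0, 0, ⟨0, 0⟩, 0⟩, 0, 0⟩ 0 0) (.cut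 .v 8388608 (.cut .v 4194304 (.void 4 ⟨⟨0, 0, 100000, 0, 0, 0, 0, 0, 0, ⟨0, 0⟩, 0⟩, 0, 0⟩ 0 0) (.pos 5 .mm ⟨⟨0, 0, 0, 0, 0, 6294383, 0, 0, 0, ⟨0, 0⟩, 0⟩, 0, 0⟩ 0 0)) (.cut .v 12582912 (.pos 6 .mm ⟨⟨0, 0, 0, 0, 0, 7344096, 0, 0, 0, ⟨0, 0⟩, 0⟩, 0, 0⟩ 0 0) (.cut .s 8814592 (.pos 7 .mm ⟨⟨0, 0, 0, 0, 0, 20559260, 0, 0, 0, ⟨0, 0⟩, 0⟩, 0, 0⟩ 0 0) (.pos 7 .mm ⟨⟨0, 0, 0, 0, 0, 24260986, 0, 0, 0, ⟨0, 0⟩, 0⟩, 0, 0⟩ 0 0))))))))))) (.cut .v 25165824 (.cut .d (-8388608) (.void 21 ⟨⟨0, 0, 0, 0, 0, 100000, 0, 0, 0, ⟨0, 0⟩, 0⟩, 0, 0⟩ 0 0) (.cut .v 20971520 (.cut .d (-4194304) (.void 23 ⟨⟨0, 0, 0, 0, 0, 100000, 0, 0, 0, ⟨0, 0⟩, 0⟩, 0, 0⟩ 0 0) (.cut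 .d (-2097152) (.void 23 ⟨⟨0, 0, 0, 0, 0, 100000, 0, 0, 0, ⟨0, 0⟩, 0⟩, 0, 0⟩ 0 0) (.cut .d (-1048576) (.void 23 ⟨⟨0, 0, 0, 0, 0, 100000, 0, 0, 0, ⟨0, 0⟩, 0⟩, 0, 0⟩ 0 0) (.cut .v 18874368 (.cut .d (-524288) (.void 25 ⟨⟨0, 0, 0, 0, 0, 100000, 0, 0, 0, ⟨0, 0⟩, 0⟩, 0, 0⟩ 0 0) (.cut .d (-262144) (.void 25 ⟨⟨0, 0, 0, 0, 0, 100000, 0, 0, 0, ⟨0, 0⟩, 0⟩, 0, 0⟩ 0 0) (.cut .d (-131072) (.void 25 ⟨⟨0, 0, 0, 0, 0, 100000, 0, 0, 0, ⟨0, 0⟩, 0⟩, 0, 0⟩ 0 0) (.cut .v 17825792 (.cut .v 17301504 (.cut .v 17039360 (.cut .d (-65536) (.cut .s 8814592 (.cut .v 16908288 (.pos 35 .mp ⟨⟨9811559, 0, 0, 0, 0, 10893984, 0, 0, 0, ⟨0, 0⟩, 0⟩, 0, 0⟩ 0 0) (.void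 36 ⟨⟨100000, 0, 0, 0, 0, 0, 0, 0, 0, ⟨0, 0⟩, 0⟩, 0, 0⟩ 0 0)) (.void 31 ⟨⟨0, 0, 0, 0, 0, 100000, 0, 0, 0, ⟨0, 0⟩, 0⟩, 0, 0⟩ 0 0)) (.cut .s 8814592 (.cut .v 16908288 (.cut .s 8699904 (.cut .s 8642560 (.cut .v 16842752 (.cut .d (-32768) (.pos 41 .mp ⟨⟨8906483, 0, 0, 0, 0, 8970125, 0, 0, 0, ⟨0, 0⟩, 0⟩, 0, 0⟩ 0 0) (.cut .s 8613888 (.pos 41 .mp ⟨⟨9638636, 0, 0, 0, 0, 7352377, 0, 0, 0, ⟨0, 0⟩, 0⟩, 0, 0⟩ 0 0) (.pos 41 .mp ⟨⟨9843075, 0, 0, 0, 0, 7460401, 0, 0, 0, ⟨0, 0⟩, 0⟩, 0, 0⟩ 0 0))) (.pos 42 .mp ⟨⟨12183204, 0, 0, 0, 0, 4642235, 0, 0, 0, ⟨0, 0⟩, 0⟩, 0, 0⟩ 0 0)) (.cut .v 16842752 (.cut .d (-32768) (.pos 41 .mp ⟨⟨9398418, 0, 0, 0, 0,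 9110780, 0, 0, 0, ⟨0, 0⟩, 0⟩, 0, 0⟩ 0 0) (.cut .s 8671232 (.pos 41 .mp ⟨⟨10054999, 0, 0, 0, 0, 7569545, 0, 0, 0, ⟨0, 0⟩, 0⟩, 0, 0⟩ 0 0) (.pos 41 .mp ⟨⟨10274845, 0, 0, 0, 0, 7679251, 0, 0, 0, ⟨0, 0⟩, 0⟩, 0, 0⟩ 0 0))) (.pos 42 .mp ⟨⟨12713703, 0, 0, 0, 0, 4729291, 0, 0, 0, ⟨0, 0⟩, 0⟩, 0, 0⟩ 0 0))) (.cut .s 8757248 (.cut .v 16842752 (.cut .d (-32768) (.pos 41 .mp ⟨⟨9913824, 0, 0, 0, 0, 9265670, 0, 0, 0, ⟨0, 0⟩, 0⟩, 0, 0⟩ 0 0) (.cut .s 8728576 (.pos 41 .mp ⟨⟨10548294, 0, 0, 0, 0, 7730193, 0, 0, 0, ⟨0, 0⟩, 0⟩, 0, 0⟩ 0 0) (.pos 41 .mp ⟨⟨10828196, 0, 0, 0, 0, 7783374, 0, 0, 0, ⟨0, 0⟩, 0⟩, 0, 0⟩ 0 0))) (.pos 42 .mp ⟨⟨13282322, 0, 0, 0,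 0, 4809282, 0, 0, 0, ⟨0, 0⟩, 0⟩, 0, 0⟩ 0 0)) (.cut .v 16842752 (.cut .d (-32768) (.pos 41 .mp ⟨⟨10453092, 0, 0, 0, 0, 9435172, 0, 0, 0, ⟨0, 0⟩, 0⟩, 0, 0⟩ 0 0) (.cut .s 8785920 (.pos 41 .mp ⟨⟨11114357, 0, 0, 0, 0, 7839059, 0, 0, 0, ⟨0, 0⟩, 0⟩, 0, 0⟩ 0 0) (.cut .s 8800256 (.pos 41 .mp ⟨⟨11469454, 0, 0, 0, 0, 7751360, 0, 0, 0, ⟨0, 0⟩, 0⟩, 0, 0⟩ 0 0) (.pos 41 .mp ⟨⟨11604003, 0, 0, 0, 0, 7798776, 0, 0, 0, ⟨0, 0⟩, 0⟩, 0, 0⟩ 0 0)))) (.pos 42 .mp ⟨⟨13894667, 0, 0, 0, 0, 4874808, 0, 0, 0, ⟨0, 0⟩, 0⟩, 0, 0⟩ 0 0)))) (.pos 36 .mp ⟨⟨17367944, 0, 0, 0, 0, 0, 0, 0, 0, ⟨0, 0⟩, 0⟩, 0, 0⟩ 0 0)) (.cut .v 16908288 (.cut .s 8929280 (.cut .s 8871936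 (.cut .v 16842752 (.cut .d (-32768) (.cut .s 8843264 (.pos 41 .mp ⟨⟨11016626, 0, 0, 0, 0, 9332774, 0, 0, 0, ⟨0, 0⟩, 0⟩, 0, 0⟩ 0 0) (.pos 41 .mp ⟨⟨11307623, 0, 0, 0, 0, 9423001, 0, 0, 0, ⟨0, 0⟩, 0⟩, 0, 0⟩ 0 0)) (.cut .l 167772 (.cut .v 16809984 (.cut .s 8843264 (.pos 45 .mp ⟨⟨11439991, 0, 0, 0, 0, 8319710, 0, 0, 0, ⟨0, 0⟩, 0⟩, 0, 0⟩ 0 0) (.pos 45 .mp ⟨⟨11686339, 0, 0, 0, 0, 8467411, 0, 0, 0, ⟨0, 0⟩, 0⟩, 0, 0⟩ 0 0)) (.pos 46 .mp ⟨⟨15025886, 0, 0, 0, 0, 4179167, 0, 0, 0, ⟨0, 0⟩, 0⟩, 0, 0⟩ 0 0)) (.pos 41 .mp ⟨⟨11461898, 0, 0, 0, 0, 7839890, 0, 0, 0, ⟨0, 0⟩, 0⟩, 0, 0⟩ 0 0))) (.cut .s 8843264 (.pos 42 .mp ⟨⟨13318885, 0, 0, 0, 0, 6216098,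 0, 0, 0, ⟨0, 0⟩, 0⟩, 0, 0⟩ 0 0) (.pos 42 .mp ⟨⟨13635357, 0, 0, 0, 0, 6267868, 0, 0, 0, ⟨0, 0⟩, 0⟩, 0, 0⟩ 0 0))) (.cut .v 16842752 (.cut .d (-32768) (.cut .s 8900608 (.pos 41 .mp ⟨⟨11604843, 0, 0, 0, 0, 9517087, 0, 0, 0, ⟨0, 0⟩, 0⟩, 0, 0⟩ 0 0) (.pos 41 .mp ⟨⟨11908342, 0, 0, 0, 0, 9615083, 0, 0, 0, ⟨0, 0⟩, 0⟩, 0, 0⟩ 0 0)) (.cut .l 167772 (.cut .v 16809984 (.cut .s 8900608 (.pos 45 .mp ⟨⟨11960785, 0, 0, 0, 0, 8587140, 0, 0, 0, ⟨0, 0⟩, 0⟩, 0, 0⟩ 0 0) (.pos 45 .mp ⟨⟨12258197, 0, 0, 0, 0, 8685855, 0, 0, 0, ⟨0, 0⟩, 0⟩, 0, 0⟩ 0 0)) (.pos 46 .mp ⟨⟨15747004, 0, 0, 0, 0, 4180734, 0, 0, 0, ⟨0, 0⟩, 0⟩, 0, 0⟩ 0 0)) (.pos 41 .mp ⟨⟨12070109, 0,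 0, 0, 0, 7982389, 0, 0, 0, ⟨0, 0⟩, 0⟩, 0, 0⟩ 0 0))) (.cut .s 8900608 (.pos 42 .mp ⟨⟨13966200, 0, 0, 0, 0, 6311557, 0, 0, 0, ⟨0, 0⟩, 0⟩, 0, 0⟩ 0 0) (.pos 42 .mp ⟨⟨14312147, 0, 0, 0, 0, 6346154, 0, 0, 0, ⟨0, 0⟩, 0⟩, 0, 0⟩ 0 0)))) (.cut .s 8986624 (.cut .v 16842752 (.cut .d (-32768) (.cut .s 8957952 (.pos 41 .mp ⟨⟨12218173, 0, 0, 0, 0, 9717042, 0, 0, 0, ⟨0, 0⟩, 0⟩, 0, 0⟩ 0 0) (.pos 41 .mp ⟨⟨12534393, 0, 0, 0, 0, 9823015, 0, 0, 0, ⟨0, 0⟩, 0⟩, 0, 0⟩ 0 0)) (.cut .l 167772 (.cut .v 16809984 (.cut .d (-16384) (.pos 45 .mp ⟨⟨12202022, 0, 0, 0, 0, 9996417, 0, 0, 0, ⟨0, 0⟩, 0⟩, 0, 0⟩ 0 0) (.cut .s 8957952 (.pos 45 .mp ⟨⟨12803578, 0, 0, 0,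 0, 8408162, 0, 0, 0, ⟨0, 0⟩, 0⟩, 0, 0⟩ 0 0) (.pos 45 .mp ⟨⟨13128165, 0, 0, 0, 0, 8489059, 0, 0, 0, ⟨0, 0⟩, 0⟩, 0, 0⟩ 0 0))) (.pos 46 .mp ⟨⟨16529142, 0, 0, 0, 0, 4144074, 0, 0, 0, ⟨0, 0⟩, 0⟩, 0, 0⟩ 0 0)) (.pos 41 .mp ⟨⟨12702850, 0, 0, 0, 0, 8126888, 0, 0, 0, ⟨0, 0⟩, 0⟩, 0, 0⟩ 0 0))) (.cut .s 8957952 (.pos 42 .mp ⟨⟨14673934, 0, 0, 0, 0, 6370634, 0, 0, 0, ⟨0, 0⟩, 0⟩, 0, 0⟩ 0 0) (.pos 42 .mp ⟨⟨15052302, 0, 0, 0, 0, 6383956, 0, 0, 0, ⟨0, 0⟩, 0⟩, 0, 0⟩ 0 0))) (.cut .v 16842752 (.cut .d (-32768) (.cut .s 9015296 (.pos 41 .mp ⟨⟨12857059, 0, 0, 0, 0, 9933058, 0, 0, 0, ⟨0, 0⟩, 0⟩, 0, 0⟩ 0 0) (.pos 41 .mp ⟨⟨13186227, 0, 0, 0, 0, 10047224,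 0, 0, 0, ⟨0, 0⟩, 0⟩, 0, 0⟩ 0 0)) (.cut .l 167772 (.cut .v 16809984 (.cut .s 9015296 (.pos 45 .mp ⟨⟨13223926, 0, 0, 0, 0, 8944282, 0, 0, 0, ⟨0, 0⟩, 0⟩, 0, 0⟩ 0 0) (.pos 45 .mp ⟨⟨13571797, 0, 0, 0, 0, 9015575, 0, 0, 0, ⟨0, 0⟩, 0⟩, 0, 0⟩ 0 0)) (.pos 46 .mp ⟨⟨17378165, 0, 0, 0, 0, 4060960, 0, 0, 0, ⟨0, 0⟩, 0⟩, 0, 0⟩ 0 0)) (.pos 41 .mp ⟨⟨13360575, 0, 0, 0, 0, 8271704, 0, 0, 0, ⟨0, 0⟩, 0⟩, 0, 0⟩ 0 0))) (.cut .s 9015296 (.pos 42 .mp ⟨⟨15447999, 0, 0, 0, 0, 6385066, 0, 0, 0, ⟨0, 0⟩, 0⟩, 0, 0⟩ 0 0) (.pos 42 .mp ⟨⟨15861776, 0, 0, 0, 0, 6372897, 0, 0, 0, ⟨0, 0⟩, 0⟩, 0, 0⟩ 0 0))))) (.pos 36 .mp ⟨⟨20154329, 0, 0, 0, 0, 0, 0, 0, 0, ⟨0, 0⟩, 0⟩,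 0, 0⟩ 0 0)))) (.pos 32 .mp ⟨⟨22073974, 0, 0, 0, 0, 0, 0, 0, 0, ⟨0, 0⟩, 0⟩, 0, 0⟩ 0 0)) (.void 30 ⟨⟨100000, 0, 0, 0, 0, 0, 0, 0, 0, ⟨0, 0⟩, 0⟩, 0, 0⟩ 0 0)) (.void 28 ⟨⟨100000, 0, 0, 0, 0, 0, 0, 0, 0, ⟨0, 0⟩, 0⟩, 0, 0⟩ 0 0))))) (.void 26 ⟨⟨100000, 0, 0, 0, 0, 0, 0, 0, 0, ⟨0, 0⟩, 0⟩, 0, 0⟩ 0 0))))) (.void 24 ⟨⟨100000, 0, 0, 0, 0, 0, 0, 0, 0, ⟨0, 0⟩, 0⟩, 0, 0⟩ 0 0))) (.void 22 ⟨⟨100000, 0, 0, 0, 0, 0, 0, 0, 0, ⟨0, 0⟩, 0⟩, 0, 0⟩ 0 0))) (.cut .v 16777216 (.cut .d 5647043 (.cut .d 2823521 (.cut .d 1411760 (.cut .v 8388608 (.cut .v 4194304 (.void 4 ⟨⟨0, 0, 100000, 0, 0, 0, 0, 0, 0, ⟨0, 0⟩, 0⟩, 0, 0⟩ 0 0) (.pos 5 .pm ⟨⟨0, 0, 0, 0, 0, 0,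 0, 0, 0, ⟨0, 0⟩, 0⟩, 0, 0⟩ 0 0)) (.cut .v 12582912 (.pos 6 .pm ⟨⟨0, 0, 0, 0, 0, 0, 0, 0, 0, ⟨0, 0⟩, 0⟩, 0, 0⟩ 0 0) (.pos 7 .pm ⟨⟨0, 0, 0, 0, 0, 0, 0, 0, 0, ⟨0, 0⟩, 0⟩, 0, 0⟩ 0 0))) (.void 1 ⟨⟨0, 0, 0, 0, 0, 0, 0, 0, 0, ⟨0, 0⟩, 0⟩, 0, 100000⟩ 0 0)) (.void 1 ⟨⟨0, 0, 0, 0, 0, 0, 0, 0, 0, ⟨0, 0⟩, 0⟩, 0, 100000⟩ 0 0)) (.void 1 ⟨⟨0, 0, 0, 0, 0, 0, 0, 0, 0, ⟨0, 0⟩, 0⟩, 0, 100000⟩ 0 0)) (.cut .v 25165824 (.cut .d 5647043 (.cut .d 2823521 (.cut .v 20971520 (.cut .d 1411760 (.cut .d 705880 (.cut .v 18874368 (.cut .d 352940 (.cut .v 17825792 (.cut .s 8814592 (.pos 27 .pp ⟨⟨12420011, 0, 0, 0, 0, 0, 0, 0, 0, ⟨0, 0⟩, 0⟩, 226136, 0⟩ 0 0) (.pos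 27 .pp ⟨⟨15364399, 0, 0, 0, 0, 0, 0, 0, 0, ⟨0, 0⟩, 0⟩, 184679, 0⟩ 0 0)) (.pos 28 .pp ⟨⟨20536847, 0, 0, 0, 0, 0, 0, 0, 0, ⟨0, 0⟩, 0⟩, 0, 0⟩ 0 0)) (.pos 25 .pp ⟨⟨10053443, 0, 0, 0, 0, 0, 0, 0, 0, ⟨0, 0⟩, 0⟩, 0, 360874⟩ 0 0)) (.pos 26 .pp ⟨⟨25170336, 0, 0, 0, 0, 0, 0, 0, 0, ⟨0, 0⟩, 0⟩, 0, 0⟩ 0 0)) (.cut .v 18874368 (.pos 25 .pp ⟨⟨0, 0, 0, 0, 0, 0, 0, 0, 0, ⟨0, 0⟩, 0⟩, 0, 728500⟩ 0 0) (.pos 26 .pp ⟨⟨12335770, 0, 0, 0, 0, 0, 0, 0, 0, ⟨0, 0⟩, 0⟩, 0, 346233⟩ 0 0))) (.void 23 ⟨⟨0, 0, 0, 0, 0, 0, 0, 0, 0, ⟨0, 0⟩, 0⟩, 0, 100000⟩ 0 0)) (.cut .d 1411760 (.cut .d 705880 (.void 24 ⟨⟨100000, 0, 0, 0, 0, 0, 0, 0, 0, ⟨0, 0⟩, 0⟩, 0, 0⟩ 0 0) (.cut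 .l 167772 (.void 24 ⟨⟨63569, 0, 0, 0, 0, 0, 0, 0, 0, ⟨0, 0⟩, 0⟩, 0, 36431⟩ 0 0) (.cut .v 23068672 (.cut .d 1058820 (.pos 53 .pp ⟨⟨27583179, 0, 0, 0, 0, 0, 0, 0, 0, ⟨0, 0⟩, 0⟩, 0, 0⟩ 0 0) (.pos 53 .pp ⟨⟨17597316, 0, 0, 0, 0, 0, 535289, 0, 0, ⟨0, 0⟩, 0⟩, 0, 0⟩ 0 0)) (.cut .v 24117248 (.cut .d 1058820 (.void 59 ⟨⟨0, 0, 0, 0, 0, 0, 0, 0, 0, ⟨0, 0⟩, 0⟩, 100000, 0⟩ 0 0) (.pos 59 .pp ⟨⟨26942116, 0, 0, 0, 0, 0, 9206513, 0, 0, ⟨0, 0⟩, 0⟩, 0, 0⟩ 0 0)) (.void 60 ⟨⟨0, 0, 0, 0, 0, 0, 100000, 0, 0, ⟨0, 0⟩, 0⟩, 0, 0⟩ 0 0))))) (.pos 24 .pp ⟨⟨0, 0, 0, 0, 0, 0, 28566869, 0, 0, ⟨0, 0⟩, 0⟩, 0, 0⟩ 0 0))) (.void 21 ⟨⟨0, 0, 0, 0, 0, 0, 0, 0, 0, ⟨0, 0⟩,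 0⟩, 0, 100000⟩ 0 0)) (.void 21 ⟨⟨0, 0, 0, 0, 0, 0, 0, 0, 0, ⟨0, 0⟩, 0⟩, 0, 100000⟩ 0 0)) (.void 22 ⟨⟨0, 0, 0, 0, 0, 0, 100000, 0, 0, ⟨0, 0⟩, 0⟩, 0, 0⟩ 0 0)))),
    by decide +kernel⟩

theorem covers11 : cell.Covers Vale.Agent.P237.Petty.Cor.Grid.N11.table row11.1 :=
  ⟨(.cut .d 0 (.cut .v 16777216 (.cut .d (-8388608) (.void 1 ⟨⟨0, 0, 0, 0, 0, 100000, 0, 0, 0, ⟨0, 0⟩, 0⟩, 0, 0⟩ 0 0) (.cut .d (-4194304) (.void 1 ⟨⟨0, 0, 0, 0, 0, 100000, 0, 0, 0, ⟨0, 0⟩, 0⟩, 0, 0⟩ 0 0) (.cut .d (-2097152) (.void 1 ⟨⟨0, 0, 0, 0, 0, 100000, 0, 0, 0, ⟨0, 0⟩, 0⟩, 0, 0⟩ 0 0) (.cut .d (-1048576) (.void 1 ⟨⟨0, 0, 0, 0, 0, 100000, 0, 0, 0, ⟨0, 0⟩, 0⟩, 0,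 0⟩ 0 0) (.cut .d (-524288) (.void 1 ⟨⟨0, 0, 0, 0, 0, 100000, 0, 0, 0, ⟨0, 0⟩, 0⟩, 0, 0⟩ 0 0) (.cut .d (-262144) (.void 1 ⟨⟨0, 0, 0, 0, 0, 100000, 0, 0, 0, ⟨0, 0⟩, 0⟩, 0, 0⟩ 0 0) (.cut .d (-131072) (.void 1 ⟨⟨0, 0, 0, 0, 0, 100000, 0, 0, 0, ⟨0, 0⟩, 0⟩, 0, 0⟩ 0 0) (.cut .d (-65536) (.void 1 ⟨⟨0, 0, 0, 0, 0, 100000, 0, 0, 0, ⟨0, 0⟩, 0⟩, 0, 0⟩ 0 0) (.cut .v 8388608 (.cut .v 4194304 (.void 4 ⟨⟨0, 0, 100000, 0, 0, 0, 0, 0, 0, ⟨0, 0⟩, 0⟩, 0, 0⟩ 0 0) (.pos 5 .mm ⟨⟨0, 0, 0, 0, 0, 8683764, 0, 0, 0, ⟨0, 0⟩, 0⟩, 0, 0⟩ 0 0)) (.cut .v 12582912 (.pos 6 .mm ⟨⟨0, 0, 0, 0, 0, 11267515, 0, 0, 0, ⟨0, 0⟩, 0⟩, 0, 0⟩ 0 0) (.cut .s 9306112 (.pos 7 .mm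 ⟨⟨0, 0, 0, 0, 0, 29137268, 0, 0, 0, ⟨0, 0⟩, 0⟩, 0, 0⟩ 0 0) (.pos 7 .mm ⟨⟨0, 0, 0, 0, 0, 35411893, 0, 0, 0, ⟨0, 0⟩, 0⟩, 0, 0⟩ 0 0)))))))))))) (.cut .v 25165824 (.cut .d (-8388608) (.void 21 ⟨⟨0, 0, 0, 0, 0, 100000, 0, 0, 0, ⟨0, 0⟩, 0⟩, 0, 0⟩ 0 0) (.cut .v 20971520 (.cut .d (-4194304) (.void 23 ⟨⟨0, 0, 0, 0, 0, 100000, 0, 0, 0, ⟨0, 0⟩, 0⟩, 0, 0⟩ 0 0) (.cut .v 18874368 (.cut .d (-2097152) (.void 25 ⟨⟨0, 0, 0, 0, 0, 100000, 0, 0, 0, ⟨0, 0⟩, 0⟩, 0, 0⟩ 0 0) (.cut .d (-1048576) (.void 25 ⟨⟨100000, 0, 0, 0, 0, 0, 0, 0, 0, ⟨0, 0⟩, 0⟩, 0, 0⟩ 0 0) (.cut .d (-524288) (.void 25 ⟨⟨100000, 0, 0, 0, 0, 0, 0, 0, 0, ⟨0, 0⟩, 0⟩, 0, 0⟩ 0 0) (.cut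 .d (-262144) (.void 25 ⟨⟨0, 0, 0, 0, 0, 100000, 0, 0, 0, ⟨0, 0⟩, 0⟩, 0, 0⟩ 0 0) (.cut .v 17825792 (.cut .d (-131072) (.void 27 ⟨⟨0, 0, 0, 0, 0, 100000, 0, 0, 0, ⟨0, 0⟩, 0⟩, 0, 0⟩ 0 0) (.cut .d (-65536) (.void 27 ⟨⟨0, 0, 0, 0, 0, 100000, 0, 0, 0, ⟨0, 0⟩, 0⟩, 0, 0⟩ 0 0) (.cut .v 17301504 (.cut .v 17039360 (.cut .s 9306112 (.cut .v 16908288 (.cut .s 9175040 (.cut .s 9109504 (.cut .v 16842752 (.cut .s 9076736 (.cut .d (-32768) (.pos 41 .mp ⟨⟨13523799, 0, 0, 0, 0, 10207387, 0, 0, 0, ⟨0, 0⟩, 0⟩, 0, 0⟩ 0 0) (.cut .s 9060352 (.pos 41 .mp ⟨⟨14271988, 0, 0, 0, 0, 8534146, 0, 0, 0, ⟨0, 0⟩, 0⟩, 0, 0⟩ 0 0) (.pos 41 .mp ⟨⟨14451408, 0, 0, 0,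 0, 8595519, 0, 0, 0, ⟨0, 0⟩, 0⟩, 0, 0⟩ 0 0))) (.cut .d (-32768) (.pos 41 .mp ⟨⟨13916288, 0, 0, 0, 0, 10304463, 0, 0, 0, ⟨0, 0⟩, 0⟩, 0, 0⟩ 0 0) (.cut .s 9093120 (.pos 41 .mp ⟨⟨14633625, 0, 0, 0, 0, 8658053, 0, 0, 0, ⟨0, 0⟩, 0⟩, 0, 0⟩ 0 0) (.pos 41 .mp ⟨⟨14818755, 0, 0, 0, 0, 8721598, 0, 0, 0, ⟨0, 0⟩, 0⟩, 0, 0⟩ 0 0)))) (.cut .s 9076736 (.pos 42 .mp ⟨⟨16359435, 0, 0, 0, 0, 6308633, 0, 0, 0, ⟨0, 0⟩, 0⟩, 0, 0⟩ 0 0) (.pos 42 .mp ⟨⟨16762785, 0, 0, 0, 0, 6386190, 0, 0, 0, ⟨0, 0⟩, 0⟩, 0, 0⟩ 0 0))) (.cut .d (-32768) (.cut .d (-49152) (.pos 35 .mp ⟨⟨14658187, 0, 0, 0, 0, 11039624, 0, 0, 0, ⟨0, 0⟩, 0⟩, 0, 0⟩ 0 0) (.cut .v 16842752 (.cut .s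 9142272 (.pos 41 .mp ⟨⟨14319084, 0, 0, 0, 0, 10407662, 0, 0, 0, ⟨0, 0⟩, 0⟩, 0, 0⟩ 0 0) (.pos 41 .mp ⟨⟨14732296, 0, 0, 0, 0, 10517081, 0, 0, 0, ⟨0, 0⟩, 0⟩, 0, 0⟩ 0 0)) (.pos 42 .mp ⟨⟨18235659, 0, 0, 0, 0, 5379345, 0, 0, 0, ⟨0, 0⟩, 0⟩, 0, 0⟩ 0 0))) (.cut .v 16842752 (.cut .l 167772 (.cut .v 16809984 (.cut .d (-16384) (.pos 45 .mp ⟨⟨14297640, 0, 0, 0, 0, 10804257, 0, 0, 0, ⟨0, 0⟩, 0⟩, 0, 0⟩ 0 0) (.cut .l 83886 (.cut .v 16793600 (.cut .d (-8192) (.pos 55 .mp ⟨⟨14287500, 0, 0, 0, 0, 10783132, 0, 0, 0, ⟨0, 0⟩, 0⟩, 0, 0⟩ 0 0) (.cut .s 9142272 (.pos 55 .mp ⟨⟨14854263, 0, 0, 0, 0, 9042964, 0, 0, 0, ⟨0, 0⟩, 0⟩, 0, 0⟩ 0 0) (.pos 55 .mp ⟨⟨15245699,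 0, 0, 0, 0, 9169898, 0, 0, 0, ⟨0, 0⟩, 0⟩, 0, 0⟩ 0 0))) (.pos 56 .mp ⟨⟨19667957, 0, 0, 0, 0, 3388904, 0, 0, 0, ⟨0, 0⟩, 0⟩, 0, 0⟩ 0 0)) (.pos 45 .mp ⟨⟨14979647, 0, 0, 0, 0, 8373945, 0, 0, 0, ⟨0, 0⟩, 0⟩, 0, 0⟩ 0 0))) (.pos 46 .mp ⟨⟨19416625, 0, 0, 0, 0, 3798328, 0, 0, 0, ⟨0, 0⟩, 0⟩, 0, 0⟩ 0 0)) (.pos 41 .mp ⟨⟨15126722, 0, 0, 0, 0, 8299308, 0, 0, 0, ⟨0, 0⟩, 0⟩, 0, 0⟩ 0 0)) (.pos 42 .mp ⟨⟨21680016, 0, 0, 0, 0, 0, 0, 0, 0, ⟨0, 0⟩, 0⟩, 0, 0⟩ 0 0)))) (.cut .s 9240576 (.cut .d (-32768) (.cut .d (-49152) (.pos 35 .mp ⟨⟨15512263, 0, 0, 0, 0, 11314648, 0, 0, 0, ⟨0, 0⟩, 0⟩, 0, 0⟩ 0 0) (.cut .v 16842752 (.cut .s 9207808 (.pos 41 .mp ⟨⟨15156030,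 0, 0, 0, 0, 10632819, 0, 0, 0, ⟨0, 0⟩, 0⟩, 0, 0⟩ 0 0) (.pos 41 .mp ⟨⟨15590397, 0, 0, 0, 0, 10754975, 0, 0, 0, ⟨0, 0⟩, 0⟩, 0, 0⟩ 0 0)) (.pos 42 .mp ⟨⟨19242637, 0, 0, 0, 0, 5379908, 0, 0, 0, ⟨0, 0⟩, 0⟩, 0, 0⟩ 0 0))) (.cut .v 16842752 (.cut .l 167772 (.cut .v 16809984 (.cut .s 9207808 (.cut .s 9191424 (.pos 45 .mp ⟨⟨15852011, 0, 0, 0, 0, 8953157, 0, 0, 0, ⟨0, 0⟩, 0⟩, 0, 0⟩ 0 0) (.pos 45 .mp ⟨⟨16054969, 0, 0, 0, 0, 9022717, 0, 0, 0, ⟨0, 0⟩, 0⟩, 0, 0⟩ 0 0)) (.cut .s 9224192 (.pos 45 .mp ⟨⟨16261842, 0, 0, 0, 0, 9091923, 0, 0, 0, ⟨0, 0⟩, 0⟩, 0, 0⟩ 0 0) (.pos 45 .mp ⟨⟨16469784, 0, 0, 0, 0, 9165307, 0, 0, 0, ⟨0, 0⟩, 0⟩, 0, 0⟩ 0 0))) (.pos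 46 .mp ⟨⟨20407434, 0, 0, 0, 0, 3815763, 0, 0, 0, ⟨0, 0⟩, 0⟩, 0, 0⟩ 0 0)) (.pos 41 .mp ⟨⟨16030507, 0, 0, 0, 0, 8425771, 0, 0, 0, ⟨0, 0⟩, 0⟩, 0, 0⟩ 0 0)) (.pos 42 .mp ⟨⟨22653315, 0, 0, 0, 0, 0, 0, 0, 0, ⟨0, 0⟩, 0⟩, 0, 0⟩ 0 0))) (.cut .d (-32768) (.cut .d (-49152) (.pos 35 .mp ⟨⟨16409893, 0, 0, 0, 0, 11615090, 0, 0, 0, ⟨0, 0⟩, 0⟩, 0, 0⟩ 0 0) (.cut .v 16842752 (.cut .s 9273344 (.pos 41 .mp ⟨⟨16035510, 0, 0, 0, 0, 10883649, 0, 0, 0, ⟨0, 0⟩, 0⟩, 0, 0⟩ 0 0) (.pos 41 .mp ⟨⟨16491482, 0, 0, 0, 0, 11018947, 0, 0, 0, ⟨0, 0⟩, 0⟩, 0, 0⟩ 0 0)) (.pos 42 .mp ⟨⟨20319736, 0, 0, 0, 0, 5363132, 0, 0, 0, ⟨0, 0⟩, 0⟩, 0, 0⟩ 0 0))) (.cut .v 16842752 (.cut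 .l 167772 (.cut .s 9273344 (.cut .s 9256960 (.pos 41 .mp ⟨⟨16792822, 0, 0, 0, 0, 9093983, 0, 0, 0, ⟨0, 0⟩, 0⟩, 0, 0⟩ 0 0) (.pos 41 .mp ⟨⟨17028311, 0, 0, 0, 0, 9140237, 0, 0, 0, ⟨0, 0⟩, 0⟩, 0, 0⟩ 0 0)) (.cut .s 9289728 (.pos 41 .mp ⟨⟨17266630, 0, 0, 0, 0, 9187427, 0, 0, 0, ⟨0, 0⟩, 0⟩, 0, 0⟩ 0 0) (.pos 41 .mp ⟨⟨17507795, 0, 0, 0, 0, 9235523, 0, 0, 0, ⟨0, 0⟩, 0⟩, 0, 0⟩ 0 0))) (.pos 41 .mp ⟨⟨16975529, 0, 0, 0, 0, 8567546, 0, 0, 0, ⟨0, 0⟩, 0⟩, 0, 0⟩ 0 0)) (.pos 42 .mp ⟨⟨23685274, 0, 0, 0, 0, 0, 0, 0, 0, ⟨0, 0⟩, 0⟩, 0, 0⟩ 0 0))))) (.pos 36 .mp ⟨⟨23865278, 0, 0, 0, 0, 0, 0, 0, 0, ⟨0, 0⟩, 0⟩, 0, 0⟩ 0 0)) (.cut .v 16908288 (.cut .s 9437184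 (.cut .s 9371648 (.cut .d (-32768) (.cut .d (-49152) (.pos 35 .mp ⟨⟨17352945, 0, 0, 0, 0, 11939787, 0, 0, 0, ⟨0, 0⟩, 0⟩, 0, 0⟩ 0 0) (.cut .v 16842752 (.cut .s 9338880 (.pos 41 .mp ⟨⟨16958430, 0, 0, 0, 0, 11160971, 0, 0, 0, ⟨0, 0⟩, 0⟩, 0, 0⟩ 0 0) (.pos 41 .mp ⟨⟨17436473, 0, 0, 0, 0, 11309830, 0, 0, 0, ⟨0, 0⟩, 0⟩, 0, 0⟩ 0 0)) (.pos 42 .mp ⟨⟨21479192, 0, 0, 0, 0, 5312243, 0, 0, 0, ⟨0, 0⟩, 0⟩, 0, 0⟩ 0 0))) (.cut .v 16842752 (.cut .l 167772 (.cut .s 9338880 (.cut .s 9322496 (.pos 41 .mp ⟨⟨17751820, 0, 0, 0, 0, 9284496, 0, 0, 0, ⟨0, 0⟩, 0⟩, 0, 0⟩ 0 0) (.pos 41 .mp ⟨⟨17998723, 0, 0, 0, 0, 9334317, 0, 0, 0, ⟨0, 0⟩, 0⟩, 0, 0⟩ 0 0)) (.cut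 .s 9355264 (.pos 41 .mp ⟨⟨18248517, 0, 0, 0, 0, 9384956, 0, 0, 0, ⟨0, 0⟩, 0⟩, 0, 0⟩ 0 0) (.pos 41 .mp ⟨⟨18501219, 0, 0, 0, 0, 9436382, 0, 0, 0, ⟨0, 0⟩, 0⟩, 0, 0⟩ 0 0))) (.pos 41 .mp ⟨⟨17962728, 0, 0, 0, 0, 8721045, 0, 0, 0, ⟨0, 0⟩, 0⟩, 0, 0⟩ 0 0)) (.pos 42 .mp ⟨⟨24777107, 0, 0, 0, 0, 0, 0, 0, 0, ⟨0, 0⟩, 0⟩, 0, 0⟩ 0 0))) (.cut .d (-32768) (.cut .d (-49152) (.pos 35 .mp ⟨⟨18346197, 0, 0, 0, 0, 12281565, 0, 0, 0, ⟨0, 0⟩, 0⟩, 0, 0⟩ 0 0) (.cut .v 16842752 (.cut .s 9404416 (.pos 41 .mp ⟨⟨17925732, 0, 0, 0, 0, 11465630, 0, 0, 0, ⟨0, 0⟩, 0⟩, 0, 0⟩ 0 0) (.pos 41 .mp ⟨⟨18426330, 0, 0, 0, 0, 11628481, 0, 0, 0, ⟨0, 0⟩, 0⟩, 0, 0⟩ 0 0)) (.pos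 42 .mp ⟨⟨22733422, 0, 0, 0, 0, 5209928, 0, 0, 0, ⟨0, 0⟩, 0⟩, 0, 0⟩ 0 0))) (.cut .v 16842752 (.cut .l 167772 (.cut .s 9404416 (.cut .s 9388032 (.pos 41 .mp ⟨⟨18756845, 0, 0, 0, 0, 9488566, 0, 0, 0, ⟨0, 0⟩, 0⟩, 0, 0⟩ 0 0) (.pos 41 .mp ⟨⟨19015412, 0, 0, 0, 0, 9541477, 0, 0, 0, ⟨0, 0⟩, 0⟩, 0, 0⟩ 0 0)) (.cut .s 9420800 (.pos 41 .mp ⟨⟨19276934, 0, 0, 0, 0, 9595083, 0, 0, 0, ⟨0, 0⟩, 0⟩, 0, 0⟩ 0 0) (.pos 41 .mp ⟨⟨19541429, 0, 0, 0, 0, 9649353, 0, 0, 0, ⟨0, 0⟩, 0⟩, 0, 0⟩ 0 0))) (.pos 41 .mp ⟨⟨18993077, 0, 0, 0, 0, 8882656, 0, 0, 0, ⟨0, 0⟩, 0⟩, 0, 0⟩ 0 0)) (.pos 42 .mp ⟨⟨25930073, 0, 0, 0, 0, 0, 0, 0, 0, ⟨0, 0⟩, 0⟩, 0, 0⟩ 0 0)))) (.cut .s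 9502720 (.cut .d (-32768) (.cut .d (-49152) (.pos 35 .mp ⟨⟨19383067, 0, 0, 0, 0, 12656994, 0, 0, 0, ⟨0, 0⟩, 0⟩, 0, 0⟩ 0 0) (.cut .v 16842752 (.cut .s 9469952 (.pos 41 .mp ⟨⟨18938392, 0, 0, 0, 0, 11798497, 0, 0, 0, ⟨0, 0⟩, 0⟩, 0, 0⟩ 0 0) (.pos 41 .mp ⟨⟨19462046, 0, 0, 0, 0, 11975789, 0, 0, 0, ⟨0, 0⟩, 0⟩, 0, 0⟩ 0 0)) (.pos 42 .mp ⟨⟨24095047, 0, 0, 0, 0, 5038302, 0, 0, 0, ⟨0, 0⟩, 0⟩, 0, 0⟩ 0 0))) (.cut .v 16842752 (.cut .l 167772 (.cut .s 9469952 (.cut .s 9453568 (.pos 41 .mp ⟨⟨19808913, 0, 0, 0, 0, 9704255, 0, 0, 0, ⟨0, 0⟩, 0⟩, 0, 0⟩ 0 0) (.pos 41 .mp ⟨⟨20079404, 0, 0, 0, 0, 9759756, 0, 0, 0, ⟨0, 0⟩, 0⟩, 0, 0⟩ 0 0)) (.cut .s 9486336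 (.pos 41 .mp ⟨⟨20352917, 0, 0, 0, 0, 9815825, 0, 0, 0, ⟨0, 0⟩, 0⟩, 0, 0⟩ 0 0) (.pos 41 .mp ⟨⟨20629469, 0, 0, 0, 0, 9872428, 0, 0, 0, ⟨0, 0⟩, 0⟩, 0, 0⟩ 0 0))) (.pos 41 .mp ⟨⟨20067583, 0, 0, 0, 0, 9048748, 0, 0, 0, ⟨0, 0⟩, 0⟩, 0, 0⟩ 0 0)) (.pos 42 .mp ⟨⟨27145481, 0, 0, 0, 0, 0, 0, 0, 0, ⟨0, 0⟩, 0⟩, 0, 0⟩ 0 0))) (.cut .d (-32768) (.cut .s 9535488 (.cut .s 9519104 (.pos 35 .mp ⟨⟨20197245, 0, 0, 0, 0, 11814381, 0, 0, 0, ⟨0, 0⟩, 0⟩, 0, 0⟩ 0 0) (.pos 35 .mp ⟨⟨20471588, 0, 0, 0, 0, 11904956, 0, 0, 0, ⟨0, 0⟩, 0⟩, 0, 0⟩ 0 0)) (.pos 35 .mp ⟨⟨20748933, 0, 0, 0, 0, 12403365, 0, 0, 0, ⟨0, 0⟩, 0⟩, 0, 0⟩ 0 0)) (.cut .v 16842752 (.cut .l 167772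 (.cut .s 9535488 (.cut .s 9519104 (.pos 41 .mp ⟨⟨20909079, 0, 0, 0, 0, 9929533, 0, 0, 0, ⟨0, 0⟩, 0⟩, 0, 0⟩ 0 0) (.pos 41 .mp ⟨⟨21191764, 0, 0, 0, 0, 9987104, 0, 0, 0, ⟨0, 0⟩, 0⟩, 0, 0⟩ 0 0)) (.cut .s 9551872 (.pos 41 .mp ⟨⟨21477540, 0, 0, 0, 0, 10045109, 0, 0, 0, ⟨0, 0⟩, 0⟩, 0, 0⟩ 0 0) (.pos 41 .mp ⟨⟨21766426, 0, 0, 0, 0, 10103513, 0, 0, 0, ⟨0, 0⟩, 0⟩, 0, 0⟩ 0 0))) (.pos 41 .mp ⟨⟨21187284, 0, 0, 0, 0, 9215656, 0, 0, 0, ⟨0, 0⟩, 0⟩, 0, 0⟩ 0 0)) (.pos 42 .mp ⟨⟨28424690, 0, 0, 0, 0, 0, 0, 0, 0, ⟨0, 0⟩, 0⟩, 0, 0⟩ 0 0))))) (.pos 36 .mp ⟨⟨28430041, 0, 0, 0, 0, 0, 0, 0, 0, ⟨0, 0⟩, 0⟩, 0, 0⟩ 0 0))) (.pos 32 .mp ⟨⟨29104363, 0, 0, 0, 0, 0,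 0, 0, 0, ⟨0, 0⟩, 0⟩, 0, 0⟩ 0 0)) (.void 30 ⟨⟨100000, 0, 0, 0, 0, 0, 0, 0, 0, ⟨0, 0⟩, 0⟩, 0, 0⟩ 0 0)))) (.void 28 ⟨⟨100000, 0, 0, 0, 0, 0, 0, 0, 0, ⟨0, 0⟩, 0⟩, 0, 0⟩ 0 0)))))) (.void 26 ⟨⟨100000, 0, 0, 0, 0, 0, 0, 0, 0, ⟨0, 0⟩, 0⟩, 0, 0⟩ 0 0))) (.void 24 ⟨⟨100000, 0, 0, 0, 0, 0, 0, 0, 0, ⟨0, 0⟩, 0⟩, 0, 0⟩ 0 0))) (.void 22 ⟨⟨100000, 0, 0, 0, 0, 0, 0, 0, 0, ⟨0, 0⟩, 0⟩, 0, 0⟩ 0 0))) (.cut .v 16777216 (.cut .d 6657138 (.cut .d 3328569 (.cut .v 8388608 (.cut .v 4194304 (.void 4 ⟨⟨0, 0, 66667, 0, 0, 0, 0, 0, 0, ⟨0, 0⟩, 0⟩, 0, 33333⟩ 0 0) (.pos 5 .pm ⟨⟨0, 0, 0, 0, 0, 0, 0, 0, 0, ⟨0, 0⟩, 0⟩, 0, 0⟩ 0 0)) (.pos 3 .pm ⟨⟨0, 0, 0, 0, 0, 0, 0,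 0, 0, ⟨0, 0⟩, 0⟩, 0, 0⟩ 0 0)) (.void 1 ⟨⟨0, 0, 0, 0, 0, 0, 0, 0, 0, ⟨0, 0⟩, 0⟩, 0, 100000⟩ 0 0)) (.void 1 ⟨⟨0, 0, 0, 0, 0, 0, 0, 0, 0, ⟨0, 0⟩, 0⟩, 0, 100000⟩ 0 0)) (.cut .d 6657138 (.cut .d 3328569 (.cut .v 25165824 (.cut .d 1664284 (.cut .v 20971520 (.cut .d 832142 (.cut .v 18874368 (.cut .d 416071 (.cut .v 17825792 (.cut .d 208035 (.cut .s 9306112 (.pos 27 .pp ⟨⟨18752396, 0, 0, 0, 0, 0, 0, 0, 0, ⟨0, 0⟩, 0⟩, 232710, 0⟩ 0 0) (.cut .s 9437184 (.pos 27 .pp ⟨⟨19443179, 0, 0, 0, 0, 0, 0, 0, 0, ⟨0, 0⟩, 0⟩, 603233, 0⟩ 0 0) (.pos 27 .pp ⟨⟨21930975, 0, 0, 0, 0, 0, 0, 0, 0, ⟨0, 0⟩, 0⟩, 586538, 0⟩ 0 0))) (.pos 27 .pp ⟨⟨13307185, 0, 0, 0,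 0, 0, 0, 0, 0, ⟨0, 0⟩, 0⟩, 0, 286833⟩ 0 0)) (.pos 28 .pp ⟨⟨28231825, 0, 0, 0, 0, 0, 0, 0, 0, ⟨0, 0⟩, 0⟩, 0, 0⟩ 0 0)) (.pos 25 .pp ⟨⟨13794715, 0, 0, 0, 0, 0, 0, 0, 0, ⟨0, 0⟩, 0⟩, 0, 309859⟩ 0 0)) (.cut .d 416071 (.pos 26 .pp ⟨⟨39574418, 0, 0, 0, 0, 0, 0, 0, 0, ⟨0, 0⟩, 0⟩, 0, 0⟩ 0 0) (.cut .v 19922944 (.pos 47 .pp ⟨⟨22688359, 0, 0, 0, 0, 0, 0, 0, 0, ⟨0, 0⟩, 0⟩, 0, 293393⟩ 0 0) (.pos 48 .pp ⟨⟨31672563, 0, 0, 0, 0, 0, 0, 0, 0, ⟨0, 0⟩, 0⟩, 0, 0⟩ 0 0)))) (.pos 23 .pp ⟨⟨0, 0, 0, 0, 0, 0, 0, 0, 0, ⟨0, 0⟩, 0⟩, 0, 802779⟩ 0 0)) (.cut .d 832142 (.pos 24 .pp ⟨⟨58511490, 0, 0, 0, 0, 0, 0, 0, 0, ⟨0, 0⟩, 0⟩, 0, 0⟩ 0 0) (.cut .l 167772 (.pos 24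 .pp ⟨⟨25004401, 0, 0, 0, 0, 0, 32495385, 0, 0, ⟨0, 0⟩, 0⟩, 0, 0⟩ 0 0) (.cut .v 23068672 (.cut .d 1248213 (.cut .d 1040177 (.pos 53 .pp ⟨⟨34246215, 0, 0, 0, 0, 0, 0, 0, 0, ⟨0, 0⟩, 0⟩, 0, 0⟩ 0 0) (.pos 53 .pp ⟨⟨26008537, 0, 0, 0, 0, 0, 480274, 0, 0, ⟨0, 0⟩, 0⟩, 0, 0⟩ 0 0)) (.pos 53 .pp ⟨⟨0, 0, 0, 0, 0, 0, 1894152, 0, 0, ⟨0, 0⟩, 0⟩, 0, 0⟩ 0 0)) (.cut .d 1248213 (.cut .v 24117248 (.cut .s 9306112 (.pos 59 .pp ⟨⟨32837092, 0, 0, 0, 0, 0, 0, 0, 0, ⟨0, 0⟩, 0⟩, 619316, 0⟩ 0 0) (.pos 59 .pp ⟨⟨43912533, 0, 0, 0, 0, 0, 0, 0, 0, ⟨0, 0⟩, 0⟩, 0, 0⟩ 0 0)) (.pos 60 .pp ⟨⟨0, 0, 0, 0, 0, 0, 0, 0, 0, ⟨0, 0⟩, 0⟩, 6214216, 0⟩ 0 0)) (.cut .v 24117248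 (.pos 59 .pp ⟨⟨17357912, 0, 0, 0, 0, 0, 593694, 0, 0, ⟨0, 0⟩, 0⟩, 1092828, 0⟩ 0 0) (.cut .s 9306112 (.cut .s 9175040 (.pos 60 .pp ⟨⟨0, 0, 0, 0, 0, 0, 8053301, 0, 0, ⟨0, 0⟩, 0⟩, 3726851, 0⟩ 0 0) (.pos 60 .pp ⟨⟨0, 0, 0, 0, 0, 0, 172243, 0, 0, ⟨0, 0⟩, 0⟩, 4213580, 0⟩ 0 0)) (.pos 60 .pp ⟨⟨0, 0, 0, 0, 0, 0, 70532, 0, 0, ⟨0, 0⟩, 0⟩, 4643294, 0⟩ 0 0)))))))) (.cut .v 20971520 (.pos 23 .pp ⟨⟨0, 0, 0, 0, 0, 0, 0, 0, 0, ⟨0, 0⟩, 0⟩, 0, 33732911⟩ 0 0) (.pos 24 .pp ⟨⟨0, 0, 0, 0, 0, 0, 25465099, 0, 0, ⟨0, 0⟩, 0⟩, 0, 1204258⟩ 0 0))) (.cut .v 29360128 (.cut .d 1664284 (.cut .d 832142 (.void 67 ⟨⟨0, 0, 0, 0, 0, 0, 0, 0, 0, ⟨0, 0⟩, 0⟩, 100000, 0⟩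 0 0) (.cut .d 1248213 (.void 67 ⟨⟨0, 0, 0, 0, 0, 0, 0, 0, 0, ⟨0, 0⟩, 0⟩, 100000, 0⟩ 0 0) (.cut .v 27262976 (.cut .d 1456248 (.pos 69 .pp ⟨⟨0, 0, 0, 0, 0, 0, 0, 0, 0, ⟨0, 0⟩, 0⟩, 5849526, 0⟩ 0 0) (.pos 69 .pp ⟨⟨0, 0, 0, 0, 0, 0, 10173750, 0, 0, ⟨0, 0⟩, 0⟩, 4221931, 0⟩ 0 0)) (.void 70 ⟨⟨0, 0, 0, 0, 0, 0, 0, 0, 0, ⟨0, 0⟩, 0⟩, 100000, 0⟩ 0 0)))) (.pos 67 .pp ⟨⟨0, 0, 0, 0, 0, 0, 36078907, 0, 0, ⟨0, 0⟩, 0⟩, 2533141, 0⟩ 0 0)) (.void 68 ⟨⟨0, 0, 0, 0, 0, 0, 100000, 0, 0, ⟨0, 0⟩, 0⟩, 0, 0⟩ 0 0))) (.void 20 ⟨⟨0, 0, 0, 0, 0, 0, 0, 0, 0, ⟨0, 0⟩, 0⟩, 0, 100000⟩ 0 0)) (.void 20 ⟨⟨0, 0, 0, 0, 0, 0, 0, 0, 0, ⟨0, 0⟩, 0⟩, 0, 100000⟩ 0 0)))),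
    by decide +kernel⟩

theorem covers12 : cell.Covers Vale.Agent.P237.Petty.Cor.Grid.N11.table row12.1 :=
  ⟨(.cut .d 0 (.cut .v 16777216 (.cut .d (-8388608) (.void 1 ⟨⟨0, 0, 0, 0, 0, 100000, 0, 0, 0, ⟨0, 0⟩, 0⟩, 0, 0⟩ 0 0) (.cut .d (-4194304) (.void 1 ⟨⟨0, 0, 0, 0, 0, 100000, 0, 0, 0, ⟨0, 0⟩, 0⟩, 0, 0⟩ 0 0) (.cut .d (-2097152) (.void 1 ⟨⟨0, 0, 0, 0, 0, 100000, 0, 0, 0, ⟨0, 0⟩, 0⟩, 0, 0⟩ 0 0) (.cut .d (-1048576) (.void 1 ⟨⟨0, 0, 0, 0, 0, 100000, 0, 0, 0, ⟨0, 0⟩, 0⟩, 0, 0⟩ 0 0) (.cut .d (-524288) (.void 1 ⟨⟨0, 0, 0, 0, 0, 100000, 0, 0, 0, ⟨0, 0⟩, 0⟩, 0, 0⟩ 0 0) (.cut .d (-262144) (.void 1 ⟨⟨0, 0, 0, 0, 0, 100000, 0, 0, 0, ⟨0, 0⟩,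 0⟩, 0, 0⟩ 0 0) (.cut .d (-131072) (.void 1 ⟨⟨0, 0, 0, 0, 0, 100000, 0, 0, 0, ⟨0, 0⟩, 0⟩, 0, 0⟩ 0 0) (.cut .d (-65536) (.void 1 ⟨⟨0, 0, 0, 0, 0, 100000, 0, 0, 0, ⟨0, 0⟩, 0⟩, 0, 0⟩ 0 0) (.cut .v 8388608 (.cut .v 4194304 (.void 4 ⟨⟨0, 0, 100000, 0, 0, 0, 0, 0, 0, ⟨0, 0⟩, 0⟩, 0, 0⟩ 0 0) (.pos 5 .mm ⟨⟨0, 0, 131457, 0, 0, 12637099, 0, 0, 0, ⟨0, 0⟩, 0⟩, 0, 0⟩ 0 0)) (.cut .s 9830400 (.pos 3 .mm ⟨⟨0, 0, 0, 0, 0, 43279155, 0, 0, 0, ⟨0, 0⟩, 0⟩, 0, 0⟩ 0 0) (.pos 3 .mm ⟨⟨0, 0, 0, 0, 0, 52585215, 0, 0, 0, ⟨0, 0⟩, 0⟩, 0, 0⟩ 0 0))))))))))) (.cut .v 25165824 (.cut .d (-8388608) (.void 21 ⟨⟨0, 0, 0, 0, 0, 100000, 0, 0, 0, ⟨0, 0⟩, 0⟩, 0, 0⟩ 0 0)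 (.cut .v 20971520 (.cut .d (-4194304) (.void 23 ⟨⟨0, 0, 0, 0, 0, 100000, 0, 0, 0, ⟨0, 0⟩, 0⟩, 0, 0⟩ 0 0) (.cut .v 18874368 (.cut .d (-2097152) (.void 25 ⟨⟨100000, 0, 0, 0, 0, 0, 0, 0, 0, ⟨0, 0⟩, 0⟩, 0, 0⟩ 0 0) (.cut .v 17825792 (.cut .d (-1048576) (.void 27 ⟨⟨100000, 0, 0, 0, 0, 0, 0, 0, 0, ⟨0, 0⟩, 0⟩, 0, 0⟩ 0 0) (.cut .v 17301504 (.cut .d (-524288) (.void 29 ⟨⟨100000, 0, 0, 0, 0, 0, 0, 0, 0, ⟨0, 0⟩, 0⟩, 0, 0⟩ 0 0) (.cut .v 17039360 (.cut .d (-262144) (.void 31 ⟨⟨100000, 0, 0, 0, 0, 0, 0, 0, 0, ⟨0, 0⟩, 0⟩, 0, 0⟩ 0 0) (.cut .d (-131072) (.void 31 ⟨⟨0, 0, 0, 0, 0, 100000, 0, 0, 0, ⟨0, 0⟩, 0⟩, 0, 0⟩ 0 0) (.cut .d (-65536) (.void 31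 ⟨⟨0, 0, 0, 0, 0, 100000, 0, 0, 0, ⟨0, 0⟩, 0⟩, 0, 0⟩ 0 0) (.cut .s 9830400 (.cut .v 16908288 (.cut .s 9699328 (.cut .s 9633792 (.cut .d (-32768) (.cut .s 9601024 (.pos 35 .mp ⟨⟨21313537, 0, 0, 0, 0, 12601375, 0, 0, 0, ⟨0, 0⟩, 0⟩, 0, 0⟩ 0 0) (.pos 35 .mp ⟨⟨21891511, 0, 0, 0, 0, 12718571, 0, 0, 0, ⟨0, 0⟩, 0⟩, 0, 0⟩ 0 0)) (.cut .v 16842752 (.cut .l 167772 (.cut .s 9601024 (.cut .s 9584640 (.pos 41 .mp ⟨⟨22059326, 0, 0, 0, 0, 10165888, 0, 0, 0, ⟨0, 0⟩, 0⟩, 0, 0⟩ 0 0) (.pos 41 .mp ⟨⟨22355106, 0, 0, 0, 0, 10203523, 0, 0, 0, ⟨0, 0⟩, 0⟩, 0, 0⟩ 0 0)) (.cut .s 9617408 (.pos 41 .mp ⟨⟨22654588, 0, 0, 0, 0, 10243045, 0, 0, 0, ⟨0, 0⟩, 0⟩, 0,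 0⟩ 0 0) (.pos 41 .mp ⟨⟨22957791, 0, 0, 0, 0, 10284415, 0, 0, 0, ⟨0, 0⟩, 0⟩, 0, 0⟩ 0 0))) (.pos 41 .mp ⟨⟨22611074, 0, 0, 0, 0, 9142059, 0, 0, 0, ⟨0, 0⟩, 0⟩, 0, 0⟩ 0 0)) (.pos 42 .mp ⟨⟨29773773, 0, 0, 0, 0, 0, 0, 0, 0, ⟨0, 0⟩, 0⟩, 0, 0⟩ 0 0))) (.cut .d (-32768) (.cut .d (-49152) (.pos 35 .mp ⟨⟨23194639, 0, 0, 0, 0, 12962961, 0, 0, 0, ⟨0, 0⟩, 0⟩, 0, 0⟩ 0 0) (.cut .d (-40960) (.pos 35 .mp ⟨⟨22627815, 0, 0, 0, 0, 13811943, 0, 0, 0, ⟨0, 0⟩, 0⟩, 0, 0⟩ 0 0) (.cut .v 16842752 (.cut .s 9666560 (.pos 41 .mp ⟨⟨22265740, 0, 0, 0, 0, 12788483, 0, 0, 0, ⟨0, 0⟩, 0⟩, 0, 0⟩ 0 0) (.pos 41 .mp ⟨⟨22867947, 0, 0, 0, 0, 12921179, 0, 0, 0, ⟨0, 0⟩, 0⟩,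 0, 0⟩ 0 0)) (.pos 42 .mp ⟨⟨28004619, 0, 0, 0, 0, 4984413, 0, 0, 0, ⟨0, 0⟩, 0⟩, 0, 0⟩ 0 0)))) (.cut .l 167772 (.cut .v 16842752 (.cut .s 9666560 (.cut .s 9650176 (.pos 41 .mp ⟨⟨23264736, 0, 0, 0, 0, 10327593, 0, 0, 0, ⟨0, 0⟩, 0⟩, 0, 0⟩ 0 0) (.cut .s 9658368 (.pos 41 .mp ⟨⟨23419620, 0, 0, 0, 0, 10461083, 0, 0, 0, ⟨0, 0⟩, 0⟩, 0, 0⟩ 0 0) (.pos 41 .mp ⟨⟨23575446, 0, 0, 0, 0, 10484535, 0, 0, 0, ⟨0, 0⟩, 0⟩, 0, 0⟩ 0 0))) (.cut .d (-16384) (.pos 41 .mp ⟨⟨22926503, 0, 0, 0, 0, 13013656, 0, 0, 0, ⟨0, 0⟩, 0⟩, 0, 0⟩ 0 0) (.cut .s 9682944 (.pos 41 .mp ⟨⟨23578999, 0, 0, 0, 0, 10811749, 0, 0, 0, ⟨0, 0⟩, 0⟩, 0, 0⟩ 0 0) (.pos 41 .mp ⟨⟨23904712,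 0, 0, 0, 0, 10841333, 0, 0, 0, ⟨0, 0⟩, 0⟩, 0, 0⟩ 0 0)))) (.pos 42 .mp ⟨⟨32672952, 0, 0, 0, 0, 0, 0, 0, 0, ⟨0, 0⟩, 0⟩, 0, 0⟩ 0 0)) (.pos 35 .mp ⟨⟨24075000, 0, 0, 0, 0, 9054250, 0, 0, 0, ⟨0, 0⟩, 0⟩, 0, 0⟩ 0 0)))) (.cut .s 9764864 (.cut .d (-32768) (.cut .d (-49152) (.pos 35 .mp ⟨⟨24496651, 0, 0, 0, 0, 13195627, 0, 0, 0, ⟨0, 0⟩, 0⟩, 0, 0⟩ 0 0) (.cut .l 167772 (.void 35 ⟨⟨0, 0, 0, 0, 0, 100000, 0, 0, 0, ⟨0, 0⟩, 0⟩, 0, 0⟩ 0 0) (.cut .v 16842752 (.pos 41 .mp ⟨⟨22116715, 0, 0, 0, 0, 15282899, 0, 0, 0, ⟨0, 0⟩, 0⟩, 0, 0⟩ 0 0) (.pos 42 .mp ⟨⟨25941765, 0, 0, 0, 0, 9971172, 0, 0, 0, ⟨0, 0⟩, 0⟩, 0, 0⟩ 0 0)))) (.cut .v 16842752 (.cut .l 167772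 (.cut .s 9732096 (.cut .d (-16384) (.pos 41 .mp ⟨⟨23542893, 0, 0, 0, 0, 13160545, 0, 0, 0, ⟨0, 0⟩, 0⟩, 0, 0⟩ 0 0) (.cut .s 9715712 (.pos 41 .mp ⟨⟨24222508, 0, 0, 0, 0, 10893171, 0, 0, 0, ⟨0, 0⟩, 0⟩, 0, 0⟩ 0 0) (.pos 41 .mp ⟨⟨24544082, 0, 0, 0, 0, 10946824, 0, 0, 0, ⟨0, 0⟩, 0⟩, 0, 0⟩ 0 0))) (.cut .d (-16384) (.pos 41 .mp ⟨⟨24174078, 0, 0, 0, 0, 13316587, 0, 0, 0, ⟨0, 0⟩, 0⟩, 0, 0⟩ 0 0) (.cut .s 9748480 (.pos 41 .mp ⟨⟨24869457, 0, 0, 0, 0, 11002267, 0, 0, 0, ⟨0, 0⟩, 0⟩, 0, 0⟩ 0 0) (.pos 41 .mp ⟨⟨25198656, 0, 0, 0, 0, 11059477, 0, 0, 0, ⟨0, 0⟩, 0⟩, 0, 0⟩ 0 0)))) (.pos 41 .mp ⟨⟨25140920, 0, 0, 0, 0, 9518076, 0, 0, 0, ⟨0, 0⟩, 0⟩, 0,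 0⟩ 0 0)) (.pos 42 .mp ⟨⟨32471573, 0, 0, 0, 0, 0, 0, 0, 0, ⟨0, 0⟩, 0⟩, 0, 0⟩ 0 0))) (.cut .d (-32768) (.cut .d (-49152) (.pos 35 .mp ⟨⟨25323990, 0, 0, 0, 0, 31579434, 0, 0, 0, ⟨0, 0⟩, 0⟩, 0, 0⟩ 0 0) (.cut .l 167772 (.void 35 ⟨⟨0, 0, 0, 0, 0, 100000, 0, 0, 0, ⟨0, 0⟩, 0⟩, 0, 0⟩ 0 0) (.cut .v 16842752 (.cut .s 9797632 (.pos 41 .mp ⟨⟨24453003, 0, 0, 0, 0, 13507116, 0, 0, 0, ⟨0, 0⟩, 0⟩, 0, 0⟩ 0 0) (.pos 41 .mp ⟨⟨25039337, 0, 0, 0, 0, 13786398, 0, 0, 0, ⟨0, 0⟩, 0⟩, 0, 0⟩ 0 0)) (.cut .s 9797632 (.pos 42 .mp ⟨⟨26632407, 0, 0, 0, 0, 10469315, 0, 0, 0, ⟨0, 0⟩, 0⟩, 0, 0⟩ 0 0) (.pos 42 .mp ⟨⟨27339204, 0, 0, 0, 0, 10573814, 0, 0, 0, ⟨0, 0⟩,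 0⟩, 0, 0⟩ 0 0))))) (.cut .v 16842752 (.cut .l 167772 (.cut .s 9797632 (.cut .d (-16384) (.pos 41 .mp ⟨⟨24820231, 0, 0, 0, 0, 13481938, 0, 0, 0, ⟨0, 0⟩, 0⟩, 0, 0⟩ 0 0) (.cut .s 9781248 (.pos 41 .mp ⟨⟨25531700, 0, 0, 0, 0, 11118426, 0, 0, 0, ⟨0, 0⟩, 0⟩, 0, 0⟩ 0 0) (.pos 41 .mp ⟨⟨25868612, 0, 0, 0, 0, 11179089, 0, 0, 0, ⟨0, 0⟩, 0⟩, 0, 0⟩ 0 0))) (.cut .d (-16384) (.pos 41 .mp ⟨⟨25481529, 0, 0, 0, 0, 13656752, 0, 0, 0, ⟨0, 0⟩, 0⟩, 0, 0⟩ 0 0) (.cut .s 9814016 (.pos 41 .mp ⟨⟨26209416, 0, 0, 0, 0, 11241440, 0, 0, 0, ⟨0, 0⟩, 0⟩, 0, 0⟩ 0 0) (.cut .s 9822208 (.pos 41 .mp ⟨⟨26366398, 0, 0, 0, 0, 11492858, 0, 0, 0, ⟨0, 0⟩, 0⟩, 0, 0⟩ 0 0) (.pos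 41 .mp ⟨⟨26532567, 0, 0, 0, 0, 11535029, 0, 0, 0, ⟨0, 0⟩, 0⟩, 0, 0⟩ 0 0))))) (.cut .s 9797632 (.pos 41 .mp ⟨⟨25811547, 0, 0, 0, 0, 10463186, 0, 0, 0, ⟨0, 0⟩, 0⟩, 0, 0⟩ 0 0) (.pos 41 .mp ⟨⟨26497804, 0, 0, 0, 0, 10592196, 0, 0, 0, ⟨0, 0⟩, 0⟩, 0, 0⟩ 0 0))) (.pos 42 .mp ⟨⟨33941759, 0, 0, 0, 0, 0, 0, 0, 0, ⟨0, 0⟩, 0⟩, 0, 0⟩ 0 0))))) (.cut .s 9699328 (.pos 36 .mp ⟨⟨32279744, 0, 0, 0, 0, 0, 0, 0, 0, ⟨0, 0⟩, 0⟩, 0, 0⟩ 0 0) (.pos 36 .mp ⟨⟨35165907, 0, 0, 0, 0, 0, 0, 0, 0, ⟨0, 0⟩, 0⟩, 0, 0⟩ 0 0))) (.cut .s 9961472 (.cut .v 16908288 (.cut .d (-32768) (.cut .d (-49152) (.void 35 ⟨⟨0, 0, 0, 0, 0, 100000, 0, 0, 0, ⟨0, 0⟩, 0⟩, 0, 0⟩ 0 0) (.cut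 .l 167772 (.void 35 ⟨⟨0, 0, 0, 0, 0, 100000, 0, 0, 0, ⟨0, 0⟩, 0⟩, 0, 0⟩ 0 0) (.cut .s 9895936 (.cut .v 16842752 (.cut .s 9863168 (.pos 41 .mp ⟨⟨25654261, 0, 0, 0, 0, 14054853, 0, 0, 0, ⟨0, 0⟩, 0⟩, 0, 0⟩ 0 0) (.pos 41 .mp ⟨⟨26300129, 0, 0, 0, 0, 14309110, 0, 0, 0, ⟨0, 0⟩, 0⟩, 0, 0⟩ 0 0)) (.cut .s 9863168 (.pos 42 .mp ⟨⟨28062352, 0, 0, 0, 0, 10683901, 0, 0, 0, ⟨0, 0⟩, 0⟩, 0, 0⟩ 0 0) (.pos 42 .mp ⟨⟨28802047, 0, 0, 0, 0, 10799338, 0, 0, 0, ⟨0, 0⟩, 0⟩, 0, 0⟩ 0 0))) (.cut .v 16842752 (.cut .s 9928704 (.pos 41 .mp ⟨⟨26979313, 0, 0, 0, 0, 14545735, 0, 0, 0, ⟨0, 0⟩, 0⟩, 0, 0⟩ 0 0) (.pos 41 .mp ⟨⟨27694210, 0, 0, 0, 0, 14761237, 0, 0, 0,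 ⟨0, 0⟩, 0⟩, 0, 0⟩ 0 0)) (.cut .s 9928704 (.pos 42 .mp ⟨⟨29558493, 0, 0, 0, 0, 10919873, 0, 0, 0, ⟨0, 0⟩, 0⟩, 0, 0⟩ 0 0) (.pos 42 .mp ⟨⟨30331893, 0, 0, 0, 0, 11045252, 0, 0, 0, ⟨0, 0⟩, 0⟩, 0, 0⟩ 0 0)))))) (.cut .s 9895936 (.cut .v 16842752 (.cut .l 167772 (.cut .s 9863168 (.cut .d (-16384) (.pos 41 .mp ⟨⟨26158154, 0, 0, 0, 0, 13841187, 0, 0, 0, ⟨0, 0⟩, 0⟩, 0, 0⟩ 0 0) (.cut .v 16809984 (.cut .s 9846784 (.pos 45 .mp ⟨⟨26777438, 0, 0, 0, 0, 11546748, 0, 0, 0, ⟨0, 0⟩, 0⟩, 0, 0⟩ 0 0) (.pos 45 .mp ⟨⟨27128678, 0, 0, 0, 0, 11616117, 0, 0, 0, ⟨0, 0⟩, 0⟩, 0, 0⟩ 0 0)) (.pos 46 .mp ⟨⟨34841971, 0, 0, 0, 0, 0, 0, 0, 0, ⟨0, 0⟩, 0⟩, 0, 0⟩ 0 0)))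 (.cut .d (-16384) (.pos 41 .mp ⟨⟨26850290, 0, 0, 0, 0, 14035406, 0, 0, 0, ⟨0, 0⟩, 0⟩, 0, 0⟩ 0 0) (.cut .v 16809984 (.cut .s 9879552 (.pos 45 .mp ⟨⟨27483891, 0, 0, 0, 0, 11687088, 0, 0, 0, ⟨0, 0⟩, 0⟩, 0, 0⟩ 0 0) (.cut .s 9887744 (.pos 45 .mp ⟨⟨27967915, 0, 0, 0, 0, 11485617, 0, 0, 0, ⟨0, 0⟩, 0⟩, 0, 0⟩ 0 0) (.pos 45 .mp ⟨⟨28144113, 0, 0, 0, 0, 11528302, 0, 0, 0, ⟨0, 0⟩, 0⟩, 0, 0⟩ 0 0))) (.pos 46 .mp ⟨⟨35632278, 0, 0, 0, 0, 0, 0, 0, 0, ⟨0, 0⟩, 0⟩, 0, 0⟩ 0 0)))) (.cut .s 9863168 (.pos 41 .mp ⟨⟨27199877, 0, 0, 0, 0, 10724321, 0, 0, 0, ⟨0, 0⟩, 0⟩, 0, 0⟩ 0 0) (.pos 41 .mp ⟨⟨27917959, 0, 0, 0, 0, 10858883, 0, 0, 0, ⟨0, 0⟩, 0⟩, 0, 0⟩ 0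 0))) (.pos 42 .mp ⟨⟨35495275, 0, 0, 0, 0, 0, 0, 0, 0, ⟨0, 0⟩, 0⟩, 0, 0⟩ 0 0)) (.cut .v 16842752 (.cut .s 9928704 (.cut .l 167772 (.cut .d (-16384) (.pos 41 .mp ⟨⟨27558123, 0, 0, 0, 0, 14239572, 0, 0, 0, ⟨0, 0⟩, 0⟩, 0, 0⟩ 0 0) (.cut .v 16809984 (.cut .l 83886 (.cut .d (-8192) (.pos 45 .mp ⟨⟨27456637, 0, 0, 0, 0, 14268303, 0, 0, 0, ⟨0, 0⟩, 0⟩, 0, 0⟩ 0 0) (.cut .s 9912320 (.pos 45 .mp ⟨⟨28013989, 0, 0, 0, 0, 12086938, 0, 0, 0, ⟨0, 0⟩, 0⟩, 0, 0⟩ 0 0) (.pos 45 .mp ⟨⟨28381422, 0, 0, 0, 0, 12161404, 0, 0, 0, ⟨0, 0⟩, 0⟩, 0, 0⟩ 0 0))) (.pos 45 .mp ⟨⟨28361663, 0, 0, 0, 0, 11234997, 0, 0, 0, ⟨0, 0⟩, 0⟩, 0, 0⟩ 0 0)) (.pos 46 .mp ⟨⟨36444056,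 0, 0, 0, 0, 0, 0, 0, 0, ⟨0, 0⟩, 0⟩, 0, 0⟩ 0 0))) (.pos 41 .mp ⟨⟨28652245, 0, 0, 0, 0, 10995200, 0, 0, 0, ⟨0, 0⟩, 0⟩, 0, 0⟩ 0 0)) (.cut .l 167772 (.cut .d (-16384) (.pos 41 .mp ⟨⟨28281847, 0, 0, 0, 0, 14453853, 0, 0, 0, ⟨0, 0⟩, 0⟩, 0, 0⟩ 0 0) (.cut .v 16809984 (.cut .l 83886 (.cut .d (-8192) (.pos 45 .mp ⟨⟨28177054, 0, 0, 0, 0, 14484792, 0, 0, 0, ⟨0, 0⟩, 0⟩, 0, 0⟩ 0 0) (.cut .s 9945088 (.pos 45 .mp ⟨⟨28751885, 0, 0, 0, 0, 12239177, 0, 0, 0, ⟨0, 0⟩, 0⟩, 0, 0⟩ 0 0) (.pos 45 .mp ⟨⟨29125341, 0, 0, 0, 0, 12320338, 0, 0, 0, ⟨0, 0⟩, 0⟩, 0, 0⟩ 0 0))) (.pos 45 .mp ⟨⟨29103505, 0, 0, 0, 0, 11382789, 0, 0, 0, ⟨0, 0⟩, 0⟩, 0, 0⟩ 0 0)) (.pos 46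 .mp ⟨⟨37277560, 0, 0, 0, 0, 0, 0, 0, 0, ⟨0, 0⟩, 0⟩, 0, 0⟩ 0 0))) (.pos 41 .mp ⟨⟨29402933, 0, 0, 0, 0, 11132586, 0, 0, 0, ⟨0, 0⟩, 0⟩, 0, 0⟩ 0 0))) (.pos 42 .mp ⟨⟨37134069, 0, 0, 0, 0, 0, 0, 0, 0, ⟨0, 0⟩, 0⟩, 0, 0⟩ 0 0)))) (.pos 36 .mp ⟨⟨38348037, 0, 0, 0, 0, 0, 0, 0, 0, ⟨0, 0⟩, 0⟩, 0, 0⟩ 0 0)) (.cut .v 16908288 (.cut .d (-32768) (.cut .d (-49152) (.void 35 ⟨⟨0, 0, 0, 0, 0, 100000, 0, 0, 0, ⟨0, 0⟩, 0⟩, 0, 0⟩ 0 0) (.cut .l 167772 (.void 35 ⟨⟨0, 0, 0, 0, 0, 100000, 0, 0, 0, ⟨0, 0⟩, 0⟩, 0, 0⟩ 0 0) (.cut .s 10027008 (.cut .l 251658 (.pos 35 .mp ⟨⟨30025711, 0, 0, 0, 0, 14982044, 0, 0, 0, ⟨0, 0⟩, 0⟩, 0, 0⟩ 0 0) (.cut .v 16842752 (.pos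 41 .mp ⟨⟨24757012, 0, 0, 0, 0, 20158205, 0, 0, 0, ⟨0, 0⟩, 0⟩, 0, 0⟩ 0 0) (.pos 42 .mp ⟨⟨31701500, 0, 0, 0, 0, 10803794, 0, 0, 0, ⟨0, 0⟩, 0⟩, 0, 0⟩ 0 0))) (.cut .s 10059776 (.cut .s 10043392 (.pos 35 .mp ⟨⟨30879871, 0, 0, 0, 0, 14073314, 0, 0, 0, ⟨0, 0⟩, 0⟩, 0, 0⟩ 0 0) (.pos 35 .mp ⟨⟨31287517, 0, 0, 0, 0, 14155275, 0, 0, 0, ⟨0, 0⟩, 0⟩, 0, 0⟩ 0 0)) (.pos 35 .mp ⟨⟨31696131, 0, 0, 0, 0, 14821695, 0, 0, 0, ⟨0, 0⟩, 0⟩, 0, 0⟩ 0 0))))) (.cut .s 10027008 (.cut .v 16842752 (.cut .s 9994240 (.cut .l 167772 (.cut .d (-16384) (.pos 41 .mp ⟨⟨29021656, 0, 0, 0, 0, 14678419, 0, 0, 0, ⟨0, 0⟩, 0⟩, 0, 0⟩ 0 0) (.cut .v 16809984 (.cut .l 83886 (.cut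 .d (-8192) (.pos 45 .mp ⟨⟨28913466, 0, 0, 0, 0, 14711641, 0, 0, 0, ⟨0, 0⟩, 0⟩, 0, 0⟩ 0 0) (.cut .s 9977856 (.pos 45 .mp ⟨⟨29501754, 0, 0, 0, 0, 12404972, 0, 0, 0, ⟨0, 0⟩, 0⟩, 0, 0⟩ 0 0) (.pos 45 .mp ⟨⟨29881086, 0, 0, 0, 0, 12493164, 0, 0, 0, ⟨0, 0⟩, 0⟩, 0, 0⟩ 0 0))) (.pos 45 .mp ⟨⟨29861701, 0, 0, 0, 0, 11531287, 0, 0, 0, ⟨0, 0⟩, 0⟩, 0, 0⟩ 0 0)) (.pos 46 .mp ⟨⟨38133051, 0, 0, 0, 0, 0, 0, 0, 0, ⟨0, 0⟩, 0⟩, 0, 0⟩ 0 0))) (.pos 41 .mp ⟨⟨30170228, 0, 0, 0, 0, 11270350, 0, 0, 0, ⟨0, 0⟩, 0⟩, 0, 0⟩ 0 0)) (.cut .l 167772 (.cut .d (-16384) (.pos 41 .mp ⟨⟨29777751, 0, 0, 0, 0, 14913442, 0, 0, 0, ⟨0, 0⟩, 0⟩, 0, 0⟩ 0 0) (.cut .v 16809984 (.cut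 .l 83886 (.cut .d (-8192) (.pos 45 .mp ⟨⟨29666073, 0, 0, 0, 0, 14949022, 0, 0, 0, ⟨0, 0⟩, 0⟩, 0, 0⟩ 0 0) (.cut .s 10010624 (.pos 45 .mp ⟨⟨30263297, 0, 0, 0, 0, 12584999, 0, 0, 0, ⟨0, 0⟩, 0⟩, 0, 0⟩ 0 0) (.pos 45 .mp ⟨⟨30648350, 0, 0, 0, 0, 12680567, 0, 0, 0, ⟨0, 0⟩, 0⟩, 0, 0⟩ 0 0))) (.pos 45 .mp ⟨⟨30636455, 0, 0, 0, 0, 11679801, 0, 0, 0, ⟨0, 0⟩, 0⟩, 0, 0⟩ 0 0)) (.pos 46 .mp ⟨⟨39010794, 0, 0, 0, 0, 0, 0, 0, 0, ⟨0, 0⟩, 0⟩, 0, 0⟩ 0 0))) (.pos 41 .mp ⟨⟨30954336, 0, 0, 0, 0, 11407796, 0, 0, 0, ⟨0, 0⟩, 0⟩, 0, 0⟩ 0 0))) (.pos 42 .mp ⟨⟨38860166, 0, 0, 0, 0, 0, 0, 0, 0, ⟨0, 0⟩, 0⟩, 0, 0⟩ 0 0)) (.cut .v 16842752 (.cut .s 10059776 (.cut .l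 167772 (.cut .d (-16384) (.pos 41 .mp ⟨⟨30550333, 0, 0, 0, 0, 15159100, 0, 0, 0, ⟨0, 0⟩, 0⟩, 0, 0⟩ 0 0) (.cut .v 16809984 (.cut .s 10043392 (.cut .s 10035200 (.pos 45 .mp ⟨⟨31398848, 0, 0, 0, 0, 12171055, 0, 0, 0, ⟨0, 0⟩, 0⟩, 0, 0⟩ 0 0) (.pos 45 .mp ⟨⟨31606799, 0, 0, 0, 0, 12202238, 0, 0, 0, ⟨0, 0⟩, 0⟩, 0, 0⟩ 0 0)) (.pos 45 .mp ⟨⟨31660453, 0, 0, 0, 0, 12564858, 0, 0, 0, ⟨0, 0⟩, 0⟩, 0, 0⟩ 0 0)) (.pos 46 .mp ⟨⟨39911060, 0, 0, 0, 0, 0, 0, 0, 0, ⟨0, 0⟩, 0⟩, 0, 0⟩ 0 0))) (.pos 41 .mp ⟨⟨31755470, 0, 0, 0, 0, 11544225, 0, 0, 0, ⟨0, 0⟩, 0⟩, 0, 0⟩ 0 0)) (.cut .l 167772 (.cut .d (-16384) (.pos 41 .mp ⟨⟨31339612, 0, 0, 0, 0, 15415571, 0,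 0, 0, ⟨0, 0⟩, 0⟩, 0, 0⟩ 0 0) (.cut .v 16809984 (.cut .s 10076160 (.pos 45 .mp ⟨⟨32065281, 0, 0, 0, 0, 12652660, 0, 0, 0, ⟨0, 0⟩, 0⟩, 0, 0⟩ 0 0) (.pos 45 .mp ⟨⟨32474415, 0, 0, 0, 0, 12741651, 0, 0, 0, ⟨0, 0⟩, 0⟩, 0, 0⟩ 0 0)) (.pos 46 .mp ⟨⟨40834126, 0, 0, 0, 0, 0, 0, 0, 0, ⟨0, 0⟩, 0⟩, 0, 0⟩ 0 0))) (.pos 41 .mp ⟨⟨32573844, 0, 0, 0, 0, 11678930, 0, 0, 0, ⟨0, 0⟩, 0⟩, 0, 0⟩ 0 0))) (.pos 42 .mp ⟨⟨40675675, 0, 0, 0, 0, 0, 0, 0, 0, ⟨0, 0⟩, 0⟩, 0, 0⟩ 0 0)))) (.pos 36 .mp ⟨⟨41800414, 0, 0, 0, 0, 0, 0, 0, 0, ⟨0, 0⟩, 0⟩, 0, 0⟩ 0 0))))))) (.pos 32 .mp ⟨⟨47155853, 0, 0, 0, 0, 0, 0, 0, 0, ⟨0, 0⟩, 0⟩, 0, 0⟩ 0 0))) (.void 30 ⟨⟨100000, 0, 0, 0,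 0, 0, 0, 0, 0, ⟨0, 0⟩, 0⟩, 0, 0⟩ 0 0))) (.void 28 ⟨⟨100000, 0, 0, 0, 0, 0, 0, 0, 0, ⟨0, 0⟩, 0⟩, 0, 0⟩ 0 0))) (.void 26 ⟨⟨100000, 0, 0, 0, 0, 0, 0, 0, 0, ⟨0, 0⟩, 0⟩, 0, 0⟩ 0 0))) (.void 24 ⟨⟨100000, 0, 0, 0, 0, 0, 0, 0, 0, ⟨0, 0⟩, 0⟩, 0, 0⟩ 0 0))) (.void 22 ⟨⟨100000, 0, 0, 0, 0, 0, 0, 0, 0, ⟨0, 0⟩, 0⟩, 0, 0⟩ 0 0))) (.cut .v 16777216 (.cut .d 6320185 (.cut .d 3160092 (.cut .v 8388608 (.cut .v 4194304 (.void 4 ⟨⟨0, 0, 66667, 0, 0, 0, 0, 0, 0, ⟨0, 0⟩, 0⟩, 0, 33333⟩ 0 0) (.pos 5 .pm ⟨⟨0, 0, 131457, 0, 0, 0, 0, 0, 0, ⟨0, 0⟩, 0⟩, 0, 0⟩ 0 0)) (.pos 3 .pm ⟨⟨0, 0, 0, 0, 0, 0, 0, 0, 0, ⟨0, 0⟩, 0⟩, 0, 0⟩ 0 0)) (.void 1 ⟨⟨0, 0, 0, 0, 0, 0,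 0, 0, 0, ⟨0, 0⟩, 0⟩, 0, 100000⟩ 0 0)) (.void 1 ⟨⟨0, 0, 0, 0, 0, 0, 0, 0, 0, ⟨0, 0⟩, 0⟩, 0, 100000⟩ 0 0)) (.cut .d 6320185 (.cut .d 3160092 (.cut .v 25165824 (.cut .d 1580046 (.cut .v 20971520 (.cut .d 790023 (.cut .v 18874368 (.cut .d 395011 (.cut .v 17825792 (.cut .d 197505 (.cut .d 98752 (.cut .v 17301504 (.cut .s 9830400 (.pos 29 .pp ⟨⟨25863084, 0, 0, 0, 0, 0, 0, 0, 0, ⟨0, 0⟩, 0⟩, 480475, 0⟩ 0 0) (.cut .s 9961472 (.pos 29 .pp ⟨⟨29834961, 0, 0, 0, 0, 0, 0, 0, 0, ⟨0, 0⟩, 0⟩, 543166, 0⟩ 0 0) (.pos 29 .pp ⟨⟨32674539, 0, 0, 0, 0, 0, 0, 0, 0, ⟨0, 0⟩, 0⟩, 613897, 0⟩ 0 0))) (.pos 30 .pp ⟨⟨38740644, 0, 0, 0, 0, 0, 0, 0, 0, ⟨0, 0⟩, 0⟩,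 0, 0⟩ 0 0)) (.pos 27 .pp ⟨⟨27096527, 0, 0, 0, 0, 0, 0, 0, 0, ⟨0, 0⟩, 0⟩, 0, 43865⟩ 0 0)) (.pos 27 .pp ⟨⟨20590711, 0, 0, 0, 0, 0, 0, 0, 0, ⟨0, 0⟩, 0⟩, 0, 259806⟩ 0 0)) (.cut .d 197505 (.pos 28 .pp ⟨⟨44556502, 0, 0, 0, 0, 0, 0, 0, 0, ⟨0, 0⟩, 0⟩, 0, 0⟩ 0 0) (.pos 28 .pp ⟨⟨34152612, 0, 0, 0, 0, 0, 0, 0, 0, ⟨0, 0⟩, 0⟩, 0, 0⟩ 0 0))) (.pos 25 .pp ⟨⟨0, 0, 0, 0, 0, 0, 0, 0, 0, ⟨0, 0⟩, 0⟩, 0, 798111⟩ 0 0)) (.cut .d 395011 (.pos 26 .pp ⟨⟨55832317, 0, 0, 0, 0, 0, 0, 0, 0, ⟨0, 0⟩, 0⟩, 0, 0⟩ 0 0) (.cut .v 19922944 (.pos 47 .pp ⟨⟨32577387, 0, 0, 0, 0, 0, 0, 0, 0, ⟨0, 0⟩, 0⟩, 0, 194760⟩ 0 0) (.pos 48 .pp ⟨⟨43937970, 0, 0, 0, 0, 0, 0, 0, 0, ⟨0,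 0⟩, 0⟩, 0, 0⟩ 0 0)))) (.pos 23 .pp ⟨⟨0, 0, 0, 0, 0, 0, 0, 0, 0, ⟨0, 0⟩, 0⟩, 0, 837524⟩ 0 0)) (.cut .d 790023 (.cut .v 23068672 (.cut .v 22020096 (.pos 57 .pp ⟨⟨61080666, 0, 0, 0, 0, 0, 0, 0, 0, ⟨0, 0⟩, 0⟩, 0, 0⟩ 0 0) (.pos 58 .pp ⟨⟨70219710, 0, 0, 0, 0, 0, 0, 0, 0, ⟨0, 0⟩, 0⟩, 0, 0⟩ 0 0)) (.void 54 ⟨⟨0, 0, 0, 0, 0, 0, 0, 0, 0, ⟨0, 0⟩, 0⟩, 100000, 0⟩ 0 0)) (.cut .d 1185034 (.cut .v 23068672 (.pos 53 .pp ⟨⟨40808849, 0, 0, 0, 0, 0, 351384, 0, 0, ⟨0, 0⟩, 0⟩, 0, 0⟩ 0 0) (.cut .v 24117248 (.cut .d 987528 (.pos 59 .pp ⟨⟨65521038, 0, 0, 0, 0, 0, 0, 0, 0, ⟨0, 0⟩, 0⟩, 0, 0⟩ 0 0) (.pos 59 .pp ⟨⟨0, 0, 0, 0, 0, 0, 253358, 0, 0, ⟨0, 0⟩, 0⟩,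 5944744, 0⟩ 0 0)) (.pos 60 .pp ⟨⟨0, 0, 0, 0, 0, 0, 0, 0, 0, ⟨0, 0⟩, 0⟩, 8579113, 0⟩ 0 0))) (.pos 24 .pp ⟨⟨0, 0, 0, 0, 0, 0, 485367, 0, 0, ⟨0, 0⟩, 0⟩, 4485655, 0⟩ 0 0)))) (.cut .v 20971520 (.pos 23 .pp ⟨⟨0, 0, 0, 0, 0, 0, 0, 0, 0, ⟨0, 0⟩, 0⟩, 0, 837524⟩ 0 0) (.pos 24 .pp ⟨⟨0, 0, 0, 0, 0, 0, 0, 0, 0, ⟨0, 0⟩, 0⟩, 0, 904526⟩ 0 0))) (.cut .l 167772 (.void 22 ⟨⟨0, 0, 0, 0, 0, 0, 100000, 0, 0, ⟨0, 0⟩, 0⟩, 0, 0⟩ 0 0) (.cut .d 1580046 (.cut .v 29360128 (.cut .d 790023 (.void 67 ⟨⟨0, 0, 0, 0, 0, 0, 0, 0, 0, ⟨0, 0⟩, 0⟩, 100000, 0⟩ 0 0) (.cut .d 1185034 (.pos 67 .pp ⟨⟨0, 0, 0, 0, 0, 0, 0, 0, 0, ⟨0, 0⟩, 0⟩, 13355079, 0⟩ 0 0) (.cut .v 27262976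 (.pos 69 .pp ⟨⟨0, 0, 0, 0, 0, 0, 0, 0, 0, ⟨0, 0⟩, 0⟩, 7159148, 0⟩ 0 0) (.pos 70 .pp ⟨⟨0, 0, 0, 0, 0, 0, 0, 0, 0, ⟨0, 0⟩, 0⟩, 17236738, 0⟩ 0 0)))) (.void 68 ⟨⟨0, 0, 0, 0, 0, 0, 0, 0, 0, ⟨0, 0⟩, 0⟩, 100000, 0⟩ 0 0)) (.cut .v 29360128 (.pos 67 .pp ⟨⟨0, 0, 0, 0, 0, 0, 23109862, 0, 0, ⟨0, 0⟩, 0⟩, 4673392, 0⟩ 0 0) (.pos 68 .pp ⟨⟨0, 0, 0, 0, 0, 0, 27431210, 0, 0, ⟨0, 0⟩, 0⟩, 8296650, 0⟩ 0 0))))) (.void 20 ⟨⟨0, 0, 0, 0, 0, 0, 0, 0, 0, ⟨0, 0⟩, 0⟩, 0, 100000⟩ 0 0)) (.void 20 ⟨⟨0, 0, 0, 0, 0, 0, 0, 0, 0, ⟨0, 0⟩, 0⟩, 0, 100000⟩ 0 0)))),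
    by decide +kernel⟩

theorem covers13 : cell.Covers Vale.Agent.P237.Petty.Cor.Grid.N11.table row13.1 :=
  ⟨(.cut .d 0 (.cut .v 16777216 (.cut .d (-8388608) (.void 1 ⟨⟨0, 0, 0, 0, 0, 100000, 0, 0, 0, ⟨0, 0⟩, 0⟩, 0, 0⟩ 0 0) (.cut .d (-4194304) (.void 1 ⟨⟨0, 0, 0, 0, 0, 100000, 0, 0, 0, ⟨0, 0⟩, 0⟩, 0, 0⟩ 0 0) (.cut .d (-2097152) (.void 1 ⟨⟨0, 0, 0, 0, 0, 100000, 0, 0, 0, ⟨0, 0⟩, 0⟩, 0, 0⟩ 0 0) (.cut .d (-1048576) (.void 1 ⟨⟨0, 0, 0, 0, 0, 100000, 0, 0, 0, ⟨0, 0⟩, 0⟩, 0, 0⟩ 0 0) (.cut .d (-524288) (.void 1 ⟨⟨0, 0, 0, 0, 0, 100000, 0, 0, 0, ⟨0, 0⟩, 0⟩, 0, 0⟩ 0 0) (.cut .d (-262144) (.void 1 ⟨⟨0, 0, 0, 0, 0, 100000, 0, 0, 0, ⟨0, 0⟩,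 0⟩, 0, 0⟩ 0 0) (.cut .d (-131072) (.void 1 ⟨⟨0, 0, 0, 0, 0, 100000, 0, 0, 0, ⟨0, 0⟩, 0⟩, 0, 0⟩ 0 0) (.cut .d (-65536) (.void 1 ⟨⟨0, 0, 0, 0, 0, 100000, 0, 0, 0, ⟨0, 0⟩, 0⟩, 0, 0⟩ 0 0) (.cut .v 8388608 (.cut .v 4194304 (.void 4 ⟨⟨0, 0, 100000, 0, 0, 0, 0, 0, 0, ⟨0, 0⟩, 0⟩, 0, 0⟩ 0 0) (.pos 5 .mm ⟨⟨0, 0, 805886, 0, 0, 18045082, 0, 0, 0, ⟨0, 0⟩, 0⟩, 0, 0⟩ 0 0)) (.cut .s 10289152 (.pos 3 .mm ⟨⟨0, 0, 0, 0, 0, 62898848, 0, 0, 0, ⟨0, 0⟩, 0⟩, 0, 0⟩ 0 0) (.pos 3 .mm ⟨⟨0, 0, 0, 0, 0, 79075152, 0, 0, 0, ⟨0, 0⟩, 0⟩, 0, 0⟩ 0 0))))))))))) (.cut .v 33554432 (.cut .v 25165824 (.cut .d (-8388608) (.void 21 ⟨⟨0, 0, 0, 0, 0, 100000, 0, 0, 0, ⟨0,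 0⟩, 0⟩, 0, 0⟩ 0 0) (.cut .v 20971520 (.cut .d (-4194304) (.void 23 ⟨⟨100000, 0, 0, 0, 0, 0, 0, 0, 0, ⟨0, 0⟩, 0⟩, 0, 0⟩ 0 0) (.cut .v 18874368 (.cut .d (-2097152) (.void 25 ⟨⟨100000, 0, 0, 0, 0, 0, 0, 0, 0, ⟨0, 0⟩, 0⟩, 0, 0⟩ 0 0) (.cut .v 17825792 (.cut .d (-1048576) (.void 27 ⟨⟨100000, 0, 0, 0, 0, 0, 0, 0, 0, ⟨0, 0⟩, 0⟩, 0, 0⟩ 0 0) (.cut .v 17301504 (.cut .d (-524288) (.void 29 ⟨⟨100000, 0, 0, 0, 0, 0, 0, 0, 0, ⟨0, 0⟩, 0⟩, 0, 0⟩ 0 0) (.cut .v 17039360 (.cut .d (-262144) (.void 31 ⟨⟨100000, 0, 0, 0, 0, 0, 0, 0, 0, ⟨0, 0⟩, 0⟩, 0, 0⟩ 0 0) (.cut .d (-131072) (.void 31 ⟨⟨0, 0, 0, 0, 0, 100000, 0, 0, 0, ⟨0, 0⟩, 0⟩, 0, 0⟩ 0 0) (.cut .d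 (-65536) (.void 31 ⟨⟨0, 0, 0, 0, 0, 100000, 0, 0, 0, ⟨0, 0⟩, 0⟩, 0, 0⟩ 0 0) (.cut .s 10289152 (.cut .v 16908288 (.cut .s 10190848 (.cut .s 10141696 (.cut .s 10117120 (.cut .d (-32768) (.pos 35 .mp ⟨⟨32391827, 0, 0, 0, 0, 15266998, 0, 0, 0, ⟨0, 0⟩, 0⟩, 0, 0⟩ 0 0) (.cut .s 10104832 (.cut .s 10098688 (.pos 35 .mp ⟨⟨33506117, 0, 0, 0, 0, 11845207, 0, 0, 0, ⟨0, 0⟩, 0⟩, 0, 0⟩ 0 0) (.pos 35 .mp ⟨⟨33647563, 0, 0, 0, 0, 12090486, 0, 0, 0, ⟨0, 0⟩, 0⟩, 0, 0⟩ 0 0)) (.pos 35 .mp ⟨⟨33947119, 0, 0, 0, 0, 12206042, 0, 0, 0, ⟨0, 0⟩, 0⟩, 0, 0⟩ 0 0))) (.cut .s 10129408 (.pos 35 .mp ⟨⟨35204753, 0, 0, 0, 0, 11289480, 0, 0, 0, ⟨0, 0⟩, 0⟩, 0, 0⟩ 0 0)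 (.pos 35 .mp ⟨⟨36111507, 0, 0, 0, 0, 10817413, 0, 0, 0, ⟨0, 0⟩, 0⟩, 0, 0⟩ 0 0))) (.pos 35 .mp ⟨⟨36920139, 0, 0, 0, 0, 11311887, 0, 0, 0, ⟨0, 0⟩, 0⟩, 0, 0⟩ 0 0)) (.pos 35 .mp ⟨⟨39825560, 0, 0, 0, 0, 11706395, 0, 0, 0, ⟨0, 0⟩, 0⟩, 0, 0⟩ 0 0)) (.pos 36 .mp ⟨⟨47007952, 0, 0, 0, 0, 0, 0, 0, 0, ⟨0, 0⟩, 0⟩, 0, 0⟩ 0 0)) (.cut .s 10387456 (.pos 31 .mp ⟨⟨45427008, 0, 0, 0, 0, 11193347, 0, 0, 0, ⟨0, 0⟩, 0⟩, 0, 0⟩ 0 0) (.pos 31 .mp ⟨⟨52809315, 0, 0, 0, 0, 8636356, 0, 0, 0, ⟨0, 0⟩, 0⟩, 0, 0⟩ 0 0)))))) (.pos 32 .mp ⟨⟨60715329, 0, 0, 0, 0, 0, 0, 0, 0, ⟨0, 0⟩, 0⟩, 0, 0⟩ 0 0))) (.void 30 ⟨⟨100000, 0, 0, 0, 0, 0, 0, 0, 0, ⟨0, 0⟩, 0⟩, 0, 0⟩ 0 0)))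 (.void 28 ⟨⟨100000, 0, 0, 0, 0, 0, 0, 0, 0, ⟨0, 0⟩, 0⟩, 0, 0⟩ 0 0))) (.void 26 ⟨⟨100000, 0, 0, 0, 0, 0, 0, 0, 0, ⟨0, 0⟩, 0⟩, 0, 0⟩ 0 0))) (.void 24 ⟨⟨100000, 0, 0, 0, 0, 0, 0, 0, 0, ⟨0, 0⟩, 0⟩, 0, 0⟩ 0 0))) (.void 22 ⟨⟨100000, 0, 0, 0, 0, 0, 0, 0, 0, ⟨0, 0⟩, 0⟩, 0, 0⟩ 0 0)) (.void 79 ⟨⟨100000, 0, 0, 0, 0, 0, 0, 0, 0, ⟨0, 0⟩, 0⟩, 0, 0⟩ 0 0))) (.cut .v 16777216 (.cut .d 5556092 (.cut .v 8388608 (.cut .v 4194304 (.void 4 ⟨⟨0, 0, 66667, 0, 0, 0, 0, 0, 0, ⟨0, 0⟩, 0⟩, 0, 33333⟩ 0 0) (.pos 5 .pm ⟨⟨0, 0, 805886, 0, 0, 0, 0, 0, 0, ⟨0, 0⟩, 0⟩, 0, 0⟩ 0 0)) (.pos 3 .pm ⟨⟨0, 0, 0, 0, 0, 0, 0, 0, 0, ⟨0, 0⟩, 0⟩, 0, 0⟩ 0 0)) (.void 1 ⟨⟨0, 0, 0,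 0, 0, 0, 0, 0, 0, ⟨0, 0⟩, 0⟩, 0, 100000⟩ 0 0)) (.cut .d 5556092 (.cut .v 33554432 (.cut .d 2778046 (.cut .v 25165824 (.cut .d 1389023 (.cut .v 20971520 (.cut .d 694511 (.cut .v 18874368 (.cut .d 347255 (.cut .v 17825792 (.cut .d 173627 (.cut .v 17301504 (.cut .s 10289152 (.pos 29 .pp ⟨⟨37331423, 0, 0, 0, 0, 0, 0, 0, 0, ⟨0, 0⟩, 0⟩, 583659, 0⟩ 0 0) (.pos 29 .pp ⟨⟨47361982, 0, 0, 0, 0, 0, 0, 0, 0, ⟨0, 0⟩, 0⟩, 0, 73254⟩ 0 0)) (.pos 30 .pp ⟨⟨49588284, 0, 0, 0, 0, 0, 0, 0, 0, ⟨0, 0⟩, 0⟩, 0, 0⟩ 0 0)) (.pos 27 .pp ⟨⟨0, 0, 0, 0, 0, 0, 0, 0, 0, ⟨0, 0⟩, 0⟩, 0, 783647⟩ 0 0)) (.cut .d 173627 (.pos 28 .pp ⟨⟨58975506, 0, 0, 0, 0, 0, 0, 0, 0,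 ⟨0, 0⟩, 0⟩, 0, 0⟩ 0 0) (.pos 28 .pp ⟨⟨47910098, 0, 0, 0, 0, 0, 0, 0, 0, ⟨0, 0⟩, 0⟩, 0, 0⟩ 0 0))) (.pos 25 .pp ⟨⟨0, 0, 0, 0, 0, 0, 0, 0, 0, ⟨0, 0⟩, 0⟩, 0, 805340⟩ 0 0)) (.cut .d 347255 (.pos 26 .pp ⟨⟨73234264, 0, 0, 0, 0, 0, 0, 0, 0, ⟨0, 0⟩, 0⟩, 0, 0⟩ 0 0) (.cut .v 19922944 (.pos 47 .pp ⟨⟨46836565, 0, 0, 0, 0, 0, 0, 0, 0, ⟨0, 0⟩, 0⟩, 0, 303032⟩ 0 0) (.pos 48 .pp ⟨⟨60760619, 0, 0, 0, 0, 0, 0, 0, 0, ⟨0, 0⟩, 0⟩, 0, 0⟩ 0 0)))) (.pos 23 .pp ⟨⟨0, 0, 0, 0, 0, 0, 0, 0, 0, ⟨0, 0⟩, 0⟩, 0, 845110⟩ 0 0)) (.cut .d 694511 (.cut .v 23068672 (.cut .v 22020096 (.pos 57 .pp ⟨⟨80297641, 0, 0, 0, 0, 0, 0, 0, 0, ⟨0, 0⟩, 0⟩, 0, 0⟩ 0 0) (.pos 58 .pp ⟨⟨91403694,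 0, 0, 0, 0, 0, 0, 0, 0, ⟨0, 0⟩, 0⟩, 0, 0⟩ 0 0)) (.void 54 ⟨⟨0, 0, 0, 0, 0, 0, 0, 0, 0, ⟨0, 0⟩, 0⟩, 100000, 0⟩ 0 0)) (.cut .d 1041767 (.cut .v 23068672 (.pos 53 .pp ⟨⟨58196136, 0, 0, 0, 0, 0, 597759, 0, 0, ⟨0, 0⟩, 0⟩, 0, 0⟩ 0 0) (.cut .d 868139 (.pos 54 .pp ⟨⟨28372015, 0, 0, 0, 0, 0, 0, 0, 0, ⟨0, 0⟩, 0⟩, 8080180, 0⟩ 0 0) (.pos 54 .pp ⟨⟨0, 0, 0, 0, 0, 0, 0, 0, 0, ⟨0, 0⟩, 0⟩, 9030659, 0⟩ 0 0))) (.pos 24 .pp ⟨⟨0, 0, 0, 0, 0, 0, 417415, 0, 0, ⟨0, 0⟩, 0⟩, 6678377, 0⟩ 0 0)))) (.pos 21 .pp ⟨⟨0, 0, 0, 0, 0, 0, 0, 0, 0, ⟨0, 0⟩, 0⟩, 0, 912718⟩ 0 0)) (.cut .d 1389023 (.cut .v 29360128 (.cut .d 694511 (.void 67 ⟨⟨0, 0, 0, 0, 0, 0, 0, 0, 0,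 ⟨0, 0⟩, 0⟩, 100000, 0⟩ 0 0) (.cut .d 1041767 (.pos 67 .pp ⟨⟨0, 0, 0, 0, 0, 0, 0, 0, 0, ⟨0, 0⟩, 0⟩, 18608843, 0⟩ 0 0) (.pos 67 .pp ⟨⟨0, 0, 0, 0, 0, 0, 0, 0, 0, ⟨0, 0⟩, 0⟩, 11144644, 0⟩ 0 0))) (.void 68 ⟨⟨0, 0, 0, 0, 0, 0, 0, 0, 0, ⟨0, 0⟩, 0⟩, 100000, 0⟩ 0 0)) (.cut .v 29360128 (.pos 67 .pp ⟨⟨0, 0, 0, 0, 0, 0, 0, 0, 0, ⟨0, 0⟩, 0⟩, 8298175, 0⟩ 0 0) (.pos 68 .pp ⟨⟨0, 0, 0, 0, 0, 0, 370219, 0, 0, ⟨0, 0⟩, 0⟩, 12225171, 0⟩ 0 0)))) (.cut .v 25165824 (.pos 21 .pp ⟨⟨0, 0, 0, 0, 0, 0, 0, 0, 0, ⟨0, 0⟩, 0⟩, 0, 70211125⟩ 0 0) (.pos 22 .pp ⟨⟨0, 0, 0, 0, 0, 0, 62128062, 0, 0, ⟨0, 0⟩, 0⟩, 0, 35745103⟩ 0 0))) (.cut .d 2778046 (.cut .v 50331648 (.pos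 80 .pp ⟨⟨0, 0, 0, 0, 0, 0, 48460205, 0, 0, ⟨0, 0⟩, 0⟩, 29297522, 0⟩ 0 0) (.void 81 ⟨⟨0, 0, 0, 0, 0, 0, 0, 0, 0, ⟨0, 0⟩, 0⟩, 100000, 0⟩ 0 0)) (.pos 79 .pp ⟨⟨0, 0, 0, 0, 0, 0, 125795484, 0, 0, ⟨0, 0⟩, 0⟩, 7957476, 0⟩ 0 0))) (.void 78 ⟨⟨0, 0, 0, 0, 0, 0, 54110, 0, 0, ⟨0, 0⟩, 0⟩, 0, 45890⟩ 0 0)))),
    by decide +kernel⟩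

theorem covers14 : cell.Covers Vale.Agent.P237.Petty.Cor.Grid.N11.table row14.1 :=
  ⟨(.cut .d 0 (.cut .v 16777216 (.cut .d (-8388608) (.void 1 ⟨⟨0, 0, 0, 0, 0, 100000, 0, 0, 0, ⟨0, 0⟩, 0⟩, 0, 0⟩ 0 0) (.cut .d (-4194304) (.void 1 ⟨⟨0, 0, 0, 0, 0, 100000, 0, 0, 0, ⟨0, 0⟩, 0⟩, 0, 0⟩ 0 0) (.cut .d (-2097152) (.void 1 ⟨⟨0, 0, 0, 0, 0, 100000, 0, 0, 0, ⟨0, 0⟩, 0⟩, 0, 0⟩ 0 0) (.cut .d (-1048576) (.void 1 ⟨⟨0, 0, 0, 0, 0, 100000, 0, 0, 0, ⟨0, 0⟩, 0⟩, 0, 0⟩ 0 0) (.cut .v 8388608 (.cut .v 4194304 (.void 4 ⟨⟨0, 0, 100000, 0, 0, 0, 0, 0, 0, ⟨0, 0⟩, 0⟩, 0, 0⟩ 0 0) (.pos 5 .mm ⟨⟨0, 0, 1469563, 0, 0, 29582345, 0, 0, 0, ⟨0, 0⟩, 0⟩, 0, 0⟩ 0 0))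 (.pos 3 .mm ⟨⟨0, 0, 0, 0, 0, 103212730, 0, 0, 0, ⟨0, 0⟩, 0⟩, 0, 0⟩ 0 0)))))) (.cut .v 33554432 (.cut .v 25165824 (.cut .d (-8388608) (.void 21 ⟨⟨0, 0, 0, 0, 0, 100000, 0, 0, 0, ⟨0, 0⟩, 0⟩, 0, 0⟩ 0 0) (.cut .v 20971520 (.cut .d (-4194304) (.void 23 ⟨⟨100000, 0, 0, 0, 0, 0, 0, 0, 0, ⟨0, 0⟩, 0⟩, 0, 0⟩ 0 0) (.cut .v 18874368 (.cut .d (-2097152) (.void 25 ⟨⟨100000, 0, 0, 0, 0, 0, 0, 0, 0, ⟨0, 0⟩, 0⟩, 0, 0⟩ 0 0) (.cut .v 17825792 (.cut .d (-1048576) (.void 27 ⟨⟨100000, 0, 0, 0, 0, 0, 0, 0, 0, ⟨0, 0⟩, 0⟩, 0, 0⟩ 0 0) (.cut .v 17301504 (.cut .d (-524288) (.void 29 ⟨⟨100000, 0, 0, 0, 0, 0, 0, 0, 0, ⟨0, 0⟩, 0⟩, 0, 0⟩ 0 0) (.cut .v 17039360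 (.cut .d (-262144) (.void 31 ⟨⟨100000, 0, 0, 0, 0, 0, 0, 0, 0, ⟨0, 0⟩, 0⟩, 0, 0⟩ 0 0) (.cut .v 16908288 (.cut .s 10682368 (.pos 35 .mp ⟨⟨64958038, 0, 0, 0, 0, 1456314, 0, 0, 0, ⟨0, 0⟩, 0⟩, 0, 0⟩ 0 0) (.cut .s 10780672 (.pos 35 .mp ⟨⟨57702780, 0, 0, 0, 0, 17011016, 0, 0, 0, ⟨0, 0⟩, 0⟩, 0, 0⟩ 0 0) (.cut .d (-131072) (.void 35 ⟨⟨100000, 0, 0, 0, 0, 0, 0, 0, 0, ⟨0, 0⟩, 0⟩, 0, 0⟩ 0 0) (.cut .s 10829824 (.pos 35 .mp ⟨⟨57506177, 0, 0, 0, 0, 19163698, 0, 0, 0, ⟨0, 0⟩, 0⟩, 0, 0⟩ 0 0) (.cut .d (-65536) (.void 35 ⟨⟨0, 0, 0, 0, 0, 100000, 0, 0, 0, ⟨0, 0⟩, 0⟩, 0, 0⟩ 0 0) (.cut .d (-32768) (.pos 35 .mp ⟨⟨58649429, 0, 0, 0, 0, 20646414, 0, 0,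 0, ⟨0, 0⟩, 0⟩, 0, 0⟩ 0 0) (.cut .s 10854400 (.pos 35 .mp ⟨⟨59024856, 0, 0, 0, 0, 17370530, 0, 0, 0, ⟨0, 0⟩, 0⟩, 0, 0⟩ 0 0) (.cut .d (-16384) (.pos 35 .mp ⟨⟨60243447, 0, 0, 0, 0, 16813307, 0, 0, 0, ⟨0, 0⟩, 0⟩, 0, 0⟩ 0 0) (.pos 35 .mp ⟨⟨59417299, 0, 0, 0, 0, 17627084, 0, 0, 0, ⟨0, 0⟩, 0⟩, 0, 0⟩ 0 0))))))))) (.pos 36 .mp ⟨⟨76026762, 0, 0, 0, 0, 0, 0, 0, 0, ⟨0, 0⟩, 0⟩, 0, 0⟩ 0 0))) (.pos 32 .mp ⟨⟨80137034, 0, 0, 0, 0, 0, 0, 0, 0, ⟨0, 0⟩, 0⟩, 0, 0⟩ 0 0))) (.void 30 ⟨⟨100000, 0, 0, 0, 0, 0, 0, 0, 0, ⟨0, 0⟩, 0⟩, 0, 0⟩ 0 0))) (.void 28 ⟨⟨100000, 0, 0, 0, 0, 0, 0, 0, 0, ⟨0, 0⟩, 0⟩, 0, 0⟩ 0 0))) (.void 26 ⟨⟨100000, 0, 0, 0, 0, 0, 0, 0, 0,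 ⟨0, 0⟩, 0⟩, 0, 0⟩ 0 0))) (.void 24 ⟨⟨100000, 0, 0, 0, 0, 0, 0, 0, 0, ⟨0, 0⟩, 0⟩, 0, 0⟩ 0 0))) (.void 22 ⟨⟨100000, 0, 0, 0, 0, 0, 0, 0, 0, ⟨0, 0⟩, 0⟩, 0, 0⟩ 0 0)) (.void 79 ⟨⟨100000, 0, 0, 0, 0, 0, 0, 0, 0, ⟨0, 0⟩, 0⟩, 0, 0⟩ 0 0))) (.cut .v 16777216 (.cut .d 5033166 (.cut .v 8388608 (.cut .v 4194304 (.void 4 ⟨⟨0, 0, 66667, 0, 0, 0, 0, 0, 0, ⟨0, 0⟩, 0⟩, 0, 33333⟩ 0 0) (.pos 5 .pm ⟨⟨0, 0, 1469563, 0, 0, 0, 0, 0, 0, ⟨0, 0⟩, 0⟩, 0, 0⟩ 0 0)) (.pos 3 .pm ⟨⟨0, 0, 0, 0, 0, 0, 0, 0, 0, ⟨0, 0⟩, 0⟩, 0, 0⟩ 0 0)) (.void 1 ⟨⟨0, 0, 0, 0, 0, 0, 0, 0, 0, ⟨0, 0⟩, 0⟩, 0, 100000⟩ 0 0)) (.cut .d 5033166 (.cut .v 33554432 (.cut .d 2516583 (.cut .v 25165824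 (.cut .d 1258291 (.cut .v 20971520 (.cut .d 629145 (.cut .v 18874368 (.cut .d 314572 (.cut .v 17825792 (.cut .d 157286 (.cut .v 17301504 (.cut .s 10682368 (.pos 29 .pp ⟨⟨54426756, 0, 0, 0, 0, 0, 0, 0, 0, ⟨0, 0⟩, 0⟩, 0, 149494⟩ 0 0) (.pos 29 .pp ⟨⟨62279332, 0, 0, 0, 0, 0, 0, 0, 0, ⟨0, 0⟩, 0⟩, 0, 61887⟩ 0 0)) (.pos 30 .pp ⟨⟨67093686, 0, 0, 0, 0, 0, 0, 0, 0, ⟨0, 0⟩, 0⟩, 0, 43632⟩ 0 0)) (.pos 27 .pp ⟨⟨0, 0, 0, 0, 0, 0, 0, 0, 0, ⟨0, 0⟩, 0⟩, 0, 975729⟩ 0 0)) (.cut .d 157286 (.pos 28 .pp ⟨⟨79175260, 0, 0, 0, 0, 0, 0, 0, 0, ⟨0, 0⟩, 0⟩, 0, 0⟩ 0 0) (.pos 28 .pp ⟨⟨63880758, 0, 0, 0, 0, 0, 0, 0, 0, ⟨0, 0⟩, 0⟩, 0, 120086⟩ 0 0))) (.pos 25 .pp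 ⟨⟨0, 0, 0, 0, 0, 0, 0, 0, 0, ⟨0, 0⟩, 0⟩, 0, 1002739⟩ 0 0)) (.cut .d 314572 (.pos 26 .pp ⟨⟨96341504, 0, 0, 0, 0, 0, 0, 0, 0, ⟨0, 0⟩, 0⟩, 0, 0⟩ 0 0) (.cut .v 19922944 (.pos 47 .pp ⟨⟨64179699, 0, 0, 0, 0, 0, 0, 0, 0, ⟨0, 0⟩, 0⟩, 0, 177859⟩ 0 0) (.pos 48 .pp ⟨⟨80954394, 0, 0, 0, 0, 0, 0, 0, 0, ⟨0, 0⟩, 0⟩, 0, 28325⟩ 0 0)))) (.pos 23 .pp ⟨⟨0, 0, 0, 0, 0, 0, 0, 0, 0, ⟨0, 0⟩, 0⟩, 0, 1052257⟩ 0 0)) (.cut .d 629145 (.cut .v 23068672 (.cut .v 22020096 (.pos 57 .pp ⟨⟨105180762, 0, 0, 0, 0, 0, 0, 0, 0, ⟨0, 0⟩, 0⟩, 0, 0⟩ 0 0) (.pos 58 .pp ⟨⟨118883153, 0, 0, 0, 0, 0, 0, 0, 0, ⟨0, 0⟩, 0⟩, 0, 0⟩ 0 0)) (.void 54 ⟨⟨0, 0, 0, 0, 0, 0, 0, 0, 0, ⟨0,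 0⟩, 0⟩, 100000, 0⟩ 0 0)) (.cut .d 943718 (.cut .v 23068672 (.pos 53 .pp ⟨⟨78597648, 0, 0, 0, 0, 0, 474229, 0, 0, ⟨0, 0⟩, 0⟩, 0, 0⟩ 0 0) (.cut .d 786431 (.pos 54 .pp ⟨⟨0, 0, 0, 0, 0, 0, 0, 0, 0, ⟨0, 0⟩, 0⟩, 14503953, 0⟩ 0 0) (.pos 54 .pp ⟨⟨0, 0, 0, 0, 0, 0, 338446, 0, 0, ⟨0, 0⟩, 0⟩, 11779839, 0⟩ 0 0))) (.pos 24 .pp ⟨⟨0, 0, 0, 0, 0, 0, 1032132, 0, 0, ⟨0, 0⟩, 0⟩, 8558261, 0⟩ 0 0)))) (.pos 21 .pp ⟨⟨0, 0, 0, 0, 0, 0, 0, 0, 0, ⟨0, 0⟩, 0⟩, 0, 1136438⟩ 0 0)) (.cut .d 1258291 (.cut .v 29360128 (.cut .d 629145 (.void 67 ⟨⟨0, 0, 0, 0, 0, 0, 0, 0, 0, ⟨0, 0⟩, 0⟩, 100000, 0⟩ 0 0) (.pos 67 .pp ⟨⟨0, 0, 0, 0, 0, 0, 0, 0, 0, ⟨0, 0⟩, 0⟩, 17523379,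 0⟩ 0 0)) (.void 68 ⟨⟨0, 0, 0, 0, 0, 0, 0, 0, 0, ⟨0, 0⟩, 0⟩, 100000, 0⟩ 0 0)) (.pos 22 .pp ⟨⟨0, 0, 0, 0, 0, 0, 286753, 0, 0, ⟨0, 0⟩, 0⟩, 12432113, 0⟩ 0 0))) (.cut .v 25165824 (.pos 21 .pp ⟨⟨0, 0, 0, 0, 0, 0, 0, 0, 0, ⟨0, 0⟩, 0⟩, 0, 14883403⟩ 0 0) (.pos 22 .pp ⟨⟨0, 0, 0, 0, 0, 0, 3724266, 0, 0, ⟨0, 0⟩, 0⟩, 0, 0⟩ 0 0))) (.cut .d 2516583 (.cut .v 50331648 (.pos 80 .pp ⟨⟨0, 0, 0, 0, 0, 0, 0, 0, 0, ⟨0, 0⟩, 0⟩, 38721163, 0⟩ 0 0) (.void 81 ⟨⟨0, 0, 0, 0, 0, 0, 0, 0, 0, ⟨0, 0⟩, 0⟩, 100000, 0⟩ 0 0)) (.pos 79 .pp ⟨⟨0, 0, 0, 0, 0, 0, 38676092, 0, 0, ⟨0, 0⟩, 0⟩, 16382520, 0⟩ 0 0))) (.void 78 ⟨⟨0, 61951, 0, 0, 0, 0, 0, 0, 0, ⟨0, 0⟩, 0⟩, 0, 38049⟩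 0 0)))),
    by decide +kernel⟩

theorem covers15 : cell.Covers Vale.Agent.P237.Petty.Cor.Grid.N11.table row15.1 :=
  ⟨(.cut .d 0 (.cut .v 16777216 (.cut .d (-8388608) (.void 1 ⟨⟨0, 0, 0, 0, 0, 100000, 0, 0, 0, ⟨0, 0⟩, 0⟩, 0, 0⟩ 0 0) (.cut .d (-4194304) (.void 1 ⟨⟨0, 0, 0, 0, 0, 100000, 0, 0, 0, ⟨0, 0⟩, 0⟩, 0, 0⟩ 0 0) (.cut .d (-2097152) (.void 1 ⟨⟨0, 0, 0, 0, 0, 100000, 0, 0, 0, ⟨0, 0⟩, 0⟩, 0, 0⟩ 0 0) (.cut .d (-1048576) (.void 1 ⟨⟨0, 0, 0, 0, 0, 100000, 0, 0, 0, ⟨0, 0⟩, 0⟩, 0, 0⟩ 0 0) (.cut .d (-524288) (.void 1 ⟨⟨0, 0, 0, 0, 0, 100000, 0, 0, 0, ⟨0, 0⟩, 0⟩, 0, 0⟩ 0 0) (.cut .d (-262144) (.void 1 ⟨⟨0, 0, 0, 0, 0, 100000, 0, 0,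 0, ⟨0, 0⟩, 0⟩, 0, 0⟩ 0 0) (.cut .d (-131072) (.void 1 ⟨⟨0, 0, 0, 0, 0, 100000, 0, 0, 0, ⟨0, 0⟩, 0⟩, 0, 0⟩ 0 0) (.cut .d (-65536) (.void 1 ⟨⟨0, 0, 0, 0, 0, 100000, 0, 0, 0, ⟨0, 0⟩, 0⟩, 0, 0⟩ 0 0) (.cut .v 8388608 (.cut .v 4194304 (.void 4 ⟨⟨0, 0, 100000, 0, 0, 0, 0, 0, 0, ⟨0, 0⟩, 0⟩, 0, 0⟩ 0 0) (.pos 5 .mm ⟨⟨0, 0, 2309989, 0, 0, 32168413, 0, 0, 0, ⟨0, 0⟩, 0⟩, 0, 0⟩ 0 0)) (.cut .s 11108352 (.pos 3 .mm ⟨⟨0, 0, 0, 0, 0, 115329537, 0, 0, 0, ⟨0, 0⟩, 0⟩, 0, 0⟩ 0 0) (.pos 3 .mm ⟨⟨0, 0, 0, 0, 0, 137200918, 0, 0, 0, ⟨0, 0⟩, 0⟩, 0, 0⟩ 0 0))))))))))) (.cut .v 33554432 (.cut .v 25165824 (.cut .d (-8388608) (.void 21 ⟨⟨0, 0, 0, 0, 0, 100000,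 0, 0, 0, ⟨0, 0⟩, 0⟩, 0, 0⟩ 0 0) (.cut .v 20971520 (.cut .d (-4194304) (.void 23 ⟨⟨100000, 0, 0, 0, 0, 0, 0, 0, 0, ⟨0, 0⟩, 0⟩, 0, 0⟩ 0 0) (.cut .v 18874368 (.cut .d (-2097152) (.void 25 ⟨⟨100000, 0, 0, 0, 0, 0, 0, 0, 0, ⟨0, 0⟩, 0⟩, 0, 0⟩ 0 0) (.cut .v 17825792 (.cut .d (-1048576) (.void 27 ⟨⟨100000, 0, 0, 0, 0, 0, 0, 0, 0, ⟨0, 0⟩, 0⟩, 0, 0⟩ 0 0) (.cut .v 17301504 (.cut .d (-524288) (.void 29 ⟨⟨100000, 0, 0, 0, 0, 0, 0, 0, 0, ⟨0, 0⟩, 0⟩, 0, 0⟩ 0 0) (.cut .v 17039360 (.cut .d (-262144) (.void 31 ⟨⟨100000, 0, 0, 0, 0, 0, 0, 0, 0, ⟨0, 0⟩, 0⟩, 0, 0⟩ 0 0) (.cut .d (-131072) (.void 31 ⟨⟨100000, 0, 0, 0, 0, 0, 0, 0, 0, ⟨0, 0⟩, 0⟩, 0, 0⟩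 0 0) (.cut .d (-65536) (.void 31 ⟨⟨0, 0, 0, 0, 0, 100000, 0, 0, 0, ⟨0, 0⟩, 0⟩, 0, 0⟩ 0 0) (.cut .d (-32768) (.cut .v 16908288 (.cut .d (-49152) (.void 35 ⟨⟨0, 0, 0, 0, 0, 100000, 0, 0, 0, ⟨0, 0⟩, 0⟩, 0, 0⟩ 0 0) (.cut .d (-40960) (.void 35 ⟨⟨0, 0, 0, 0, 0, 100000, 0, 0, 0, ⟨0, 0⟩, 0⟩, 0, 0⟩ 0 0) (.cut .d (-36864) (.void 35 ⟨⟨0, 0, 0, 0, 0, 100000, 0, 0, 0, ⟨0, 0⟩, 0⟩, 0, 0⟩ 0 0) (.cut .l 167772 (.void 35 ⟨⟨0, 0, 0, 0, 0, 100000, 0, 0, 0, ⟨0, 0⟩, 0⟩, 0, 0⟩ 0 0) (.cut .l 251658 (.void 35 ⟨⟨0, 0, 0, 0, 0, 100000, 0, 0, 0, ⟨0, 0⟩, 0⟩, 0, 0⟩ 0 0) (.cut .l 293601 (.void 35 ⟨⟨0, 0, 0, 0, 0, 100000, 0, 0, 0, ⟨0, 0⟩, 0⟩, 0, 0⟩ 0 0) (.cut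 .v 16842752 (.pos 41 .mp ⟨⟨0, 0, 0, 0, 0, 135319911, 0, 0, 0, ⟨0, 0⟩, 0⟩, 0, 0⟩ 0 0) (.cut .v 16875520 (.cut .s 11108352 (.cut .s 10993664 (.pos 49 .mp ⟨⟨64521532, 0, 0, 0, 0, 16850073, 0, 0, 0, ⟨0, 0⟩, 0⟩, 0, 0⟩ 0 0) (.pos 49 .mp ⟨⟨65981751, 0, 0, 0, 0, 27282737, 0, 0, 0, ⟨0, 0⟩, 0⟩, 0, 0⟩ 0 0)) (.pos 49 .mp ⟨⟨70216896, 0, 0, 0, 0, 46661666, 0, 0, 0, ⟨0, 0⟩, 0⟩, 0, 0⟩ 0 0)) (.pos 50 .mp ⟨⟨98107293, 0, 0, 0, 0, 0, 0, 0, 0, ⟨0, 0⟩, 0⟩, 0, 0⟩ 0 0))))))))) (.void 36 ⟨⟨100000, 0, 0, 0, 0, 0, 0, 0, 0, ⟨0, 0⟩, 0⟩, 0, 0⟩ 0 0)) (.cut .s 11108352 (.cut .s 10993664 (.cut .v 16908288 (.cut .s 10936320 (.cut .v 16842752 (.cut .s 10907648 (.cut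 .s 10893312 (.cut .d (-16384) (.pos 41 .mp ⟨⟨58190885, 0, 0, 0, 0, 21073877, 0, 0, 0, ⟨0, 0⟩, 0⟩, 0, 0⟩ 0 0) (.cut .s 10886144 (.pos 41 .mp ⟨⟨59233018, 0, 0, 0, 0, 18403086, 0, 0, 0, ⟨0, 0⟩, 0⟩, 0, 0⟩ 0 0) (.pos 41 .mp ⟨⟨59543601, 0, 0, 0, 0, 18458248, 0, 0, 0, ⟨0, 0⟩, 0⟩, 0, 0⟩ 0 0))) (.cut .l 167772 (.cut .d (-16384) (.pos 41 .mp ⟨⟨58871038, 0, 0, 0, 0, 21929391, 0, 0, 0, ⟨0, 0⟩, 0⟩, 0, 0⟩ 0 0) (.cut .s 10900480 (.pos 41 .mp ⟨⟨59855761, 0, 0, 0, 0, 18489169, 0, 0, 0, ⟨0, 0⟩, 0⟩, 0, 0⟩ 0 0) (.pos 41 .mp ⟨⟨60169502, 0, 0, 0, 0, 18548815, 0, 0, 0, ⟨0, 0⟩, 0⟩, 0, 0⟩ 0 0))) (.pos 41 .mp ⟨⟨57827400, 0, 0, 0, 0, 21911745, 0, 0, 0, ⟨0,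 0⟩, 0⟩, 0, 0⟩ 0 0))) (.cut .s 10921984 (.cut .l 167772 (.cut .d (-16384) (.pos 41 .mp ⟨⟨59495316, 0, 0, 0, 0, 22069146, 0, 0, 0, ⟨0, 0⟩, 0⟩, 0, 0⟩ 0 0) (.cut .s 10914816 (.pos 41 .mp ⟨⟨60484830, 0, 0, 0, 0, 18609595, 0, 0, 0, ⟨0, 0⟩, 0⟩, 0, 0⟩ 0 0) (.pos 41 .mp ⟨⟨60801751, 0, 0, 0, 0, 18671502, 0, 0, 0, ⟨0, 0⟩, 0⟩, 0, 0⟩ 0 0))) (.pos 41 .mp ⟨⟨58433426, 0, 0, 0, 0, 22089855, 0, 0, 0, ⟨0, 0⟩, 0⟩, 0, 0⟩ 0 0)) (.cut .d (-16384) (.cut .s 10929152 (.pos 41 .mp ⟨⟨59112750, 0, 0, 0, 0, 23040106, 0, 0, 0, ⟨0, 0⟩, 0⟩, 0, 0⟩ 0 0) (.pos 41 .mp ⟨⟨59423013, 0, 0, 0, 0, 23121913, 0, 0, 0, ⟨0, 0⟩, 0⟩, 0, 0⟩ 0 0)) (.cut .s 10929152 (.pos 41 .mp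 ⟨⟨61120268, 0, 0, 0, 0, 18751237, 0, 0, 0, ⟨0, 0⟩, 0⟩, 0, 0⟩ 0 0) (.pos 41 .mp ⟨⟨61440388, 0, 0, 0, 0, 18813255, 0, 0, 0, ⟨0, 0⟩, 0⟩, 0, 0⟩ 0 0))))) (.pos 42 .mp ⟨⟨71542035, 0, 0, 0, 0, 2663284, 0, 0, 0, ⟨0, 0⟩, 0⟩, 0, 0⟩ 0 0)) (.cut .v 16842752 (.cut .s 10964992 (.cut .s 10950656 (.cut .d (-16384) (.cut .s 10943488 (.pos 41 .mp ⟨⟨59734827, 0, 0, 0, 0, 23205034, 0, 0, 0, ⟨0, 0⟩, 0⟩, 0, 0⟩ 0 0) (.pos 41 .mp ⟨⟨60048196, 0, 0, 0, 0, 23289475, 0, 0, 0, ⟨0, 0⟩, 0⟩, 0, 0⟩ 0 0)) (.cut .s 10943488 (.pos 41 .mp ⟨⟨61762116, 0, 0, 0, 0, 18876406, 0, 0, 0, ⟨0, 0⟩, 0⟩, 0, 0⟩ 0 0) (.pos 41 .mp ⟨⟨62085457, 0, 0, 0, 0, 18940689, 0, 0, 0, ⟨0, 0⟩,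 0⟩, 0, 0⟩ 0 0))) (.cut .d (-16384) (.cut .s 10957824 (.pos 41 .mp ⟨⟨60363126, 0, 0, 0, 0, 23375241, 0, 0, 0, ⟨0, 0⟩, 0⟩, 0, 0⟩ 0 0) (.pos 41 .mp ⟨⟨60679622, 0, 0, 0, 0, 23462338, 0, 0, 0, ⟨0, 0⟩, 0⟩, 0, 0⟩ 0 0)) (.cut .s 10957824 (.pos 41 .mp ⟨⟨62410416, 0, 0, 0, 0, 19006101, 0, 0, 0, ⟨0, 0⟩, 0⟩, 0, 0⟩ 0 0) (.pos 41 .mp ⟨⟨62736999, 0, 0, 0, 0, 19072640, 0, 0, 0, ⟨0, 0⟩, 0⟩, 0, 0⟩ 0 0)))) (.cut .d (-16384) (.cut .d (-24576) (.pos 41 .mp ⟨⟨61470949, 0, 0, 0, 0, 24280405, 0, 0, 0, ⟨0, 0⟩, 0⟩, 0, 0⟩ 0 0) (.cut .l 167772 (.pos 41 .mp ⟨⟨62240486, 0, 0, 0, 0, 23639896, 0, 0, 0, ⟨0, 0⟩, 0⟩, 0, 0⟩ 0 0) (.pos 41 .mp ⟨⟨60997689, 0, 0, 0,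 0, 23738260, 0, 0, 0, ⟨0, 0⟩, 0⟩, 0, 0⟩ 0 0))) (.cut .l 167772 (.cut .v 16809984 (.cut .s 10979328 (.cut .s 10972160 (.pos 45 .mp ⟨⟨62284307, 0, 0, 0, 0, 20397509, 0, 0, 0, ⟨0, 0⟩, 0⟩, 0, 0⟩ 0 0) (.pos 45 .mp ⟨⟨62564438, 0, 0, 0, 0, 20551622, 0, 0, 0, ⟨0, 0⟩, 0⟩, 0, 0⟩ 0 0)) (.cut .s 10986496 (.pos 45 .mp ⟨⟨62847529, 0, 0, 0, 0, 20704650, 0, 0, 0, ⟨0, 0⟩, 0⟩, 0, 0⟩ 0 0) (.pos 45 .mp ⟨⟨63133669, 0, 0, 0, 0, 20856442, 0, 0, 0, ⟨0, 0⟩, 0⟩, 0, 0⟩ 0 0))) (.pos 46 .mp ⟨⟨70495963, 0, 0, 0, 0, 9240877, 0, 0, 0, ⟨0, 0⟩, 0⟩, 0, 0⟩ 0 0)) (.pos 41 .mp ⟨⟨62535064, 0, 0, 0, 0, 0, 0, 0, 0, ⟨0, 0⟩, 0⟩, 0, 0⟩ 0 0)))) (.pos 42 .mp ⟨⟨74628677, 0,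 0, 0, 0, 2404417, 0, 0, 0, ⟨0, 0⟩, 0⟩, 0, 0⟩ 0 0))) (.pos 36 .mp ⟨⟨75914349, 0, 0, 0, 0, 0, 0, 0, 0, ⟨0, 0⟩, 0⟩, 0, 0⟩ 0 0)) (.cut .v 16908288 (.cut .s 11051008 (.cut .v 16842752 (.cut .s 11022336 (.cut .d (-16384) (.cut .v 16809984 (.pos 45 .mp ⟨⟨0, 0, 0, 0, 0, 129744469, 0, 0, 0, ⟨0, 0⟩, 0⟩, 0, 0⟩ 0 0) (.cut .s 11008000 (.pos 46 .mp ⟨⟨63280218, 0, 0, 0, 0, 22474597, 0, 0, 0, ⟨0, 0⟩, 0⟩, 0, 0⟩ 0 0) (.cut .s 11015168 (.pos 46 .mp ⟨⟨64227127, 0, 0, 0, 0, 21764067, 0, 0, 0, ⟨0, 0⟩, 0⟩, 0, 0⟩ 0 0) (.pos 46 .mp ⟨⟨64547321, 0, 0, 0, 0, 21877807, 0, 0, 0, ⟨0, 0⟩, 0⟩, 0, 0⟩ 0 0)))) (.cut .l 167772 (.cut .v 16809984 (.cut .s 11008000 (.cut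 .s 11000832 (.pos 45 .mp ⟨⟨63422950, 0, 0, 0, 0, 21006845, 0, 0, 0, ⟨0, 0⟩, 0⟩, 0, 0⟩ 0 0) (.pos 45 .mp ⟨⟨63715462, 0, 0, 0, 0, 21155708, 0, 0, 0, ⟨0, 0⟩, 0⟩, 0, 0⟩ 0 0)) (.cut .s 11015168 (.pos 45 .mp ⟨⟨64011294, 0, 0, 0, 0, 21302882, 0, 0, 0, ⟨0, 0⟩, 0⟩, 0, 0⟩ 0 0) (.pos 45 .mp ⟨⟨64310535, 0, 0, 0, 0, 21448215, 0, 0, 0, ⟨0, 0⟩, 0⟩, 0, 0⟩ 0 0))) (.pos 46 .mp ⟨⟨71942719, 0, 0, 0, 0, 9367143, 0, 0, 0, ⟨0, 0⟩, 0⟩, 0, 0⟩ 0 0)) (.pos 41 .mp ⟨⟨63869446, 0, 0, 0, 0, 0, 0, 0, 0, ⟨0, 0⟩, 0⟩, 0, 0⟩ 0 0))) (.cut .d (-16384) (.cut .v 16809984 (.pos 45 .mp ⟨⟨0, 0, 0, 0, 0, 132587094, 0, 0, 0, ⟨0, 0⟩, 0⟩, 0, 0⟩ 0 0) (.cut .l 167772 (.pos 46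 .mp ⟨⟨65623249, 0, 0, 0, 0, 23181851, 0, 0, 0, ⟨0, 0⟩, 0⟩, 0, 0⟩ 0 0) (.cut .s 11036672 (.pos 46 .mp ⟨⟨63866373, 0, 0, 0, 0, 23739384, 0, 0, 0, ⟨0, 0⟩, 0⟩, 0, 0⟩ 0 0) (.pos 46 .mp ⟨⟨64535375, 0, 0, 0, 0, 23944526, 0, 0, 0, ⟨0, 0⟩, 0⟩, 0, 0⟩ 0 0)))) (.cut .l 167772 (.cut .v 16809984 (.cut .s 11036672 (.cut .s 11029504 (.pos 45 .mp ⟨⟨64613276, 0, 0, 0, 0, 21591558, 0, 0, 0, ⟨0, 0⟩, 0⟩, 0, 0⟩ 0 0) (.pos 45 .mp ⟨⟨64919605, 0, 0, 0, 0, 21732759, 0, 0, 0, ⟨0, 0⟩, 0⟩, 0, 0⟩ 0 0)) (.cut .s 11043840 (.pos 45 .mp ⟨⟨65239534, 0, 0, 0, 0, 21855020, 0, 0, 0, ⟨0, 0⟩, 0⟩, 0, 0⟩ 0 0) (.pos 45 .mp ⟨⟨65569138, 0, 0, 0, 0, 21964913, 0, 0, 0, ⟨0,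 0⟩, 0⟩, 0, 0⟩ 0 0))) (.pos 46 .mp ⟨⟨73433285, 0, 0, 0, 0, 9483652, 0, 0, 0, ⟨0, 0⟩, 0⟩, 0, 0⟩ 0 0)) (.pos 41 .mp ⟨⟨65229525, 0, 0, 0, 0, 0, 0, 0, 0, ⟨0, 0⟩, 0⟩, 0, 0⟩ 0 0)))) (.cut .s 11022336 (.pos 42 .mp ⟨⟨71362317, 0, 0, 0, 0, 10656676, 0, 0, 0, ⟨0, 0⟩, 0⟩, 0, 0⟩ 0 0) (.pos 42 .mp ⟨⟨72841943, 0, 0, 0, 0, 10800582, 0, 0, 0, ⟨0, 0⟩, 0⟩, 0, 0⟩ 0 0))) (.cut .v 16842752 (.cut .s 11079680 (.cut .d (-16384) (.cut .v 16809984 (.pos 45 .mp ⟨⟨0, 0, 0, 0, 0, 135504817, 0, 0, 0, ⟨0, 0⟩, 0⟩, 0, 0⟩ 0 0) (.cut .l 167772 (.pos 46 .mp ⟨⟨67031716, 0, 0, 0, 0, 23530005, 0, 0, 0, ⟨0, 0⟩, 0⟩, 0, 0⟩ 0 0) (.cut .s 11065344 (.pos 46 .mp ⟨⟨65210920,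 0, 0, 0, 0, 24154170, 0, 0, 0, ⟨0, 0⟩, 0⟩, 0, 0⟩ 0 0) (.pos 46 .mp ⟨⟨65893052, 0, 0, 0, 0, 24368258, 0, 0, 0, ⟨0, 0⟩, 0⟩, 0, 0⟩ 0 0)))) (.cut .l 167772 (.cut .v 16809984 (.cut .s 11065344 (.cut .s 11058176 (.pos 45 .mp ⟨⟨65901172, 0, 0, 0, 0, 22074588, 0, 0, 0, ⟨0, 0⟩, 0⟩, 0, 0⟩ 0 0) (.pos 45 .mp ⟨⟨66235676, 0, 0, 0, 0, 22183982, 0, 0, 0, ⟨0, 0⟩, 0⟩, 0, 0⟩ 0 0)) (.cut .s 11072512 (.pos 45 .mp ⟨⟨66572688, 0, 0, 0, 0, 22293029, 0, 0, 0, ⟨0, 0⟩, 0⟩, 0, 0⟩ 0 0) (.pos 45 .mp ⟨⟨66912249, 0, 0, 0, 0, 22401663, 0, 0, 0, ⟨0, 0⟩, 0⟩, 0, 0⟩ 0 0))) (.pos 46 .mp ⟨⟨74972068, 0, 0, 0, 0, 9583703, 0, 0, 0, ⟨0, 0⟩, 0⟩, 0, 0⟩ 0 0)) (.pos 41 .mp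 ⟨⟨66615641, 0, 0, 0, 0, 0, 0, 0, 0, ⟨0, 0⟩, 0⟩, 0, 0⟩ 0 0))) (.cut .d (-16384) (.cut .v 16809984 (.pos 45 .mp ⟨⟨0, 0, 0, 0, 0, 138498875, 0, 0, 0, ⟨0, 0⟩, 0⟩, 0, 0⟩ 0 0) (.cut .l 167772 (.pos 46 .mp ⟨⟨68465674, 0, 0, 0, 0, 23902682, 0, 0, 0, ⟨0, 0⟩, 0⟩, 0, 0⟩ 0 0) (.cut .s 11094016 (.pos 46 .mp ⟨⟨66581816, 0, 0, 0, 0, 24586736, 0, 0, 0, ⟨0, 0⟩, 0⟩, 0, 0⟩ 0 0) (.pos 46 .mp ⟨⟨67277256, 0, 0, 0, 0, 24809546, 0, 0, 0, ⟨0, 0⟩, 0⟩, 0, 0⟩ 0 0)))) (.cut .l 167772 (.cut .v 16809984 (.cut .s 11094016 (.cut .s 11086848 (.pos 45 .mp ⟨⟨67254398, 0, 0, 0, 0, 22509820, 0, 0, 0, ⟨0, 0⟩, 0⟩, 0, 0⟩ 0 0) (.pos 45 .mp ⟨⟨67599175, 0, 0, 0, 0, 22617432,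 0, 0, 0, ⟨0, 0⟩, 0⟩, 0, 0⟩ 0 0)) (.cut .s 11101184 (.pos 45 .mp ⟨⟨67946619, 0, 0, 0, 0, 22724433, 0, 0, 0, ⟨0, 0⟩, 0⟩, 0, 0⟩ 0 0) (.pos 45 .mp ⟨⟨68296771, 0, 0, 0, 0, 22830758, 0, 0, 0, ⟨0, 0⟩, 0⟩, 0, 0⟩ 0 0))) (.pos 46 .mp ⟨⟨76563529, 0, 0, 0, 0, 9660470, 0, 0, 0, ⟨0, 0⟩, 0⟩, 0, 0⟩ 0 0)) (.pos 41 .mp ⟨⟨68028138, 0, 0, 0, 0, 0, 0, 0, 0, ⟨0, 0⟩, 0⟩, 0, 0⟩ 0 0)))) (.cut .s 11079680 (.pos 42 .mp ⟨⟨74369408, 0, 0, 0, 0, 10928930, 0, 0, 0, ⟨0, 0⟩, 0⟩, 0, 0⟩ 0 0) (.pos 42 .mp ⟨⟨75949186, 0, 0, 0, 0, 11034882, 0, 0, 0, ⟨0, 0⟩, 0⟩, 0, 0⟩ 0 0)))) (.pos 36 .mp ⟨⟨82120428, 0, 0, 0, 0, 0, 0, 0, 0, ⟨0, 0⟩, 0⟩, 0, 0⟩ 0 0))) (.cut .s 11223040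 (.cut .v 16908288 (.cut .s 11165696 (.cut .v 16842752 (.cut .s 11137024 (.cut .d (-16384) (.cut .v 16809984 (.pos 45 .mp ⟨⟨0, 0, 0, 0, 0, 141570531, 0, 0, 0, ⟨0, 0⟩, 0⟩, 0, 0⟩ 0 0) (.cut .l 167772 (.pos 46 .mp ⟨⟨69925446, 0, 0, 0, 0, 24300360, 0, 0, 0, ⟨0, 0⟩, 0⟩, 0, 0⟩ 0 0) (.cut .s 11122688 (.pos 46 .mp ⟨⟨67979419, 0, 0, 0, 0, 25036631, 0, 0, 0, ⟨0, 0⟩, 0⟩, 0, 0⟩ 0 0) (.pos 46 .mp ⟨⟨68688350, 0, 0, 0, 0, 25267931, 0, 0, 0, ⟨0, 0⟩, 0⟩, 0, 0⟩ 0 0)))) (.cut .l 167772 (.cut .v 16809984 (.cut .s 11122688 (.cut .s 11115520 (.pos 45 .mp ⟨⟨68649671, 0, 0, 0, 0, 22936339, 0, 0, 0, ⟨0, 0⟩, 0⟩, 0, 0⟩ 0 0) (.pos 45 .mp ⟨⟨69005359, 0, 0,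 0, 0, 23041109, 0, 0, 0, ⟨0, 0⟩, 0⟩, 0, 0⟩ 0 0)) (.cut .s 11129856 (.pos 45 .mp ⟨⟨69363875, 0, 0, 0, 0, 23145001, 0, 0, 0, ⟨0, 0⟩, 0⟩, 0, 0⟩ 0 0) (.pos 45 .mp ⟨⟨69725259, 0, 0, 0, 0, 23247948, 0, 0, 0, ⟨0, 0⟩, 0⟩, 0, 0⟩ 0 0))) (.pos 46 .mp ⟨⟨78212184, 0, 0, 0, 0, 9706993, 0, 0, 0, ⟨0, 0⟩, 0⟩, 0, 0⟩ 0 0)) (.pos 41 .mp ⟨⟨69467371, 0, 0, 0, 0, 0, 0, 0, 0, ⟨0, 0⟩, 0⟩, 0, 0⟩ 0 0))) (.cut .d (-16384) (.cut .d (-24576) (.pos 41 .mp ⟨⟨69672593, 0, 0, 0, 0, 26968016, 0, 0, 0, ⟨0, 0⟩, 0⟩, 0, 0⟩ 0 0) (.cut .v 16809984 (.pos 45 .mp ⟨⟨0, 0, 0, 0, 0, 144721072, 0, 0, 0, ⟨0, 0⟩, 0⟩, 0, 0⟩ 0 0) (.cut .s 11151360 (.pos 46 .mp ⟨⟨72676633, 0, 0,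 0, 0, 20144753, 0, 0, 0, ⟨0, 0⟩, 0⟩, 0, 0⟩ 0 0) (.pos 46 .mp ⟨⟨73433947, 0, 0, 0, 0, 20325236, 0, 0, 0, ⟨0, 0⟩, 0⟩, 0, 0⟩ 0 0)))) (.cut .l 167772 (.cut .v 16809984 (.cut .s 11151360 (.cut .s 11144192 (.pos 45 .mp ⟨⟨70089553, 0, 0, 0, 0, 23349881, 0, 0, 0, ⟨0, 0⟩, 0⟩, 0, 0⟩ 0 0) (.pos 45 .mp ⟨⟨70456796, 0, 0, 0, 0, 23450733, 0, 0, 0, ⟨0, 0⟩, 0⟩, 0, 0⟩ 0 0)) (.cut .s 11158528 (.pos 45 .mp ⟨⟨70827028, 0, 0, 0, 0, 23550436, 0, 0, 0, ⟨0, 0⟩, 0⟩, 0, 0⟩ 0 0) (.pos 45 .mp ⟨⟨71200292, 0, 0, 0, 0, 23648921, 0, 0, 0, ⟨0, 0⟩, 0⟩, 0, 0⟩ 0 0))) (.pos 46 .mp ⟨⟨79922608, 0, 0, 0, 0, 9716183, 0, 0, 0, ⟨0, 0⟩, 0⟩, 0, 0⟩ 0 0)) (.pos 41 .mp ⟨⟨70933697,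 0, 0, 0, 0, 0, 0, 0, 0, ⟨0, 0⟩, 0⟩, 0, 0⟩ 0 0)))) (.cut .s 11137024 (.pos 42 .mp ⟨⟨77585806, 0, 0, 0, 0, 11111468, 0, 0, 0, ⟨0, 0⟩, 0⟩, 0, 0⟩ 0 0) (.pos 42 .mp ⟨⟨79283853, 0, 0, 0, 0, 11151587, 0, 0, 0, ⟨0, 0⟩, 0⟩, 0, 0⟩ 0 0))) (.cut .v 16842752 (.cut .s 11194368 (.cut .d (-16384) (.cut .d (-24576) (.pos 41 .mp ⟨⟨71134546, 0, 0, 0, 0, 27495733, 0, 0, 0, ⟨0, 0⟩, 0⟩, 0, 0⟩ 0 0) (.cut .v 16809984 (.pos 45 .mp ⟨⟨0, 0, 0, 0, 0, 147951809, 0, 0, 0, ⟨0, 0⟩, 0⟩, 0, 0⟩ 0 0) (.cut .s 11180032 (.pos 46 .mp ⟨⟨74198557, 0, 0, 0, 0, 20510144, 0, 0, 0, ⟨0, 0⟩, 0⟩, 0, 0⟩ 0 0) (.pos 46 .mp ⟨⟨74970514, 0, 0, 0, 0, 20699474, 0, 0, 0, ⟨0, 0⟩, 0⟩,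 0, 0⟩ 0 0)))) (.cut .l 167772 (.cut .v 16809984 (.cut .s 11180032 (.cut .s 11172864 (.pos 45 .mp ⟨⟨71576628, 0, 0, 0, 0, 23746118, 0, 0, 0, ⟨0, 0⟩, 0⟩, 0, 0⟩ 0 0) (.pos 45 .mp ⟨⟨71956077, 0, 0, 0, 0, 23841959, 0, 0, 0, ⟨0, 0⟩, 0⟩, 0, 0⟩ 0 0)) (.cut .s 11187200 (.pos 45 .mp ⟨⟨72338679, 0, 0, 0, 0, 23936375, 0, 0, 0, ⟨0, 0⟩, 0⟩, 0, 0⟩ 0 0) (.pos 45 .mp ⟨⟨72744223, 0, 0, 0, 0, 23995939, 0, 0, 0, ⟨0, 0⟩, 0⟩, 0, 0⟩ 0 0))) (.pos 46 .mp ⟨⟨81699433, 0, 0, 0, 0, 9680813, 0, 0, 0, ⟨0, 0⟩, 0⟩, 0, 0⟩ 0 0)) (.pos 41 .mp ⟨⟨72148591, 0, 0, 0, 0, 22005037, 0, 0, 0, ⟨0, 0⟩, 0⟩, 0, 0⟩ 0 0))) (.cut .d (-16384) (.cut .d (-24576) (.pos 41 .mp ⟨⟨72624652,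 0, 0, 0, 0, 28047298, 0, 0, 0, ⟨0, 0⟩, 0⟩, 0, 0⟩ 0 0) (.cut .l 167772 (.void 41 ⟨⟨0, 0, 0, 0, 0, 100000, 0, 0, 0, ⟨0, 0⟩, 0⟩, 0, 0⟩ 0 0) (.pos 41 .mp ⟨⟨72037812, 0, 0, 0, 0, 27428335, 0, 0, 0, ⟨0, 0⟩, 0⟩, 0, 0⟩ 0 0))) (.cut .l 167772 (.cut .v 16809984 (.cut .s 11208704 (.cut .s 11201536 (.pos 45 .mp ⟨⟨73157183, 0, 0, 0, 0, 24046853, 0, 0, 0, ⟨0, 0⟩, 0⟩, 0, 0⟩ 0 0) (.pos 45 .mp ⟨⟨73575810, 0, 0, 0, 0, 24092068, 0, 0, 0, ⟨0, 0⟩, 0⟩, 0, 0⟩ 0 0)) (.cut .s 11215872 (.pos 45 .mp ⟨⟨74000187, 0, 0, 0, 0, 24131438, 0, 0, 0, ⟨0, 0⟩, 0⟩, 0, 0⟩ 0 0) (.pos 45 .mp ⟨⟨74430399, 0, 0, 0, 0, 24164816, 0, 0, 0, ⟨0, 0⟩, 0⟩, 0, 0⟩ 0 0))) (.pos 46 .mp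 ⟨⟨83547354, 0, 0, 0, 0, 9593515, 0, 0, 0, ⟨0, 0⟩, 0⟩, 0, 0⟩ 0 0)) (.pos 41 .mp ⟨⟨73664684, 0, 0, 0, 0, 22385119, 0, 0, 0, ⟨0, 0⟩, 0⟩, 0, 0⟩ 0 0)))) (.cut .s 11194368 (.pos 42 .mp ⟨⟨81047973, 0, 0, 0, 0, 11147999, 0, 0, 0, ⟨0, 0⟩, 0⟩, 0, 0⟩ 0 0) (.pos 42 .mp ⟨⟨82882872, 0, 0, 0, 0, 11093324, 0, 0, 0, ⟨0, 0⟩, 0⟩, 0, 0⟩ 0 0)))) (.pos 36 .mp ⟨⟨88923142, 0, 0, 0, 0, 0, 0, 0, 0, ⟨0, 0⟩, 0⟩, 0, 0⟩ 0 0)) (.cut .v 16908288 (.cut .s 11280384 (.cut .v 16842752 (.cut .s 11251712 (.cut .d (-16384) (.cut .s 11237376 (.cut .s 11230208 (.pos 41 .mp ⟨⟨73540424, 0, 0, 0, 0, 27674793, 0, 0, 0, ⟨0, 0⟩, 0⟩, 0, 0⟩ 0 0) (.pos 41 .mp ⟨⟨73920518, 0, 0,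 0, 0, 27816932, 0, 0, 0, ⟨0, 0⟩, 0⟩, 0, 0⟩ 0 0)) (.pos 41 .mp ⟨⟨74302401, 0, 0, 0, 0, 28412272, 0, 0, 0, ⟨0, 0⟩, 0⟩, 0, 0⟩ 0 0)) (.cut .l 167772 (.cut .v 16809984 (.cut .s 11237376 (.cut .s 11230208 (.pos 45 .mp ⟨⟨74866532, 0, 0, 0, 0, 24192054, 0, 0, 0, ⟨0, 0⟩, 0⟩, 0, 0⟩ 0 0) (.pos 45 .mp ⟨⟨75308668, 0, 0, 0, 0, 24213005, 0, 0, 0, ⟨0, 0⟩, 0⟩, 0, 0⟩ 0 0)) (.cut .s 11244544 (.pos 45 .mp ⟨⟨75756893, 0, 0, 0, 0, 24227522, 0, 0, 0, ⟨0, 0⟩, 0⟩, 0, 0⟩ 0 0) (.pos 45 .mp ⟨⟨76211291, 0, 0, 0, 0, 24235457, 0, 0, 0, ⟨0, 0⟩, 0⟩, 0, 0⟩ 0 0))) (.pos 46 .mp ⟨⟨85471126, 0, 0, 0, 0, 9446778, 0, 0, 0, ⟨0, 0⟩, 0⟩, 0, 0⟩ 0 0)) (.pos 41 .mp ⟨⟨75208878,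 0, 0, 0, 0, 22771732, 0, 0, 0, ⟨0, 0⟩, 0⟩, 0, 0⟩ 0 0))) (.cut .d (-16384) (.cut .s 11266048 (.pos 41 .mp ⟨⟨75071559, 0, 0, 0, 0, 28710267, 0, 0, 0, ⟨0, 0⟩, 0⟩, 0, 0⟩ 0 0) (.pos 41 .mp ⟨⟨75847950, 0, 0, 0, 0, 29014668, 0, 0, 0, ⟨0, 0⟩, 0⟩, 0, 0⟩ 0 0)) (.cut .l 167772 (.cut .v 16809984 (.cut .s 11266048 (.cut .s 11258880 (.pos 45 .mp ⟨⟨76671944, 0, 0, 0, 0, 24236665, 0, 0, 0, ⟨0, 0⟩, 0⟩, 0, 0⟩ 0 0) (.pos 45 .mp ⟨⟨77138939, 0, 0, 0, 0, 24230997, 0, 0, 0, ⟨0, 0⟩, 0⟩, 0, 0⟩ 0 0)) (.cut .s 11273216 (.pos 45 .mp ⟨⟨77612357, 0, 0, 0, 0, 24218306, 0, 0, 0, ⟨0, 0⟩, 0⟩, 0, 0⟩ 0 0) (.pos 45 .mp ⟨⟨78092284, 0, 0, 0, 0, 24198446, 0, 0, 0, ⟨0,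 0⟩, 0⟩, 0, 0⟩ 0 0))) (.pos 46 .mp ⟨⟨87475571, 0, 0, 0, 0, 9232942, 0, 0, 0, ⟨0, 0⟩, 0⟩, 0, 0⟩ 0 0)) (.pos 41 .mp ⟨⟨76781581, 0, 0, 0, 0, 23163628, 0, 0, 0, ⟨0, 0⟩, 0⟩, 0, 0⟩ 0 0)))) (.pos 42 .mp ⟨⟨92954674, 0, 0, 0, 0, 71704, 0, 0, 0, ⟨0, 0⟩, 0⟩, 0, 0⟩ 0 0)) (.cut .v 16842752 (.cut .s 11309056 (.cut .d (-16384) (.cut .s 11294720 (.pos 41 .mp ⟨⟨76631624, 0, 0, 0, 0, 29325530, 0, 0, 0, ⟨0, 0⟩, 0⟩, 0, 0⟩ 0 0) (.pos 41 .mp ⟨⟨77422635, 0, 0, 0, 0, 29642910, 0, 0, 0, ⟨0, 0⟩, 0⟩, 0, 0⟩ 0 0)) (.cut .l 167772 (.cut .v 16809984 (.cut .s 11294720 (.cut .s 11287552 (.pos 45 .mp ⟨⟨78578803, 0, 0, 0, 0, 24171268, 0, 0, 0, ⟨0, 0⟩, 0⟩, 0, 0⟩ 0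 0) (.pos 45 .mp ⟨⟨79071997, 0, 0, 0, 0, 24136625, 0, 0, 0, ⟨0, 0⟩, 0⟩, 0, 0⟩ 0 0)) (.cut .s 11301888 (.pos 45 .mp ⟨⟨79571950, 0, 0, 0, 0, 24094370, 0, 0, 0, ⟨0, 0⟩, 0⟩, 0, 0⟩ 0 0) (.pos 45 .mp ⟨⟨80078745, 0, 0, 0, 0, 24044356, 0, 0, 0, ⟨0, 0⟩, 0⟩, 0, 0⟩ 0 0))) (.pos 46 .mp ⟨⟨89565578, 0, 0, 0, 0, 8944197, 0, 0, 0, ⟨0, 0⟩, 0⟩, 0, 0⟩ 0 0)) (.pos 41 .mp ⟨⟨78383204, 0, 0, 0, 0, 23559546, 0, 0, 0, ⟨0, 0⟩, 0⟩, 0, 0⟩ 0 0))) (.cut .d (-16384) (.cut .s 11323392 (.pos 41 .mp ⟨⟨78221035, 0, 0, 0, 0, 29966864, 0, 0, 0, ⟨0, 0⟩, 0⟩, 0, 0⟩ 0 0) (.pos 41 .mp ⟨⟨79026878, 0, 0, 0, 0, 30297450, 0, 0, 0, ⟨0, 0⟩, 0⟩, 0, 0⟩ 0 0)) (.cut .l 167772 (.cut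 .v 16809984 (.cut .s 11323392 (.cut .s 11316224 (.pos 45 .mp ⟨⟨80553868, 0, 0, 0, 0, 24057412, 0, 0, 0, ⟨0, 0⟩, 0⟩, 0, 0⟩ 0 0) (.pos 45 .mp ⟨⟨81016980, 0, 0, 0, 0, 24097473, 0, 0, 0, ⟨0, 0⟩, 0⟩, 0, 0⟩ 0 0)) (.cut .s 11330560 (.pos 45 .mp ⟨⟨81484572, 0, 0, 0, 0, 24134242, 0, 0, 0, ⟨0, 0⟩, 0⟩, 0, 0⟩ 0 0) (.pos 45 .mp ⟨⟨81956701, 0, 0, 0, 0, 24167630, 0, 0, 0, ⟨0, 0⟩, 0⟩, 0, 0⟩ 0 0))) (.pos 46 .mp ⟨⟨91746106, 0, 0, 0, 0, 8572576, 0, 0, 0, ⟨0, 0⟩, 0⟩, 0, 0⟩ 0 0)) (.pos 41 .mp ⟨⟨80014171, 0, 0, 0, 0, 23958214, 0, 0, 0, ⟨0, 0⟩, 0⟩, 0, 0⟩ 0 0)))) (.pos 42 .mp ⟨⟨96802275, 0, 0, 0, 0, 0, 0, 0, 0, ⟨0, 0⟩, 0⟩, 0, 0⟩ 0 0))) (.pos 36 .mp ⟨⟨96322844,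 0, 0, 0, 0, 0, 0, 0, 0, ⟨0, 0⟩, 0⟩, 0, 0⟩ 0 0)))))))) (.pos 32 .mp ⟨⟨109008760, 0, 0, 0, 0, 0, 0, 0, 0, ⟨0, 0⟩, 0⟩, 0, 0⟩ 0 0))) (.void 30 ⟨⟨100000, 0, 0, 0, 0, 0, 0, 0, 0, ⟨0, 0⟩, 0⟩, 0, 0⟩ 0 0))) (.void 28 ⟨⟨100000, 0, 0, 0, 0, 0, 0, 0, 0, ⟨0, 0⟩, 0⟩, 0, 0⟩ 0 0))) (.void 26 ⟨⟨100000, 0, 0, 0, 0, 0, 0, 0, 0, ⟨0, 0⟩, 0⟩, 0, 0⟩ 0 0))) (.void 24 ⟨⟨100000, 0, 0, 0, 0, 0, 0, 0, 0, ⟨0, 0⟩, 0⟩, 0, 0⟩ 0 0))) (.void 22 ⟨⟨100000, 0, 0, 0, 0, 0, 0, 0, 0, ⟨0, 0⟩, 0⟩, 0, 0⟩ 0 0)) (.void 79 ⟨⟨100000, 0, 0, 0, 0, 0, 0, 0, 0, ⟨0, 0⟩, 0⟩, 0, 0⟩ 0 0))) (.cut .v 16777216 (.cut .v 8388608 (.cut .v 4194304 (.void 4 ⟨⟨0, 0, 66667, 0, 0, 0, 0, 0, 0,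 ⟨0, 0⟩, 0⟩, 0, 33333⟩ 0 0) (.pos 5 .pm ⟨⟨0, 0, 2309989, 0, 0, 0, 0, 0, 0, ⟨0, 0⟩, 0⟩, 0, 164965⟩ 0 0)) (.pos 3 .pm ⟨⟨0, 0, 0, 0, 0, 0, 0, 0, 0, ⟨0, 0⟩, 0⟩, 0, 0⟩ 0 0)) (.cut .d 4548041 (.cut .v 33554432 (.cut .d 2274020 (.cut .v 25165824 (.cut .d 1137010 (.cut .v 20971520 (.cut .d 568505 (.cut .v 18874368 (.cut .d 284252 (.cut .v 17825792 (.cut .d 142126 (.cut .d 71063 (.cut .v 17301504 (.cut .d 35531 (.cut .s 11108352 (.cut .s 10993664 (.pos 29 .pp ⟨⟨68061663, 0, 0, 0, 0, 0, 0, 0, 0, ⟨0, 0⟩, 0⟩, 0, 3983⟩ 0 0) (.pos 29 .pp ⟨⟨73855415, 0, 0, 0, 0, 0, 0, 0, 0, ⟨0, 0⟩, 0⟩, 0, 1369⟩ 0 0)) (.cut .s 11223040 (.pos 29 .pp ⟨⟨80042779,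 0, 0, 0, 0, 0, 0, 0, 0, ⟨0, 0⟩, 0⟩, 15948, 0⟩ 0 0) (.pos 29 .pp ⟨⟨86576149, 0, 0, 0, 0, 0, 0, 0, 0, ⟨0, 0⟩, 0⟩, 58802, 0⟩ 0 0))) (.pos 29 .pp ⟨⟨66773970, 0, 0, 0, 0, 0, 0, 0, 0, ⟨0, 0⟩, 0⟩, 0, 35690⟩ 0 0)) (.pos 30 .pp ⟨⟨92012318, 0, 0, 0, 0, 0, 0, 0, 0, ⟨0, 0⟩, 0⟩, 0, 0⟩ 0 0)) (.pos 27 .pp ⟨⟨69135755, 0, 0, 0, 0, 0, 0, 0, 0, ⟨0, 0⟩, 0⟩, 0, 11386⟩ 0 0)) (.pos 27 .pp ⟨⟨0, 0, 0, 0, 0, 0, 0, 0, 0, ⟨0, 0⟩, 0⟩, 0, 744750⟩ 0 0)) (.cut .d 142126 (.pos 28 .pp ⟨⟨104462968, 0, 0, 0, 0, 0, 0, 0, 0, ⟨0, 0⟩, 0⟩, 0, 0⟩ 0 0) (.pos 28 .pp ⟨⟨82963794, 0, 0, 0, 0, 0, 0, 0, 0, ⟨0, 0⟩, 0⟩, 0, 0⟩ 0 0))) (.pos 25 .pp ⟨⟨0, 0, 0, 0, 0, 0, 0, 0, 0, ⟨0,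 0⟩, 0⟩, 0, 765366⟩ 0 0)) (.cut .d 284252 (.pos 26 .pp ⟨⟨128597136, 0, 0, 0, 0, 0, 0, 0, 0, ⟨0, 0⟩, 0⟩, 0, 0⟩ 0 0) (.cut .v 19922944 (.pos 47 .pp ⟨⟨83847708, 0, 0, 0, 0, 0, 0, 0, 0, ⟨0, 0⟩, 0⟩, 0, 0⟩ 0 0) (.pos 48 .pp ⟨⟨104324778, 0, 0, 0, 0, 0, 0, 0, 0, ⟨0, 0⟩, 0⟩, 0, 0⟩ 0 0)))) (.pos 23 .pp ⟨⟨0, 0, 0, 0, 0, 0, 0, 0, 0, ⟨0, 0⟩, 0⟩, 0, 803162⟩ 0 0)) (.cut .d 568505 (.cut .v 23068672 (.cut .v 22020096 (.cut .d 284252 (.void 57 ⟨⟨0, 0, 0, 0, 0, 0, 0, 0, 0, ⟨0, 0⟩, 0⟩, 100000, 0⟩ 0 0) (.pos 57 .pp ⟨⟨128371510, 0, 0, 0, 0, 0, 0, 0, 0, ⟨0, 0⟩, 0⟩, 0, 0⟩ 0 0)) (.pos 58 .pp ⟨⟨158293288, 0, 0, 0, 0, 0, 0, 0, 0, ⟨0, 0⟩, 0⟩, 0, 0⟩ 0 0)) (.void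 54 ⟨⟨0, 0, 0, 0, 0, 0, 0, 0, 0, ⟨0, 0⟩, 0⟩, 100000, 0⟩ 0 0)) (.cut .d 852757 (.cut .v 23068672 (.cut .s 11108352 (.pos 53 .pp ⟨⟨100605772, 0, 0, 0, 0, 0, 187700, 0, 0, ⟨0, 0⟩, 0⟩, 0, 0⟩ 0 0) (.pos 53 .pp ⟨⟨39020290, 0, 0, 0, 0, 0, 167973, 0, 0, ⟨0, 0⟩, 0⟩, 9907724, 0⟩ 0 0)) (.cut .d 710631 (.pos 54 .pp ⟨⟨0, 0, 0, 0, 0, 0, 0, 0, 0, ⟨0, 0⟩, 0⟩, 18570358, 0⟩ 0 0) (.pos 54 .pp ⟨⟨0, 0, 0, 0, 0, 0, 0, 0, 0, ⟨0, 0⟩, 0⟩, 14968272, 0⟩ 0 0))) (.pos 24 .pp ⟨⟨0, 0, 0, 0, 0, 0, 441049, 0, 0, ⟨0, 0⟩, 0⟩, 11178445, 0⟩ 0 0)))) (.pos 21 .pp ⟨⟨0, 0, 0, 0, 0, 0, 0, 0, 0, ⟨0, 0⟩, 0⟩, 0, 867415⟩ 0 0)) (.cut .d 1137010 (.cut .v 29360128 (.cut .d 568505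 (.void 67 ⟨⟨0, 0, 0, 0, 0, 0, 0, 0, 0, ⟨0, 0⟩, 0⟩, 100000, 0⟩ 0 0) (.pos 67 .pp ⟨⟨0, 0, 0, 0, 0, 0, 0, 0, 0, ⟨0, 0⟩, 0⟩, 22906642, 0⟩ 0 0)) (.void 68 ⟨⟨0, 0, 0, 0, 0, 0, 0, 0, 0, ⟨0, 0⟩, 0⟩, 100000, 0⟩ 0 0)) (.pos 22 .pp ⟨⟨0, 0, 0, 0, 0, 0, 11659, 0, 0, ⟨0, 0⟩, 0⟩, 16220641, 0⟩ 0 0))) (.pos 20 .pp ⟨⟨0, 0, 0, 0, 0, 0, 2856303, 0, 0, ⟨0, 0⟩, 0⟩, 0, 0⟩ 0 0)) (.cut .d 2274020 (.cut .v 50331648 (.pos 80 .pp ⟨⟨0, 0, 0, 0, 0, 0, 0, 0, 0, ⟨0, 0⟩, 0⟩, 50366767, 0⟩ 0 0) (.void 81 ⟨⟨0, 0, 0, 0, 0, 0, 0, 0, 0, ⟨0, 0⟩, 0⟩, 100000, 0⟩ 0 0)) (.pos 79 .pp ⟨⟨0, 0, 0, 0, 0, 0, 0, 0, 0, ⟨0, 0⟩, 0⟩, 22382630, 0⟩ 0 0))) (.pos 78 .pp ⟨⟨0, 0, 0, 0, 0,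 0, 0, 0, 0, ⟨0, 0⟩, 0⟩, 0, 103358860⟩ 0 0)))),
    by decide +kernel⟩

theorem covers16 : cell.Covers Vale.Agent.P237.Petty.Cor.Grid.N11.table row16.1 :=
  ⟨(.cut .d 0 (.cut .v 16777216 (.cut .d (-8388608) (.void 1 ⟨⟨0, 0, 0, 0, 0, 100000, 0, 0, 0, ⟨0, 0⟩, 0⟩, 0, 0⟩ 0 0) (.cut .d (-4194304) (.void 1 ⟨⟨0, 0, 0, 0, 0, 100000, 0, 0, 0, ⟨0, 0⟩, 0⟩, 0, 0⟩ 0 0) (.cut .d (-2097152) (.void 1 ⟨⟨0, 0, 0, 0, 0, 100000, 0, 0, 0, ⟨0, 0⟩, 0⟩, 0, 0⟩ 0 0) (.cut .d (-1048576) (.void 1 ⟨⟨0, 0, 0, 0, 0, 100000, 0, 0, 0, ⟨0, 0⟩, 0⟩, 0, 0⟩ 0 0) (.cut .d (-524288) (.void 1 ⟨⟨0, 0, 0, 0, 0, 100000, 0, 0, 0, ⟨0, 0⟩, 0⟩, 0, 0⟩ 0 0) (.cut .d (-262144) (.void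 1 ⟨⟨0, 0, 0, 0, 0, 100000, 0, 0, 0, ⟨0, 0⟩, 0⟩, 0, 0⟩ 0 0) (.cut .d (-131072) (.void 1 ⟨⟨0, 0, 0, 0, 0, 100000, 0, 0, 0, ⟨0, 0⟩, 0⟩, 0, 0⟩ 0 0) (.cut .d (-65536) (.void 1 ⟨⟨0, 0, 0, 0, 0, 100000, 0, 0, 0, ⟨0, 0⟩, 0⟩, 0, 0⟩ 0 0) (.cut .d (-32768) (.void 1 ⟨⟨0, 0, 0, 0, 0, 100000, 0, 0, 0, ⟨0, 0⟩, 0⟩, 0, 0⟩ 0 0) (.cut .v 8388608 (.cut .v 4194304 (.void 4 ⟨⟨0, 0, 100000, 0, 0, 0, 0, 0, 0, ⟨0, 0⟩, 0⟩, 0, 0⟩ 0 0) (.pos 5 .mm ⟨⟨0, 0, 3582484, 0, 0, 45759315, 0, 0, 0, ⟨0, 0⟩, 0⟩, 0, 0⟩ 0 0)) (.cut .s 11534336 (.pos 3 .mm ⟨⟨0, 0, 0, 0, 0, 163388029, 0, 0, 0, ⟨0, 0⟩, 0⟩, 0, 0⟩ 0 0) (.pos 3 .mm ⟨⟨0, 0, 0, 0, 0, 189193592, 0, 0, 0, ⟨0, 0⟩,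 0⟩, 0, 0⟩ 0 0)))))))))))) (.cut .v 67108864 (.cut .v 33554432 (.cut .v 25165824 (.cut .d (-8388608) (.void 21 ⟨⟨100000, 0, 0, 0, 0, 0, 0, 0, 0, ⟨0, 0⟩, 0⟩, 0, 0⟩ 0 0) (.cut .v 20971520 (.cut .d (-4194304) (.void 23 ⟨⟨100000, 0, 0, 0, 0, 0, 0, 0, 0, ⟨0, 0⟩, 0⟩, 0, 0⟩ 0 0) (.cut .v 18874368 (.cut .d (-2097152) (.void 25 ⟨⟨100000, 0, 0, 0, 0, 0, 0, 0, 0, ⟨0, 0⟩, 0⟩, 0, 0⟩ 0 0) (.cut .v 17825792 (.cut .d (-1048576) (.void 27 ⟨⟨100000, 0, 0, 0, 0, 0, 0, 0, 0, ⟨0, 0⟩, 0⟩, 0, 0⟩ 0 0) (.cut .v 17301504 (.cut .d (-524288) (.void 29 ⟨⟨100000, 0, 0, 0, 0, 0, 0, 0, 0, ⟨0, 0⟩, 0⟩, 0, 0⟩ 0 0) (.cut .v 17039360 (.cut .d (-262144) (.void 31 ⟨⟨100000,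 0, 0, 0, 0, 0, 0, 0, 0, ⟨0, 0⟩, 0⟩, 0, 0⟩ 0 0) (.cut .d (-131072) (.void 31 ⟨⟨100000, 0, 0, 0, 0, 0, 0, 0, 0, ⟨0, 0⟩, 0⟩, 0, 0⟩ 0 0) (.cut .d (-65536) (.void 31 ⟨⟨100000, 0, 0, 0, 0, 0, 0, 0, 0, ⟨0, 0⟩, 0⟩, 0, 0⟩ 0 0) (.cut .d (-32768) (.void 31 ⟨⟨0, 0, 0, 0, 0, 100000, 0, 0, 0, ⟨0, 0⟩, 0⟩, 0, 0⟩ 0 0) (.cut .s 11534336 (.cut .s 11436032 (.cut .v 16908288 (.cut .s 11386880 (.cut .v 16842752 (.cut .s 11362304 (.cut .d (-16384) (.cut .s 11350016 (.pos 41 .mp ⟨⟨79838488, 0, 0, 0, 0, 30502663, 0, 0, 0, ⟨0, 0⟩, 0⟩, 0, 0⟩ 0 0) (.pos 41 .mp ⟨⟨80543552, 0, 0, 0, 0, 30675982, 0, 0, 0, ⟨0, 0⟩, 0⟩, 0, 0⟩ 0 0)) (.cut .l 167772 (.cut .v 16809984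 (.cut .d (-8192) (.pos 45 .mp ⟨⟨79965480, 0, 0, 0, 0, 30750949, 0, 0, 0, ⟨0, 0⟩, 0⟩, 0, 0⟩ 0 0) (.cut .s 11350016 (.pos 45 .mp ⟨⟨81724105, 0, 0, 0, 0, 25543263, 0, 0, 0, ⟨0, 0⟩, 0⟩, 0, 0⟩ 0 0) (.pos 45 .mp ⟨⟨82495451, 0, 0, 0, 0, 25596877, 0, 0, 0, ⟨0, 0⟩, 0⟩, 0, 0⟩ 0 0))) (.pos 46 .mp ⟨⟨91992449, 0, 0, 0, 0, 10997433, 0, 0, 0, ⟨0, 0⟩, 0⟩, 0, 0⟩ 0 0)) (.pos 41 .mp ⟨⟨81939334, 0, 0, 0, 0, 23996200, 0, 0, 0, ⟨0, 0⟩, 0⟩, 0, 0⟩ 0 0))) (.cut .d (-16384) (.cut .s 11374592 (.pos 41 .mp ⟨⟨81254667, 0, 0, 0, 0, 30854962, 0, 0, 0, ⟨0, 0⟩, 0⟩, 0, 0⟩ 0 0) (.pos 41 .mp ⟨⟨81971869, 0, 0, 0, 0, 31039647, 0, 0, 0, ⟨0, 0⟩, 0⟩, 0, 0⟩ 0 0)) (.cut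 .l 167772 (.cut .v 16809984 (.cut .d (-8192) (.pos 45 .mp ⟨⟨81379333, 0, 0, 0, 0, 31123796, 0, 0, 0, ⟨0, 0⟩, 0⟩, 0, 0⟩ 0 0) (.cut .s 11374592 (.pos 45 .mp ⟨⟨83252095, 0, 0, 0, 0, 25693549, 0, 0, 0, ⟨0, 0⟩, 0⟩, 0, 0⟩ 0 0) (.pos 45 .mp ⟨⟨83983756, 0, 0, 0, 0, 25852146, 0, 0, 0, ⟨0, 0⟩, 0⟩, 0, 0⟩ 0 0))) (.pos 46 .mp ⟨⟨93317870, 0, 0, 0, 0, 11510297, 0, 0, 0, ⟨0, 0⟩, 0⟩, 0, 0⟩ 0 0)) (.pos 41 .mp ⟨⟨83412400, 0, 0, 0, 0, 24315639, 0, 0, 0, ⟨0, 0⟩, 0⟩, 0, 0⟩ 0 0)))) (.pos 42 .mp ⟨⟨98105638, 0, 0, 0, 0, 3606637, 0, 0, 0, ⟨0, 0⟩, 0⟩, 0, 0⟩ 0 0)) (.cut .v 16842752 (.cut .s 11411456 (.cut .d (-16384) (.cut .s 11399168 (.pos 41 .mp ⟨⟨82695197,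 0, 0, 0, 0, 31230080, 0, 0, 0, ⟨0, 0⟩, 0⟩, 0, 0⟩ 0 0) (.pos 41 .mp ⟨⟨83424690, 0, 0, 0, 0, 31426307, 0, 0, 0, ⟨0, 0⟩, 0⟩, 0, 0⟩ 0 0)) (.cut .l 167772 (.cut .v 16809984 (.cut .d (-8192) (.pos 45 .mp ⟨⟨82817447, 0, 0, 0, 0, 31519677, 0, 0, 0, ⟨0, 0⟩, 0⟩, 0, 0⟩ 0 0) (.cut .s 11399168 (.pos 45 .mp ⟨⟨84721663, 0, 0, 0, 0, 26015824, 0, 0, 0, ⟨0, 0⟩, 0⟩, 0, 0⟩ 0 0) (.cut .s 11405312 (.pos 45 .mp ⟨⟨85477299, 0, 0, 0, 0, 26007904, 0, 0, 0, ⟨0, 0⟩, 0⟩, 0, 0⟩ 0 0) (.pos 45 .mp ⟨⟨85821754, 0, 0, 0, 0, 26138881, 0, 0, 0, ⟨0, 0⟩, 0⟩, 0, 0⟩ 0 0)))) (.pos 46 .mp ⟨⟨94681124, 0, 0, 0, 0, 12023711, 0, 0, 0, ⟨0, 0⟩, 0⟩, 0, 0⟩ 0 0)) (.pos 41 .mp ⟨⟨84909865,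 0, 0, 0, 0, 24653358, 0, 0, 0, ⟨0, 0⟩, 0⟩, 0, 0⟩ 0 0))) (.cut .d (-16384) (.cut .s 11423744 (.pos 41 .mp ⟨⟨84160385, 0, 0, 0, 0, 31628374, 0, 0, 0, ⟨0, 0⟩, 0⟩, 0, 0⟩ 0 0) (.pos 41 .mp ⟨⟨84902322, 0, 0, 0, 0, 31836324, 0, 0, 0, ⟨0, 0⟩, 0⟩, 0, 0⟩ 0 0)) (.cut .l 167772 (.cut .v 16809984 (.cut .s 11423744 (.cut .s 11417600 (.pos 45 .mp ⟨⟨86263318, 0, 0, 0, 0, 26094403, 0, 0, 0, ⟨0, 0⟩, 0⟩, 0, 0⟩ 0 0) (.pos 45 .mp ⟨⟨86544440, 0, 0, 0, 0, 26351329, 0, 0, 0, ⟨0, 0⟩, 0⟩, 0, 0⟩ 0 0)) (.cut .s 11429888 (.pos 45 .mp ⟨⟨86828823, 0, 0, 0, 0, 26606693, 0, 0, 0, ⟨0, 0⟩, 0⟩, 0, 0⟩ 0 0) (.pos 45 .mp ⟨⟨87116542, 0, 0, 0, 0, 26860364, 0, 0, 0, ⟨0,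 0⟩, 0⟩, 0, 0⟩ 0 0))) (.pos 46 .mp ⟨⟨96086160, 0, 0, 0, 0, 12531585, 0, 0, 0, ⟨0, 0⟩, 0⟩, 0, 0⟩ 0 0)) (.pos 41 .mp ⟨⟨86432041, 0, 0, 0, 0, 25008331, 0, 0, 0, ⟨0, 0⟩, 0⟩, 0, 0⟩ 0 0)))) (.pos 42 .mp ⟨⟨101057689, 0, 0, 0, 0, 4295176, 0, 0, 0, ⟨0, 0⟩, 0⟩, 0, 0⟩ 0 0))) (.pos 36 .mp ⟨⟨103619384, 0, 0, 0, 0, 0, 0, 0, 0, ⟨0, 0⟩, 0⟩, 0, 0⟩ 0 0)) (.cut .v 16908288 (.cut .s 11485184 (.cut .v 16842752 (.cut .s 11460608 (.cut .d (-16384) (.cut .s 11448320 (.pos 41 .mp ⟨⟨85650539, 0, 0, 0, 0, 32050206, 0, 0, 0, ⟨0, 0⟩, 0⟩, 0, 0⟩ 0 0) (.pos 41 .mp ⟨⟨86405077, 0, 0, 0, 0, 32270064, 0, 0, 0, ⟨0, 0⟩, 0⟩, 0, 0⟩ 0 0)) (.cut .l 167772 (.cut .v 16809984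 (.cut .s 11448320 (.cut .s 11442176 (.pos 45 .mp ⟨⟨87407673, 0, 0, 0, 0, 27112212, 0, 0, 0, ⟨0, 0⟩, 0⟩, 0, 0⟩ 0 0) (.pos 45 .mp ⟨⟨87702291, 0, 0, 0, 0, 27362109, 0, 0, 0, ⟨0, 0⟩, 0⟩, 0, 0⟩ 0 0)) (.cut .s 11454464 (.pos 45 .mp ⟨⟨88000473, 0, 0, 0, 0, 27609924, 0, 0, 0, ⟨0, 0⟩, 0⟩, 0, 0⟩ 0 0) (.pos 45 .mp ⟨⟨88302293, 0, 0, 0, 0, 27855528, 0, 0, 0, ⟨0, 0⟩, 0⟩, 0, 0⟩ 0 0))) (.pos 46 .mp ⟨⟨97536973, 0, 0, 0, 0, 13027725, 0, 0, 0, ⟨0, 0⟩, 0⟩, 0, 0⟩ 0 0)) (.pos 41 .mp ⟨⟨87979245, 0, 0, 0, 0, 25379524, 0, 0, 0, ⟨0, 0⟩, 0⟩, 0, 0⟩ 0 0))) (.cut .d (-16384) (.cut .s 11472896 (.pos 41 .mp ⟨⟨87165976, 0, 0, 0, 0, 32495947, 0, 0, 0, ⟨0, 0⟩, 0⟩,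 0, 0⟩ 0 0) (.pos 41 .mp ⟨⟨87933277, 0, 0, 0, 0, 32727900, 0, 0, 0, ⟨0, 0⟩, 0⟩, 0, 0⟩ 0 0)) (.cut .l 167772 (.cut .v 16809984 (.cut .s 11472896 (.cut .s 11466752 (.pos 45 .mp ⟨⟨88607828, 0, 0, 0, 0, 28098792, 0, 0, 0, ⟨0, 0⟩, 0⟩, 0, 0⟩ 0 0) (.pos 45 .mp ⟨⟨88917151, 0, 0, 0, 0, 28339586, 0, 0, 0, ⟨0, 0⟩, 0⟩, 0, 0⟩ 0 0)) (.cut .s 11479040 (.pos 45 .mp ⟨⟨89230339, 0, 0, 0, 0, 28577781, 0, 0, 0, ⟨0, 0⟩, 0⟩, 0, 0⟩ 0 0) (.pos 45 .mp ⟨⟨89547466, 0, 0, 0, 0, 28813247, 0, 0, 0, ⟨0, 0⟩, 0⟩, 0, 0⟩ 0 0))) (.pos 46 .mp ⟨⟨99037607, 0, 0, 0, 0, 13505825, 0, 0, 0, ⟨0, 0⟩, 0⟩, 0, 0⟩ 0 0)) (.pos 41 .mp ⟨⟨89551801, 0, 0, 0, 0, 25765895, 0, 0, 0, ⟨0,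 0⟩, 0⟩, 0, 0⟩ 0 0)))) (.cut .s 11460608 (.pos 42 .mp ⟨⟨96700967, 0, 0, 0, 0, 14908241, 0, 0, 0, ⟨0, 0⟩, 0⟩, 0, 0⟩ 0 0) (.pos 42 .mp ⟨⟨98184612, 0, 0, 0, 0, 15426123, 0, 0, 0, ⟨0, 0⟩, 0⟩, 0, 0⟩ 0 0))) (.cut .v 16842752 (.cut .s 11509760 (.cut .d (-16384) (.cut .s 11497472 (.pos 41 .mp ⟨⟨88707019, 0, 0, 0, 0, 32965973, 0, 0, 0, ⟨0, 0⟩, 0⟩, 0, 0⟩ 0 0) (.pos 41 .mp ⟨⟨89487244, 0, 0, 0, 0, 33210213, 0, 0, 0, ⟨0, 0⟩, 0⟩, 0, 0⟩ 0 0)) (.cut .l 167772 (.cut .v 16809984 (.cut .s 11497472 (.cut .s 11491328 (.pos 45 .mp ⟨⟨89868607, 0, 0, 0, 0, 29045855, 0, 0, 0, ⟨0, 0⟩, 0⟩, 0, 0⟩ 0 0) (.pos 45 .mp ⟨⟨90201778, 0, 0, 0, 0, 29261881, 0, 0, 0,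 ⟨0, 0⟩, 0⟩, 0, 0⟩ 0 0)) (.cut .s 11503616 (.pos 45 .mp ⟨⟨90569507, 0, 0, 0, 0, 29422736, 0, 0, 0, ⟨0, 0⟩, 0⟩, 0, 0⟩ 0 0) (.pos 45 .mp ⟨⟨90939856, 0, 0, 0, 0, 29583084, 0, 0, 0, ⟨0, 0⟩, 0⟩, 0, 0⟩ 0 0))) (.pos 46 .mp ⟨⟨100592158, 0, 0, 0, 0, 13959467, 0, 0, 0, ⟨0, 0⟩, 0⟩, 0, 0⟩ 0 0)) (.pos 41 .mp ⟨⟨91150038, 0, 0, 0, 0, 26166393, 0, 0, 0, ⟨0, 0⟩, 0⟩, 0, 0⟩ 0 0))) (.cut .d (-16384) (.cut .s 11522048 (.pos 41 .mp ⟨⟨90273994, 0, 0, 0, 0, 33460668, 0, 0, 0, ⟨0, 0⟩, 0⟩, 0, 0⟩ 0 0) (.pos 41 .mp ⟨⟨91067312, 0, 0, 0, 0, 33717388, 0, 0, 0, ⟨0, 0⟩, 0⟩, 0, 0⟩ 0 0)) (.cut .l 167772 (.cut .v 16809984 (.cut .s 11522048 (.cut .s 11515904 (.pos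 45 .mp ⟨⟨91312859, 0, 0, 0, 0, 29742864, 0, 0, 0, ⟨0, 0⟩, 0⟩, 0, 0⟩ 0 0) (.pos 45 .mp ⟨⟨91688554, 0, 0, 0, 0, 29902016, 0, 0, 0, ⟨0, 0⟩, 0⟩, 0, 0⟩ 0 0)) (.cut .s 11528192 (.pos 45 .mp ⟨⟨92066976, 0, 0, 0, 0, 30060476, 0, 0, 0, ⟨0, 0⟩, 0⟩, 0, 0⟩ 0 0) (.cut .s 11531264 (.pos 45 .mp ⟨⟨93484511, 0, 0, 0, 0, 28229231, 0, 0, 0, ⟨0, 0⟩, 0⟩, 0, 0⟩ 0 0) (.pos 45 .mp ⟨⟨93664069, 0, 0, 0, 0, 28327697, 0, 0, 0, ⟨0, 0⟩, 0⟩, 0, 0⟩ 0 0)))) (.pos 46 .mp ⟨⟨102204772, 0, 0, 0, 0, 14382115, 0, 0, 0, ⟨0, 0⟩, 0⟩, 0, 0⟩ 0 0)) (.pos 41 .mp ⟨⟨92774292, 0, 0, 0, 0, 26579957, 0, 0, 0, ⟨0, 0⟩, 0⟩, 0, 0⟩ 0 0)))) (.cut .s 11509760 (.pos 42 .mp ⟨⟨99721745,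 0, 0, 0, 0, 15920587, 0, 0, 0, ⟨0, 0⟩, 0⟩, 0, 0⟩ 0 0) (.pos 42 .mp ⟨⟨101316523, 0, 0, 0, 0, 16385088, 0, 0, 0, ⟨0, 0⟩, 0⟩, 0, 0⟩ 0 0)))) (.pos 36 .mp ⟨⟨110804579, 0, 0, 0, 0, 0, 0, 0, 0, ⟨0, 0⟩, 0⟩, 0, 0⟩ 0 0))) (.cut .s 11632640 (.cut .v 16908288 (.cut .s 11583488 (.cut .v 16842752 (.cut .s 11558912 (.cut .d (-16384) (.cut .s 11546624 (.pos 41 .mp ⟨⟨91867238, 0, 0, 0, 0, 33980422, 0, 0, 0, ⟨0, 0⟩, 0⟩, 0, 0⟩ 0 0) (.cut .s 11552768 (.pos 41 .mp ⟨⟨92673816, 0, 0, 0, 0, 33721264, 0, 0, 0, ⟨0, 0⟩, 0⟩, 0, 0⟩ 0 0) (.pos 41 .mp ⟨⟨93079613, 0, 0, 0, 0, 33855154, 0, 0, 0, ⟨0, 0⟩, 0⟩, 0, 0⟩ 0 0))) (.cut .l 167772 (.cut .v 16809984 (.cut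 .s 11546624 (.cut .d (-8192) (.pos 45 .mp ⟨⟨91973006, 0, 0, 0, 0, 33351463, 0, 0, 0, ⟨0, 0⟩, 0⟩, 0, 0⟩ 0 0) (.cut .s 11540480 (.pos 45 .mp ⟨⟨93591341, 0, 0, 0, 0, 28928687, 0, 0, 0, ⟨0, 0⟩, 0⟩, 0, 0⟩ 0 0) (.pos 45 .mp ⟨⟨94010744, 0, 0, 0, 0, 29024114, 0, 0, 0, ⟨0, 0⟩, 0⟩, 0, 0⟩ 0 0))) (.cut .d (-8192) (.pos 45 .mp ⟨⟨92778053, 0, 0, 0, 0, 33619237, 0, 0, 0, ⟨0, 0⟩, 0⟩, 0, 0⟩ 0 0) (.cut .s 11552768 (.pos 45 .mp ⟨⟨94431148, 0, 0, 0, 0, 29122007, 0, 0, 0, ⟨0, 0⟩, 0⟩, 0, 0⟩ 0 0) (.pos 45 .mp ⟨⟨94852538, 0, 0, 0, 0, 29222407, 0, 0, 0, ⟨0, 0⟩, 0⟩, 0, 0⟩ 0 0)))) (.pos 46 .mp ⟨⟨103879646, 0, 0, 0, 0, 14767119, 0, 0, 0, ⟨0, 0⟩, 0⟩, 0, 0⟩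 0 0)) (.pos 41 .mp ⟨⟨94424903, 0, 0, 0, 0, 27005517, 0, 0, 0, ⟨0, 0⟩, 0⟩, 0, 0⟩ 0 0))) (.cut .d (-16384) (.cut .d (-24576) (.pos 41 .mp ⟨⟨94315043, 0, 0, 0, 0, 34942773, 0, 0, 0, ⟨0, 0⟩, 0⟩, 0, 0⟩ 0 0) (.cut .v 16809984 (.pos 45 .mp ⟨⟨0, 0, 0, 0, 0, 199022898, 0, 0, 0, ⟨0, 0⟩, 0⟩, 0, 0⟩ 0 0) (.cut .s 11571200 (.pos 46 .mp ⟨⟨94737824, 0, 0, 0, 0, 32181456, 0, 0, 0, ⟨0, 0⟩, 0⟩, 0, 0⟩ 0 0) (.pos 46 .mp ⟨⟨95540021, 0, 0, 0, 0, 32496663, 0, 0, 0, ⟨0, 0⟩, 0⟩, 0, 0⟩ 0 0)))) (.cut .l 167772 (.cut .v 16809984 (.cut .s 11571200 (.cut .d (-8192) (.pos 45 .mp ⟨⟨93589770, 0, 0, 0, 0, 33893427, 0, 0, 0, ⟨0, 0⟩, 0⟩, 0, 0⟩ 0 0) (.cut .s 11565056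 (.pos 45 .mp ⟨⟨95274894, 0, 0, 0, 0, 29325352, 0, 0, 0, ⟨0, 0⟩, 0⟩, 0, 0⟩ 0 0) (.pos 45 .mp ⟨⟨95698202, 0, 0, 0, 0, 29430881, 0, 0, 0, ⟨0, 0⟩, 0⟩, 0, 0⟩ 0 0))) (.cut .d (-8192) (.pos 45 .mp ⟨⟨94408202, 0, 0, 0, 0, 34174085, 0, 0, 0, ⟨0, 0⟩, 0⟩, 0, 0⟩ 0 0) (.cut .s 11577344 (.pos 45 .mp ⟨⟨96122442, 0, 0, 0, 0, 29539035, 0, 0, 0, ⟨0, 0⟩, 0⟩, 0, 0⟩ 0 0) (.pos 45 .mp ⟨⟨96547598, 0, 0, 0, 0, 29649854, 0, 0, 0, ⟨0, 0⟩, 0⟩, 0, 0⟩ 0 0)))) (.pos 46 .mp ⟨⟨105621033, 0, 0, 0, 0, 15107703, 0, 0, 0, ⟨0, 0⟩, 0⟩, 0, 0⟩ 0 0)) (.pos 41 .mp ⟨⟨96102221, 0, 0, 0, 0, 27441996, 0, 0, 0, ⟨0, 0⟩, 0⟩, 0, 0⟩ 0 0)))) (.cut .s 11558912 (.pos 42 .mp ⟨⟨102973155,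 0, 0, 0, 0, 16812964, 0, 0, 0, ⟨0, 0⟩, 0⟩, 0, 0⟩ 0 0) (.pos 42 .mp ⟨⟨104695906, 0, 0, 0, 0, 17197431, 0, 0, 0, ⟨0, 0⟩, 0⟩, 0, 0⟩ 0 0))) (.cut .v 16842752 (.cut .s 11608064 (.cut .d (-16384) (.cut .d (-24576) (.pos 41 .mp ⟨⟨95981503, 0, 0, 0, 0, 35523650, 0, 0, 0, ⟨0, 0⟩, 0⟩, 0, 0⟩ 0 0) (.cut .v 16809984 (.pos 45 .mp ⟨⟨0, 0, 0, 0, 0, 202771734, 0, 0, 0, ⟨0, 0⟩, 0⟩, 0, 0⟩ 0 0) (.cut .s 11595776 (.pos 46 .mp ⟨⟨96356291, 0, 0, 0, 0, 32804388, 0, 0, 0, ⟨0, 0⟩, 0⟩, 0, 0⟩ 0 0) (.pos 46 .mp ⟨⟨97187015, 0, 0, 0, 0, 33103995, 0, 0, 0, ⟨0, 0⟩, 0⟩, 0, 0⟩ 0 0)))) (.cut .l 167772 (.cut .v 16809984 (.cut .s 11595776 (.cut .d (-8192) (.pos 45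 .mp ⟨⟨95233391, 0, 0, 0, 0, 34461263, 0, 0, 0, ⟨0, 0⟩, 0⟩, 0, 0⟩ 0 0) (.cut .s 11589632 (.pos 45 .mp ⟨⟨96973652, 0, 0, 0, 0, 29763377, 0, 0, 0, ⟨0, 0⟩, 0⟩, 0, 0⟩ 0 0) (.pos 45 .mp ⟨⟨97400586, 0, 0, 0, 0, 29879647, 0, 0, 0, ⟨0, 0⟩, 0⟩, 0, 0⟩ 0 0))) (.cut .d (-8192) (.pos 45 .mp ⟨⟨96065382, 0, 0, 0, 0, 34755012, 0, 0, 0, ⟨0, 0⟩, 0⟩, 0, 0⟩ 0 0) (.cut .s 11601920 (.pos 45 .mp ⟨⟨97828383, 0, 0, 0, 0, 29998704, 0, 0, 0, ⟨0, 0⟩, 0⟩, 0, 0⟩ 0 0) (.pos 45 .mp ⟨⟨98257023, 0, 0, 0, 0, 30120590, 0, 0, 0, ⟨0, 0⟩, 0⟩, 0, 0⟩ 0 0)))) (.pos 46 .mp ⟨⟨107433243, 0, 0, 0, 0, 15396972, 0, 0, 0, ⟨0, 0⟩, 0⟩, 0, 0⟩ 0 0)) (.pos 41 .mp ⟨⟨97806600, 0, 0,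 0, 0, 27888303, 0, 0, 0, ⟨0, 0⟩, 0⟩, 0, 0⟩ 0 0))) (.cut .d (-16384) (.cut .d (-24576) (.pos 41 .mp ⟨⟨97675744, 0, 0, 0, 0, 36130233, 0, 0, 0, ⟨0, 0⟩, 0⟩, 0, 0⟩ 0 0) (.cut .v 16809984 (.pos 45 .mp ⟨⟨0, 0, 0, 0, 0, 206604459, 0, 0, 0, ⟨0, 0⟩, 0⟩, 0, 0⟩ 0 0) (.cut .s 11620352 (.pos 46 .mp ⟨⟨98032581, 0, 0, 0, 0, 33394839, 0, 0, 0, ⟨0, 0⟩, 0⟩, 0, 0⟩ 0 0) (.pos 46 .mp ⟨⟨98893375, 0, 0, 0, 0, 33676275, 0, 0, 0, ⟨0, 0⟩, 0⟩, 0, 0⟩ 0 0)))) (.cut .l 167772 (.cut .v 16809984 (.cut .s 11620352 (.cut .d (-8192) (.pos 45 .mp ⟨⟨96904220, 0, 0, 0, 0, 35055384, 0, 0, 0, ⟨0, 0⟩, 0⟩, 0, 0⟩ 0 0) (.cut .s 11614208 (.pos 45 .mp ⟨⟨98686489, 0, 0, 0,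 0, 30245347, 0, 0, 0, ⟨0, 0⟩, 0⟩, 0, 0⟩ 0 0) (.pos 45 .mp ⟨⟨99116762, 0, 0, 0, 0, 30373016, 0, 0, 0, ⟨0, 0⟩, 0⟩, 0, 0⟩ 0 0))) (.cut .d (-8192) (.pos 45 .mp ⟨⟨97749949, 0, 0, 0, 0, 35362433, 0, 0, 0, ⟨0, 0⟩, 0⟩, 0, 0⟩ 0 0) (.cut .s 11626496 (.pos 45 .mp ⟨⟨99547824, 0, 0, 0, 0, 30503641, 0, 0, 0, ⟨0, 0⟩, 0⟩, 0, 0⟩ 0 0) (.pos 45 .mp ⟨⟨99979656, 0, 0, 0, 0, 30637265, 0, 0, 0, ⟨0, 0⟩, 0⟩, 0, 0⟩ 0 0)))) (.pos 46 .mp ⟨⟨109320642, 0, 0, 0, 0, 15627900, 0, 0, 0, ⟨0, 0⟩, 0⟩, 0, 0⟩ 0 0)) (.pos 41 .mp ⟨⟨99538400, 0, 0, 0, 0, 28343338, 0, 0, 0, ⟨0, 0⟩, 0⟩, 0, 0⟩ 0 0)))) (.cut .s 11608064 (.pos 42 .mp ⟨⟨106489096, 0, 0, 0, 0, 17531580, 0, 0,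 0, ⟨0, 0⟩, 0⟩, 0, 0⟩ 0 0) (.pos 42 .mp ⟨⟨108357101, 0, 0, 0, 0, 17808376, 0, 0, 0, ⟨0, 0⟩, 0⟩, 0, 0⟩ 0 0)))) (.pos 36 .mp ⟨⟨118589967, 0, 0, 0, 0, 0, 0, 0, 0, ⟨0, 0⟩, 0⟩, 0, 0⟩ 0 0)) (.cut .v 16908288 (.cut .s 11681792 (.cut .v 16842752 (.cut .s 11657216 (.cut .d (-16384) (.cut .s 11644928 (.pos 41 .mp ⟨⟨98509806, 0, 0, 0, 0, 36318090, 0, 0, 0, ⟨0, 0⟩, 0⟩, 0, 0⟩ 0 0) (.pos 41 .mp ⟨⟨99371192, 0, 0, 0, 0, 36640253, 0, 0, 0, ⟨0, 0⟩, 0⟩, 0, 0⟩ 0 0)) (.cut .l 167772 (.cut .v 16809984 (.cut .s 11644928 (.cut .d (-8192) (.pos 45 .mp ⟨⟨98602617, 0, 0, 0, 0, 35676211, 0, 0, 0, ⟨0, 0⟩, 0⟩, 0, 0⟩ 0 0) (.cut .s 11638784 (.pos 45 .mp ⟨⟨100412238,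 0, 0, 0, 0, 30773931, 0, 0, 0, ⟨0, 0⟩, 0⟩, 0, 0⟩ 0 0) (.pos 45 .mp ⟨⟨100845552, 0, 0, 0, 0, 30913682, 0, 0, 0, ⟨0, 0⟩, 0⟩, 0, 0⟩ 0 0))) (.cut .d (-8192) (.pos 45 .mp ⟨⟨99462268, 0, 0, 0, 0, 35996772, 0, 0, 0, ⟨0, 0⟩, 0⟩, 0, 0⟩ 0 0) (.cut .s 11651072 (.pos 45 .mp ⟨⟨101279579, 0, 0, 0, 0, 31056564, 0, 0, 0, ⟨0, 0⟩, 0⟩, 0, 0⟩ 0 0) (.pos 45 .mp ⟨⟨101714298, 0, 0, 0, 0, 31202619, 0, 0, 0, ⟨0, 0⟩, 0⟩, 0, 0⟩ 0 0)))) (.pos 46 .mp ⟨⟨111287654, 0, 0, 0, 0, 15793332, 0, 0, 0, ⟨0, 0⟩, 0⟩, 0, 0⟩ 0 0)) (.pos 41 .mp ⟨⟨101297992, 0, 0, 0, 0, 28805991, 0, 0, 0, ⟨0, 0⟩, 0⟩, 0, 0⟩ 0 0))) (.cut .d (-16384) (.cut .s 11669504 (.pos 41 .mp ⟨⟨100239634,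 0, 0, 0, 0, 36969251, 0, 0, 0, ⟨0, 0⟩, 0⟩, 0, 0⟩ 0 0) (.pos 41 .mp ⟨⟨101115180, 0, 0, 0, 0, 37305138, 0, 0, 0, ⟨0, 0⟩, 0⟩, 0, 0⟩ 0 0)) (.cut .l 167772 (.cut .v 16809984 (.cut .s 11669504 (.cut .d (-8192) (.pos 45 .mp ⟨⟨100328949, 0, 0, 0, 0, 36324171, 0, 0, 0, ⟨0, 0⟩, 0⟩, 0, 0⟩ 0 0) (.cut .s 11663360 (.pos 45 .mp ⟨⟨102149691, 0, 0, 0, 0, 31351894, 0, 0, 0, ⟨0, 0⟩, 0⟩, 0, 0⟩ 0 0) (.pos 45 .mp ⟨⟨102585737, 0, 0, 0, 0, 31504433, 0, 0, 0, ⟨0, 0⟩, 0⟩, 0, 0⟩ 0 0))) (.cut .d (-8192) (.pos 45 .mp ⟨⟨101202707, 0, 0, 0, 0, 36658462, 0, 0, 0, ⟨0, 0⟩, 0⟩, 0, 0⟩ 0 0) (.cut .s 11675648 (.pos 45 .mp ⟨⟨103022416, 0, 0, 0, 0, 31660283, 0, 0, 0,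 ⟨0, 0⟩, 0⟩, 0, 0⟩ 0 0) (.pos 45 .mp ⟨⟨103459708, 0, 0, 0, 0, 31819488, 0, 0, 0, ⟨0, 0⟩, 0⟩, 0, 0⟩ 0 0)))) (.pos 46 .mp ⟨⟨113338765, 0, 0, 0, 0, 15885980, 0, 0, 0, ⟨0, 0⟩, 0⟩, 0, 0⟩ 0 0)) (.pos 41 .mp ⟨⟨103085750, 0, 0, 0, 0, 29275142, 0, 0, 0, ⟨0, 0⟩, 0⟩, 0, 0⟩ 0 0)))) (.cut .s 11657216 (.pos 42 .mp ⟨⟨110304359, 0, 0, 0, 0, 18020653, 0, 0, 0, ⟨0, 0⟩, 0⟩, 0, 0⟩ 0 0) (.pos 42 .mp ⟨⟨112335366, 0, 0, 0, 0, 18161111, 0, 0, 0, ⟨0, 0⟩, 0⟩, 0, 0⟩ 0 0))) (.cut .v 16842752 (.cut .s 11706368 (.cut .d (-16384) (.cut .s 11694080 (.pos 41 .mp ⟨⟨101997877, 0, 0, 0, 0, 37647970, 0, 0, 0, ⟨0, 0⟩, 0⟩, 0, 0⟩ 0 0) (.pos 41 .mp ⟨⟨102887774, 0, 0, 0,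 0, 37997802, 0, 0, 0, ⟨0, 0⟩, 0⟩, 0, 0⟩ 0 0)) (.cut .l 167772 (.cut .v 16809984 (.cut .s 11694080 (.cut .d (-8192) (.pos 45 .mp ⟨⟨102083590, 0, 0, 0, 0, 36999700, 0, 0, 0, ⟨0, 0⟩, 0⟩, 0, 0⟩ 0 0) (.cut .s 11687936 (.pos 45 .mp ⟨⟨103897593, 0, 0, 0, 0, 31982096, 0, 0, 0, ⟨0, 0⟩, 0⟩, 0, 0⟩ 0 0) (.pos 45 .mp ⟨⟨104336050, 0, 0, 0, 0, 32148153, 0, 0, 0, ⟨0, 0⟩, 0⟩, 0, 0⟩ 0 0))) (.cut .s 11700224 (.pos 45 .mp ⟨⟨103920837, 0, 0, 0, 0, 33959733, 0, 0, 0, ⟨0, 0⟩, 0⟩, 0, 0⟩ 0 0) (.pos 45 .mp ⟨⟨104394612, 0, 0, 0, 0, 34070333, 0, 0, 0, ⟨0, 0⟩, 0⟩, 0, 0⟩ 0 0))) (.pos 46 .mp ⟨⟨115478524, 0, 0, 0, 0, 15898418, 0, 0, 0, ⟨0, 0⟩, 0⟩, 0, 0⟩ 0 0))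 (.pos 41 .mp ⟨⟨104902057, 0, 0, 0, 0, 29749656, 0, 0, 0, ⟨0, 0⟩, 0⟩, 0, 0⟩ 0 0))) (.cut .d (-16384) (.cut .s 11718656 (.pos 41 .mp ⟨⟨103784917, 0, 0, 0, 0, 38354690, 0, 0, 0, ⟨0, 0⟩, 0⟩, 0, 0⟩ 0 0) (.pos 41 .mp ⟨⟨104689358, 0, 0, 0, 0, 38718692, 0, 0, 0, ⟨0, 0⟩, 0⟩, 0, 0⟩ 0 0)) (.cut .l 167772 (.cut .v 16809984 (.cut .s 11718656 (.cut .s 11712512 (.pos 45 .mp ⟨⟨104872250, 0, 0, 0, 0, 34178284, 0, 0, 0, ⟨0, 0⟩, 0⟩, 0, 0⟩ 0 0) (.pos 45 .mp ⟨⟨105353794, 0, 0, 0, 0, 34283518, 0, 0, 0, ⟨0, 0⟩, 0⟩, 0, 0⟩ 0 0)) (.cut .s 11724800 (.pos 45 .mp ⟨⟨105839281, 0, 0, 0, 0, 34385964, 0, 0, 0, ⟨0, 0⟩, 0⟩, 0, 0⟩ 0 0) (.pos 45 .mp ⟨⟨106328751, 0,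 0, 0, 0, 34485554, 0, 0, 0, ⟨0, 0⟩, 0⟩, 0, 0⟩ 0 0))) (.pos 46 .mp ⟨⟨117711544, 0, 0, 0, 0, 15823082, 0, 0, 0, ⟨0, 0⟩, 0⟩, 0, 0⟩ 0 0)) (.pos 41 .mp ⟨⟨106747302, 0, 0, 0, 0, 30228388, 0, 0, 0, ⟨0, 0⟩, 0⟩, 0, 0⟩ 0 0)))) (.cut .s 11706368 (.pos 42 .mp ⟨⟨114454683, 0, 0, 0, 0, 18222314, 0, 0, 0, ⟨0, 0⟩, 0⟩, 0, 0⟩ 0 0) (.pos 42 .mp ⟨⟨116666933, 0, 0, 0, 0, 18196684, 0, 0, 0, ⟨0, 0⟩, 0⟩, 0, 0⟩ 0 0)))) (.pos 36 .mp ⟨⟨126975875, 0, 0, 0, 0, 0, 0, 0, 0, ⟨0, 0⟩, 0⟩, 0, 0⟩ 0 0)))))))) (.pos 32 .mp ⟨⟨143395249, 0, 0, 0, 0, 0, 0, 0, 0, ⟨0, 0⟩, 0⟩, 0, 0⟩ 0 0))) (.void 30 ⟨⟨100000, 0, 0, 0, 0, 0, 0, 0, 0, ⟨0, 0⟩, 0⟩, 0, 0⟩ 0 0))) (.void 28 ⟨⟨100000,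 0, 0, 0, 0, 0, 0, 0, 0, ⟨0, 0⟩, 0⟩, 0, 0⟩ 0 0))) (.void 26 ⟨⟨100000, 0, 0, 0, 0, 0, 0, 0, 0, ⟨0, 0⟩, 0⟩, 0, 0⟩ 0 0))) (.void 24 ⟨⟨100000, 0, 0, 0, 0, 0, 0, 0, 0, ⟨0, 0⟩, 0⟩, 0, 0⟩ 0 0))) (.void 22 ⟨⟨100000, 0, 0, 0, 0, 0, 0, 0, 0, ⟨0, 0⟩, 0⟩, 0, 0⟩ 0 0)) (.void 79 ⟨⟨100000, 0, 0, 0, 0, 0, 0, 0, 0, ⟨0, 0⟩, 0⟩, 0, 0⟩ 0 0)) (.void 88 ⟨⟨100000, 0, 0, 0, 0, 0, 0, 0, 0, ⟨0, 0⟩, 0⟩, 0, 0⟩ 0 0))) (.cut .v 16777216 (.cut .v 8388608 (.cut .v 4194304 (.void 4 ⟨⟨0, 0, 66667, 0, 0, 0, 0, 0, 0, ⟨0, 0⟩, 0⟩, 0, 33333⟩ 0 0) (.pos 5 .pm ⟨⟨0, 0, 3582484, 0, 0, 0, 0, 0, 0, ⟨0, 0⟩, 0⟩, 0, 0⟩ 0 0)) (.pos 3 .pm ⟨⟨0, 0, 0, 0, 0, 0, 0, 0, 0, ⟨0, 0⟩, 0⟩,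 0, 0⟩ 0 0)) (.cut .v 67108864 (.cut .d 4024593 (.cut .v 33554432 (.cut .d 2012296 (.cut .v 25165824 (.cut .d 1006148 (.cut .v 20971520 (.cut .d 503074 (.cut .v 18874368 (.cut .d 251537 (.cut .v 17825792 (.cut .d 125768 (.cut .d 62884 (.cut .v 17301504 (.cut .d 31442 (.cut .v 17039360 (.cut .s 11534336 (.pos 31 .pp ⟨⟨91458195, 0, 0, 0, 0, 0, 0, 0, 0, ⟨0, 0⟩, 0⟩, 886466, 0⟩ 0 0) (.pos 31 .pp ⟨⟨102555022, 0, 0, 0, 0, 0, 0, 0, 0, ⟨0, 0⟩, 0⟩, 1426607, 0⟩ 0 0)) (.pos 32 .pp ⟨⟨112698790, 0, 0, 0, 0, 0, 0, 0, 0, ⟨0, 0⟩, 0⟩, 0, 0⟩ 0 0)) (.pos 29 .pp ⟨⟨90530792, 0, 0, 0, 0, 0, 0, 0, 0, ⟨0, 0⟩, 0⟩, 0, 41824⟩ 0 0)) (.pos 30 .pp ⟨⟨121775234,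 0, 0, 0, 0, 0, 0, 0, 0, ⟨0, 0⟩, 0⟩, 0, 0⟩ 0 0)) (.pos 27 .pp ⟨⟨93546353, 0, 0, 0, 0, 0, 0, 0, 0, ⟨0, 0⟩, 0⟩, 0, 20838⟩ 0 0)) (.pos 27 .pp ⟨⟨0, 0, 0, 0, 0, 0, 0, 0, 0, ⟨0, 0⟩, 0⟩, 0, 692217⟩ 0 0)) (.cut .d 125768 (.pos 28 .pp ⟨⟨137228138, 0, 0, 0, 0, 0, 0, 0, 0, ⟨0, 0⟩, 0⟩, 0, 0⟩ 0 0) (.pos 28 .pp ⟨⟨111777690, 0, 0, 0, 0, 0, 0, 0, 0, ⟨0, 0⟩, 0⟩, 0, 0⟩ 0 0))) (.pos 25 .pp ⟨⟨0, 0, 0, 0, 0, 0, 0, 0, 0, ⟨0, 0⟩, 0⟩, 0, 711379⟩ 0 0)) (.cut .d 251537 (.pos 26 .pp ⟨⟨167515811, 0, 0, 0, 0, 0, 0, 0, 0, ⟨0, 0⟩, 0⟩, 0, 0⟩ 0 0) (.cut .v 19922944 (.pos 47 .pp ⟨⟨114154997, 0, 0, 0, 0, 0, 0, 0, 0, ⟨0, 0⟩, 0⟩, 0, 0⟩ 0 0) (.pos 48 .pp ⟨⟨139000530,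 0, 0, 0, 0, 0, 0, 0, 0, ⟨0, 0⟩, 0⟩, 0, 0⟩ 0 0)))) (.pos 23 .pp ⟨⟨0, 0, 0, 0, 0, 0, 0, 0, 0, ⟨0, 0⟩, 0⟩, 0, 746509⟩ 0 0)) (.cut .d 503074 (.cut .v 23068672 (.cut .v 22020096 (.cut .d 251537 (.void 57 ⟨⟨0, 0, 0, 0, 0, 0, 0, 0, 0, ⟨0, 0⟩, 0⟩, 100000, 0⟩ 0 0) (.pos 57 .pp ⟨⟨167886526, 0, 0, 0, 0, 0, 0, 0, 0, ⟨0, 0⟩, 0⟩, 0, 0⟩ 0 0)) (.pos 58 .pp ⟨⟨205439964, 0, 0, 0, 0, 0, 0, 0, 0, ⟨0, 0⟩, 0⟩, 0, 0⟩ 0 0)) (.void 54 ⟨⟨0, 0, 0, 0, 0, 0, 0, 0, 0, ⟨0, 0⟩, 0⟩, 100000, 0⟩ 0 0)) (.cut .v 23068672 (.pos 53 .pp ⟨⟨10167188, 0, 0, 0, 0, 0, 102354, 0, 0, ⟨0, 0⟩, 0⟩, 16599482, 0⟩ 0 0) (.cut .v 24117248 (.pos 59 .pp ⟨⟨0, 0, 0, 0, 0, 0, 0, 0, 0, ⟨0,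 0⟩, 0⟩, 21916533, 0⟩ 0 0) (.pos 60 .pp ⟨⟨0, 0, 0, 0, 0, 0, 0, 0, 0, ⟨0, 0⟩, 0⟩, 24782841, 0⟩ 0 0))))) (.pos 21 .pp ⟨⟨0, 0, 0, 0, 0, 0, 0, 0, 0, ⟨0, 0⟩, 0⟩, 0, 806229⟩ 0 0)) (.cut .d 1006148 (.cut .v 29360128 (.cut .d 503074 (.void 67 ⟨⟨0, 0, 0, 0, 0, 0, 0, 0, 0, ⟨0, 0⟩, 0⟩, 100000, 0⟩ 0 0) (.pos 67 .pp ⟨⟨0, 0, 0, 0, 0, 0, 0, 0, 0, ⟨0, 0⟩, 0⟩, 29853948, 0⟩ 0 0)) (.void 68 ⟨⟨0, 0, 0, 0, 0, 0, 0, 0, 0, ⟨0, 0⟩, 0⟩, 100000, 0⟩ 0 0)) (.pos 22 .pp ⟨⟨0, 0, 0, 0, 0, 0, 0, 0, 0, ⟨0, 0⟩, 0⟩, 21132990, 0⟩ 0 0))) (.pos 20 .pp ⟨⟨0, 0, 0, 0, 0, 0, 2665957, 0, 0, ⟨0, 0⟩, 0⟩, 0, 0⟩ 0 0)) (.cut .d 2012296 (.cut .v 50331648 (.pos 80 .pp ⟨⟨0, 0, 0,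 0, 0, 0, 0, 0, 0, ⟨0, 0⟩, 0⟩, 63823038, 0⟩ 0 0) (.void 81 ⟨⟨0, 0, 0, 0, 0, 0, 0, 0, 0, ⟨0, 0⟩, 0⟩, 100000, 0⟩ 0 0)) (.pos 79 .pp ⟨⟨0, 0, 0, 0, 0, 0, 0, 0, 0, ⟨0, 0⟩, 0⟩, 27916939, 0⟩ 0 0))) (.pos 78 .pp ⟨⟨0, 0, 0, 0, 0, 0, 0, 0, 0, ⟨0, 0⟩, 0⟩, 0, 50676356⟩ 0 0)) (.void 88 ⟨⟨0, 0, 0, 45007, 0, 0, 0, 0, 0, ⟨0, 0⟩, 0⟩, 54993, 0⟩ 0 0)))),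
    by decide +kernel⟩

theorem covers17 : cell.Covers Vale.Agent.P237.Petty.Cor.Grid.N11.table row17.1 :=
  ⟨(.cut .d 0 (.cut .v 16777216 (.cut .d (-8388608) (.void 1 ⟨⟨0, 0, 0, 0, 0, 100000, 0, 0, 0, ⟨0, 0⟩, 0⟩, 0, 0⟩ 0 0) (.cut .d (-4194304) (.void 1 ⟨⟨0, 0, 0, 0, 0, 100000, 0, 0, 0, ⟨0, 0⟩, 0⟩, 0, 0⟩ 0 0) (.cut .d (-2097152) (.void 1 ⟨⟨0, 0, 0, 0, 0, 100000, 0, 0, 0, ⟨0, 0⟩, 0⟩, 0, 0⟩ 0 0) (.cut .d (-1048576) (.void 1 ⟨⟨0, 0, 0, 0, 0, 100000, 0, 0, 0, ⟨0, 0⟩, 0⟩, 0, 0⟩ 0 0) (.cut .d (-524288) (.void 1 ⟨⟨0, 0, 0, 0, 0, 100000, 0, 0, 0, ⟨0, 0⟩, 0⟩, 0, 0⟩ 0 0) (.cut .d (-262144) (.void 1 ⟨⟨0, 0, 0, 0, 0, 100000, 0, 0, 0, ⟨0, 0⟩,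 0⟩, 0, 0⟩ 0 0) (.cut .d (-131072) (.void 1 ⟨⟨0, 0, 0, 0, 0, 100000, 0, 0, 0, ⟨0, 0⟩, 0⟩, 0, 0⟩ 0 0) (.cut .d (-65536) (.void 1 ⟨⟨0, 0, 0, 0, 0, 100000, 0, 0, 0, ⟨0, 0⟩, 0⟩, 0, 0⟩ 0 0) (.cut .d (-32768) (.void 1 ⟨⟨0, 0, 0, 0, 0, 100000, 0, 0, 0, ⟨0, 0⟩, 0⟩, 0, 0⟩ 0 0) (.cut .v 8388608 (.cut .v 4194304 (.void 4 ⟨⟨0, 0, 100000, 0, 0, 0, 0, 0, 0, ⟨0, 0⟩, 0⟩, 0, 0⟩ 0 0) (.pos 5 .mm ⟨⟨0, 0, 5004055, 0, 0, 62638488, 0, 0, 0, ⟨0, 0⟩, 0⟩, 0, 0⟩ 0 0)) (.pos 3 .mm ⟨⟨0, 0, 0, 0, 0, 224193613, 0, 0, 0, ⟨0, 0⟩, 0⟩, 0, 0⟩ 0 0))))))))))) (.cut .v 67108864 (.cut .v 33554432 (.cut .v 25165824 (.cut .d (-8388608) (.void 21 ⟨⟨100000, 0, 0, 0, 0, 0,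 0, 0, 0, ⟨0, 0⟩, 0⟩, 0, 0⟩ 0 0) (.cut .v 20971520 (.cut .d (-4194304) (.void 23 ⟨⟨100000, 0, 0, 0, 0, 0, 0, 0, 0, ⟨0, 0⟩, 0⟩, 0, 0⟩ 0 0) (.cut .v 18874368 (.cut .d (-2097152) (.void 25 ⟨⟨100000, 0, 0, 0, 0, 0, 0, 0, 0, ⟨0, 0⟩, 0⟩, 0, 0⟩ 0 0) (.cut .v 17825792 (.cut .d (-1048576) (.void 27 ⟨⟨100000, 0, 0, 0, 0, 0, 0, 0, 0, ⟨0, 0⟩, 0⟩, 0, 0⟩ 0 0) (.cut .v 17301504 (.cut .d (-524288) (.void 29 ⟨⟨100000, 0, 0, 0, 0, 0, 0, 0, 0, ⟨0, 0⟩, 0⟩, 0, 0⟩ 0 0) (.cut .v 17039360 (.cut .d (-262144) (.void 31 ⟨⟨100000, 0, 0, 0, 0, 0, 0, 0, 0, ⟨0, 0⟩, 0⟩, 0, 0⟩ 0 0) (.cut .d (-131072) (.void 31 ⟨⟨100000, 0, 0, 0, 0, 0, 0, 0, 0, ⟨0, 0⟩, 0⟩, 0, 0⟩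 0 0) (.cut .d (-65536) (.void 31 ⟨⟨100000, 0, 0, 0, 0, 0, 0, 0, 0, ⟨0, 0⟩, 0⟩, 0, 0⟩ 0 0) (.cut .d (-32768) (.void 31 ⟨⟨0, 0, 0, 0, 0, 100000, 0, 0, 0, ⟨0, 0⟩, 0⟩, 0, 0⟩ 0 0) (.cut .s 11862016 (.cut .v 16908288 (.cut .s 11796480 (.cut .s 11763712 (.cut .v 16842752 (.cut .d (-16384) (.cut .s 11747328 (.pos 41 .mp ⟨⟨105597939, 0, 0, 0, 0, 39538748, 0, 0, 0, ⟨0, 0⟩, 0⟩, 0, 0⟩ 0 0) (.pos 41 .mp ⟨⟨106827883, 0, 0, 0, 0, 39929946, 0, 0, 0, ⟨0, 0⟩, 0⟩, 0, 0⟩ 0 0)) (.cut .l 167772 (.cut .v 16809984 (.cut .s 11747328 (.cut .d (-8192) (.pos 45 .mp ⟨⟨105676340, 0, 0, 0, 0, 38882171, 0, 0, 0, ⟨0, 0⟩, 0⟩, 0, 0⟩ 0 0) (.cut .s 11739136 (.pos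 45 .mp ⟨⟨107775277, 0, 0, 0, 0, 32881840, 0, 0, 0, ⟨0, 0⟩, 0⟩, 0, 0⟩ 0 0) (.pos 45 .mp ⟨⟨108398606, 0, 0, 0, 0, 33046415, 0, 0, 0, ⟨0, 0⟩, 0⟩, 0, 0⟩ 0 0))) (.cut .d (-8192) (.pos 45 .mp ⟨⟨106902928, 0, 0, 0, 0, 39272787, 0, 0, 0, ⟨0, 0⟩, 0⟩, 0, 0⟩ 0 0) (.cut .s 11755520 (.pos 45 .mp ⟨⟨109025487, 0, 0, 0, 0, 33214075, 0, 0, 0, ⟨0, 0⟩, 0⟩, 0, 0⟩ 0 0) (.pos 45 .mp ⟨⟨109655935, 0, 0, 0, 0, 33384811, 0, 0, 0, ⟨0, 0⟩, 0⟩, 0, 0⟩ 0 0)))) (.pos 46 .mp ⟨⟨122114655, 0, 0, 0, 0, 13080583, 0, 0, 0, ⟨0, 0⟩, 0⟩, 0, 0⟩ 0 0)) (.pos 41 .mp ⟨⟨109566444, 0, 0, 0, 0, 29358620, 0, 0, 0, ⟨0, 0⟩, 0⟩, 0, 0⟩ 0 0))) (.cut .s 11747328 (.pos 42 .mp ⟨⟨115244985,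 0, 0, 0, 0, 23261464, 0, 0, 0, ⟨0, 0⟩, 0⟩, 0, 0⟩ 0 0) (.pos 42 .mp ⟨⟨116421883, 0, 0, 0, 0, 23739610, 0, 0, 0, ⟨0, 0⟩, 0⟩, 0, 0⟩ 0 0))) (.cut .v 16842752 (.cut .d (-16384) (.cut .d (-24576) (.pos 41 .mp ⟨⟨109078415, 0, 0, 0, 0, 41635641, 0, 0, 0, ⟨0, 0⟩, 0⟩, 0, 0⟩ 0 0) (.cut .v 16809984 (.pos 45 .mp ⟨⟨0, 0, 0, 0, 0, 233515710, 0, 0, 0, ⟨0, 0⟩, 0⟩, 0, 0⟩ 0 0) (.cut .s 11780096 (.pos 46 .mp ⟨⟨109541098, 0, 0, 0, 0, 37542511, 0, 0, 0, ⟨0, 0⟩, 0⟩, 0, 0⟩ 0 0) (.cut .s 11788288 (.pos 46 .mp ⟨⟨111130795, 0, 0, 0, 0, 36422398, 0, 0, 0, ⟨0, 0⟩, 0⟩, 0, 0⟩ 0 0) (.pos 46 .mp ⟨⟨111728568, 0, 0, 0, 0, 36700916, 0, 0, 0, ⟨0, 0⟩, 0⟩, 0, 0⟩ 0 0)))))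 (.cut .l 167772 (.cut .v 16809984 (.cut .s 11780096 (.cut .d (-8192) (.pos 45 .mp ⟨⟨108143476, 0, 0, 0, 0, 39678262, 0, 0, 0, ⟨0, 0⟩, 0⟩, 0, 0⟩ 0 0) (.cut .s 11771904 (.pos 45 .mp ⟨⟨110289968, 0, 0, 0, 0, 33558616, 0, 0, 0, ⟨0, 0⟩, 0⟩, 0, 0⟩ 0 0) (.pos 45 .mp ⟨⟨110927600, 0, 0, 0, 0, 33735478, 0, 0, 0, ⟨0, 0⟩, 0⟩, 0, 0⟩ 0 0))) (.cut .d (-8192) (.pos 45 .mp ⟨⟨109398112, 0, 0, 0, 0, 40098760, 0, 0, 0, ⟨0, 0⟩, 0⟩, 0, 0⟩ 0 0) (.cut .s 11788288 (.pos 45 .mp ⟨⟨111568849, 0, 0, 0, 0, 33915390, 0, 0, 0, ⟨0, 0⟩, 0⟩, 0, 0⟩ 0 0) (.pos 45 .mp ⟨⟨112213732, 0, 0, 0, 0, 34098340, 0, 0, 0, ⟨0, 0⟩, 0⟩, 0, 0⟩ 0 0)))) (.pos 46 .mp ⟨⟨124699863, 0,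 0, 0, 0, 13710686, 0, 0, 0, ⟨0, 0⟩, 0⟩, 0, 0⟩ 0 0)) (.pos 41 .mp ⟨⟨112147531, 0, 0, 0, 0, 30010419, 0, 0, 0, ⟨0, 0⟩, 0⟩, 0, 0⟩ 0 0))) (.cut .s 11780096 (.pos 42 .mp ⟨⟨117626643, 0, 0, 0, 0, 24208404, 0, 0, 0, ⟨0, 0⟩, 0⟩, 0, 0⟩ 0 0) (.pos 42 .mp ⟨⟨118860904, 0, 0, 0, 0, 24665236, 0, 0, 0, ⟨0, 0⟩, 0⟩, 0, 0⟩ 0 0)))) (.cut .s 11829248 (.cut .v 16842752 (.cut .d (-16384) (.cut .d (-24576) (.pos 41 .mp ⟨⟨111641134, 0, 0, 0, 0, 42546215, 0, 0, 0, ⟨0, 0⟩, 0⟩, 0, 0⟩ 0 0) (.cut .v 16809984 (.pos 45 .mp ⟨⟨0, 0, 0, 0, 0, 239341695, 0, 0, 0, ⟨0, 0⟩, 0⟩, 0, 0⟩ 0 0) (.cut .l 167772 (.void 46 ⟨⟨100000, 0, 0, 0, 0, 0, 0, 0, 0, ⟨0, 0⟩, 0⟩, 0, 0⟩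 0 0) (.cut .s 11812864 (.pos 46 .mp ⟨⟨111042364, 0, 0, 0, 0, 39665946, 0, 0, 0, ⟨0, 0⟩, 0⟩, 0, 0⟩ 0 0) (.pos 46 .mp ⟨⟨112333895, 0, 0, 0, 0, 40114274, 0, 0, 0, ⟨0, 0⟩, 0⟩, 0, 0⟩ 0 0))))) (.cut .l 167772 (.cut .v 16809984 (.cut .s 11812864 (.cut .d (-8192) (.pos 45 .mp ⟨⟨110666964, 0, 0, 0, 0, 40534446, 0, 0, 0, ⟨0, 0⟩, 0⟩, 0, 0⟩ 0 0) (.cut .l 83886 (.cut .d (-4096) (.pos 45 .mp ⟨⟨112494920, 0, 0, 0, 0, 36626199, 0, 0, 0, ⟨0, 0⟩, 0⟩, 0, 0⟩ 0 0) (.cut .s 11804672 (.pos 45 .mp ⟨⟨112288312, 0, 0, 0, 0, 35213622, 0, 0, 0, ⟨0, 0⟩, 0⟩, 0, 0⟩ 0 0) (.pos 45 .mp ⟨⟨112944745, 0, 0, 0, 0, 35392130, 0, 0, 0, ⟨0, 0⟩, 0⟩, 0, 0⟩ 0 0))) (.pos 45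 .mp ⟨⟨112731530, 0, 0, 0, 0, 33377435, 0, 0, 0, ⟨0, 0⟩, 0⟩, 0, 0⟩ 0 0))) (.cut .d (-8192) (.pos 45 .mp ⟨⟨111950162, 0, 0, 0, 0, 40985488, 0, 0, 0, ⟨0, 0⟩, 0⟩, 0, 0⟩ 0 0) (.cut .l 83886 (.cut .d (-4096) (.pos 45 .mp ⟨⟨113762964, 0, 0, 0, 0, 37115960, 0, 0, 0, ⟨0, 0⟩, 0⟩, 0, 0⟩ 0 0) (.cut .s 11821056 (.pos 45 .mp ⟨⟨113604204, 0, 0, 0, 0, 35574990, 0, 0, 0, ⟨0, 0⟩, 0⟩, 0, 0⟩ 0 0) (.pos 45 .mp ⟨⟨114266675, 0, 0, 0, 0, 35762258, 0, 0, 0, ⟨0, 0⟩, 0⟩, 0, 0⟩ 0 0))) (.pos 45 .mp ⟨⟨114038092, 0, 0, 0, 0, 33779646, 0, 0, 0, ⟨0, 0⟩, 0⟩, 0, 0⟩ 0 0)))) (.pos 46 .mp ⟨⟨127410844, 0, 0, 0, 0, 14278744, 0, 0, 0, ⟨0, 0⟩, 0⟩, 0, 0⟩ 0 0)) (.pos 41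 .mp ⟨⟨114771090, 0, 0, 0, 0, 30726394, 0, 0, 0, ⟨0, 0⟩, 0⟩, 0, 0⟩ 0 0))) (.cut .s 11812864 (.pos 42 .mp ⟨⟨120126323, 0, 0, 0, 0, 25107465, 0, 0, 0, ⟨0, 0⟩, 0⟩, 0, 0⟩ 0 0) (.pos 42 .mp ⟨⟨121424569, 0, 0, 0, 0, 25532417, 0, 0, 0, ⟨0, 0⟩, 0⟩, 0, 0⟩ 0 0))) (.cut .v 16842752 (.cut .d (-16384) (.cut .d (-24576) (.pos 41 .mp ⟨⟨114262653, 0, 0, 0, 0, 43517111, 0, 0, 0, ⟨0, 0⟩, 0⟩, 0, 0⟩ 0 0) (.cut .v 16809984 (.pos 45 .mp ⟨⟨0, 0, 0, 0, 0, 245351870, 0, 0, 0, ⟨0, 0⟩, 0⟩, 0, 0⟩ 0 0) (.cut .l 167772 (.void 46 ⟨⟨100000, 0, 0, 0, 0, 0, 0, 0, 0, ⟨0, 0⟩, 0⟩, 0, 0⟩ 0 0) (.cut .s 11845632 (.pos 46 .mp ⟨⟨113640033, 0, 0, 0, 0, 40575200, 0, 0, 0,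 ⟨0, 0⟩, 0⟩, 0, 0⟩ 0 0) (.pos 46 .mp ⟨⟨114960911, 0, 0, 0, 0, 41048644, 0, 0, 0, ⟨0, 0⟩, 0⟩, 0, 0⟩ 0 0))))) (.cut .l 167772 (.cut .v 16809984 (.cut .s 11845632 (.cut .d (-8192) (.pos 45 .mp ⟨⟨113247839, 0, 0, 0, 0, 41452056, 0, 0, 0, ⟨0, 0⟩, 0⟩, 0, 0⟩ 0 0) (.cut .l 83886 (.cut .d (-4096) (.pos 45 .mp ⟨⟨115052485, 0, 0, 0, 0, 37604004, 0, 0, 0, ⟨0, 0⟩, 0⟩, 0, 0⟩ 0 0) (.cut .s 11837440 (.pos 45 .mp ⟨⟨114932143, 0, 0, 0, 0, 35953990, 0, 0, 0, ⟨0, 0⟩, 0⟩, 0, 0⟩ 0 0) (.pos 45 .mp ⟨⟨115600594, 0, 0, 0, 0, 36150241, 0, 0, 0, ⟨0, 0⟩, 0⟩, 0, 0⟩ 0 0))) (.pos 45 .mp ⟨⟨115359395, 0, 0, 0, 0, 34189357, 0, 0, 0, ⟨0, 0⟩, 0⟩, 0, 0⟩ 0 0))) (.cut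 .d (-8192) (.pos 45 .mp ⟨⟨114560129, 0, 0, 0, 0, 41934321, 0, 0, 0, ⟨0, 0⟩, 0⟩, 0, 0⟩ 0 0) (.cut .l 83886 (.cut .d (-4096) (.pos 45 .mp ⟨⟨116364149, 0, 0, 0, 0, 38089125, 0, 0, 0, ⟨0, 0⟩, 0⟩, 0, 0⟩ 0 0) (.cut .s 11853824 (.pos 45 .mp ⟨⟨116272012, 0, 0, 0, 0, 36351068, 0, 0, 0, ⟨0, 0⟩, 0⟩, 0, 0⟩ 0 0) (.pos 45 .mp ⟨⟨116946384, 0, 0, 0, 0, 36556530, 0, 0, 0, ⟨0, 0⟩, 0⟩, 0, 0⟩ 0 0))) (.pos 45 .mp ⟨⟨116695577, 0, 0, 0, 0, 34606150, 0, 0, 0, ⟨0, 0⟩, 0⟩, 0, 0⟩ 0 0)))) (.pos 46 .mp ⟨⟨130260937, 0, 0, 0, 0, 14763346, 0, 0, 0, ⟨0, 0⟩, 0⟩, 0, 0⟩ 0 0)) (.pos 41 .mp ⟨⟨117454438, 0, 0, 0, 0, 31471125, 0, 0, 0, ⟨0, 0⟩, 0⟩, 0, 0⟩ 0 0))) (.cut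 .s 11845632 (.pos 42 .mp ⟨⟨122757328, 0, 0, 0, 0, 25937384, 0, 0, 0, ⟨0, 0⟩, 0⟩, 0, 0⟩ 0 0) (.pos 42 .mp ⟨⟨124126301, 0, 0, 0, 0, 26319623, 0, 0, 0, ⟨0, 0⟩, 0⟩, 0, 0⟩ 0 0))))) (.pos 36 .mp ⟨⟨138198476, 0, 0, 0, 0, 0, 0, 0, 0, ⟨0, 0⟩, 0⟩, 0, 0⟩ 0 0)) (.cut .v 16908288 (.cut .s 11927552 (.cut .s 11894784 (.cut .v 16842752 (.cut .d (-16384) (.cut .d (-24576) (.pos 41 .mp ⟨⟨0, 0, 0, 0, 0, 253982435, 0, 0, 0, ⟨0, 0⟩, 0⟩, 0, 0⟩ 0 0) (.cut .v 16809984 (.pos 45 .mp ⟨⟨0, 0, 0, 0, 0, 251550175, 0, 0, 0, ⟨0, 0⟩, 0⟩, 0, 0⟩ 0 0) (.cut .l 167772 (.void 46 ⟨⟨100000, 0, 0, 0, 0, 0, 0, 0, 0, ⟨0, 0⟩, 0⟩, 0, 0⟩ 0 0) (.cut .s 11878400 (.pos 46 .mp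 ⟨⟨116296666, 0, 0, 0, 0, 41534523, 0, 0, 0, ⟨0, 0⟩, 0⟩, 0, 0⟩ 0 0) (.pos 46 .mp ⟨⟨117647439, 0, 0, 0, 0, 42032751, 0, 0, 0, ⟨0, 0⟩, 0⟩, 0, 0⟩ 0 0))))) (.cut .l 167772 (.cut .v 16809984 (.cut .s 11878400 (.cut .d (-8192) (.pos 45 .mp ⟨⟨115887168, 0, 0, 0, 0, 42432459, 0, 0, 0, ⟨0, 0⟩, 0⟩, 0, 0⟩ 0 0) (.cut .l 83886 (.cut .d (-4096) (.pos 45 .mp ⟨⟨117698631, 0, 0, 0, 0, 38570102, 0, 0, 0, ⟨0, 0⟩, 0⟩, 0, 0⟩ 0 0) (.cut .s 11870208 (.pos 45 .mp ⟨⟨117623693, 0, 0, 0, 0, 36766684, 0, 0, 0, ⟨0, 0⟩, 0⟩, 0, 0⟩ 0 0) (.pos 45 .mp ⟨⟨118303925, 0, 0, 0, 0, 36981590, 0, 0, 0, ⟨0, 0⟩, 0⟩, 0, 0⟩ 0 0))) (.pos 45 .mp ⟨⟨118046777, 0, 0, 0, 0, 35029604,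 0, 0, 0, ⟨0, 0⟩, 0⟩, 0, 0⟩ 0 0))) (.cut .d (-8192) (.pos 45 .mp ⟨⟨117229093, 0, 0, 0, 0, 42946645, 0, 0, 0, ⟨0, 0⟩, 0⟩, 0, 0⟩ 0 0) (.cut .l 83886 (.cut .d (-4096) (.pos 45 .mp ⟨⟨119056605, 0, 0, 0, 0, 39045705, 0, 0, 0, ⟨0, 0⟩, 0⟩, 0, 0⟩ 0 0) (.cut .s 11886592 (.pos 45 .mp ⟨⟨118985489, 0, 0, 0, 0, 37204578, 0, 0, 0, ⟨0, 0⟩, 0⟩, 0, 0⟩ 0 0) (.pos 45 .mp ⟨⟨119670803, 0, 0, 0, 0, 37430651, 0, 0, 0, ⟨0, 0⟩, 0⟩, 0, 0⟩ 0 0))) (.pos 45 .mp ⟨⟨119413134, 0, 0, 0, 0, 35459294, 0, 0, 0, ⟨0, 0⟩, 0⟩, 0, 0⟩ 0 0)))) (.pos 46 .mp ⟨⟨133263734, 0, 0, 0, 0, 15142528, 0, 0, 0, ⟨0, 0⟩, 0⟩, 0, 0⟩ 0 0)) (.cut .s 11878400 (.pos 41 .mp ⟨⟨118818881, 0, 0,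 0, 0, 34134512, 0, 0, 0, ⟨0, 0⟩, 0⟩, 0, 0⟩ 0 0) (.pos 41 .mp ⟨⟨120198693, 0, 0, 0, 0, 34546787, 0, 0, 0, ⟨0, 0⟩, 0⟩, 0, 0⟩ 0 0)))) (.cut .s 11878400 (.pos 42 .mp ⟨⟨125533206, 0, 0, 0, 0, 26676354, 0, 0, 0, ⟨0, 0⟩, 0⟩, 0, 0⟩ 0 0) (.pos 42 .mp ⟨⟨126979776, 0, 0, 0, 0, 27004765, 0, 0, 0, ⟨0, 0⟩, 0⟩, 0, 0⟩ 0 0))) (.cut .v 16842752 (.cut .d (-16384) (.cut .d (-24576) (.pos 41 .mp ⟨⟨0, 0, 0, 0, 0, 260450357, 0, 0, 0, ⟨0, 0⟩, 0⟩, 0, 0⟩ 0 0) (.cut .v 16809984 (.pos 45 .mp ⟨⟨0, 0, 0, 0, 0, 257940652, 0, 0, 0, ⟨0, 0⟩, 0⟩, 0, 0⟩ 0 0) (.cut .l 167772 (.void 46 ⟨⟨100000, 0, 0, 0, 0, 0, 0, 0, 0, ⟨0, 0⟩, 0⟩, 0, 0⟩ 0 0) (.cut .s 11911168 (.pos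 46 .mp ⟨⟨119013368, 0, 0, 0, 0, 42543240, 0, 0, 0, ⟨0, 0⟩, 0⟩, 0, 0⟩ 0 0) (.pos 46 .mp ⟨⟨120394598, 0, 0, 0, 0, 43065899, 0, 0, 0, ⟨0, 0⟩, 0⟩, 0, 0⟩ 0 0))))) (.cut .l 167772 (.cut .v 16809984 (.cut .s 11911168 (.cut .d (-8192) (.pos 45 .mp ⟨⟨118586043, 0, 0, 0, 0, 43477059, 0, 0, 0, ⟨0, 0⟩, 0⟩, 0, 0⟩ 0 0) (.cut .l 83886 (.cut .d (-4096) (.pos 45 .mp ⟨⟨120438757, 0, 0, 0, 0, 39514689, 0, 0, 0, ⟨0, 0⟩, 0⟩, 0, 0⟩ 0 0) (.cut .s 11902976 (.pos 45 .mp ⟨⟨120359940, 0, 0, 0, 0, 37659685, 0, 0, 0, ⟨0, 0⟩, 0⟩, 0, 0⟩ 0 0) (.pos 45 .mp ⟨⟨121052916, 0, 0, 0, 0, 37891668, 0, 0, 0, ⟨0, 0⟩, 0⟩, 0, 0⟩ 0 0))) (.pos 45 .mp ⟨⟨120794792, 0, 0, 0, 0,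 35894794, 0, 0, 0, ⟨0, 0⟩, 0⟩, 0, 0⟩ 0 0))) (.cut .d (-8192) (.pos 45 .mp ⟨⟨119958161, 0, 0, 0, 0, 44023882, 0, 0, 0, ⟨0, 0⟩, 0⟩, 0, 0⟩ 0 0) (.cut .l 83886 (.cut .d (-4096) (.pos 45 .mp ⟨⟨121845773, 0, 0, 0, 0, 39975799, 0, 0, 0, ⟨0, 0⟩, 0⟩, 0, 0⟩ 0 0) (.cut .s 11919360 (.pos 45 .mp ⟨⟨121748363, 0, 0, 0, 0, 38129477, 0, 0, 0, ⟨0, 0⟩, 0⟩, 0, 0⟩ 0 0) (.pos 45 .mp ⟨⟨122445792, 0, 0, 0, 0, 38374155, 0, 0, 0, ⟨0, 0⟩, 0⟩, 0, 0⟩ 0 0))) (.pos 45 .mp ⟨⟨122191895, 0, 0, 0, 0, 36335674, 0, 0, 0, ⟨0, 0⟩, 0⟩, 0, 0⟩ 0 0)))) (.pos 46 .mp ⟨⟨136433088, 0, 0, 0, 0, 15393752, 0, 0, 0, ⟨0, 0⟩, 0⟩, 0, 0⟩ 0 0)) (.cut .s 11911168 (.pos 41 .mp ⟨⟨121594019,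 0, 0, 0, 0, 34964575, 0, 0, 0, ⟨0, 0⟩, 0⟩, 0, 0⟩ 0 0) (.pos 41 .mp ⟨⟨123005005, 0, 0, 0, 0, 35387440, 0, 0, 0, ⟨0, 0⟩, 0⟩, 0, 0⟩ 0 0)))) (.cut .s 11911168 (.pos 42 .mp ⟨⟨128467763, 0, 0, 0, 0, 27302004, 0, 0, 0, ⟨0, 0⟩, 0⟩, 0, 0⟩ 0 0) (.pos 42 .mp ⟨⟨129998932, 0, 0, 0, 0, 27565184, 0, 0, 0, ⟨0, 0⟩, 0⟩, 0, 0⟩ 0 0)))) (.cut .s 11960320 (.cut .v 16842752 (.cut .d (-16384) (.cut .d (-24576) (.pos 41 .mp ⟨⟨0, 0, 0, 0, 0, 267115784, 0, 0, 0, ⟨0, 0⟩, 0⟩, 0, 0⟩ 0 0) (.cut .v 16809984 (.pos 45 .mp ⟨⟨0, 0, 0, 0, 0, 264527448, 0, 0, 0, ⟨0, 0⟩, 0⟩, 0, 0⟩ 0 0) (.cut .l 167772 (.void 46 ⟨⟨100000, 0, 0, 0, 0, 0, 0, 0, 0, ⟨0, 0⟩, 0⟩, 0, 0⟩ 0 0)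 (.cut .s 11943936 (.pos 46 .mp ⟨⟨121791272, 0, 0, 0, 0, 43600632, 0, 0, 0, ⟨0, 0⟩, 0⟩, 0, 0⟩ 0 0) (.pos 46 .mp ⟨⟨123203537, 0, 0, 0, 0, 44147342, 0, 0, 0, ⟨0, 0⟩, 0⟩, 0, 0⟩ 0 0))))) (.cut .l 167772 (.cut .v 16809984 (.cut .s 11943936 (.cut .d (-8192) (.pos 45 .mp ⟨⟨121345590, 0, 0, 0, 0, 44587297, 0, 0, 0, ⟨0, 0⟩, 0⟩, 0, 0⟩ 0 0) (.cut .l 83886 (.cut .d (-4096) (.pos 45 .mp ⟨⟨123278349, 0, 0, 0, 0, 40427766, 0, 0, 0, ⟨0, 0⟩, 0⟩, 0, 0⟩ 0 0) (.cut .s 11935744 (.pos 45 .mp ⟨⟨123146030, 0, 0, 0, 0, 38624011, 0, 0, 0, ⟨0, 0⟩, 0⟩, 0, 0⟩ 0 0) (.pos 45 .mp ⟨⟨123849059, 0, 0, 0, 0, 38879110, 0, 0, 0, ⟨0, 0⟩, 0⟩, 0, 0⟩ 0 0))) (.pos 45 .mp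 ⟨⟨123604589, 0, 0, 0, 0, 36781501, 0, 0, 0, ⟨0, 0⟩, 0⟩, 0, 0⟩ 0 0))) (.cut .d (-8192) (.pos 45 .mp ⟨⟨122748474, 0, 0, 0, 0, 45167491, 0, 0, 0, ⟨0, 0⟩, 0⟩, 0, 0⟩ 0 0) (.cut .l 83886 (.cut .d (-4096) (.pos 45 .mp ⟨⟨124737183, 0, 0, 0, 0, 40869308, 0, 0, 0, ⟨0, 0⟩, 0⟩, 0, 0⟩ 0 0) (.cut .s 11952128 (.pos 45 .mp ⟨⟨124554861, 0, 0, 0, 0, 39139515, 0, 0, 0, ⟨0, 0⟩, 0⟩, 0, 0⟩ 0 0) (.pos 45 .mp ⟨⟨125263419, 0, 0, 0, 0, 39405291, 0, 0, 0, ⟨0, 0⟩, 0⟩, 0, 0⟩ 0 0))) (.pos 45 .mp ⟨⟨125033025, 0, 0, 0, 0, 37231838, 0, 0, 0, ⟨0, 0⟩, 0⟩, 0, 0⟩ 0 0)))) (.pos 46 .mp ⟨⟨139783125, 0, 0, 0, 0, 15493886, 0, 0, 0, ⟨0, 0⟩, 0⟩, 0, 0⟩ 0 0)) (.cut .s 11943936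 (.pos 41 .mp ⟨⟨124431799, 0, 0, 0, 0, 35814945, 0, 0, 0, ⟨0, 0⟩, 0⟩, 0, 0⟩ 0 0) (.pos 41 .mp ⟨⟨125874553, 0, 0, 0, 0, 36246650, 0, 0, 0, ⟨0, 0⟩, 0⟩, 0, 0⟩ 0 0)))) (.cut .s 11943936 (.pos 42 .mp ⟨⟨131575070, 0, 0, 0, 0, 27791380, 0, 0, 0, ⟨0, 0⟩, 0⟩, 0, 0⟩ 0 0) (.pos 42 .mp ⟨⟨133197978, 0, 0, 0, 0, 27977628, 0, 0, 0, ⟨0, 0⟩, 0⟩, 0, 0⟩ 0 0))) (.cut .v 16842752 (.cut .d (-16384) (.cut .s 11976704 (.pos 41 .mp ⟨⟨124142464, 0, 0, 0, 0, 46425114, 0, 0, 0, ⟨0, 0⟩, 0⟩, 0, 0⟩ 0 0) (.pos 41 .mp ⟨⟨125581149, 0, 0, 0, 0, 47039339, 0, 0, 0, ⟨0, 0⟩, 0⟩, 0, 0⟩ 0 0)) (.cut .l 167772 (.cut .v 16809984 (.cut .s 11976704 (.cut .d (-8192) (.pos 45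 .mp ⟨⟨124166962, 0, 0, 0, 0, 45764651, 0, 0, 0, ⟨0, 0⟩, 0⟩, 0, 0⟩ 0 0) (.cut .l 83886 (.cut .d (-4096) (.pos 45 .mp ⟨⟨126222982, 0, 0, 0, 0, 41299131, 0, 0, 0, ⟨0, 0⟩, 0⟩, 0, 0⟩ 0 0) (.cut .s 11968512 (.pos 45 .mp ⟨⟨125974715, 0, 0, 0, 0, 39676505, 0, 0, 0, ⟨0, 0⟩, 0⟩, 0, 0⟩ 0 0) (.pos 45 .mp ⟨⟨126688731, 0, 0, 0, 0, 39953221, 0, 0, 0, ⟨0, 0⟩, 0⟩, 0, 0⟩ 0 0))) (.pos 45 .mp ⟨⟨126477351, 0, 0, 0, 0, 37686245, 0, 0, 0, ⟨0, 0⟩, 0⟩, 0, 0⟩ 0 0))) (.cut .d (-8192) (.pos 45 .mp ⟨⟨125601202, 0, 0, 0, 0, 46378970, 0, 0, 0, ⟨0, 0⟩, 0⟩, 0, 0⟩ 0 0) (.cut .s 11984896 (.cut .s 11980800 (.pos 45 .mp ⟨⟨127968579, 0, 0, 0, 0, 39115250, 0, 0, 0,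 ⟨0, 0⟩, 0⟩, 0, 0⟩ 0 0) (.pos 45 .mp ⟨⟨128354527, 0, 0, 0, 0, 39212119, 0, 0, 0, ⟨0, 0⟩, 0⟩, 0, 0⟩ 0 0)) (.pos 45 .mp ⟨⟨128825872, 0, 0, 0, 0, 39372724, 0, 0, 0, ⟨0, 0⟩, 0⟩, 0, 0⟩ 0 0)))) (.pos 46 .mp ⟨⟨143328253, 0, 0, 0, 0, 15419184, 0, 0, 0, ⟨0, 0⟩, 0⟩, 0, 0⟩ 0 0)) (.cut .s 11976704 (.pos 41 .mp ⟨⟨127333419, 0, 0, 0, 0, 36682110, 0, 0, 0, ⟨0, 0⟩, 0⟩, 0, 0⟩ 0 0) (.pos 41 .mp ⟨⟨128808551, 0, 0, 0, 0, 37120877, 0, 0, 0, ⟨0, 0⟩, 0⟩, 0, 0⟩ 0 0)))) (.cut .s 11976704 (.pos 42 .mp ⟨⟨134869476, 0, 0, 0, 0, 28120925, 0, 0, 0, ⟨0, 0⟩, 0⟩, 0, 0⟩ 0 0) (.pos 42 .mp ⟨⟨136591404, 0, 0, 0, 0, 28218231, 0, 0, 0, ⟨0, 0⟩, 0⟩, 0, 0⟩ 0 0))))) (.pos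 36 .mp ⟨⟨151405703, 0, 0, 0, 0, 0, 0, 0, 0, ⟨0, 0⟩, 0⟩, 0, 0⟩ 0 0))))))) (.pos 32 .mp ⟨⟨172597980, 0, 0, 0, 0, 0, 0, 0, 0, ⟨0, 0⟩, 0⟩, 0, 0⟩ 0 0))) (.void 30 ⟨⟨100000, 0, 0, 0, 0, 0, 0, 0, 0, ⟨0, 0⟩, 0⟩, 0, 0⟩ 0 0))) (.void 28 ⟨⟨100000, 0, 0, 0, 0, 0, 0, 0, 0, ⟨0, 0⟩, 0⟩, 0, 0⟩ 0 0))) (.void 26 ⟨⟨100000, 0, 0, 0, 0, 0, 0, 0, 0, ⟨0, 0⟩, 0⟩, 0, 0⟩ 0 0))) (.void 24 ⟨⟨100000, 0, 0, 0, 0, 0, 0, 0, 0, ⟨0, 0⟩, 0⟩, 0, 0⟩ 0 0))) (.void 22 ⟨⟨100000, 0, 0, 0, 0, 0, 0, 0, 0, ⟨0, 0⟩, 0⟩, 0, 0⟩ 0 0)) (.void 79 ⟨⟨100000, 0, 0, 0, 0, 0, 0, 0, 0, ⟨0, 0⟩, 0⟩, 0, 0⟩ 0 0)) (.void 88 ⟨⟨100000, 0, 0, 0, 0, 0, 0, 0, 0, ⟨0, 0⟩, 0⟩, 0, 0⟩ 0 0))) (.cut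 .v 16777216 (.cut .v 8388608 (.cut .v 4194304 (.cut .v 2097152 (.void 89 ⟨⟨0, 0, 66667, 0, 0, 0, 0, 0, 0, ⟨0, 0⟩, 0⟩, 0, 33333⟩ 0 0) (.pos 90 .pm ⟨⟨0, 0, 8220777, 0, 0, 0, 0, 0, 0, ⟨0, 0⟩, 0⟩, 0, 243137⟩ 0 0)) (.pos 5 .pm ⟨⟨0, 0, 5004055, 0, 0, 0, 0, 0, 0, ⟨0, 0⟩, 0⟩, 0, 0⟩ 0 0)) (.pos 3 .pm ⟨⟨0, 0, 0, 0, 0, 0, 0, 0, 0, ⟨0, 0⟩, 0⟩, 0, 0⟩ 0 0)) (.cut .v 67108864 (.cut .d 3608508 (.cut .v 33554432 (.cut .d 1804254 (.cut .v 25165824 (.cut .d 902127 (.cut .v 20971520 (.cut .d 451063 (.cut .v 18874368 (.cut .d 225531 (.cut .d 112765 (.cut .v 17825792 (.cut .v 17301504 (.cut .s 11862016 (.pos 29 .pp ⟨⟨115724560, 0, 0, 0, 0, 0, 0, 0,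 0, ⟨0, 0⟩, 0⟩, 1740613, 0⟩ 0 0) (.pos 29 .pp ⟨⟨126540202, 0, 0, 0, 0, 0, 0, 0, 0, ⟨0, 0⟩, 0⟩, 1935802, 0⟩ 0 0)) (.pos 30 .pp ⟨⟨144899663, 0, 0, 0, 0, 0, 0, 0, 0, ⟨0, 0⟩, 0⟩, 0, 0⟩ 0 0)) (.pos 28 .pp ⟨⟨166524091, 0, 0, 0, 0, 0, 0, 0, 0, ⟨0, 0⟩, 0⟩, 0, 0⟩ 0 0)) (.pos 25 .pp ⟨⟨126365425, 0, 0, 0, 0, 0, 0, 0, 0, ⟨0, 0⟩, 0⟩, 0, 0⟩ 0 0)) (.pos 25 .pp ⟨⟨0, 0, 0, 0, 0, 0, 0, 0, 0, ⟨0, 0⟩, 0⟩, 0, 643598⟩ 0 0)) (.cut .d 225531 (.pos 26 .pp ⟨⟨201610619, 0, 0, 0, 0, 0, 0, 0, 0, ⟨0, 0⟩, 0⟩, 0, 0⟩ 0 0) (.cut .v 19922944 (.pos 47 .pp ⟨⟨148068015, 0, 0, 0, 0, 0, 0, 0, 0, ⟨0, 0⟩, 0⟩, 0, 0⟩ 0 0) (.pos 48 .pp ⟨⟨175409789, 0, 0, 0, 0, 0, 0, 0, 0,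 ⟨0, 0⟩, 0⟩, 0, 0⟩ 0 0)))) (.pos 23 .pp ⟨⟨0, 0, 0, 0, 0, 0, 0, 0, 0, ⟨0, 0⟩, 0⟩, 0, 675380⟩ 0 0)) (.cut .d 451063 (.cut .v 23068672 (.cut .v 22020096 (.cut .d 225531 (.void 57 ⟨⟨0, 0, 0, 0, 0, 0, 0, 0, 0, ⟨0, 0⟩, 0⟩, 100000, 0⟩ 0 0) (.pos 57 .pp ⟨⟨205621067, 0, 0, 0, 0, 0, 0, 0, 0, ⟨0, 0⟩, 0⟩, 0, 0⟩ 0 0)) (.pos 58 .pp ⟨⟨246407893, 0, 0, 0, 0, 0, 0, 0, 0, ⟨0, 0⟩, 0⟩, 0, 0⟩ 0 0)) (.void 54 ⟨⟨0, 0, 0, 0, 0, 0, 0, 0, 0, ⟨0, 0⟩, 0⟩, 100000, 0⟩ 0 0)) (.cut .v 23068672 (.pos 53 .pp ⟨⟨36267537, 0, 0, 0, 0, 0, 75984, 0, 0, ⟨0, 0⟩, 0⟩, 18484215, 0⟩ 0 0) (.pos 54 .pp ⟨⟨0, 0, 0, 0, 0, 0, 0, 0, 0, ⟨0, 0⟩, 0⟩, 28868033, 0⟩ 0 0)))) (.pos 21 .pp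 ⟨⟨0, 0, 0, 0, 0, 0, 0, 0, 0, ⟨0, 0⟩, 0⟩, 0, 729411⟩ 0 0)) (.cut .d 902127 (.cut .v 29360128 (.pos 67 .pp ⟨⟨0, 0, 0, 0, 0, 0, 0, 0, 0, ⟨0, 0⟩, 0⟩, 43137873, 0⟩ 0 0) (.void 68 ⟨⟨0, 0, 0, 0, 0, 0, 0, 0, 0, ⟨0, 0⟩, 0⟩, 100000, 0⟩ 0 0)) (.pos 22 .pp ⟨⟨0, 0, 0, 0, 0, 0, 0, 0, 0, ⟨0, 0⟩, 0⟩, 26404950, 0⟩ 0 0))) (.pos 20 .pp ⟨⟨0, 0, 0, 0, 0, 0, 2418238, 0, 0, ⟨0, 0⟩, 0⟩, 0, 0⟩ 0 0)) (.cut .d 1804254 (.pos 79 .pp ⟨⟨0, 0, 0, 0, 0, 0, 0, 0, 0, ⟨0, 0⟩, 0⟩, 94038678, 0⟩ 0 0) (.pos 79 .pp ⟨⟨0, 0, 0, 0, 0, 0, 0, 0, 0, ⟨0, 0⟩, 0⟩, 34222730, 0⟩ 0 0))) (.pos 78 .pp ⟨⟨0, 0, 0, 0, 0, 0, 0, 0, 0, ⟨0, 0⟩, 0⟩, 0, 607842⟩ 0 0)) (.void 88 ⟨⟨0, 0, 0, 45398,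 0, 0, 0, 0, 0, ⟨0, 0⟩, 0⟩, 54602, 0⟩ 0 0)))),
    by decide +kernel⟩

theorem covers18 : cell.Covers Vale.Agent.P237.Petty.Cor.Grid.N11.table row18.1 :=
  ⟨(.cut .d 0 (.cut .v 16777216 (.cut .d (-8388608) (.void 1 ⟨⟨0, 0, 0, 0, 0, 100000, 0, 0, 0, ⟨0, 0⟩, 0⟩, 0, 0⟩ 0 0) (.cut .d (-4194304) (.void 1 ⟨⟨0, 0, 0, 0, 0, 100000, 0, 0, 0, ⟨0, 0⟩, 0⟩, 0, 0⟩ 0 0) (.cut .d (-2097152) (.void 1 ⟨⟨0, 0, 0, 0, 0, 100000, 0, 0, 0, ⟨0, 0⟩, 0⟩, 0, 0⟩ 0 0) (.cut .d (-1048576) (.void 1 ⟨⟨0, 0, 0, 0, 0, 100000, 0, 0, 0, ⟨0, 0⟩, 0⟩, 0, 0⟩ 0 0) (.cut .d (-524288) (.void 1 ⟨⟨0, 0, 0, 0, 0, 100000, 0, 0, 0, ⟨0, 0⟩, 0⟩, 0, 0⟩ 0 0) (.cut .d (-262144) (.void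 1 ⟨⟨0, 0, 0, 0, 0, 100000, 0, 0, 0, ⟨0, 0⟩, 0⟩, 0, 0⟩ 0 0) (.cut .d (-131072) (.void 1 ⟨⟨0, 0, 0, 0, 0, 100000, 0, 0, 0, ⟨0, 0⟩, 0⟩, 0, 0⟩ 0 0) (.cut .d (-65536) (.void 1 ⟨⟨0, 0, 0, 0, 0, 100000, 0, 0, 0, ⟨0, 0⟩, 0⟩, 0, 0⟩ 0 0) (.cut .d (-32768) (.void 1 ⟨⟨0, 0, 0, 0, 0, 100000, 0, 0, 0, ⟨0, 0⟩, 0⟩, 0, 0⟩ 0 0) (.cut .v 8388608 (.cut .v 4194304 (.void 4 ⟨⟨0, 0, 100000, 0, 0, 0, 0, 0, 0, ⟨0, 0⟩, 0⟩, 0, 0⟩ 0 0) (.pos 5 .mm ⟨⟨0, 0, 6171571, 0, 0, 77553596, 0, 0, 0, ⟨0, 0⟩, 0⟩, 0, 0⟩ 0 0)) (.cut .s 12124160 (.pos 3 .mm ⟨⟨0, 0, 0, 0, 0, 263330028, 0, 0, 0, ⟨0, 0⟩, 0⟩, 0, 0⟩ 0 0) (.pos 3 .mm ⟨⟨0, 0, 0, 0, 0, 290731047, 0, 0, 0, ⟨0, 0⟩,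 0⟩, 0, 0⟩ 0 0)))))))))))) (.cut .v 67108864 (.cut .v 33554432 (.cut .v 25165824 (.cut .d (-8388608) (.void 21 ⟨⟨100000, 0, 0, 0, 0, 0, 0, 0, 0, ⟨0, 0⟩, 0⟩, 0, 0⟩ 0 0) (.cut .v 20971520 (.cut .d (-4194304) (.void 23 ⟨⟨100000, 0, 0, 0, 0, 0, 0, 0, 0, ⟨0, 0⟩, 0⟩, 0, 0⟩ 0 0) (.cut .v 18874368 (.cut .d (-2097152) (.void 25 ⟨⟨100000, 0, 0, 0, 0, 0, 0, 0, 0, ⟨0, 0⟩, 0⟩, 0, 0⟩ 0 0) (.cut .v 17825792 (.cut .d (-1048576) (.void 27 ⟨⟨100000, 0, 0, 0, 0, 0, 0, 0, 0, ⟨0, 0⟩, 0⟩, 0, 0⟩ 0 0) (.cut .v 17301504 (.cut .d (-524288) (.void 29 ⟨⟨100000, 0, 0, 0, 0, 0, 0, 0, 0, ⟨0, 0⟩, 0⟩, 0, 0⟩ 0 0) (.cut .v 17039360 (.cut .d (-262144) (.void 31 ⟨⟨100000,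 0, 0, 0, 0, 0, 0, 0, 0, ⟨0, 0⟩, 0⟩, 0, 0⟩ 0 0) (.cut .d (-131072) (.void 31 ⟨⟨100000, 0, 0, 0, 0, 0, 0, 0, 0, ⟨0, 0⟩, 0⟩, 0, 0⟩ 0 0) (.cut .d (-65536) (.void 31 ⟨⟨100000, 0, 0, 0, 0, 0, 0, 0, 0, ⟨0, 0⟩, 0⟩, 0, 0⟩ 0 0) (.cut .d (-32768) (.void 31 ⟨⟨0, 0, 0, 0, 0, 100000, 0, 0, 0, ⟨0, 0⟩, 0⟩, 0, 0⟩ 0 0) (.cut .s 12124160 (.cut .v 16908288 (.cut .s 12058624 (.cut .s 12025856 (.cut .v 16842752 (.cut .d (-16384) (.cut .s 12009472 (.pos 41 .mp ⟨⟨127036011, 0, 0, 0, 0, 47670345, 0, 0, 0, ⟨0, 0⟩, 0⟩, 0, 0⟩ 0 0) (.pos 41 .mp ⟨⟨128508811, 0, 0, 0, 0, 48169635, 0, 0, 0, ⟨0, 0⟩, 0⟩, 0, 0⟩ 0 0)) (.cut .l 167772 (.cut .v 16809984 (.cut .s 12009472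 (.cut .d (-8192) (.pos 45 .mp ⟨⟨127051502, 0, 0, 0, 0, 47010179, 0, 0, 0, ⟨0, 0⟩, 0⟩, 0, 0⟩ 0 0) (.cut .s 12001280 (.pos 45 .mp ⟨⟨129567499, 0, 0, 0, 0, 39628736, 0, 0, 0, ⟨0, 0⟩, 0⟩, 0, 0⟩ 0 0) (.pos 45 .mp ⟨⟨130313259, 0, 0, 0, 0, 39840748, 0, 0, 0, ⟨0, 0⟩, 0⟩, 0, 0⟩ 0 0))) (.cut .d (-8192) (.pos 45 .mp ⟨⟨128518834, 0, 0, 0, 0, 47511485, 0, 0, 0, ⟨0, 0⟩, 0⟩, 0, 0⟩ 0 0) (.cut .l 83886 (.cut .d (-4096) (.pos 45 .mp ⟨⟨130694812, 0, 0, 0, 0, 42748019, 0, 0, 0, ⟨0, 0⟩, 0⟩, 0, 0⟩ 0 0) (.cut .s 12017664 (.pos 45 .mp ⟨⟨130367197, 0, 0, 0, 0, 41191000, 0, 0, 0, ⟨0, 0⟩, 0⟩, 0, 0⟩ 0 0) (.pos 45 .mp ⟨⟨131131183, 0, 0, 0, 0, 41388823, 0,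 0, 0, ⟨0, 0⟩, 0⟩, 0, 0⟩ 0 0))) (.pos 45 .mp ⟨⟨130909466, 0, 0, 0, 0, 39201805, 0, 0, 0, ⟨0, 0⟩, 0⟩, 0, 0⟩ 0 0)))) (.pos 46 .mp ⟨⟨145612010, 0, 0, 0, 0, 17503213, 0, 0, 0, ⟨0, 0⟩, 0⟩, 0, 0⟩ 0 0)) (.cut .s 12009472 (.pos 41 .mp ⟨⟨130301431, 0, 0, 0, 0, 37686624, 0, 0, 0, ⟨0, 0⟩, 0⟩, 0, 0⟩ 0 0) (.pos 41 .mp ⟨⟨131811438, 0, 0, 0, 0, 38137594, 0, 0, 0, ⟨0, 0⟩, 0⟩, 0, 0⟩ 0 0)))) (.cut .s 12009472 (.pos 42 .mp ⟨⟨137620474, 0, 0, 0, 0, 29457988, 0, 0, 0, ⟨0, 0⟩, 0⟩, 0, 0⟩ 0 0) (.pos 42 .mp ⟨⟨139025331, 0, 0, 0, 0, 30071467, 0, 0, 0, ⟨0, 0⟩, 0⟩, 0, 0⟩ 0 0))) (.cut .v 16842752 (.cut .d (-16384) (.cut .s 12042240 (.pos 41 .mp ⟨⟨129998612,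 0, 0, 0, 0, 48688433, 0, 0, 0, ⟨0, 0⟩, 0⟩, 0, 0⟩ 0 0) (.pos 41 .mp ⟨⟨131505580, 0, 0, 0, 0, 49226965, 0, 0, 0, ⟨0, 0⟩, 0⟩, 0, 0⟩ 0 0)) (.cut .l 167772 (.cut .v 16809984 (.cut .s 12042240 (.cut .d (-8192) (.pos 45 .mp ⟨⟨130003055, 0, 0, 0, 0, 48032399, 0, 0, 0, ⟨0, 0⟩, 0⟩, 0, 0⟩ 0 0) (.cut .l 83886 (.cut .d (-4096) (.pos 45 .mp ⟨⟨132142724, 0, 0, 0, 0, 43361035, 0, 0, 0, ⟨0, 0⟩, 0⟩, 0, 0⟩ 0 0) (.cut .s 12034048 (.pos 45 .mp ⟨⟨131898803, 0, 0, 0, 0, 41592070, 0, 0, 0, ⟨0, 0⟩, 0⟩, 0, 0⟩ 0 0) (.pos 45 .mp ⟨⟨132670037, 0, 0, 0, 0, 41800815, 0, 0, 0, ⟨0, 0⟩, 0⟩, 0, 0⟩ 0 0))) (.pos 45 .mp ⟨⟨132420991, 0, 0, 0, 0, 39685020, 0, 0, 0, ⟨0,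 0⟩, 0⟩, 0, 0⟩ 0 0))) (.cut .d (-8192) (.pos 45 .mp ⟨⟨131504329, 0, 0, 0, 0, 48573149, 0, 0, 0, ⟨0, 0⟩, 0⟩, 0, 0⟩ 0 0) (.cut .l 83886 (.cut .d (-4096) (.pos 45 .mp ⟨⟨131763100, 0, 0, 0, 0, 48636624, 0, 0, 0, ⟨0, 0⟩, 0⟩, 0, 0⟩ 0 0) (.cut .s 12050432 (.pos 45 .mp ⟨⟨133443144, 0, 0, 0, 0, 42018727, 0, 0, 0, ⟨0, 0⟩, 0⟩, 0, 0⟩ 0 0) (.pos 45 .mp ⟨⟨134209706, 0, 0, 0, 0, 42263442, 0, 0, 0, ⟨0, 0⟩, 0⟩, 0, 0⟩ 0 0))) (.pos 45 .mp ⟨⟨133949890, 0, 0, 0, 0, 40179396, 0, 0, 0, ⟨0, 0⟩, 0⟩, 0, 0⟩ 0 0)))) (.cut .s 12042240 (.pos 46 .mp ⟨⟨141851843, 0, 0, 0, 0, 27506042, 0, 0, 0, ⟨0, 0⟩, 0⟩, 0, 0⟩ 0 0) (.pos 46 .mp ⟨⟨143352366, 0, 0, 0, 0, 28037671,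 0, 0, 0, ⟨0, 0⟩, 0⟩, 0, 0⟩ 0 0))) (.cut .s 12042240 (.pos 41 .mp ⟨⟨133338919, 0, 0, 0, 0, 38599868, 0, 0, 0, ⟨0, 0⟩, 0⟩, 0, 0⟩ 0 0) (.pos 41 .mp ⟨⟨134884043, 0, 0, 0, 0, 39072930, 0, 0, 0, ⟨0, 0⟩, 0⟩, 0, 0⟩ 0 0)))) (.cut .s 12042240 (.pos 42 .mp ⟨⟨140466532, 0, 0, 0, 0, 30669996, 0, 0, 0, ⟨0, 0⟩, 0⟩, 0, 0⟩ 0 0) (.pos 42 .mp ⟨⟨141946205, 0, 0, 0, 0, 31250136, 0, 0, 0, ⟨0, 0⟩, 0⟩, 0, 0⟩ 0 0)))) (.cut .d (-16384) (.cut .l 167772 (.void 35 ⟨⟨0, 0, 0, 0, 0, 100000, 0, 0, 0, ⟨0, 0⟩, 0⟩, 0, 0⟩ 0 0) (.cut .s 12091392 (.cut .d (-24576) (.pos 35 .mp ⟨⟨136833474, 0, 0, 0, 0, 48578544, 0, 0, 0, ⟨0, 0⟩, 0⟩, 0, 0⟩ 0 0) (.cut .v 16842752 (.cut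 .s 12075008 (.pos 41 .mp ⟨⟨133029880, 0, 0, 0, 0, 48957389, 0, 0, 0, ⟨0, 0⟩, 0⟩, 0, 0⟩ 0 0) (.pos 41 .mp ⟨⟨134571684, 0, 0, 0, 0, 49542490, 0, 0, 0, ⟨0, 0⟩, 0⟩, 0, 0⟩ 0 0)) (.pos 42 .mp ⟨⟨153142186, 0, 0, 0, 0, 17488583, 0, 0, 0, ⟨0, 0⟩, 0⟩, 0, 0⟩ 0 0))) (.cut .d (-24576) (.pos 35 .mp ⟨⟨138588037, 0, 0, 0, 0, 149599728, 0, 0, 0, ⟨0, 0⟩, 0⟩, 0, 0⟩ 0 0) (.cut .v 16842752 (.cut .s 12107776 (.pos 41 .mp ⟨⟨136131161, 0, 0, 0, 0, 50144002, 0, 0, 0, ⟨0, 0⟩, 0⟩, 0, 0⟩ 0 0) (.pos 41 .mp ⟨⟨137708488, 0, 0, 0, 0, 50761817, 0, 0, 0, ⟨0, 0⟩, 0⟩, 0, 0⟩ 0 0)) (.pos 42 .mp ⟨⟨156759483, 0, 0, 0, 0, 17825999, 0, 0, 0, ⟨0, 0⟩, 0⟩, 0, 0⟩ 0 0)))))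 (.cut .v 16842752 (.cut .s 12091392 (.cut .l 167772 (.cut .v 16809984 (.cut .s 12075008 (.cut .d (-8192) (.pos 45 .mp ⟨⟨133022822, 0, 0, 0, 0, 49133962, 0, 0, 0, ⟨0, 0⟩, 0⟩, 0, 0⟩ 0 0) (.cut .l 83886 (.cut .d (-4096) (.pos 45 .mp ⟨⟨133281450, 0, 0, 0, 0, 49203825, 0, 0, 0, ⟨0, 0⟩, 0⟩, 0, 0⟩ 0 0) (.cut .s 12066816 (.pos 45 .mp ⟨⟨134980648, 0, 0, 0, 0, 42512166, 0, 0, 0, ⟨0, 0⟩, 0⟩, 0, 0⟩ 0 0) (.pos 45 .mp ⟨⟨135755990, 0, 0, 0, 0, 42764884, 0, 0, 0, ⟨0, 0⟩, 0⟩, 0, 0⟩ 0 0))) (.pos 45 .mp ⟨⟨135496332, 0, 0, 0, 0, 40684416, 0, 0, 0, ⟨0, 0⟩, 0⟩, 0, 0⟩ 0 0))) (.cut .d (-8192) (.pos 45 .mp ⟨⟨134558701, 0, 0, 0, 0, 49715072, 0, 0, 0, ⟨0,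 0⟩, 0⟩, 0, 0⟩ 0 0) (.cut .l 83886 (.cut .d (-4096) (.pos 45 .mp ⟨⟨134817160, 0, 0, 0, 0, 49791445, 0, 0, 0, ⟨0, 0⟩, 0⟩, 0, 0⟩ 0 0) (.cut .s 12083200 (.pos 45 .mp ⟨⟨136535754, 0, 0, 0, 0, 43021585, 0, 0, 0, ⟨0, 0⟩, 0⟩, 0, 0⟩ 0 0) (.pos 45 .mp ⟨⟨137319962, 0, 0, 0, 0, 43282254, 0, 0, 0, ⟨0, 0⟩, 0⟩, 0, 0⟩ 0 0))) (.pos 45 .mp ⟨⟨137060490, 0, 0, 0, 0, 41199559, 0, 0, 0, ⟨0, 0⟩, 0⟩, 0, 0⟩ 0 0)))) (.cut .s 12075008 (.pos 46 .mp ⟨⟨144893860, 0, 0, 0, 0, 28546568, 0, 0, 0, ⟨0, 0⟩, 0⟩, 0, 0⟩ 0 0) (.pos 46 .mp ⟨⟨146478486, 0, 0, 0, 0, 29029207, 0, 0, 0, ⟨0, 0⟩, 0⟩, 0, 0⟩ 0 0))) (.cut .s 12075008 (.pos 41 .mp ⟨⟨136446984, 0, 0, 0, 0, 39556256,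 0, 0, 0, ⟨0, 0⟩, 0⟩, 0, 0⟩ 0 0) (.pos 41 .mp ⟨⟨138027915, 0, 0, 0, 0, 40049321, 0, 0, 0, ⟨0, 0⟩, 0⟩, 0, 0⟩ 0 0))) (.cut .l 167772 (.cut .v 16809984 (.cut .s 12107776 (.cut .d (-8192) (.pos 45 .mp ⟨⟨136112139, 0, 0, 0, 0, 50316712, 0, 0, 0, ⟨0, 0⟩, 0⟩, 0, 0⟩ 0 0) (.cut .l 83886 (.cut .d (-4096) (.pos 45 .mp ⟨⟨136370401, 0, 0, 0, 0, 50399719, 0, 0, 0, ⟨0, 0⟩, 0⟩, 0, 0⟩ 0 0) (.cut .s 12099584 (.pos 45 .mp ⟨⟨138108635, 0, 0, 0, 0, 43546878, 0, 0, 0, ⟨0, 0⟩, 0⟩, 0, 0⟩ 0 0) (.pos 45 .mp ⟨⟨138901797, 0, 0, 0, 0, 43815442, 0, 0, 0, ⟨0, 0⟩, 0⟩, 0, 0⟩ 0 0))) (.pos 45 .mp ⟨⟨138642540, 0, 0, 0, 0, 41724300, 0, 0, 0, ⟨0, 0⟩, 0⟩, 0, 0⟩ 0 0)))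 (.cut .d (-8192) (.pos 45 .mp ⟨⟨137683307, 0, 0, 0, 0, 50939122, 0, 0, 0, ⟨0, 0⟩, 0⟩, 0, 0⟩ 0 0) (.cut .l 83886 (.cut .d (-4096) (.pos 45 .mp ⟨⟨137941345, 0, 0, 0, 0, 51028887, 0, 0, 0, ⟨0, 0⟩, 0⟩, 0, 0⟩ 0 0) (.cut .s 12115968 (.pos 45 .mp ⟨⟨139699468, 0, 0, 0, 0, 44087933, 0, 0, 0, ⟨0, 0⟩, 0⟩, 0, 0⟩ 0 0) (.pos 45 .mp ⟨⟨140501672, 0, 0, 0, 0, 44364337, 0, 0, 0, ⟨0, 0⟩, 0⟩, 0, 0⟩ 0 0))) (.pos 45 .mp ⟨⟨140242657, 0, 0, 0, 0, 42258112, 0, 0, 0, ⟨0, 0⟩, 0⟩, 0, 0⟩ 0 0)))) (.cut .s 12107776 (.pos 46 .mp ⟨⟨148108429, 0, 0, 0, 0, 29482018, 0, 0, 0, ⟨0, 0⟩, 0⟩, 0, 0⟩ 0 0) (.pos 46 .mp ⟨⟨149785897, 0, 0, 0, 0, 29901380, 0, 0, 0, ⟨0, 0⟩,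 0⟩, 0, 0⟩ 0 0))) (.cut .s 12107776 (.pos 41 .mp ⟨⟨139627015, 0, 0, 0, 0, 40551595, 0, 0, 0, ⟨0, 0⟩, 0⟩, 0, 0⟩ 0 0) (.pos 41 .mp ⟨⟨141244464, 0, 0, 0, 0, 41062543, 0, 0, 0, ⟨0, 0⟩, 0⟩, 0, 0⟩ 0 0)))) (.pos 42 .mp ⟨⟨164513040, 0, 0, 0, 0, 0, 0, 0, 0, ⟨0, 0⟩, 0⟩, 0, 0⟩ 0 0)))) (.pos 36 .mp ⟨⟨166098171, 0, 0, 0, 0, 0, 0, 0, 0, ⟨0, 0⟩, 0⟩, 0, 0⟩ 0 0)) (.cut .v 16908288 (.cut .s 12189696 (.cut .d (-16384) (.cut .d (-24576) (.void 35 ⟨⟨0, 0, 0, 0, 0, 100000, 0, 0, 0, ⟨0, 0⟩, 0⟩, 0, 0⟩ 0 0) (.cut .l 167772 (.void 35 ⟨⟨0, 0, 0, 0, 0, 100000, 0, 0, 0, ⟨0, 0⟩, 0⟩, 0, 0⟩ 0 0) (.cut .v 16842752 (.cut .v 16809984 (.pos 45 .mp ⟨⟨0, 0, 0, 0, 0,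 306196311, 0, 0, 0, ⟨0, 0⟩, 0⟩, 0, 0⟩ 0 0) (.cut .s 12156928 (.cut .s 12140544 (.pos 46 .mp ⟨⟨139847694, 0, 0, 0, 0, 50487736, 0, 0, 0, ⟨0, 0⟩, 0⟩, 0, 0⟩ 0 0) (.pos 46 .mp ⟨⟨141467067, 0, 0, 0, 0, 51127306, 0, 0, 0, ⟨0, 0⟩, 0⟩, 0, 0⟩ 0 0)) (.cut .s 12173312 (.pos 46 .mp ⟨⟨143104892, 0, 0, 0, 0, 51782711, 0, 0, 0, ⟨0, 0⟩, 0⟩, 0, 0⟩ 0 0) (.pos 46 .mp ⟨⟨144761352, 0, 0, 0, 0, 52453825, 0, 0, 0, ⟨0, 0⟩, 0⟩, 0, 0⟩ 0 0)))) (.cut .s 12156928 (.pos 42 .mp ⟨⟨160559143, 0, 0, 0, 0, 18040124, 0, 0, 0, ⟨0, 0⟩, 0⟩, 0, 0⟩ 0 0) (.pos 42 .mp ⟨⟨164558930, 0, 0, 0, 0, 18101748, 0, 0, 0, ⟨0, 0⟩, 0⟩, 0, 0⟩ 0 0))))) (.cut .v 16842752 (.cut .s 12156928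 (.cut .l 167772 (.cut .v 16809984 (.cut .s 12140544 (.cut .d (-8192) (.pos 45 .mp ⟨⟨139272382, 0, 0, 0, 0, 51582543, 0, 0, 0, ⟨0, 0⟩, 0⟩, 0, 0⟩ 0 0) (.cut .l 83886 (.cut .d (-4096) (.pos 45 .mp ⟨⟨139530168, 0, 0, 0, 0, 51679194, 0, 0, 0, ⟨0, 0⟩, 0⟩, 0, 0⟩ 0 0) (.cut .s 12132352 (.pos 45 .mp ⟨⟨141308431, 0, 0, 0, 0, 44644637, 0, 0, 0, ⟨0, 0⟩, 0⟩, 0, 0⟩ 0 0) (.pos 45 .mp ⟨⟨142119768, 0, 0, 0, 0, 44928820, 0, 0, 0, ⟨0, 0⟩, 0⟩, 0, 0⟩ 0 0))) (.pos 45 .mp ⟨⟨141861021, 0, 0, 0, 0, 42800461, 0, 0, 0, ⟨0, 0⟩, 0⟩, 0, 0⟩ 0 0))) (.cut .d (-8192) (.pos 45 .mp ⟨⟨140879542, 0, 0, 0, 0, 52247220, 0, 0, 0, ⟨0, 0⟩, 0⟩, 0, 0⟩ 0 0) (.cut .l 83886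 (.cut .d (-4096) (.pos 45 .mp ⟨⟨141137047, 0, 0, 0, 0, 52350886, 0, 0, 0, ⟨0, 0⟩, 0⟩, 0, 0⟩ 0 0) (.cut .s 12148736 (.pos 45 .mp ⟨⟨142935705, 0, 0, 0, 0, 45216871, 0, 0, 0, ⟨0, 0⟩, 0⟩, 0, 0⟩ 0 0) (.pos 45 .mp ⟨⟨143756265, 0, 0, 0, 0, 45508773, 0, 0, 0, ⟨0, 0⟩, 0⟩, 0, 0⟩ 0 0))) (.pos 45 .mp ⟨⟨143497816, 0, 0, 0, 0, 43350811, 0, 0, 0, ⟨0, 0⟩, 0⟩, 0, 0⟩ 0 0)))) (.cut .s 12140544 (.pos 46 .mp ⟨⟨151513119, 0, 0, 0, 0, 30283624, 0, 0, 0, ⟨0, 0⟩, 0⟩, 0, 0⟩ 0 0) (.pos 46 .mp ⟨⟨153292347, 0, 0, 0, 0, 30625032, 0, 0, 0, ⟨0, 0⟩, 0⟩, 0, 0⟩ 0 0))) (.cut .s 12140544 (.pos 41 .mp ⟨⟨142880443, 0, 0, 0, 0, 41581627, 0, 0, 0, ⟨0, 0⟩, 0⟩, 0, 0⟩ 0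 0) (.pos 41 .mp ⟨⟨144535137, 0, 0, 0, 0, 42108304, 0, 0, 0, ⟨0, 0⟩, 0⟩, 0, 0⟩ 0 0))) (.cut .l 167772 (.cut .d (-8192) (.cut .d (-12288) (.void 41 ⟨⟨0, 0, 0, 0, 0, 100000, 0, 0, 0, ⟨0, 0⟩, 0⟩, 0, 0⟩ 0 0) (.cut .d (-10240) (.pos 41 .mp ⟨⟨143517216, 0, 0, 0, 0, 56586852, 0, 0, 0, ⟨0, 0⟩, 0⟩, 0, 0⟩ 0 0) (.cut .v 16809984 (.cut .s 12173312 (.pos 45 .mp ⟨⟨142504968, 0, 0, 0, 0, 52933401, 0, 0, 0, ⟨0, 0⟩, 0⟩, 0, 0⟩ 0 0) (.pos 45 .mp ⟨⟨144148842, 0, 0, 0, 0, 53641339, 0, 0, 0, ⟨0, 0⟩, 0⟩, 0, 0⟩ 0 0)) (.pos 46 .mp ⟨⟨173507026, 0, 0, 0, 0, 0, 0, 0, 0, ⟨0, 0⟩, 0⟩, 0, 0⟩ 0 0)))) (.cut .v 16809984 (.cut .l 83886 (.cut .s 12173312 (.cut .d (-4096)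 (.pos 45 .mp ⟨⟨142762164, 0, 0, 0, 0, 53044212, 0, 0, 0, ⟨0, 0⟩, 0⟩, 0, 0⟩ 0 0) (.cut .s 12165120 (.pos 45 .mp ⟨⟨144581472, 0, 0, 0, 0, 45804511, 0, 0, 0, ⟨0, 0⟩, 0⟩, 0, 0⟩ 0 0) (.pos 45 .mp ⟨⟨145411348, 0, 0, 0, 0, 46104069, 0, 0, 0, ⟨0, 0⟩, 0⟩, 0, 0⟩ 0 0))) (.cut .d (-4096) (.pos 45 .mp ⟨⟨144405702, 0, 0, 0, 0, 53759427, 0, 0, 0, ⟨0, 0⟩, 0⟩, 0, 0⟩ 0 0) (.cut .s 12181504 (.pos 45 .mp ⟨⟨146245919, 0, 0, 0, 0, 46407431, 0, 0, 0, ⟨0, 0⟩, 0⟩, 0, 0⟩ 0 0) (.pos 45 .mp ⟨⟨147085206, 0, 0, 0, 0, 46714580, 0, 0, 0, ⟨0, 0⟩, 0⟩, 0, 0⟩ 0 0)))) (.cut .s 12173312 (.pos 45 .mp ⟨⟨145153225, 0, 0, 0, 0, 43908621, 0, 0, 0, ⟨0, 0⟩, 0⟩, 0, 0⟩ 0 0)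 (.pos 45 .mp ⟨⟨146827437, 0, 0, 0, 0, 44473344, 0, 0, 0, ⟨0, 0⟩, 0⟩, 0, 0⟩ 0 0))) (.pos 46 .mp ⟨⟨172954573, 0, 0, 0, 0, 0, 0, 0, 0, ⟨0, 0⟩, 0⟩, 0, 0⟩ 0 0))) (.cut .s 12173312 (.pos 41 .mp ⟨⟨146208735, 0, 0, 0, 0, 42642028, 0, 0, 0, ⟨0, 0⟩, 0⟩, 0, 0⟩ 0 0) (.pos 41 .mp ⟨⟨147901427, 0, 0, 0, 0, 43182247, 0, 0, 0, ⟨0, 0⟩, 0⟩, 0, 0⟩ 0 0)))) (.pos 42 .mp ⟨⟨172275271, 0, 0, 0, 0, 0, 0, 0, 0, ⟨0, 0⟩, 0⟩, 0, 0⟩ 0 0))) (.cut .d (-16384) (.cut .d (-24576) (.void 35 ⟨⟨0, 0, 0, 0, 0, 100000, 0, 0, 0, ⟨0, 0⟩, 0⟩, 0, 0⟩ 0 0) (.cut .l 167772 (.void 35 ⟨⟨0, 0, 0, 0, 0, 100000, 0, 0, 0, ⟨0, 0⟩, 0⟩, 0, 0⟩ 0 0) (.cut .v 16842752 (.cut .l 251658 (.pos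 41 .mp ⟨⟨146884268, 0, 0, 0, 0, 63554860, 0, 0, 0, ⟨0, 0⟩, 0⟩, 0, 0⟩ 0 0) (.cut .s 12222464 (.pos 41 .mp ⟨⟨145869126, 0, 0, 0, 0, 54876242, 0, 0, 0, ⟨0, 0⟩, 0⟩, 0, 0⟩ 0 0) (.pos 41 .mp ⟨⟨149264708, 0, 0, 0, 0, 56327777, 0, 0, 0, ⟨0, 0⟩, 0⟩, 0, 0⟩ 0 0))) (.cut .s 12222464 (.pos 42 .mp ⟨⟨168652343, 0, 0, 0, 0, 18189637, 0, 0, 0, ⟨0, 0⟩, 0⟩, 0, 0⟩ 0 0) (.pos 42 .mp ⟨⟨172958577, 0, 0, 0, 0, 18105106, 0, 0, 0, ⟨0, 0⟩, 0⟩, 0, 0⟩ 0 0))))) (.cut .v 16842752 (.cut .s 12222464 (.cut .l 167772 (.cut .d (-8192) (.cut .d (-12288) (.void 41 ⟨⟨0, 0, 0, 0, 0, 100000, 0, 0, 0, ⟨0, 0⟩, 0⟩, 0, 0⟩ 0 0) (.cut .d (-10240) (.pos 41 .mp ⟨⟨146851662, 0,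 0, 0, 0, 58138759, 0, 0, 0, ⟨0, 0⟩, 0⟩, 0, 0⟩ 0 0) (.cut .v 16809984 (.cut .s 12206080 (.pos 45 .mp ⟨⟨145811352, 0, 0, 0, 0, 54371287, 0, 0, 0, ⟨0, 0⟩, 0⟩, 0, 0⟩ 0 0) (.pos 45 .mp ⟨⟨147492684, 0, 0, 0, 0, 55123506, 0, 0, 0, ⟨0, 0⟩, 0⟩, 0, 0⟩ 0 0)) (.pos 46 .mp ⟨⟨177602049, 0, 0, 0, 0, 0, 0, 0, 0, ⟨0, 0⟩, 0⟩, 0, 0⟩ 0 0)))) (.cut .v 16809984 (.cut .l 83886 (.cut .s 12206080 (.cut .d (-4096) (.pos 45 .mp ⟨⟨146067845, 0, 0, 0, 0, 54496787, 0, 0, 0, ⟨0, 0⟩, 0⟩, 0, 0⟩ 0 0) (.cut .s 12197888 (.pos 45 .mp ⟨⟨147929234, 0, 0, 0, 0, 47025499, 0, 0, 0, ⟨0, 0⟩, 0⟩, 0, 0⟩ 0 0) (.pos 45 .mp ⟨⟨148778027, 0, 0, 0, 0, 47340173, 0, 0, 0, ⟨0, 0⟩,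 0⟩, 0, 0⟩ 0 0))) (.cut .d (-4096) (.pos 45 .mp ⟨⟨147748783, 0, 0, 0, 0, 55256554, 0, 0, 0, ⟨0, 0⟩, 0⟩, 0, 0⟩ 0 0) (.cut .s 12214272 (.pos 45 .mp ⟨⟨149631609, 0, 0, 0, 0, 47658582, 0, 0, 0, ⟨0, 0⟩, 0⟩, 0, 0⟩ 0 0) (.pos 45 .mp ⟨⟨150490005, 0, 0, 0, 0, 47980710, 0, 0, 0, ⟨0, 0⟩, 0⟩, 0, 0⟩ 0 0)))) (.cut .s 12206080 (.pos 45 .mp ⟨⟨148520642, 0, 0, 0, 0, 45044431, 0, 0, 0, ⟨0, 0⟩, 0⟩, 0, 0⟩ 0 0) (.pos 45 .mp ⟨⟨150233032, 0, 0, 0, 0, 45621326, 0, 0, 0, ⟨0, 0⟩, 0⟩, 0, 0⟩ 0 0))) (.pos 46 .mp ⟨⟨177031002, 0, 0, 0, 0, 0, 0, 0, 0, ⟨0, 0⟩, 0⟩, 0, 0⟩ 0 0))) (.cut .s 12206080 (.pos 41 .mp ⟨⟨149613406, 0, 0, 0, 0, 43728404, 0, 0, 0, ⟨0, 0⟩, 0⟩,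 0, 0⟩ 0 0) (.pos 41 .mp ⟨⟨151344867, 0, 0, 0, 0, 44279938, 0, 0, 0, ⟨0, 0⟩, 0⟩, 0, 0⟩ 0 0))) (.cut .l 167772 (.cut .d (-8192) (.cut .s 12238848 (.pos 41 .mp ⟨⟨149773424, 0, 0, 0, 0, 56197545, 0, 0, 0, ⟨0, 0⟩, 0⟩, 0, 0⟩ 0 0) (.pos 41 .mp ⟨⟨151499179, 0, 0, 0, 0, 56999776, 0, 0, 0, ⟨0, 0⟩, 0⟩, 0, 0⟩ 0 0)) (.cut .v 16809984 (.cut .l 83886 (.cut .v 16793600 (.cut .s 12238848 (.cut .s 12230656 (.pos 55 .mp ⟨⟨150413304, 0, 0, 0, 0, 50081950, 0, 0, 0, ⟨0, 0⟩, 0⟩, 0, 0⟩ 0 0) (.pos 55 .mp ⟨⟨151400790, 0, 0, 0, 0, 50195438, 0, 0, 0, ⟨0, 0⟩, 0⟩, 0, 0⟩ 0 0)) (.cut .s 12247040 (.pos 55 .mp ⟨⟨152406045, 0, 0, 0, 0, 50288983, 0, 0, 0, ⟨0, 0⟩,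 0⟩, 0, 0⟩ 0 0) (.pos 55 .mp ⟨⟨153429363, 0, 0, 0, 0, 50362053, 0, 0, 0, ⟨0, 0⟩, 0⟩, 0, 0⟩ 0 0))) (.pos 56 .mp ⟨⟨172174264, 0, 0, 0, 0, 18380799, 0, 0, 0, ⟨0, 0⟩, 0⟩, 0, 0⟩ 0 0)) (.pos 45 .mp ⟨⟨153716157, 0, 0, 0, 0, 44012852, 0, 0, 0, ⟨0, 0⟩, 0⟩, 0, 0⟩ 0 0)) (.pos 46 .mp ⟨⟨181228707, 0, 0, 0, 0, 0, 0, 0, 0, ⟨0, 0⟩, 0⟩, 0, 0⟩ 0 0))) (.cut .s 12238848 (.pos 41 .mp ⟨⟨153096010, 0, 0, 0, 0, 44836284, 0, 0, 0, ⟨0, 0⟩, 0⟩, 0, 0⟩ 0 0) (.pos 41 .mp ⟨⟨154867037, 0, 0, 0, 0, 45396870, 0, 0, 0, ⟨0, 0⟩, 0⟩, 0, 0⟩ 0 0)))) (.pos 42 .mp ⟨⟨180508684, 0, 0, 0, 0, 0, 0, 0, 0, ⟨0, 0⟩, 0⟩, 0, 0⟩ 0 0)))) (.pos 36 .mp ⟨⟨182099093, 0, 0, 0, 0, 0, 0,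 0, 0, ⟨0, 0⟩, 0⟩, 0, 0⟩ 0 0))))))) (.pos 32 .mp ⟨⟨207898142, 0, 0, 0, 0, 0, 0, 0, 0, ⟨0, 0⟩, 0⟩, 0, 0⟩ 0 0))) (.void 30 ⟨⟨100000, 0, 0, 0, 0, 0, 0, 0, 0, ⟨0, 0⟩, 0⟩, 0, 0⟩ 0 0))) (.void 28 ⟨⟨100000, 0, 0, 0, 0, 0, 0, 0, 0, ⟨0, 0⟩, 0⟩, 0, 0⟩ 0 0))) (.void 26 ⟨⟨100000, 0, 0, 0, 0, 0, 0, 0, 0, ⟨0, 0⟩, 0⟩, 0, 0⟩ 0 0))) (.void 24 ⟨⟨100000, 0, 0, 0, 0, 0, 0, 0, 0, ⟨0, 0⟩, 0⟩, 0, 0⟩ 0 0))) (.void 22 ⟨⟨100000, 0, 0, 0, 0, 0, 0, 0, 0, ⟨0, 0⟩, 0⟩, 0, 0⟩ 0 0)) (.void 79 ⟨⟨100000, 0, 0, 0, 0, 0, 0, 0, 0, ⟨0, 0⟩, 0⟩, 0, 0⟩ 0 0)) (.void 88 ⟨⟨100000, 0, 0, 0, 0, 0, 0, 0, 0, ⟨0, 0⟩, 0⟩, 0, 0⟩ 0 0))) (.cut .v 16777216 (.cut .v 8388608 (.cut .v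 4194304 (.cut .v 2097152 (.void 89 ⟨⟨0, 0, 66667, 0, 0, 0, 0, 0, 0, ⟨0, 0⟩, 0⟩, 0, 33333⟩ 0 0) (.pos 90 .pm ⟨⟨0, 0, 8138357, 0, 0, 0, 0, 0, 0, ⟨0, 0⟩, 0⟩, 0, 223363⟩ 0 0)) (.pos 5 .pm ⟨⟨0, 0, 6171571, 0, 0, 0, 0, 0, 0, ⟨0, 0⟩, 0⟩, 0, 0⟩ 0 0)) (.pos 3 .pm ⟨⟨0, 0, 0, 0, 0, 0, 0, 0, 0, ⟨0, 0⟩, 0⟩, 0, 0⟩ 0 0)) (.cut .v 67108864 (.cut .d 3346276 (.cut .v 33554432 (.cut .d 1673138 (.cut .v 25165824 (.cut .d 836569 (.cut .v 20971520 (.cut .d 418284 (.cut .v 18874368 (.cut .d 209142 (.cut .d 104571 (.cut .v 17825792 (.cut .v 17301504 (.cut .s 12124160 (.pos 29 .pp ⟨⟨138687868, 0, 0, 0, 0, 0, 0, 0, 0, ⟨0, 0⟩, 0⟩, 2115922, 0⟩ 0 0) (.pos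 29 .pp ⟨⟨151535682, 0, 0, 0, 0, 0, 0, 0, 0, ⟨0, 0⟩, 0⟩, 2378321, 0⟩ 0 0)) (.pos 30 .pp ⟨⟨173525876, 0, 0, 0, 0, 0, 0, 0, 0, ⟨0, 0⟩, 0⟩, 0, 0⟩ 0 0)) (.pos 28 .pp ⟨⟨199080755, 0, 0, 0, 0, 0, 0, 0, 0, ⟨0, 0⟩, 0⟩, 0, 0⟩ 0 0)) (.pos 25 .pp ⟨⟨151060984, 0, 0, 0, 0, 0, 0, 0, 0, ⟨0, 0⟩, 0⟩, 0, 1651⟩ 0 0)) (.pos 25 .pp ⟨⟨0, 0, 0, 0, 0, 0, 0, 0, 0, ⟨0, 0⟩, 0⟩, 0, 591254⟩ 0 0)) (.cut .d 209142 (.pos 26 .pp ⟨⟨240094519, 0, 0, 0, 0, 0, 0, 0, 0, ⟨0, 0⟩, 0⟩, 0, 0⟩ 0 0) (.cut .v 19922944 (.pos 47 .pp ⟨⟨176930057, 0, 0, 0, 0, 0, 0, 0, 0, ⟨0, 0⟩, 0⟩, 0, 0⟩ 0 0) (.pos 48 .pp ⟨⟨208748069, 0, 0, 0, 0, 0, 0, 0, 0, ⟨0, 0⟩, 0⟩, 0, 0⟩ 0 0)))) (.pos 23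 .pp ⟨⟨0, 0, 0, 0, 0, 0, 0, 0, 0, ⟨0, 0⟩, 0⟩, 0, 620452⟩ 0 0)) (.cut .d 418284 (.cut .v 23068672 (.cut .v 22020096 (.cut .d 209142 (.void 57 ⟨⟨0, 0, 0, 0, 0, 0, 0, 0, 0, ⟨0, 0⟩, 0⟩, 100000, 0⟩ 0 0) (.pos 57 .pp ⟨⟨244263774, 0, 0, 0, 0, 0, 0, 0, 0, ⟨0, 0⟩, 0⟩, 0, 0⟩ 0 0)) (.pos 58 .pp ⟨⟨292737380, 0, 0, 0, 0, 0, 0, 0, 0, ⟨0, 0⟩, 0⟩, 0, 0⟩ 0 0)) (.void 54 ⟨⟨0, 0, 0, 0, 0, 0, 0, 0, 0, ⟨0, 0⟩, 0⟩, 100000, 0⟩ 0 0)) (.cut .v 23068672 (.pos 53 .pp ⟨⟨54133800, 0, 0, 0, 0, 0, 67727, 0, 0, ⟨0, 0⟩, 0⟩, 20583458, 0⟩ 0 0) (.pos 54 .pp ⟨⟨0, 0, 0, 0, 0, 0, 0, 0, 0, ⟨0, 0⟩, 0⟩, 34333520, 0⟩ 0 0)))) (.pos 21 .pp ⟨⟨0, 0, 0, 0, 0, 0, 0, 0, 0, ⟨0,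 0⟩, 0⟩, 0, 670088⟩ 0 0)) (.cut .d 836569 (.cut .d 418284 (.void 22 ⟨⟨0, 0, 0, 0, 0, 0, 0, 0, 0, ⟨0, 0⟩, 0⟩, 100000, 0⟩ 0 0) (.pos 22 .pp ⟨⟨0, 0, 0, 0, 0, 0, 0, 0, 0, ⟨0, 0⟩, 0⟩, 47345018, 0⟩ 0 0)) (.pos 22 .pp ⟨⟨0, 0, 0, 0, 0, 0, 0, 0, 0, ⟨0, 0⟩, 0⟩, 30961714, 0⟩ 0 0))) (.pos 20 .pp ⟨⟨0, 0, 0, 0, 0, 0, 2224522, 0, 0, ⟨0, 0⟩, 0⟩, 0, 0⟩ 0 0)) (.cut .d 1673138 (.pos 79 .pp ⟨⟨0, 0, 0, 0, 0, 0, 0, 0, 0, ⟨0, 0⟩, 0⟩, 109541504, 0⟩ 0 0) (.pos 79 .pp ⟨⟨0, 0, 0, 0, 0, 0, 0, 0, 0, ⟨0, 0⟩, 0⟩, 39550907, 0⟩ 0 0))) (.pos 78 .pp ⟨⟨0, 0, 0, 0, 0, 0, 0, 0, 0, ⟨0, 0⟩, 0⟩, 0, 558407⟩ 0 0)) (.void 88 ⟨⟨0, 0, 0, 45786, 0, 0, 0, 0, 0, ⟨0, 0⟩, 0⟩, 54214,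 0⟩ 0 0)))),
    by decide +kernel⟩

theorem covers19 : cell.Covers Vale.Agent.P237.Petty.Cor.Grid.N11.table row19.1 :=
  ⟨(.cut .d 0 (.cut .v 16777216 (.cut .v 8388608 (.pos 2 .mm ⟨⟨0, 0, 310664738, 0, 0, 122660697, 0, 0, 0, ⟨0, 0⟩, 0⟩, 0, 0⟩ 0 0) (.cut .d (-8388608) (.void 3 ⟨⟨0, 0, 0, 0, 0, 100000, 0, 0, 0, ⟨0, 0⟩, 0⟩, 0, 0⟩ 0 0) (.cut .d (-4194304) (.void 3 ⟨⟨0, 0, 0, 0, 0, 100000, 0, 0, 0, ⟨0, 0⟩, 0⟩, 0, 0⟩ 0 0) (.cut .d (-2097152) (.void 3 ⟨⟨0, 0, 0, 0, 0, 100000, 0, 0, 0, ⟨0, 0⟩, 0⟩, 0, 0⟩ 0 0) (.cut .d (-1048576) (.void 3 ⟨⟨0, 0, 0, 0, 0, 100000, 0, 0, 0, ⟨0, 0⟩, 0⟩, 0, 0⟩ 0 0) (.cut .d (-524288) (.void 3 ⟨⟨0, 0, 0, 0, 0,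 100000, 0, 0, 0, ⟨0, 0⟩, 0⟩, 0, 0⟩ 0 0) (.cut .s 12386304 (.pos 3 .mm ⟨⟨0, 0, 0, 0, 0, 321178247, 0, 0, 0, ⟨0, 0⟩, 0⟩, 0, 0⟩ 0 0) (.pos 3 .mm ⟨⟨0, 0, 0, 0, 0, 356587267, 0, 0, 0, ⟨0, 0⟩, 0⟩, 0, 0⟩ 0 0)))))))) (.cut .v 67108864 (.cut .v 33554432 (.cut .v 25165824 (.cut .d (-8388608) (.void 21 ⟨⟨100000, 0, 0, 0, 0, 0, 0, 0, 0, ⟨0, 0⟩, 0⟩, 0, 0⟩ 0 0) (.cut .v 20971520 (.cut .d (-4194304) (.void 23 ⟨⟨100000, 0, 0, 0, 0, 0, 0, 0, 0, ⟨0, 0⟩, 0⟩, 0, 0⟩ 0 0) (.cut .d (-2097152) (.void 23 ⟨⟨100000, 0, 0, 0, 0, 0, 0, 0, 0, ⟨0, 0⟩, 0⟩, 0, 0⟩ 0 0) (.cut .v 18874368 (.cut .d (-1048576) (.void 25 ⟨⟨100000, 0, 0, 0, 0, 0, 0, 0, 0, ⟨0, 0⟩, 0⟩,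 0, 0⟩ 0 0) (.cut .v 17825792 (.cut .v 17301504 (.cut .d (-524288) (.void 29 ⟨⟨100000, 0, 0, 0, 0, 0, 0, 0, 0, ⟨0, 0⟩, 0⟩, 0, 0⟩ 0 0) (.cut .v 17039360 (.cut .d (-262144) (.void 31 ⟨⟨100000, 0, 0, 0, 0, 0, 0, 0, 0, ⟨0, 0⟩, 0⟩, 0, 0⟩ 0 0) (.cut .d (-131072) (.void 31 ⟨⟨100000, 0, 0, 0, 0, 0, 0, 0, 0, ⟨0, 0⟩, 0⟩, 0, 0⟩ 0 0) (.cut .d (-65536) (.void 31 ⟨⟨100000, 0, 0, 0, 0, 0, 0, 0, 0, ⟨0, 0⟩, 0⟩, 0, 0⟩ 0 0) (.cut .d (-32768) (.void 31 ⟨⟨0, 0, 0, 0, 0, 100000, 0, 0, 0, ⟨0, 0⟩, 0⟩, 0, 0⟩ 0 0) (.cut .s 12386304 (.cut .v 16908288 (.cut .s 12320768 (.cut .d (-16384) (.cut .d (-24576) (.void 35 ⟨⟨0, 0, 0, 0, 0, 100000, 0, 0, 0, ⟨0, 0⟩,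 0⟩, 0, 0⟩ 0 0) (.cut .l 167772 (.void 35 ⟨⟨0, 0, 0, 0, 0, 100000, 0, 0, 0, ⟨0, 0⟩, 0⟩, 0, 0⟩ 0 0) (.cut .v 16842752 (.cut .l 251658 (.pos 41 .mp ⟨⟨154009779, 0, 0, 0, 0, 68560849, 0, 0, 0, ⟨0, 0⟩, 0⟩, 0, 0⟩ 0 0) (.cut .s 12288000 (.pos 41 .mp ⟨⟨152737851, 0, 0, 0, 0, 58419524, 0, 0, 0, ⟨0, 0⟩, 0⟩, 0, 0⟩ 0 0) (.pos 41 .mp ⟨⟨156296175, 0, 0, 0, 0, 59848434, 0, 0, 0, ⟨0, 0⟩, 0⟩, 0, 0⟩ 0 0))) (.cut .s 12288000 (.pos 42 .mp ⟨⟨172861045, 0, 0, 0, 0, 25897771, 0, 0, 0, ⟨0, 0⟩, 0⟩, 0, 0⟩ 0 0) (.pos 42 .mp ⟨⟨176282774, 0, 0, 0, 0, 27488700, 0, 0, 0, ⟨0, 0⟩, 0⟩, 0, 0⟩ 0 0))))) (.cut .v 16842752 (.cut .s 12288000 (.cut .l 167772 (.cut .d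 (-8192) (.cut .s 12271616 (.pos 41 .mp ⟨⟨153244577, 0, 0, 0, 0, 57824812, 0, 0, 0, ⟨0, 0⟩, 0⟩, 0, 0⟩ 0 0) (.pos 41 .mp ⟨⟨155011045, 0, 0, 0, 0, 58451830, 0, 0, 0, ⟨0, 0⟩, 0⟩, 0, 0⟩ 0 0)) (.cut .v 16809984 (.cut .s 12271616 (.cut .l 83886 (.cut .d (-4096) (.pos 45 .mp ⟨⟨152906433, 0, 0, 0, 0, 57672649, 0, 0, 0, ⟨0, 0⟩, 0⟩, 0, 0⟩ 0 0) (.cut .s 12263424 (.pos 45 .mp ⟨⟨154785220, 0, 0, 0, 0, 49795038, 0, 0, 0, ⟨0, 0⟩, 0⟩, 0, 0⟩ 0 0) (.pos 45 .mp ⟨⟨155698550, 0, 0, 0, 0, 50019642, 0, 0, 0, ⟨0, 0⟩, 0⟩, 0, 0⟩ 0 0))) (.pos 45 .mp ⟨⟨155488395, 0, 0, 0, 0, 47551660, 0, 0, 0, ⟨0, 0⟩, 0⟩, 0, 0⟩ 0 0)) (.cut .l 83886 (.cut .d (-4096) (.pos 45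 .mp ⟨⟨154665421, 0, 0, 0, 0, 58304505, 0, 0, 0, ⟨0, 0⟩, 0⟩, 0, 0⟩ 0 0) (.cut .s 12279808 (.pos 45 .mp ⟨⟨156616213, 0, 0, 0, 0, 50251324, 0, 0, 0, ⟨0, 0⟩, 0⟩, 0, 0⟩ 0 0) (.pos 45 .mp ⟨⟨157534972, 0, 0, 0, 0, 50496935, 0, 0, 0, ⟨0, 0⟩, 0⟩, 0, 0⟩ 0 0))) (.pos 45 .mp ⟨⟨157281246, 0, 0, 0, 0, 48155867, 0, 0, 0, ⟨0, 0⟩, 0⟩, 0, 0⟩ 0 0))) (.pos 46 .mp ⟨⟨185556494, 0, 0, 0, 0, 0, 0, 0, 0, ⟨0, 0⟩, 0⟩, 0, 0⟩ 0 0))) (.cut .s 12271616 (.pos 41 .mp ⟨⟨156659932, 0, 0, 0, 0, 46130572, 0, 0, 0, ⟨0, 0⟩, 0⟩, 0, 0⟩ 0 0) (.pos 41 .mp ⟨⟨158473761, 0, 0, 0, 0, 46706655, 0, 0, 0, ⟨0, 0⟩, 0⟩, 0, 0⟩ 0 0))) (.cut .l 167772 (.cut .d (-8192) (.cut .s 12304384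 (.pos 41 .mp ⟨⟨156798170, 0, 0, 0, 0, 59104832, 0, 0, 0, ⟨0, 0⟩, 0⟩, 0, 0⟩ 0 0) (.pos 41 .mp ⟨⟨158606167, 0, 0, 0, 0, 59784133, 0, 0, 0, ⟨0, 0⟩, 0⟩, 0, 0⟩ 0 0)) (.cut .v 16809984 (.cut .s 12304384 (.cut .l 83886 (.cut .d (-4096) (.pos 45 .mp ⟨⟨156444946, 0, 0, 0, 0, 58962439, 0, 0, 0, ⟨0, 0⟩, 0⟩, 0, 0⟩ 0 0) (.cut .s 12296192 (.pos 45 .mp ⟨⟨158438648, 0, 0, 0, 0, 50790570, 0, 0, 0, ⟨0, 0⟩, 0⟩, 0, 0⟩ 0 0) (.pos 45 .mp ⟨⟨159347586, 0, 0, 0, 0, 51089471, 0, 0, 0, ⟨0, 0⟩, 0⟩, 0, 0⟩ 0 0))) (.pos 45 .mp ⟨⟨159095089, 0, 0, 0, 0, 48775042, 0, 0, 0, ⟨0, 0⟩, 0⟩, 0, 0⟩ 0 0)) (.cut .l 83886 (.cut .d (-4096) (.pos 45 .mp ⟨⟨158245220, 0, 0, 0,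 0, 59646768, 0, 0, 0, ⟨0, 0⟩, 0⟩, 0, 0⟩ 0 0) (.cut .s 12312576 (.pos 45 .mp ⟨⟨160261814, 0, 0, 0, 0, 51393623, 0, 0, 0, ⟨0, 0⟩, 0⟩, 0, 0⟩ 0 0) (.pos 45 .mp ⟨⟨161181359, 0, 0, 0, 0, 51703008, 0, 0, 0, ⟨0, 0⟩, 0⟩, 0, 0⟩ 0 0))) (.pos 45 .mp ⟨⟨160930140, 0, 0, 0, 0, 49408530, 0, 0, 0, ⟨0, 0⟩, 0⟩, 0, 0⟩ 0 0))) (.pos 46 .mp ⟨⟨189779164, 0, 0, 0, 0, 0, 0, 0, 0, ⟨0, 0⟩, 0⟩, 0, 0⟩ 0 0))) (.cut .s 12304384 (.pos 41 .mp ⟨⟨160308946, 0, 0, 0, 0, 47297190, 0, 0, 0, ⟨0, 0⟩, 0⟩, 0, 0⟩ 0 0) (.pos 41 .mp ⟨⟨162165707, 0, 0, 0, 0, 47901518, 0, 0, 0, ⟨0, 0⟩, 0⟩, 0, 0⟩ 0 0)))) (.pos 42 .mp ⟨⟨189180666, 0, 0, 0, 0, 0, 0, 0, 0, ⟨0, 0⟩, 0⟩, 0, 0⟩ 0 0)))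 (.cut .d (-16384) (.cut .d (-24576) (.void 35 ⟨⟨0, 0, 0, 0, 0, 100000, 0, 0, 0, ⟨0, 0⟩, 0⟩, 0, 0⟩ 0 0) (.cut .l 167772 (.void 35 ⟨⟨0, 0, 0, 0, 0, 100000, 0, 0, 0, ⟨0, 0⟩, 0⟩, 0, 0⟩ 0 0) (.cut .v 16842752 (.cut .v 16809984 (.pos 45 .mp ⟨⟨0, 0, 0, 0, 0, 357521451, 0, 0, 0, ⟨0, 0⟩, 0⟩, 0, 0⟩ 0 0) (.cut .l 251658 (.pos 46 .mp ⟨⟨162502493, 0, 0, 0, 0, 69662210, 0, 0, 0, ⟨0, 0⟩, 0⟩, 0, 0⟩ 0 0) (.cut .v 16826368 (.pos 82 .mp ⟨⟨0, 0, 0, 0, 0, 305376726, 0, 0, 0, ⟨0, 0⟩, 0⟩, 0, 0⟩ 0 0) (.cut .s 12353536 (.cut .s 12337152 (.pos 83 .mp ⟨⟨160866554, 0, 0, 0, 0, 57669822, 0, 0, 0, ⟨0, 0⟩, 0⟩, 0, 0⟩ 0 0) (.pos 83 .mp ⟨⟨162729641, 0, 0, 0, 0,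 58393331, 0, 0, 0, ⟨0, 0⟩, 0⟩, 0, 0⟩ 0 0)) (.cut .s 12369920 (.pos 83 .mp ⟨⟨164614474, 0, 0, 0, 0, 59135403, 0, 0, 0, ⟨0, 0⟩, 0⟩, 0, 0⟩ 0 0) (.pos 83 .mp ⟨⟨166521285, 0, 0, 0, 0, 59895718, 0, 0, 0, ⟨0, 0⟩, 0⟩, 0, 0⟩ 0 0)))))) (.cut .s 12353536 (.pos 42 .mp ⟨⟨179929470, 0, 0, 0, 0, 28928897, 0, 0, 0, ⟨0, 0⟩, 0⟩, 0, 0⟩ 0 0) (.pos 42 .mp ⟨⟨183823881, 0, 0, 0, 0, 30180572, 0, 0, 0, ⟨0, 0⟩, 0⟩, 0, 0⟩ 0 0))))) (.cut .v 16842752 (.cut .s 12353536 (.cut .l 167772 (.cut .d (-8192) (.cut .s 12337152 (.pos 41 .mp ⟨⟨160435252, 0, 0, 0, 0, 60490051, 0, 0, 0, ⟨0, 0⟩, 0⟩, 0, 0⟩ 0 0) (.pos 41 .mp ⟨⟨162285647, 0, 0, 0, 0, 61222912, 0, 0, 0, ⟨0,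 0⟩, 0⟩, 0, 0⟩ 0 0)) (.cut .v 16809984 (.cut .s 12337152 (.cut .l 83886 (.cut .d (-4096) (.pos 45 .mp ⟨⟨160066461, 0, 0, 0, 0, 60357813, 0, 0, 0, ⟨0, 0⟩, 0⟩, 0, 0⟩ 0 0) (.cut .s 12328960 (.pos 45 .mp ⟨⟨162106250, 0, 0, 0, 0, 52017608, 0, 0, 0, ⟨0, 0⟩, 0⟩, 0, 0⟩ 0 0) (.cut .s 12333056 (.pos 45 .mp ⟨⟨162547949, 0, 0, 0, 0, 52920807, 0, 0, 0, ⟨0, 0⟩, 0⟩, 0, 0⟩ 0 0) (.pos 45 .mp ⟨⟨163001044, 0, 0, 0, 0, 53103527, 0, 0, 0, ⟨0, 0⟩, 0⟩, 0, 0⟩ 0 0)))) (.pos 45 .mp ⟨⟨162786622, 0, 0, 0, 0, 50055673, 0, 0, 0, ⟨0, 0⟩, 0⟩, 0, 0⟩ 0 0)) (.cut .l 83886 (.cut .d (-4096) (.pos 45 .mp ⟨⟨161908886, 0, 0, 0, 0, 61095897, 0, 0, 0, ⟨0, 0⟩, 0⟩, 0, 0⟩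 0 0) (.cut .v 16793600 (.cut .s 12345344 (.pos 55 .mp ⟨⟨163657507, 0, 0, 0, 0, 53194144, 0, 0, 0, ⟨0, 0⟩, 0⟩, 0, 0⟩ 0 0) (.pos 55 .mp ⟨⟨164596919, 0, 0, 0, 0, 53527352, 0, 0, 0, ⟨0, 0⟩, 0⟩, 0, 0⟩ 0 0)) (.pos 56 .mp ⟨⟨194404731, 0, 0, 0, 0, 0, 0, 0, 0, ⟨0, 0⟩, 0⟩, 0, 0⟩ 0 0))) (.pos 45 .mp ⟨⟨164664759, 0, 0, 0, 0, 50715807, 0, 0, 0, ⟨0, 0⟩, 0⟩, 0, 0⟩ 0 0))) (.pos 46 .mp ⟨⟨194139817, 0, 0, 0, 0, 0, 0, 0, 0, ⟨0, 0⟩, 0⟩, 0, 0⟩ 0 0))) (.cut .d (-8192) (.cut .s 12337152 (.pos 41 .mp ⟨⟨164044269, 0, 0, 0, 0, 48853185, 0, 0, 0, ⟨0, 0⟩, 0⟩, 0, 0⟩ 0 0) (.cut .s 12345344 (.pos 41 .mp ⟨⟨164991797, 0, 0, 0, 0, 50798538, 0, 0, 0, ⟨0, 0⟩, 0⟩,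 0, 0⟩ 0 0) (.pos 41 .mp ⟨⟨165944862, 0, 0, 0, 0, 51108459, 0, 0, 0, ⟨0, 0⟩, 0⟩, 0, 0⟩ 0 0))) (.pos 41 .mp ⟨⟨0, 0, 0, 0, 0, 0, 0, 0, 0, ⟨0, 0⟩, 0⟩, 0, 0⟩ 0 0))) (.cut .s 12369920 (.cut .l 167772 (.cut .d (-8192) (.pos 41 .mp ⟨⟨164157574, 0, 0, 0, 0, 61983043, 0, 0, 0, ⟨0, 0⟩, 0⟩, 0, 0⟩ 0 0) (.cut .v 16809984 (.cut .l 83886 (.cut .d (-4096) (.pos 45 .mp ⟨⟨163772719, 0, 0, 0, 0, 61861352, 0, 0, 0, ⟨0, 0⟩, 0⟩, 0, 0⟩ 0 0) (.cut .v 16793600 (.cut .s 12361728 (.pos 55 .mp ⟨⟨165541779, 0, 0, 0, 0, 53865722, 0, 0, 0, ⟨0, 0⟩, 0⟩, 0, 0⟩ 0 0) (.cut .s 12365824 (.pos 55 .mp ⟨⟨166863750, 0, 0, 0, 0, 53279812, 0, 0, 0, ⟨0, 0⟩, 0⟩, 0, 0⟩ 0 0)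 (.pos 55 .mp ⟨⟨167331298, 0, 0, 0, 0, 53467519, 0, 0, 0, ⟨0, 0⟩, 0⟩, 0, 0⟩ 0 0))) (.pos 56 .mp ⟨⟨196641308, 0, 0, 0, 0, 0, 0, 0, 0, ⟨0, 0⟩, 0⟩, 0, 0⟩ 0 0))) (.pos 45 .mp ⟨⟨166564779, 0, 0, 0, 0, 51388264, 0, 0, 0, ⟨0, 0⟩, 0⟩, 0, 0⟩ 0 0)) (.pos 46 .mp ⟨⟨196873349, 0, 0, 0, 0, 0, 0, 0, 0, ⟨0, 0⟩, 0⟩, 0, 0⟩ 0 0))) (.cut .s 12361728 (.pos 41 .mp ⟨⟨166903492, 0, 0, 0, 0, 50895526, 0, 0, 0, ⟨0, 0⟩, 0⟩, 0, 0⟩ 0 0) (.pos 41 .mp ⟨⟨167867717, 0, 0, 0, 0, 51226032, 0, 0, 0, ⟨0, 0⟩, 0⟩, 0, 0⟩ 0 0))) (.cut .l 167772 (.cut .d (-8192) (.pos 41 .mp ⟨⟨166051261, 0, 0, 0, 0, 62770778, 0, 0, 0, ⟨0, 0⟩, 0⟩, 0, 0⟩ 0 0) (.cut .v 16809984 (.cut .l 83886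 (.cut .d (-4096) (.pos 45 .mp ⟨⟨165658184, 0, 0, 0, 0, 62654511, 0, 0, 0, ⟨0, 0⟩, 0⟩, 0, 0⟩ 0 0) (.cut .v 16793600 (.cut .l 41943 (.cut .d (-2048) (.pos 55 .mp ⟨⟨165462548, 0, 0, 0, 0, 62594824, 0, 0, 0, ⟨0, 0⟩, 0⟩, 0, 0⟩ 0 0) (.cut .s 12378112 (.pos 55 .mp ⟨⟨166955103, 0, 0, 0, 0, 55372821, 0, 0, 0, ⟨0, 0⟩, 0⟩, 0, 0⟩ 0 0) (.pos 55 .mp ⟨⟨167918810, 0, 0, 0, 0, 55720096, 0, 0, 0, ⟨0, 0⟩, 0⟩, 0, 0⟩ 0 0))) (.pos 55 .mp ⟨⟨167825998, 0, 0, 0, 0, 52884047, 0, 0, 0, ⟨0, 0⟩, 0⟩, 0, 0⟩ 0 0)) (.pos 56 .mp ⟨⟨198913607, 0, 0, 0, 0, 0, 0, 0, 0, ⟨0, 0⟩, 0⟩, 0, 0⟩ 0 0))) (.pos 45 .mp ⟨⟨168486915, 0, 0, 0, 0, 52072367, 0, 0, 0, ⟨0, 0⟩, 0⟩, 0,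 0⟩ 0 0)) (.pos 46 .mp ⟨⟨199148342, 0, 0, 0, 0, 0, 0, 0, 0, ⟨0, 0⟩, 0⟩, 0, 0⟩ 0 0))) (.cut .s 12378112 (.pos 41 .mp ⟨⟨168837566, 0, 0, 0, 0, 51559318, 0, 0, 0, ⟨0, 0⟩, 0⟩, 0, 0⟩ 0 0) (.pos 41 .mp ⟨⟨169813069, 0, 0, 0, 0, 51895297, 0, 0, 0, ⟨0, 0⟩, 0⟩, 0, 0⟩ 0 0))))) (.pos 42 .mp ⟨⟨198019179, 0, 0, 0, 0, 0, 0, 0, 0, ⟨0, 0⟩, 0⟩, 0, 0⟩ 0 0)))) (.pos 36 .mp ⟨⟨199934323, 0, 0, 0, 0, 0, 0, 0, 0, ⟨0, 0⟩, 0⟩, 0, 0⟩ 0 0)) (.cut .v 16908288 (.cut .d (-16384) (.cut .d (-24576) (.void 35 ⟨⟨0, 0, 0, 0, 0, 100000, 0, 0, 0, ⟨0, 0⟩, 0⟩, 0, 0⟩ 0 0) (.cut .l 167772 (.void 35 ⟨⟨0, 0, 0, 0, 0, 100000, 0, 0, 0, ⟨0, 0⟩, 0⟩, 0, 0⟩ 0 0) (.cut .s 12451840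 (.cut .v 16842752 (.cut .v 16809984 (.pos 45 .mp ⟨⟨0, 0, 0, 0, 0, 376057625, 0, 0, 0, ⟨0, 0⟩, 0⟩, 0, 0⟩ 0 0) (.cut .v 16826368 (.pos 82 .mp ⟨⟨0, 0, 0, 0, 0, 377424104, 0, 0, 0, ⟨0, 0⟩, 0⟩, 0, 0⟩ 0 0) (.cut .l 251658 (.pos 83 .mp ⟨⟨175127640, 0, 0, 0, 0, 63162986, 0, 0, 0, ⟨0, 0⟩, 0⟩, 0, 0⟩ 0 0) (.cut .d (-20480) (.pos 83 .mp ⟨⟨169374990, 0, 0, 0, 0, 70178695, 0, 0, 0, ⟨0, 0⟩, 0⟩, 0, 0⟩ 0 0) (.cut .s 12419072 (.pos 83 .mp ⟨⟨174526689, 0, 0, 0, 0, 50389357, 0, 0, 0, ⟨0, 0⟩, 0⟩, 0, 0⟩ 0 0) (.pos 83 .mp ⟨⟨178603741, 0, 0, 0, 0, 51747208, 0, 0, 0, ⟨0, 0⟩, 0⟩, 0, 0⟩ 0 0)))))) (.cut .s 12419072 (.pos 42 .mp ⟨⟨187989284, 0, 0, 0, 0, 31204807,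 0, 0, 0, ⟨0, 0⟩, 0⟩, 0, 0⟩ 0 0) (.pos 42 .mp ⟨⟨192449508, 0, 0, 0, 0, 31961510, 0, 0, 0, ⟨0, 0⟩, 0⟩, 0, 0⟩ 0 0))) (.cut .l 251658 (.pos 35 .mp ⟨⟨177958466, 0, 0, 0, 0, 272218317, 0, 0, 0, ⟨0, 0⟩, 0⟩, 0, 0⟩ 0 0) (.cut .v 16842752 (.cut .s 12484608 (.pos 41 .mp ⟨⟨175382023, 0, 0, 0, 0, 68101750, 0, 0, 0, ⟨0, 0⟩, 0⟩, 0, 0⟩ 0 0) (.pos 41 .mp ⟨⟨179471103, 0, 0, 0, 0, 69955542, 0, 0, 0, ⟨0, 0⟩, 0⟩, 0, 0⟩ 0 0)) (.cut .s 12484608 (.pos 42 .mp ⟨⟨197228959, 0, 0, 0, 0, 32409374, 0, 0, 0, ⟨0, 0⟩, 0⟩, 0, 0⟩ 0 0) (.pos 42 .mp ⟨⟨202352640, 0, 0, 0, 0, 32505823, 0, 0, 0, ⟨0, 0⟩, 0⟩, 0, 0⟩ 0 0))))))) (.cut .s 12451840 (.cut .v 16842752 (.cut .s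 12419072 (.cut .s 12402688 (.cut .l 167772 (.cut .d (-8192) (.pos 41 .mp ⟨⟨167966937, 0, 0, 0, 0, 63586456, 0, 0, 0, ⟨0, 0⟩, 0⟩, 0, 0⟩ 0 0) (.cut .v 16809984 (.cut .l 83886 (.cut .d (-4096) (.pos 45 .mp ⟨⟨167565510, 0, 0, 0, 0, 63475715, 0, 0, 0, ⟨0, 0⟩, 0⟩, 0, 0⟩ 0 0) (.cut .v 16793600 (.cut .l 41943 (.cut .d (-2048) (.pos 55 .mp ⟨⟨167365711, 0, 0, 0, 0, 63418769, 0, 0, 0, ⟨0, 0⟩, 0⟩, 0, 0⟩ 0 0) (.cut .s 12394496 (.pos 55 .mp ⟨⟨168886358, 0, 0, 0, 0, 56076075, 0, 0, 0, ⟨0, 0⟩, 0⟩, 0, 0⟩ 0 0) (.pos 55 .mp ⟨⟨169857712, 0, 0, 0, 0, 56440874, 0, 0, 0, ⟨0, 0⟩, 0⟩, 0, 0⟩ 0 0))) (.pos 55 .mp ⟨⟨169758716, 0, 0, 0, 0, 53595010, 0, 0, 0,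 ⟨0, 0⟩, 0⟩, 0, 0⟩ 0 0)) (.pos 56 .mp ⟨⟨201221993, 0, 0, 0, 0, 0, 0, 0, 0, ⟨0, 0⟩, 0⟩, 0, 0⟩ 0 0))) (.pos 45 .mp ⟨⟨170431400, 0, 0, 0, 0, 52767435, 0, 0, 0, ⟨0, 0⟩, 0⟩, 0, 0⟩ 0 0)) (.pos 46 .mp ⟨⟨201459466, 0, 0, 0, 0, 0, 0, 0, 0, ⟨0, 0⟩, 0⟩, 0, 0⟩ 0 0))) (.cut .s 12394496 (.pos 41 .mp ⟨⟨170794256, 0, 0, 0, 0, 52233884, 0, 0, 0, ⟨0, 0⟩, 0⟩, 0, 0⟩ 0 0) (.pos 41 .mp ⟨⟨171781157, 0, 0, 0, 0, 52574991, 0, 0, 0, ⟨0, 0⟩, 0⟩, 0, 0⟩ 0 0))) (.cut .l 167772 (.cut .d (-8192) (.pos 41 .mp ⟨⟨169904836, 0, 0, 0, 0, 64430419, 0, 0, 0, ⟨0, 0⟩, 0⟩, 0, 0⟩ 0 0) (.cut .v 16809984 (.cut .l 83886 (.cut .d (-4096) (.pos 45 .mp ⟨⟨169494931, 0, 0, 0, 0,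 64325307, 0, 0, 0, ⟨0, 0⟩, 0⟩, 0, 0⟩ 0 0) (.cut .v 16793600 (.cut .l 41943 (.cut .d (-2048) (.pos 55 .mp ⟨⟨169290905, 0, 0, 0, 0, 64271155, 0, 0, 0, ⟨0, 0⟩, 0⟩, 0, 0⟩ 0 0) (.cut .s 12410880 (.pos 55 .mp ⟨⟨170832837, 0, 0, 0, 0, 56814612, 0, 0, 0, ⟨0, 0⟩, 0⟩, 0, 0⟩ 0 0) (.pos 55 .mp ⟨⟨171811697, 0, 0, 0, 0, 57197410, 0, 0, 0, ⟨0, 0⟩, 0⟩, 0, 0⟩ 0 0))) (.pos 55 .mp ⟨⟨171713828, 0, 0, 0, 0, 54316535, 0, 0, 0, ⟨0, 0⟩, 0⟩, 0, 0⟩ 0 0)) (.pos 56 .mp ⟨⟨203566840, 0, 0, 0, 0, 0, 0, 0, 0, ⟨0, 0⟩, 0⟩, 0, 0⟩ 0 0))) (.pos 45 .mp ⟨⟨172398474, 0, 0, 0, 0, 53472782, 0, 0, 0, ⟨0, 0⟩, 0⟩, 0, 0⟩ 0 0)) (.pos 46 .mp ⟨⟨203807094, 0, 0, 0, 0, 0, 0, 0,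 0, ⟨0, 0⟩, 0⟩, 0, 0⟩ 0 0))) (.cut .s 12410880 (.pos 41 .mp ⟨⟨172773804, 0, 0, 0, 0, 52918532, 0, 0, 0, ⟨0, 0⟩, 0⟩, 0, 0⟩ 0 0) (.pos 41 .mp ⟨⟨173772225, 0, 0, 0, 0, 53264419, 0, 0, 0, ⟨0, 0⟩, 0⟩, 0, 0⟩ 0 0)))) (.cut .s 12435456 (.cut .l 167772 (.cut .d (-8192) (.pos 41 .mp ⟨⟨171865197, 0, 0, 0, 0, 65303016, 0, 0, 0, ⟨0, 0⟩, 0⟩, 0, 0⟩ 0 0) (.cut .v 16809984 (.cut .l 83886 (.cut .d (-4096) (.pos 45 .mp ⟨⟨171446682, 0, 0, 0, 0, 65203637, 0, 0, 0, ⟨0, 0⟩, 0⟩, 0, 0⟩ 0 0) (.cut .v 16793600 (.cut .l 41943 (.cut .d (-2048) (.pos 55 .mp ⟨⟨171238363, 0, 0, 0, 0, 65152331, 0, 0, 0, ⟨0, 0⟩, 0⟩, 0, 0⟩ 0 0) (.cut .s 12427264 (.pos 55 .mp ⟨⟨172794257,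 0, 0, 0, 0, 57589387, 0, 0, 0, ⟨0, 0⟩, 0⟩, 0, 0⟩ 0 0) (.pos 55 .mp ⟨⟨173780480, 0, 0, 0, 0, 57990666, 0, 0, 0, ⟨0, 0⟩, 0⟩, 0, 0⟩ 0 0))) (.pos 55 .mp ⟨⟨173691575, 0, 0, 0, 0, 55047933, 0, 0, 0, ⟨0, 0⟩, 0⟩, 0, 0⟩ 0 0)) (.pos 56 .mp ⟨⟨205948527, 0, 0, 0, 0, 0, 0, 0, 0, ⟨0, 0⟩, 0⟩, 0, 0⟩ 0 0))) (.pos 45 .mp ⟨⟨174388379, 0, 0, 0, 0, 54187713, 0, 0, 0, ⟨0, 0⟩, 0⟩, 0, 0⟩ 0 0)) (.pos 46 .mp ⟨⟨206191604, 0, 0, 0, 0, 0, 0, 0, 0, ⟨0, 0⟩, 0⟩, 0, 0⟩ 0 0))) (.cut .s 12427264 (.pos 41 .mp ⟨⟨174776453, 0, 0, 0, 0, 53612563, 0, 0, 0, ⟨0, 0⟩, 0⟩, 0, 0⟩ 0 0) (.pos 41 .mp ⟨⟨175786519, 0, 0, 0, 0, 53962876, 0, 0, 0, ⟨0, 0⟩, 0⟩, 0, 0⟩ 0 0))) (.cut .l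 167772 (.cut .d (-8192) (.pos 41 .mp ⟨⟨173848259, 0, 0, 0, 0, 66204600, 0, 0, 0, ⟨0, 0⟩, 0⟩, 0, 0⟩ 0 0) (.cut .v 16809984 (.cut .l 83886 (.cut .d (-4096) (.pos 45 .mp ⟨⟨173421002, 0, 0, 0, 0, 66111061, 0, 0, 0, ⟨0, 0⟩, 0⟩, 0, 0⟩ 0 0) (.cut .v 16793600 (.cut .l 41943 (.cut .d (-2048) (.pos 55 .mp ⟨⟨173208325, 0, 0, 0, 0, 66062652, 0, 0, 0, ⟨0, 0⟩, 0⟩, 0, 0⟩ 0 0) (.cut .s 12443648 (.pos 55 .mp ⟨⟨174770329, 0, 0, 0, 0, 58401372, 0, 0, 0, ⟨0, 0⟩, 0⟩, 0, 0⟩ 0 0) (.pos 55 .mp ⟨⟨175763766, 0, 0, 0, 0, 58821628, 0, 0, 0, ⟨0, 0⟩, 0⟩, 0, 0⟩ 0 0))) (.pos 55 .mp ⟨⟨175692200, 0, 0, 0, 0, 55788509, 0, 0, 0, ⟨0, 0⟩, 0⟩, 0, 0⟩ 0 0)) (.pos 56 .mp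 ⟨⟨208367436, 0, 0, 0, 0, 0, 0, 0, 0, ⟨0, 0⟩, 0⟩, 0, 0⟩ 0 0))) (.pos 45 .mp ⟨⟨176401360, 0, 0, 0, 0, 54911530, 0, 0, 0, ⟨0, 0⟩, 0⟩, 0, 0⟩ 0 0)) (.pos 46 .mp ⟨⟨208613382, 0, 0, 0, 0, 0, 0, 0, 0, ⟨0, 0⟩, 0⟩, 0, 0⟩ 0 0))) (.cut .s 12443648 (.pos 41 .mp ⟨⟨176802453, 0, 0, 0, 0, 54315270, 0, 0, 0, ⟨0, 0⟩, 0⟩, 0, 0⟩ 0 0) (.pos 41 .mp ⟨⟨177824288, 0, 0, 0, 0, 54669655, 0, 0, 0, ⟨0, 0⟩, 0⟩, 0, 0⟩ 0 0))))) (.pos 42 .mp ⟨⟨207393616, 0, 0, 0, 0, 0, 0, 0, 0, ⟨0, 0⟩, 0⟩, 0, 0⟩ 0 0)) (.cut .v 16842752 (.cut .s 12484608 (.cut .s 12468224 (.cut .l 167772 (.cut .d (-8192) (.pos 41 .mp ⟨⟨175854268, 0, 0, 0, 0, 67135531, 0, 0, 0, ⟨0, 0⟩, 0⟩, 0, 0⟩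 0 0) (.cut .v 16809984 (.cut .l 83886 (.cut .d (-4096) (.pos 45 .mp ⟨⟨175418135, 0, 0, 0, 0, 67047937, 0, 0, 0, ⟨0, 0⟩, 0⟩, 0, 0⟩ 0 0) (.cut .v 16793600 (.cut .s 12460032 (.pos 55 .mp ⟨⟨177315770, 0, 0, 0, 0, 58321406, 0, 0, 0, ⟨0, 0⟩, 0⟩, 0, 0⟩ 0 0) (.pos 55 .mp ⟨⟨178334156, 0, 0, 0, 0, 58725005, 0, 0, 0, ⟨0, 0⟩, 0⟩, 0, 0⟩ 0 0)) (.pos 56 .mp ⟨⟨210823959, 0, 0, 0, 0, 0, 0, 0, 0, ⟨0, 0⟩, 0⟩, 0, 0⟩ 0 0))) (.pos 45 .mp ⟨⟨178437668, 0, 0, 0, 0, 55643525, 0, 0, 0, ⟨0, 0⟩, 0⟩, 0, 0⟩ 0 0)) (.pos 46 .mp ⟨⟨211072816, 0, 0, 0, 0, 0, 0, 0, 0, ⟨0, 0⟩, 0⟩, 0, 0⟩ 0 0))) (.cut .s 12460032 (.pos 41 .mp ⟨⟨178852055, 0, 0, 0, 0, 55025942, 0, 0,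 0, ⟨0, 0⟩, 0⟩, 0, 0⟩ 0 0) (.pos 41 .mp ⟨⟨179885786, 0, 0, 0, 0, 55384041, 0, 0, 0, ⟨0, 0⟩, 0⟩, 0, 0⟩ 0 0))) (.cut .l 167772 (.cut .d (-8192) (.pos 41 .mp ⟨⟨177883472, 0, 0, 0, 0, 68096172, 0, 0, 0, ⟨0, 0⟩, 0⟩, 0, 0⟩ 0 0) (.cut .v 16809984 (.cut .l 83886 (.cut .d (-4096) (.pos 45 .mp ⟨⟨177438328, 0, 0, 0, 0, 68014632, 0, 0, 0, ⟨0, 0⟩, 0⟩, 0, 0⟩ 0 0) (.cut .v 16793600 (.cut .s 12476416 (.pos 55 .mp ⟨⟨179358414, 0, 0, 0, 0, 59133465, 0, 0, 0, ⟨0, 0⟩, 0⟩, 0, 0⟩ 0 0) (.pos 55 .mp ⟨⟨180388575, 0, 0, 0, 0, 59546763, 0, 0, 0, ⟨0, 0⟩, 0⟩, 0, 0⟩ 0 0)) (.pos 56 .mp ⟨⟨213318491, 0, 0, 0, 0, 0, 0, 0, 0, ⟨0, 0⟩, 0⟩, 0, 0⟩ 0 0))) (.pos 45 .mp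 ⟨⟨180497557, 0, 0, 0, 0, 56382986, 0, 0, 0, ⟨0, 0⟩, 0⟩, 0, 0⟩ 0 0)) (.pos 46 .mp ⟨⟨213570305, 0, 0, 0, 0, 0, 0, 0, 0, ⟨0, 0⟩, 0⟩, 0, 0⟩ 0 0))) (.cut .s 12476416 (.pos 41 .mp ⟨⟨180925514, 0, 0, 0, 0, 55743860, 0, 0, 0, ⟨0, 0⟩, 0⟩, 0, 0⟩ 0 0) (.pos 41 .mp ⟨⟨181971272, 0, 0, 0, 0, 56105310, 0, 0, 0, ⟨0, 0⟩, 0⟩, 0, 0⟩ 0 0)))) (.cut .s 12500992 (.cut .l 167772 (.cut .d (-8192) (.pos 41 .mp ⟨⟨179936123, 0, 0, 0, 0, 69086893, 0, 0, 0, ⟨0, 0⟩, 0⟩, 0, 0⟩ 0 0) (.cut .v 16809984 (.cut .l 83886 (.cut .d (-4096) (.pos 45 .mp ⟨⟨179481832, 0, 0, 0, 0, 69011516, 0, 0, 0, ⟨0, 0⟩, 0⟩, 0, 0⟩ 0 0) (.cut .s 12492800 (.pos 45 .mp ⟨⟨181771118, 0, 0,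 0, 0, 59374956, 0, 0, 0, ⟨0, 0⟩, 0⟩, 0, 0⟩ 0 0) (.pos 45 .mp ⟨⟨182815043, 0, 0, 0, 0, 59794439, 0, 0, 0, ⟨0, 0⟩, 0⟩, 0, 0⟩ 0 0))) (.pos 45 .mp ⟨⟨182581283, 0, 0, 0, 0, 57129194, 0, 0, 0, ⟨0, 0⟩, 0⟩, 0, 0⟩ 0 0)) (.pos 46 .mp ⟨⟨216106250, 0, 0, 0, 0, 0, 0, 0, 0, ⟨0, 0⟩, 0⟩, 0, 0⟩ 0 0))) (.cut .s 12492800 (.pos 41 .mp ⟨⟨183023092, 0, 0, 0, 0, 56468298, 0, 0, 0, ⟨0, 0⟩, 0⟩, 0, 0⟩ 0 0) (.pos 41 .mp ⟨⟨184081007, 0, 0, 0, 0, 56832734, 0, 0, 0, ⟨0, 0⟩, 0⟩, 0, 0⟩ 0 0))) (.cut .l 167772 (.cut .d (-8192) (.pos 41 .mp ⟨⟨182012476, 0, 0, 0, 0, 70108069, 0, 0, 0, ⟨0, 0⟩, 0⟩, 0, 0⟩ 0 0) (.cut .v 16809984 (.cut .l 83886 (.cut .d (-4096) (.pos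 45 .mp ⟨⟨181548901, 0, 0, 0, 0, 70038966, 0, 0, 0, ⟨0, 0⟩, 0⟩, 0, 0⟩ 0 0) (.cut .s 12509184 (.pos 45 .mp ⟨⟨183864979, 0, 0, 0, 0, 60218665, 0, 0, 0, ⟨0, 0⟩, 0⟩, 0, 0⟩ 0 0) (.pos 45 .mp ⟨⟨184920958, 0, 0, 0, 0, 60647607, 0, 0, 0, ⟨0, 0⟩, 0⟩, 0, 0⟩ 0 0))) (.pos 45 .mp ⟨⟨184689108, 0, 0, 0, 0, 57881421, 0, 0, 0, ⟨0, 0⟩, 0⟩, 0, 0⟩ 0 0)) (.pos 46 .mp ⟨⟨218681061, 0, 0, 0, 0, 0, 0, 0, 0, ⟨0, 0⟩, 0⟩, 0, 0⟩ 0 0))) (.cut .s 12509184 (.pos 41 .mp ⟨⟨185145051, 0, 0, 0, 0, 57198524, 0, 0, 0, ⟨0, 0⟩, 0⟩, 0, 0⟩ 0 0) (.pos 41 .mp ⟨⟨186215257, 0, 0, 0, 0, 57565576, 0, 0, 0, ⟨0, 0⟩, 0⟩, 0, 0⟩ 0 0))))) (.pos 42 .mp ⟨⟨217311157, 0, 0, 0, 0, 0, 0,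 0, 0, ⟨0, 0⟩, 0⟩, 0, 0⟩ 0 0)))) (.pos 36 .mp ⟨⟨219337057, 0, 0, 0, 0, 0, 0, 0, 0, ⟨0, 0⟩, 0⟩, 0, 0⟩ 0 0))))))) (.pos 32 .mp ⟨⟨250945596, 0, 0, 0, 0, 0, 0, 0, 0, ⟨0, 0⟩, 0⟩, 0, 0⟩ 0 0))) (.void 30 ⟨⟨100000, 0, 0, 0, 0, 0, 0, 0, 0, ⟨0, 0⟩, 0⟩, 0, 0⟩ 0 0)) (.void 28 ⟨⟨100000, 0, 0, 0, 0, 0, 0, 0, 0, ⟨0, 0⟩, 0⟩, 0, 0⟩ 0 0))) (.void 26 ⟨⟨100000, 0, 0, 0, 0, 0, 0, 0, 0, ⟨0, 0⟩, 0⟩, 0, 0⟩ 0 0)))) (.void 24 ⟨⟨100000, 0, 0, 0, 0, 0, 0, 0, 0, ⟨0, 0⟩, 0⟩, 0, 0⟩ 0 0))) (.void 22 ⟨⟨100000, 0, 0, 0, 0, 0, 0, 0, 0, ⟨0, 0⟩, 0⟩, 0, 0⟩ 0 0)) (.void 79 ⟨⟨100000, 0, 0, 0, 0, 0, 0, 0, 0, ⟨0, 0⟩, 0⟩, 0, 0⟩ 0 0)) (.void 88 ⟨⟨100000, 0, 0, 0, 0, 0, 0,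 0, 0, ⟨0, 0⟩, 0⟩, 0, 0⟩ 0 0))) (.cut .v 16777216 (.cut .v 8388608 (.cut .v 4194304 (.cut .v 2097152 (.cut .v 1048576 (.void 93 ⟨⟨0, 0, 19122, 0, 0, 0, 0, 0, 80878, ⟨0, 0⟩, 1983364⟩, 0, 0⟩ 0 0) (.pos 94 .pm ⟨⟨0, 0, 12180128, 0, 0, 0, 0, 0, 0, ⟨0, 0⟩, 0⟩, 0, 99313⟩ 0 0)) (.pos 90 .pm ⟨⟨0, 0, 8197122, 0, 0, 0, 0, 0, 0, ⟨0, 0⟩, 0⟩, 0, 196540⟩ 0 0)) (.pos 5 .pm ⟨⟨0, 0, 7559247, 0, 0, 0, 0, 0, 0, ⟨0, 0⟩, 0⟩, 0, 222237⟩ 0 0)) (.pos 3 .pm ⟨⟨0, 0, 0, 0, 0, 0, 0, 0, 0, ⟨0, 0⟩, 0⟩, 0, 0⟩ 0 0)) (.cut .v 67108864 (.cut .d 3095263 (.cut .v 33554432 (.cut .d 1547631 (.cut .v 25165824 (.cut .d 773815 (.cut .v 20971520 (.cut .d 386907 (.cut .v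 18874368 (.cut .d 193453 (.cut .d 96726 (.cut .v 17825792 (.cut .v 17301504 (.cut .s 12386304 (.pos 29 .pp ⟨⟨166071503, 0, 0, 0, 0, 0, 0, 0, 0, ⟨0, 0⟩, 0⟩, 2612879, 0⟩ 0 0) (.pos 29 .pp ⟨⟨181176892, 0, 0, 0, 0, 0, 0, 0, 0, ⟨0, 0⟩, 0⟩, 2994860, 0⟩ 0 0)) (.pos 30 .pp ⟨⟨208025640, 0, 0, 0, 0, 0, 0, 0, 0, ⟨0, 0⟩, 0⟩, 0, 0⟩ 0 0)) (.pos 28 .pp ⟨⟨238251539, 0, 0, 0, 0, 0, 0, 0, 0, ⟨0, 0⟩, 0⟩, 0, 0⟩ 0 0)) (.pos 25 .pp ⟨⟨180625695, 0, 0, 0, 0, 0, 0, 0, 0, ⟨0, 0⟩, 0⟩, 0, 3709⟩ 0 0)) (.pos 25 .pp ⟨⟨0, 0, 0, 0, 0, 0, 0, 0, 0, ⟨0, 0⟩, 0⟩, 0, 534107⟩ 0 0)) (.cut .d 193453 (.pos 26 .pp ⟨⟨286266408, 0, 0, 0, 0, 0, 0, 0, 0, ⟨0, 0⟩, 0⟩, 0, 0⟩ 0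 0) (.cut .v 19922944 (.pos 47 .pp ⟨⟨211558127, 0, 0, 0, 0, 0, 0, 0, 0, ⟨0, 0⟩, 0⟩, 0, 0⟩ 0 0) (.pos 48 .pp ⟨⟨248645300, 0, 0, 0, 0, 0, 0, 0, 0, ⟨0, 0⟩, 0⟩, 0, 0⟩ 0 0)))) (.pos 23 .pp ⟨⟨0, 0, 0, 0, 0, 0, 0, 0, 0, ⟨0, 0⟩, 0⟩, 0, 560483⟩ 0 0)) (.cut .d 386907 (.cut .v 23068672 (.cut .v 22020096 (.cut .d 193453 (.void 57 ⟨⟨0, 0, 0, 0, 0, 0, 0, 0, 0, ⟨0, 0⟩, 0⟩, 100000, 0⟩ 0 0) (.pos 57 .pp ⟨⟨290498685, 0, 0, 0, 0, 0, 0, 0, 0, ⟨0, 0⟩, 0⟩, 0, 0⟩ 0 0)) (.pos 58 .pp ⟨⟨348245583, 0, 0, 0, 0, 0, 0, 0, 0, ⟨0, 0⟩, 0⟩, 0, 0⟩ 0 0)) (.void 54 ⟨⟨0, 0, 0, 0, 0, 0, 0, 0, 0, ⟨0, 0⟩, 0⟩, 100000, 0⟩ 0 0)) (.cut .v 23068672 (.pos 53 .pp ⟨⟨46174146,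 0, 0, 0, 0, 0, 107857, 0, 0, ⟨0, 0⟩, 0⟩, 26257813, 0⟩ 0 0) (.pos 54 .pp ⟨⟨0, 0, 0, 0, 0, 0, 0, 0, 0, ⟨0, 0⟩, 0⟩, 40859762, 0⟩ 0 0)))) (.pos 21 .pp ⟨⟨0, 0, 0, 0, 0, 0, 0, 0, 0, ⟨0, 0⟩, 0⟩, 0, 605321⟩ 0 0)) (.cut .d 773815 (.cut .d 386907 (.void 22 ⟨⟨0, 0, 0, 0, 0, 0, 0, 0, 0, ⟨0, 0⟩, 0⟩, 100000, 0⟩ 0 0) (.pos 22 .pp ⟨⟨0, 0, 0, 0, 0, 0, 0, 0, 0, ⟨0, 0⟩, 0⟩, 55906944, 0⟩ 0 0)) (.pos 22 .pp ⟨⟨0, 0, 0, 0, 0, 0, 1857, 0, 0, ⟨0, 0⟩, 0⟩, 36420735, 0⟩ 0 0))) (.pos 20 .pp ⟨⟨0, 0, 0, 0, 0, 0, 2011641, 0, 0, ⟨0, 0⟩, 0⟩, 0, 0⟩ 0 0)) (.cut .d 1547631 (.pos 79 .pp ⟨⟨0, 0, 0, 0, 0, 0, 0, 0, 0, ⟨0, 0⟩, 0⟩, 127952347, 0⟩ 0 0) (.pos 79 .pp ⟨⟨0, 0,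 0, 0, 0, 0, 0, 0, 0, ⟨0, 0⟩, 0⟩, 46064245, 0⟩ 0 0))) (.pos 78 .pp ⟨⟨0, 0, 0, 0, 0, 0, 0, 0, 0, ⟨0, 0⟩, 0⟩, 0, 504435⟩ 0 0)) (.void 88 ⟨⟨0, 0, 0, 46173, 0, 0, 0, 0, 0, ⟨0, 0⟩, 0⟩, 53827, 0⟩ 0 0)))),
    by decide +kernel⟩

theorem covers20 : cell.Covers Vale.Agent.P237.Petty.Cor.Grid.N11.table row20.1 :=
  ⟨(.cut .d 0 (.cut .v 16777216 (.cut .v 8388608 (.pos 2 .mm ⟨⟨0, 0, 338687147, 0, 0, 194101852, 0, 0, 0, ⟨0, 0⟩, 0⟩, 0, 0⟩ 0 0) (.cut .d (-8388608) (.void 3 ⟨⟨0, 0, 0, 0, 0, 100000, 0, 0, 0, ⟨0, 0⟩, 0⟩, 0, 0⟩ 0 0) (.cut .d (-4194304) (.void 3 ⟨⟨0, 0, 0, 0, 0, 100000, 0, 0, 0, ⟨0, 0⟩, 0⟩, 0, 0⟩ 0 0) (.cut .d (-2097152) (.void 3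 ⟨⟨0, 0, 0, 0, 0, 100000, 0, 0, 0, ⟨0, 0⟩, 0⟩, 0, 0⟩ 0 0) (.cut .d (-1048576) (.void 3 ⟨⟨0, 0, 0, 0, 0, 100000, 0, 0, 0, ⟨0, 0⟩, 0⟩, 0, 0⟩ 0 0) (.cut .s 12615680 (.pos 3 .mm ⟨⟨0, 0, 0, 0, 0, 407372660, 0, 0, 0, ⟨0, 0⟩, 0⟩, 0, 0⟩ 0 0) (.cut .d (-524288) (.void 3 ⟨⟨0, 0, 0, 0, 0, 100000, 0, 0, 0, ⟨0, 0⟩, 0⟩, 0, 0⟩ 0 0) (.pos 3 .mm ⟨⟨0, 0, 0, 0, 0, 418003779, 0, 0, 0, ⟨0, 0⟩, 0⟩, 0, 0⟩ 0 0)))))))) (.cut .v 67108864 (.cut .v 33554432 (.cut .v 25165824 (.cut .d (-8388608) (.void 21 ⟨⟨100000, 0, 0, 0, 0, 0, 0, 0, 0, ⟨0, 0⟩, 0⟩, 0, 0⟩ 0 0) (.cut .v 20971520 (.cut .d (-4194304) (.void 23 ⟨⟨100000, 0, 0, 0, 0, 0, 0, 0, 0, ⟨0, 0⟩, 0⟩, 0,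 0⟩ 0 0) (.cut .d (-2097152) (.void 23 ⟨⟨100000, 0, 0, 0, 0, 0, 0, 0, 0, ⟨0, 0⟩, 0⟩, 0, 0⟩ 0 0) (.cut .v 18874368 (.cut .d (-1048576) (.void 25 ⟨⟨100000, 0, 0, 0, 0, 0, 0, 0, 0, ⟨0, 0⟩, 0⟩, 0, 0⟩ 0 0) (.cut .v 17825792 (.cut .d (-524288) (.void 27 ⟨⟨100000, 0, 0, 0, 0, 0, 0, 0, 0, ⟨0, 0⟩, 0⟩, 0, 0⟩ 0 0) (.cut .v 17301504 (.cut .d (-262144) (.void 29 ⟨⟨100000, 0, 0, 0, 0, 0, 0, 0, 0, ⟨0, 0⟩, 0⟩, 0, 0⟩ 0 0) (.cut .v 17039360 (.cut .d (-131072) (.void 31 ⟨⟨100000, 0, 0, 0, 0, 0, 0, 0, 0, ⟨0, 0⟩, 0⟩, 0, 0⟩ 0 0) (.cut .d (-65536) (.void 31 ⟨⟨100000, 0, 0, 0, 0, 0, 0, 0, 0, ⟨0, 0⟩, 0⟩, 0, 0⟩ 0 0) (.cut .d (-32768) (.void 31 ⟨⟨0, 0, 0,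 0, 0, 100000, 0, 0, 0, ⟨0, 0⟩, 0⟩, 0, 0⟩ 0 0) (.cut .s 12615680 (.cut .v 16908288 (.cut .d (-16384) (.cut .d (-24576) (.void 35 ⟨⟨0, 0, 0, 0, 0, 100000, 0, 0, 0, ⟨0, 0⟩, 0⟩, 0, 0⟩ 0 0) (.cut .l 167772 (.void 35 ⟨⟨0, 0, 0, 0, 0, 100000, 0, 0, 0, ⟨0, 0⟩, 0⟩, 0, 0⟩ 0 0) (.cut .l 251658 (.void 35 ⟨⟨0, 0, 0, 0, 0, 100000, 0, 0, 0, ⟨0, 0⟩, 0⟩, 0, 0⟩ 0 0) (.cut .v 16842752 (.cut .d (-20480) (.pos 41 .mp ⟨⟨184704329, 0, 0, 0, 0, 91600935, 0, 0, 0, ⟨0, 0⟩, 0⟩, 0, 0⟩ 0 0) (.cut .v 16809984 (.pos 45 .mp ⟨⟨0, 0, 0, 0, 0, 409543375, 0, 0, 0, ⟨0, 0⟩, 0⟩, 0, 0⟩ 0 0) (.cut .v 16826368 (.pos 82 .mp ⟨⟨0, 0, 0, 0, 0, 409942540, 0, 0, 0, ⟨0, 0⟩, 0⟩,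 0, 0⟩ 0 0) (.cut .s 12566528 (.cut .s 12541952 (.pos 83 .mp ⟨⟨184709880, 0, 0, 0, 0, 68705225, 0, 0, 0, ⟨0, 0⟩, 0⟩, 0, 0⟩ 0 0) (.pos 83 .mp ⟨⟨187935138, 0, 0, 0, 0, 69973947, 0, 0, 0, ⟨0, 0⟩, 0⟩, 0, 0⟩ 0 0)) (.cut .s 12591104 (.pos 83 .mp ⟨⟨191218276, 0, 0, 0, 0, 71301145, 0, 0, 0, ⟨0, 0⟩, 0⟩, 0, 0⟩ 0 0) (.pos 83 .mp ⟨⟨194560261, 0, 0, 0, 0, 72686142, 0, 0, 0, ⟨0, 0⟩, 0⟩, 0, 0⟩ 0 0)))))) (.cut .s 12566528 (.pos 42 .mp ⟨⟨210411043, 0, 0, 0, 0, 31720758, 0, 0, 0, ⟨0, 0⟩, 0⟩, 0, 0⟩ 0 0) (.cut .s 12591104 (.pos 42 .mp ⟨⟨204794332, 0, 0, 0, 0, 49690186, 0, 0, 0, ⟨0, 0⟩, 0⟩, 0, 0⟩ 0 0) (.pos 42 .mp ⟨⟨208106967, 0, 0, 0, 0, 51125178,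 0, 0, 0, ⟨0, 0⟩, 0⟩, 0, 0⟩ 0 0))))))) (.cut .s 12566528 (.cut .v 16842752 (.cut .s 12541952 (.cut .s 12529664 (.cut .l 167772 (.cut .d (-8192) (.pos 41 .mp ⟨⟨184111711, 0, 0, 0, 0, 70023336, 0, 0, 0, ⟨0, 0⟩, 0⟩, 0, 0⟩ 0 0) (.cut .s 12523520 (.pos 41 .mp ⟨⟨187483072, 0, 0, 0, 0, 58388970, 0, 0, 0, ⟨0, 0⟩, 0⟩, 0, 0⟩ 0 0) (.cut .s 12526592 (.pos 41 .mp ⟨⟨187789709, 0, 0, 0, 0, 59218419, 0, 0, 0, ⟨0, 0⟩, 0⟩, 0, 0⟩ 0 0) (.pos 41 .mp ⟨⟨188206119, 0, 0, 0, 0, 59324927, 0, 0, 0, ⟨0, 0⟩, 0⟩, 0, 0⟩ 0 0)))) (.pos 41 .mp ⟨⟨187832740, 0, 0, 0, 0, 57442186, 0, 0, 0, ⟨0, 0⟩, 0⟩, 0, 0⟩ 0 0)) (.cut .l 167772 (.cut .d (-8192) (.pos 41 .mp ⟨⟨185704492,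 0, 0, 0, 0, 70620398, 0, 0, 0, ⟨0, 0⟩, 0⟩, 0, 0⟩ 0 0) (.cut .v 16809984 (.cut .s 12535808 (.pos 45 .mp ⟨⟨188388942, 0, 0, 0, 0, 60129374, 0, 0, 0, ⟨0, 0⟩, 0⟩, 0, 0⟩ 0 0) (.pos 45 .mp ⟨⟨189202374, 0, 0, 0, 0, 60399497, 0, 0, 0, ⟨0, 0⟩, 0⟩, 0, 0⟩ 0 0)) (.pos 46 .mp ⟨⟨222665243, 0, 0, 0, 0, 0, 0, 0, 0, ⟨0, 0⟩, 0⟩, 0, 0⟩ 0 0))) (.pos 41 .mp ⟨⟨189465924, 0, 0, 0, 0, 58002609, 0, 0, 0, ⟨0, 0⟩, 0⟩, 0, 0⟩ 0 0))) (.cut .s 12554240 (.cut .l 167772 (.cut .d (-8192) (.pos 41 .mp ⟨⟨187311461, 0, 0, 0, 0, 71236525, 0, 0, 0, ⟨0, 0⟩, 0⟩, 0, 0⟩ 0 0) (.cut .v 16809984 (.cut .s 12548096 (.pos 45 .mp ⟨⟨190019437, 0, 0, 0, 0, 60673265, 0, 0, 0, ⟨0,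 0⟩, 0⟩, 0, 0⟩ 0 0) (.pos 45 .mp ⟨⟨190840145, 0, 0, 0, 0, 60950669, 0, 0, 0, ⟨0, 0⟩, 0⟩, 0, 0⟩ 0 0)) (.pos 46 .mp ⟨⟨224565198, 0, 0, 0, 0, 0, 0, 0, 0, ⟨0, 0⟩, 0⟩, 0, 0⟩ 0 0))) (.pos 41 .mp ⟨⟨191113770, 0, 0, 0, 0, 58572454, 0, 0, 0, ⟨0, 0⟩, 0⟩, 0, 0⟩ 0 0)) (.cut .l 167772 (.cut .d (-8192) (.pos 41 .mp ⟨⟨188932733, 0, 0, 0, 0, 71871901, 0, 0, 0, ⟨0, 0⟩, 0⟩, 0, 0⟩ 0 0) (.cut .v 16809984 (.cut .s 12560384 (.pos 45 .mp ⟨⟨191664514, 0, 0, 0, 0, 61231699, 0, 0, 0, ⟨0, 0⟩, 0⟩, 0, 0⟩ 0 0) (.cut .s 12563456 (.pos 45 .mp ⟨⟨192246908, 0, 0, 0, 0, 61621881, 0, 0, 0, ⟨0, 0⟩, 0⟩, 0, 0⟩ 0 0) (.pos 45 .mp ⟨⟨192639706, 0, 0, 0, 0, 61801488, 0, 0,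 0, ⟨0, 0⟩, 0⟩, 0, 0⟩ 0 0))) (.pos 46 .mp ⟨⟨226489193, 0, 0, 0, 0, 0, 0, 0, 0, ⟨0, 0⟩, 0⟩, 0, 0⟩ 0 0))) (.pos 41 .mp ⟨⟨192776401, 0, 0, 0, 0, 59151366, 0, 0, 0, ⟨0, 0⟩, 0⟩, 0, 0⟩ 0 0)))) (.pos 42 .mp ⟨⟨226035977, 0, 0, 0, 0, 0, 0, 0, 0, ⟨0, 0⟩, 0⟩, 0, 0⟩ 0 0)) (.cut .v 16842752 (.cut .s 12591104 (.cut .s 12578816 (.cut .l 167772 (.cut .d (-8192) (.pos 41 .mp ⟨⟨190568429, 0, 0, 0, 0, 72526709, 0, 0, 0, ⟨0, 0⟩, 0⟩, 0, 0⟩ 0 0) (.cut .v 16809984 (.cut .l 83886 (.cut .d (-4096) (.pos 45 .mp ⟨⟨190064023, 0, 0, 0, 0, 72493217, 0, 0, 0, ⟨0, 0⟩, 0⟩, 0, 0⟩ 0 0) (.cut .s 12572672 (.pos 45 .mp ⟨⟨192116993, 0, 0, 0, 0, 63821314, 0, 0, 0, ⟨0,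 0⟩, 0⟩, 0, 0⟩ 0 0) (.pos 45 .mp ⟨⟨192960301, 0, 0, 0, 0, 64093641, 0, 0, 0, ⟨0, 0⟩, 0⟩, 0, 0⟩ 0 0))) (.pos 45 .mp ⟨⟨192821740, 0, 0, 0, 0, 61784800, 0, 0, 0, ⟨0, 0⟩, 0⟩, 0, 0⟩ 0 0)) (.pos 46 .mp ⟨⟨228437421, 0, 0, 0, 0, 0, 0, 0, 0, ⟨0, 0⟩, 0⟩, 0, 0⟩ 0 0))) (.cut .s 12572672 (.pos 41 .mp ⟨⟨193613299, 0, 0, 0, 0, 60616739, 0, 0, 0, ⟨0, 0⟩, 0⟩, 0, 0⟩ 0 0) (.pos 41 .mp ⟨⟨194453939, 0, 0, 0, 0, 60916954, 0, 0, 0, ⟨0, 0⟩, 0⟩, 0, 0⟩ 0 0))) (.cut .l 167772 (.cut .d (-8192) (.pos 41 .mp ⟨⟨192218668, 0, 0, 0, 0, 73201136, 0, 0, 0, ⟨0, 0⟩, 0⟩, 0, 0⟩ 0 0) (.cut .v 16809984 (.cut .l 83886 (.cut .d (-4096) (.pos 45 .mp ⟨⟨191706157, 0, 0, 0,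 0, 73174333, 0, 0, 0, ⟨0, 0⟩, 0⟩, 0, 0⟩ 0 0) (.cut .s 12584960 (.pos 45 .mp ⟨⟨193806190, 0, 0, 0, 0, 64371943, 0, 0, 0, ⟨0, 0⟩, 0⟩, 0, 0⟩ 0 0) (.pos 45 .mp ⟨⟨194654640, 0, 0, 0, 0, 64656285, 0, 0, 0, ⟨0, 0⟩, 0⟩, 0, 0⟩ 0 0))) (.pos 45 .mp ⟨⟨194492248, 0, 0, 0, 0, 62411111, 0, 0, 0, ⟨0, 0⟩, 0⟩, 0, 0⟩ 0 0)) (.pos 46 .mp ⟨⟨230410080, 0, 0, 0, 0, 0, 0, 0, 0, ⟨0, 0⟩, 0⟩, 0, 0⟩ 0 0))) (.cut .s 12584960 (.pos 41 .mp ⟨⟨195298338, 0, 0, 0, 0, 61219262, 0, 0, 0, ⟨0, 0⟩, 0⟩, 0, 0⟩ 0 0) (.pos 41 .mp ⟨⟨196146510, 0, 0, 0, 0, 61523618, 0, 0, 0, ⟨0, 0⟩, 0⟩, 0, 0⟩ 0 0)))) (.cut .s 12603392 (.cut .l 167772 (.cut .d (-8192) (.pos 41 .mp ⟨⟨193883572,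 0, 0, 0, 0, 73895370, 0, 0, 0, ⟨0, 0⟩, 0⟩, 0, 0⟩ 0 0) (.cut .v 16809984 (.cut .l 83886 (.cut .d (-4096) (.pos 45 .mp ⟨⟨193362860, 0, 0, 0, 0, 73875346, 0, 0, 0, ⟨0, 0⟩, 0⟩, 0, 0⟩ 0 0) (.cut .s 12597248 (.pos 45 .mp ⟨⟨195505634, 0, 0, 0, 0, 64946730, 0, 0, 0, ⟨0, 0⟩, 0⟩, 0, 0⟩ 0 0) (.pos 45 .mp ⟨⟨196359150, 0, 0, 0, 0, 65243345, 0, 0, 0, ⟨0, 0⟩, 0⟩, 0, 0⟩ 0 0))) (.pos 45 .mp ⟨⟨196177631, 0, 0, 0, 0, 63045835, 0, 0, 0, ⟨0, 0⟩, 0⟩, 0, 0⟩ 0 0)) (.pos 46 .mp ⟨⟨232407367, 0, 0, 0, 0, 0, 0, 0, 0, ⟨0, 0⟩, 0⟩, 0, 0⟩ 0 0))) (.cut .s 12597248 (.pos 41 .mp ⟨⟨196998472, 0, 0, 0, 0, 61829976, 0, 0, 0, ⟨0, 0⟩, 0⟩, 0, 0⟩ 0 0) (.pos 41 .mp ⟨⟨197854240,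 0, 0, 0, 0, 62138292, 0, 0, 0, ⟨0, 0⟩, 0⟩, 0, 0⟩ 0 0))) (.cut .l 167772 (.cut .d (-8192) (.pos 41 .mp ⟨⟨195563265, 0, 0, 0, 0, 74609603, 0, 0, 0, ⟨0, 0⟩, 0⟩, 0, 0⟩ 0 0) (.cut .v 16809984 (.cut .l 83886 (.cut .d (-4096) (.pos 45 .mp ⟨⟨195034253, 0, 0, 0, 0, 74596450, 0, 0, 0, ⟨0, 0⟩, 0⟩, 0, 0⟩ 0 0) (.cut .s 12609536 (.pos 45 .mp ⟨⟨197215169, 0, 0, 0, 0, 65546194, 0, 0, 0, ⟨0, 0⟩, 0⟩, 0, 0⟩ 0 0) (.pos 45 .mp ⟨⟨198073671, 0, 0, 0, 0, 65855344, 0, 0, 0, ⟨0, 0⟩, 0⟩, 0, 0⟩ 0 0))) (.pos 45 .mp ⟨⟨197878015, 0, 0, 0, 0, 63688614, 0, 0, 0, ⟨0, 0⟩, 0⟩, 0, 0⟩ 0 0)) (.pos 46 .mp ⟨⟨234429484, 0, 0, 0, 0, 0, 0, 0, 0, ⟨0, 0⟩, 0⟩, 0, 0⟩ 0 0)))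 (.cut .s 12609536 (.pos 41 .mp ⟨⟨198713830, 0, 0, 0, 0, 62448519, 0, 0, 0, ⟨0, 0⟩, 0⟩, 0, 0⟩ 0 0) (.pos 41 .mp ⟨⟨199577257, 0, 0, 0, 0, 62760613, 0, 0, 0, ⟨0, 0⟩, 0⟩, 0, 0⟩ 0 0))))) (.pos 42 .mp ⟨⟨233957106, 0, 0, 0, 0, 0, 0, 0, 0, ⟨0, 0⟩, 0⟩, 0, 0⟩ 0 0)))) (.pos 36 .mp ⟨⟨237357969, 0, 0, 0, 0, 0, 0, 0, 0, ⟨0, 0⟩, 0⟩, 0, 0⟩ 0 0)) (.cut .v 16908288 (.cut .d (-16384) (.cut .d (-24576) (.void 35 ⟨⟨0, 0, 0, 0, 0, 100000, 0, 0, 0, ⟨0, 0⟩, 0⟩, 0, 0⟩ 0 0) (.cut .l 167772 (.void 35 ⟨⟨0, 0, 0, 0, 0, 100000, 0, 0, 0, ⟨0, 0⟩, 0⟩, 0, 0⟩ 0 0) (.cut .l 251658 (.void 35 ⟨⟨0, 0, 0, 0, 0, 100000, 0, 0, 0, ⟨0, 0⟩, 0⟩, 0, 0⟩ 0 0) (.cut .v 16842752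 (.cut .d (-20480) (.pos 41 .mp ⟨⟨0, 0, 0, 0, 0, 466608143, 0, 0, 0, ⟨0, 0⟩, 0⟩, 0, 0⟩ 0 0) (.cut .v 16809984 (.pos 45 .mp ⟨⟨0, 0, 0, 0, 0, 441250574, 0, 0, 0, ⟨0, 0⟩, 0⟩, 0, 0⟩ 0 0) (.cut .v 16826368 (.pos 82 .mp ⟨⟨0, 0, 0, 0, 0, 442024380, 0, 0, 0, ⟨0, 0⟩, 0⟩, 0, 0⟩ 0 0) (.cut .s 12664832 (.cut .s 12640256 (.pos 83 .mp ⟨⟨197962085, 0, 0, 0, 0, 74128221, 0, 0, 0, ⟨0, 0⟩, 0⟩, 0, 0⟩ 0 0) (.pos 83 .mp ⟨⟨201424763, 0, 0, 0, 0, 75626629, 0, 0, 0, ⟨0, 0⟩, 0⟩, 0, 0⟩ 0 0)) (.cut .s 12689408 (.pos 83 .mp ⟨⟨204949334, 0, 0, 0, 0, 77180573, 0, 0, 0, ⟨0, 0⟩, 0⟩, 0, 0⟩ 0 0) (.pos 83 .mp ⟨⟨208536864, 0, 0, 0, 0, 78789218, 0, 0, 0, ⟨0, 0⟩, 0⟩,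 0, 0⟩ 0 0)))))) (.cut .d (-20480) (.pos 42 .mp ⟨⟨213269154, 0, 0, 0, 0, 76305502, 0, 0, 0, ⟨0, 0⟩, 0⟩, 0, 0⟩ 0 0) (.cut .s 12664832 (.pos 42 .mp ⟨⟨240526355, 0, 0, 0, 0, 5651256, 0, 0, 0, ⟨0, 0⟩, 0⟩, 0, 0⟩ 0 0) (.pos 42 .mp ⟨⟨249926496, 0, 0, 0, 0, 4597268, 0, 0, 0, ⟨0, 0⟩, 0⟩, 0, 0⟩ 0 0))))))) (.cut .s 12664832 (.cut .v 16842752 (.cut .s 12640256 (.cut .s 12627968 (.cut .l 167772 (.cut .d (-8192) (.pos 41 .mp ⟨⟨197257872, 0, 0, 0, 0, 75344026, 0, 0, 0, ⟨0, 0⟩, 0⟩, 0, 0⟩ 0 0) (.cut .v 16809984 (.cut .l 83886 (.cut .d (-4096) (.pos 45 .mp ⟨⟨196720462, 0, 0, 0, 0, 75337838, 0, 0, 0, ⟨0, 0⟩, 0⟩, 0, 0⟩ 0 0) (.cut .s 12621824 (.pos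 45 .mp ⟨⟨198934635, 0, 0, 0, 0, 66170861, 0, 0, 0, ⟨0, 0⟩, 0⟩, 0, 0⟩ 0 0) (.pos 45 .mp ⟨⟨199798041, 0, 0, 0, 0, 66492814, 0, 0, 0, ⟨0, 0⟩, 0⟩, 0, 0⟩ 0 0))) (.pos 45 .mp ⟨⟨199593527, 0, 0, 0, 0, 64339088, 0, 0, 0, ⟨0, 0⟩, 0⟩, 0, 0⟩ 0 0)) (.pos 46 .mp ⟨⟨236476633, 0, 0, 0, 0, 0, 0, 0, 0, ⟨0, 0⟩, 0⟩, 0, 0⟩ 0 0))) (.cut .s 12621824 (.pos 41 .mp ⟨⟨200444538, 0, 0, 0, 0, 63074527, 0, 0, 0, ⟨0, 0⟩, 0⟩, 0, 0⟩ 0 0) (.pos 41 .mp ⟨⟨201315689, 0, 0, 0, 0, 63390216, 0, 0, 0, ⟨0, 0⟩, 0⟩, 0, 0⟩ 0 0))) (.cut .l 167772 (.cut .d (-8192) (.pos 41 .mp ⟨⟨198967518, 0, 0, 0, 0, 76098836, 0, 0, 0, ⟨0, 0⟩, 0⟩, 0, 0⟩ 0 0) (.cut .v 16809984 (.cut .l 83886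 (.cut .d (-4096) (.pos 45 .mp ⟨⟨198421610, 0, 0, 0, 0, 76099706, 0, 0, 0, ⟨0, 0⟩, 0⟩, 0, 0⟩ 0 0) (.cut .s 12634112 (.pos 45 .mp ⟨⟨200663868, 0, 0, 0, 0, 66821270, 0, 0, 0, ⟨0, 0⟩, 0⟩, 0, 0⟩ 0 0) (.pos 45 .mp ⟨⟨201532094, 0, 0, 0, 0, 67156297, 0, 0, 0, ⟨0, 0⟩, 0⟩, 0, 0⟩ 0 0))) (.pos 45 .mp ⟨⟨201324296, 0, 0, 0, 0, 64996895, 0, 0, 0, ⟨0, 0⟩, 0⟩, 0, 0⟩ 0 0)) (.pos 46 .mp ⟨⟨238549021, 0, 0, 0, 0, 0, 0, 0, 0, ⟨0, 0⟩, 0⟩, 0, 0⟩ 0 0))) (.cut .s 12634112 (.pos 41 .mp ⟨⟨202190727, 0, 0, 0, 0, 63707634, 0, 0, 0, ⟨0, 0⟩, 0⟩, 0, 0⟩ 0 0) (.pos 41 .mp ⟨⟨203069668, 0, 0, 0, 0, 64026733, 0, 0, 0, ⟨0, 0⟩, 0⟩, 0, 0⟩ 0 0)))) (.cut .s 12652544 (.cut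 .l 167772 (.cut .d (-8192) (.pos 41 .mp ⟨⟨200692331, 0, 0, 0, 0, 76874230, 0, 0, 0, ⟨0, 0⟩, 0⟩, 0, 0⟩ 0 0) (.cut .v 16809984 (.cut .l 83886 (.cut .d (-4096) (.pos 45 .mp ⟨⟨200137826, 0, 0, 0, 0, 76882252, 0, 0, 0, ⟨0, 0⟩, 0⟩, 0, 0⟩ 0 0) (.cut .s 12646400 (.pos 45 .mp ⟨⟨202402698, 0, 0, 0, 0, 67497965, 0, 0, 0, ⟨0, 0⟩, 0⟩, 0, 0⟩ 0 0) (.pos 45 .mp ⟨⟨203275659, 0, 0, 0, 0, 67846344, 0, 0, 0, ⟨0, 0⟩, 0⟩, 0, 0⟩ 0 0))) (.pos 45 .mp ⟨⟨203070451, 0, 0, 0, 0, 65661667, 0, 0, 0, ⟨0, 0⟩, 0⟩, 0, 0⟩ 0 0)) (.pos 46 .mp ⟨⟨240646856, 0, 0, 0, 0, 0, 0, 0, 0, ⟨0, 0⟩, 0⟩, 0, 0⟩ 0 0))) (.cut .s 12646400 (.pos 41 .mp ⟨⟨203952529, 0, 0, 0, 0, 64347468,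 0, 0, 0, ⟨0, 0⟩, 0⟩, 0, 0⟩ 0 0) (.pos 41 .mp ⟨⟨204839327, 0, 0, 0, 0, 64669793, 0, 0, 0, ⟨0, 0⟩, 0⟩, 0, 0⟩ 0 0))) (.cut .l 167772 (.cut .d (-8192) (.pos 41 .mp ⟨⟨202432441, 0, 0, 0, 0, 77670408, 0, 0, 0, ⟨0, 0⟩, 0⟩, 0, 0⟩ 0 0) (.cut .v 16809984 (.cut .l 83886 (.cut .d (-4096) (.pos 45 .mp ⟨⟨201869237, 0, 0, 0, 0, 77685677, 0, 0, 0, ⟨0, 0⟩, 0⟩, 0, 0⟩ 0 0) (.cut .s 12658688 (.pos 45 .mp ⟨⟨204150954, 0, 0, 0, 0, 68201503, 0, 0, 0, ⟨0, 0⟩, 0⟩, 0, 0⟩ 0 0) (.pos 45 .mp ⟨⟨205028563, 0, 0, 0, 0, 68563514, 0, 0, 0, ⟨0, 0⟩, 0⟩, 0, 0⟩ 0 0))) (.pos 45 .mp ⟨⟨204832124, 0, 0, 0, 0, 66333038, 0, 0, 0, ⟨0, 0⟩, 0⟩, 0, 0⟩ 0 0)) (.pos 46 .mp ⟨⟨242770348,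 0, 0, 0, 0, 0, 0, 0, 0, ⟨0, 0⟩, 0⟩, 0, 0⟩ 0 0))) (.cut .s 12658688 (.pos 41 .mp ⟨⟨205730077, 0, 0, 0, 0, 64993659, 0, 0, 0, ⟨0, 0⟩, 0⟩, 0, 0⟩ 0 0) (.pos 41 .mp ⟨⟨206624798, 0, 0, 0, 0, 65319021, 0, 0, 0, ⟨0, 0⟩, 0⟩, 0, 0⟩ 0 0))))) (.pos 42 .mp ⟨⟨242274395, 0, 0, 0, 0, 0, 0, 0, 0, ⟨0, 0⟩, 0⟩, 0, 0⟩ 0 0)) (.cut .v 16842752 (.cut .s 12689408 (.cut .s 12677120 (.cut .l 167772 (.cut .d (-8192) (.pos 41 .mp ⟨⟨204187978, 0, 0, 0, 0, 78487571, 0, 0, 0, ⟨0, 0⟩, 0⟩, 0, 0⟩ 0 0) (.cut .v 16809984 (.cut .l 83886 (.cut .d (-4096) (.pos 45 .mp ⟨⟨203615974, 0, 0, 0, 0, 78510185, 0, 0, 0, ⟨0, 0⟩, 0⟩, 0, 0⟩ 0 0) (.cut .s 12670976 (.pos 45 .mp ⟨⟨205908462,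 0, 0, 0, 0, 68932448, 0, 0, 0, ⟨0, 0⟩, 0⟩, 0, 0⟩ 0 0) (.pos 45 .mp ⟨⟨206790628, 0, 0, 0, 0, 69308377, 0, 0, 0, ⟨0, 0⟩, 0⟩, 0, 0⟩ 0 0))) (.pos 45 .mp ⟨⟨206609448, 0, 0, 0, 0, 67010635, 0, 0, 0, ⟨0, 0⟩, 0⟩, 0, 0⟩ 0 0)) (.pos 46 .mp ⟨⟨244919711, 0, 0, 0, 0, 0, 0, 0, 0, ⟨0, 0⟩, 0⟩, 0, 0⟩ 0 0))) (.cut .s 12670976 (.pos 41 .mp ⟨⟨207523506, 0, 0, 0, 0, 65645831, 0, 0, 0, ⟨0, 0⟩, 0⟩, 0, 0⟩ 0 0) (.pos 41 .mp ⟨⟨208426218, 0, 0, 0, 0, 65974042, 0, 0, 0, ⟨0, 0⟩, 0⟩, 0, 0⟩ 0 0))) (.cut .l 167772 (.cut .d (-8192) (.pos 41 .mp ⟨⟨205959075, 0, 0, 0, 0, 79325925, 0, 0, 0, ⟨0, 0⟩, 0⟩, 0, 0⟩ 0 0) (.cut .v 16809984 (.cut .l 83886 (.cut .d (-4096)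 (.pos 45 .mp ⟨⟨205378168, 0, 0, 0, 0, 79355980, 0, 0, 0, ⟨0, 0⟩, 0⟩, 0, 0⟩ 0 0) (.cut .s 12683264 (.pos 45 .mp ⟨⟨207675040, 0, 0, 0, 0, 69691375, 0, 0, 0, ⟨0, 0⟩, 0⟩, 0, 0⟩ 0 0) (.pos 45 .mp ⟨⟨208561673, 0, 0, 0, 0, 70081514, 0, 0, 0, ⟨0, 0⟩, 0⟩, 0, 0⟩ 0 0))) (.pos 45 .mp ⟨⟨208402557, 0, 0, 0, 0, 67694084, 0, 0, 0, ⟨0, 0⟩, 0⟩, 0, 0⟩ 0 0)) (.pos 46 .mp ⟨⟨247095160, 0, 0, 0, 0, 0, 0, 0, 0, ⟨0, 0⟩, 0⟩, 0, 0⟩ 0 0))) (.cut .s 12683264 (.pos 41 .mp ⟨⟨209332952, 0, 0, 0, 0, 66303606, 0, 0, 0, ⟨0, 0⟩, 0⟩, 0, 0⟩ 0 0) (.pos 41 .mp ⟨⟨210243724, 0, 0, 0, 0, 66634476, 0, 0, 0, ⟨0, 0⟩, 0⟩, 0, 0⟩ 0 0)))) (.cut .s 12701696 (.cut .l 167772 (.cut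 .d (-8192) (.pos 41 .mp ⟨⟨207745866, 0, 0, 0, 0, 80185676, 0, 0, 0, ⟨0, 0⟩, 0⟩, 0, 0⟩ 0 0) (.cut .v 16809984 (.cut .l 83886 (.cut .d (-4096) (.pos 45 .mp ⟨⟨207155952, 0, 0, 0, 0, 80223270, 0, 0, 0, ⟨0, 0⟩, 0⟩, 0, 0⟩ 0 0) (.cut .s 12695552 (.pos 45 .mp ⟨⟨209450505, 0, 0, 0, 0, 70478869, 0, 0, 0, ⟨0, 0⟩, 0⟩, 0, 0⟩ 0 0) (.pos 45 .mp ⟨⟨210341512, 0, 0, 0, 0, 70883515, 0, 0, 0, ⟨0, 0⟩, 0⟩, 0, 0⟩ 0 0))) (.pos 45 .mp ⟨⟨210211589, 0, 0, 0, 0, 68383009, 0, 0, 0, ⟨0, 0⟩, 0⟩, 0, 0⟩ 0 0)) (.pos 46 .mp ⟨⟨249296914, 0, 0, 0, 0, 0, 0, 0, 0, ⟨0, 0⟩, 0⟩, 0, 0⟩ 0 0))) (.cut .s 12695552 (.pos 41 .mp ⟨⟨211158553, 0, 0, 0, 0, 66966604, 0, 0, 0, ⟨0,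 0⟩, 0⟩, 0, 0⟩ 0 0) (.pos 41 .mp ⟨⟨212077455, 0, 0, 0, 0, 67299941, 0, 0, 0, ⟨0, 0⟩, 0⟩, 0, 0⟩ 0 0))) (.cut .l 167772 (.cut .d (-8192) (.pos 41 .mp ⟨⟨209548486, 0, 0, 0, 0, 81067034, 0, 0, 0, ⟨0, 0⟩, 0⟩, 0, 0⟩ 0 0) (.cut .v 16809984 (.cut .l 83886 (.cut .d (-4096) (.pos 45 .mp ⟨⟨208949461, 0, 0, 0, 0, 81112267, 0, 0, 0, ⟨0, 0⟩, 0⟩, 0, 0⟩ 0 0) (.cut .s 12707840 (.pos 45 .mp ⟨⟨211234670, 0, 0, 0, 0, 71295525, 0, 0, 0, ⟨0, 0⟩, 0⟩, 0, 0⟩ 0 0) (.pos 45 .mp ⟨⟨212129955, 0, 0, 0, 0, 71714978, 0, 0, 0, ⟨0, 0⟩, 0⟩, 0, 0⟩ 0 0))) (.pos 45 .mp ⟨⟨212036682, 0, 0, 0, 0, 69077029, 0, 0, 0, ⟨0, 0⟩, 0⟩, 0, 0⟩ 0 0)) (.pos 46 .mp ⟨⟨251525194, 0, 0,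 0, 0, 0, 0, 0, 0, ⟨0, 0⟩, 0⟩, 0, 0⟩ 0 0))) (.cut .s 12707840 (.pos 41 .mp ⟨⟨213000449, 0, 0, 0, 0, 67634439, 0, 0, 0, ⟨0, 0⟩, 0⟩, 0, 0⟩ 0 0) (.pos 41 .mp ⟨⟨213927551, 0, 0, 0, 0, 67970051, 0, 0, 0, ⟨0, 0⟩, 0⟩, 0, 0⟩ 0 0))))) (.pos 42 .mp ⟨⟨251000937, 0, 0, 0, 0, 0, 0, 0, 0, ⟨0, 0⟩, 0⟩, 0, 0⟩ 0 0)))) (.pos 36 .mp ⟨⟨254462686, 0, 0, 0, 0, 0, 0, 0, 0, ⟨0, 0⟩, 0⟩, 0, 0⟩ 0 0)))))) (.pos 32 .mp ⟨⟨276878616, 0, 0, 0, 0, 0, 0, 0, 0, ⟨0, 0⟩, 0⟩, 0, 0⟩ 0 0))) (.void 30 ⟨⟨100000, 0, 0, 0, 0, 0, 0, 0, 0, ⟨0, 0⟩, 0⟩, 0, 0⟩ 0 0))) (.void 28 ⟨⟨100000, 0, 0, 0, 0, 0, 0, 0, 0, ⟨0, 0⟩, 0⟩, 0, 0⟩ 0 0))) (.void 26 ⟨⟨100000, 0, 0, 0, 0, 0, 0, 0, 0,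 ⟨0, 0⟩, 0⟩, 0, 0⟩ 0 0)))) (.void 24 ⟨⟨100000, 0, 0, 0, 0, 0, 0, 0, 0, ⟨0, 0⟩, 0⟩, 0, 0⟩ 0 0))) (.void 22 ⟨⟨100000, 0, 0, 0, 0, 0, 0, 0, 0, ⟨0, 0⟩, 0⟩, 0, 0⟩ 0 0)) (.void 79 ⟨⟨100000, 0, 0, 0, 0, 0, 0, 0, 0, ⟨0, 0⟩, 0⟩, 0, 0⟩ 0 0)) (.void 88 ⟨⟨100000, 0, 0, 0, 0, 0, 0, 0, 0, ⟨0, 0⟩, 0⟩, 0, 0⟩ 0 0))) (.cut .v 16777216 (.cut .v 8388608 (.cut .v 4194304 (.cut .v 2097152 (.cut .v 1048576 (.pos 93 .pm ⟨⟨0, 0, 25498179, 0, 0, 0, 0, 0, 37957017, ⟨0, 0⟩, 1983364⟩, 0, 0⟩ 0 0) (.pos 94 .pm ⟨⟨0, 0, 12477592, 0, 0, 0, 0, 0, 0, ⟨0, 0⟩, 0⟩, 0, 89419⟩ 0 0)) (.pos 90 .pm ⟨⟨0, 0, 9692768, 0, 0, 0, 0, 0, 0, ⟨0, 0⟩, 0⟩, 0, 138754⟩ 0 0)) (.pos 5 .pm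 ⟨⟨0, 0, 9216785, 0, 0, 0, 0, 0, 0, ⟨0, 0⟩, 0⟩, 0, 0⟩ 0 0)) (.pos 3 .pm ⟨⟨0, 0, 0, 0, 0, 0, 0, 0, 0, ⟨0, 0⟩, 0⟩, 0, 0⟩ 0 0)) (.cut .v 67108864 (.cut .d 2854763 (.cut .v 33554432 (.cut .d 1427381 (.cut .v 25165824 (.cut .d 713690 (.cut .v 20971520 (.cut .d 356845 (.cut .v 18874368 (.cut .d 178422 (.cut .d 89211 (.cut .v 17825792 (.cut .v 17301504 (.cut .s 12615680 (.pos 29 .pp ⟨⟨190239810, 0, 0, 0, 0, 0, 0, 0, 0, ⟨0, 0⟩, 0⟩, 4399366, 0⟩ 0 0) (.pos 29 .pp ⟨⟨202896462, 0, 0, 0, 0, 0, 0, 0, 0, ⟨0, 0⟩, 0⟩, 4877594, 0⟩ 0 0)) (.pos 30 .pp ⟨⟨244118020, 0, 0, 0, 0, 0, 0, 0, 0, ⟨0, 0⟩, 0⟩, 0, 0⟩ 0 0)) (.pos 28 .pp ⟨⟨275541044, 0, 0, 0, 0,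 0, 0, 0, 0, ⟨0, 0⟩, 0⟩, 0, 0⟩ 0 0)) (.pos 25 .pp ⟨⟨213768722, 0, 0, 0, 0, 0, 0, 0, 0, ⟨0, 0⟩, 0⟩, 0, 10158⟩ 0 0)) (.pos 25 .pp ⟨⟨0, 0, 0, 0, 0, 0, 0, 0, 0, ⟨0, 0⟩, 0⟩, 0, 473249⟩ 0 0)) (.cut .d 178422 (.pos 26 .pp ⟨⟨329497646, 0, 0, 0, 0, 0, 0, 0, 0, ⟨0, 0⟩, 0⟩, 0, 0⟩ 0 0) (.pos 26 .pp ⟨⟨270817233, 0, 0, 0, 0, 0, 0, 0, 0, ⟨0, 0⟩, 0⟩, 0, 0⟩ 0 0))) (.pos 23 .pp ⟨⟨0, 0, 0, 0, 0, 0, 0, 0, 0, ⟨0, 0⟩, 0⟩, 0, 496620⟩ 0 0)) (.cut .d 356845 (.cut .v 23068672 (.cut .v 22020096 (.pos 57 .pp ⟨⟨358108743, 0, 0, 0, 0, 0, 0, 0, 0, ⟨0, 0⟩, 0⟩, 0, 0⟩ 0 0) (.pos 58 .pp ⟨⟨399454388, 0, 0, 0, 0, 0, 0, 0, 0, ⟨0, 0⟩, 0⟩, 0, 0⟩ 0 0)) (.void 54 ⟨⟨0, 0,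 0, 0, 0, 0, 0, 0, 0, ⟨0, 0⟩, 0⟩, 100000, 0⟩ 0 0)) (.cut .v 23068672 (.pos 53 .pp ⟨⟨0, 0, 0, 0, 0, 0, 161691, 0, 0, ⟨0, 0⟩, 0⟩, 37478497, 0⟩ 0 0) (.pos 54 .pp ⟨⟨0, 0, 0, 0, 0, 0, 0, 0, 0, ⟨0, 0⟩, 0⟩, 48407572, 0⟩ 0 0)))) (.pos 21 .pp ⟨⟨0, 0, 0, 0, 0, 0, 0, 0, 0, ⟨0, 0⟩, 0⟩, 0, 536349⟩ 0 0)) (.cut .d 713690 (.cut .d 356845 (.void 22 ⟨⟨0, 0, 0, 0, 0, 0, 0, 0, 0, ⟨0, 0⟩, 0⟩, 100000, 0⟩ 0 0) (.pos 22 .pp ⟨⟨0, 0, 0, 0, 0, 0, 0, 0, 0, ⟨0, 0⟩, 0⟩, 64283990, 0⟩ 0 0)) (.pos 22 .pp ⟨⟨0, 0, 0, 0, 0, 0, 30880, 0, 0, ⟨0, 0⟩, 0⟩, 42823906, 0⟩ 0 0))) (.pos 20 .pp ⟨⟨0, 0, 0, 0, 0, 0, 1783903, 0, 0, ⟨0, 0⟩, 0⟩, 0, 0⟩ 0 0)) (.cut .d 1427381 (.pos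 79 .pp ⟨⟨0, 0, 0, 0, 0, 0, 0, 0, 0, ⟨0, 0⟩, 0⟩, 144460694, 0⟩ 0 0) (.pos 79 .pp ⟨⟨0, 0, 0, 0, 0, 0, 0, 0, 0, ⟨0, 0⟩, 0⟩, 54096488, 0⟩ 0 0))) (.pos 78 .pp ⟨⟨0, 0, 0, 0, 0, 0, 0, 0, 0, ⟨0, 0⟩, 0⟩, 0, 446958⟩ 0 0)) (.void 88 ⟨⟨0, 0, 0, 46460, 0, 0, 0, 0, 0, ⟨0, 0⟩, 0⟩, 53540, 0⟩ 0 0)))),
    by decide +kernel⟩

theorem covers21 : cell.Covers Vale.Agent.P237.Petty.Cor.Grid.N11.table row21.1 :=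
  ⟨(.cut .d 0 (.cut .v 16777216 (.cut .v 8388608 (.pos 2 .mm ⟨⟨0, 0, 372021970, 0, 0, 330429672, 0, 0, 0, ⟨0, 0⟩, 0⟩, 0, 0⟩ 0 0) (.cut .d (-8388608) (.void 3 ⟨⟨0, 0, 0, 0, 0, 100000, 0, 0, 0, ⟨0, 0⟩, 0⟩, 0, 0⟩ 0 0) (.cut .d (-4194304) (.void 3 ⟨⟨0, 0, 0, 0, 0, 100000, 0, 0, 0, ⟨0, 0⟩, 0⟩, 0, 0⟩ 0 0) (.cut .d (-2097152) (.void 3 ⟨⟨0, 0, 0, 0, 0, 100000, 0, 0, 0, ⟨0, 0⟩, 0⟩, 0, 0⟩ 0 0) (.cut .d (-1048576) (.void 3 ⟨⟨0, 0, 0, 0, 0, 100000, 0, 0, 0, ⟨0, 0⟩, 0⟩, 0, 0⟩ 0 0) (.cut .d (-524288) (.void 3 ⟨⟨0, 0, 0, 0, 0, 100000, 0, 0, 0, ⟨0, 0⟩, 0⟩, 0, 0⟩ 0 0) (.cut .s 12845056 (.pos 3 .mm ⟨⟨0, 0, 0, 0, 0, 464365669, 0, 0, 0, ⟨0, 0⟩, 0⟩,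 0, 0⟩ 0 0) (.pos 3 .mm ⟨⟨0, 0, 0, 0, 0, 516647017, 0, 0, 0, ⟨0, 0⟩, 0⟩, 0, 0⟩ 0 0)))))))) (.cut .v 268435456 (.cut .v 67108864 (.cut .v 33554432 (.cut .v 25165824 (.cut .d (-8388608) (.void 21 ⟨⟨100000, 0, 0, 0, 0, 0, 0, 0, 0, ⟨0, 0⟩, 0⟩, 0, 0⟩ 0 0) (.cut .d (-4194304) (.void 21 ⟨⟨100000, 0, 0, 0, 0, 0, 0, 0, 0, ⟨0, 0⟩, 0⟩, 0, 0⟩ 0 0) (.cut .v 20971520 (.cut .d (-2097152) (.void 23 ⟨⟨100000, 0, 0, 0, 0, 0, 0, 0, 0, ⟨0, 0⟩, 0⟩, 0, 0⟩ 0 0) (.cut .v 18874368 (.cut .d (-1048576) (.void 25 ⟨⟨100000, 0, 0, 0, 0, 0, 0, 0, 0, ⟨0, 0⟩, 0⟩, 0, 0⟩ 0 0) (.cut .v 17825792 (.cut .d (-524288) (.void 27 ⟨⟨100000, 0, 0, 0, 0, 0, 0, 0, 0, ⟨0, 0⟩,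 0⟩, 0, 0⟩ 0 0) (.cut .v 17301504 (.cut .d (-262144) (.void 29 ⟨⟨100000, 0, 0, 0, 0, 0, 0, 0, 0, ⟨0, 0⟩, 0⟩, 0, 0⟩ 0 0) (.cut .v 17039360 (.cut .d (-131072) (.void 31 ⟨⟨100000, 0, 0, 0, 0, 0, 0, 0, 0, ⟨0, 0⟩, 0⟩, 0, 0⟩ 0 0) (.cut .d (-65536) (.void 31 ⟨⟨100000, 0, 0, 0, 0, 0, 0, 0, 0, ⟨0, 0⟩, 0⟩, 0, 0⟩ 0 0) (.cut .d (-32768) (.void 31 ⟨⟨0, 0, 0, 0, 0, 100000, 0, 0, 0, ⟨0, 0⟩, 0⟩, 0, 0⟩ 0 0) (.cut .s 12845056 (.cut .v 16908288 (.cut .d (-16384) (.cut .d (-24576) (.void 35 ⟨⟨0, 0, 0, 0, 0, 100000, 0, 0, 0, ⟨0, 0⟩, 0⟩, 0, 0⟩ 0 0) (.cut .d (-20480) (.void 35 ⟨⟨0, 0, 0, 0, 0, 100000, 0, 0, 0, ⟨0, 0⟩, 0⟩, 0, 0⟩ 0 0) (.cut .l 167772 (.void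 35 ⟨⟨0, 0, 0, 0, 0, 100000, 0, 0, 0, ⟨0, 0⟩, 0⟩, 0, 0⟩ 0 0) (.cut .l 251658 (.void 35 ⟨⟨0, 0, 0, 0, 0, 100000, 0, 0, 0, ⟨0, 0⟩, 0⟩, 0, 0⟩ 0 0) (.cut .v 16842752 (.cut .v 16809984 (.pos 45 .mp ⟨⟨0, 0, 0, 0, 0, 480350909, 0, 0, 0, ⟨0, 0⟩, 0⟩, 0, 0⟩ 0 0) (.cut .v 16826368 (.pos 82 .mp ⟨⟨0, 0, 0, 0, 0, 485343743, 0, 0, 0, ⟨0, 0⟩, 0⟩, 0, 0⟩ 0 0) (.cut .s 12779520 (.cut .s 12746752 (.pos 83 .mp ⟨⟨212190364, 0, 0, 0, 0, 82919291, 0, 0, 0, ⟨0, 0⟩, 0⟩, 0, 0⟩ 0 0) (.pos 83 .mp ⟨⟨217167055, 0, 0, 0, 0, 85075002, 0, 0, 0, ⟨0, 0⟩, 0⟩, 0, 0⟩ 0 0)) (.cut .s 12812288 (.pos 83 .mp ⟨⟨222266261, 0, 0, 0, 0, 87363741, 0, 0, 0, ⟨0, 0⟩, 0⟩, 0, 0⟩ 0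 0) (.pos 83 .mp ⟨⟨227490882, 0, 0, 0, 0, 89783396, 0, 0, 0, ⟨0, 0⟩, 0⟩, 0, 0⟩ 0 0))))) (.cut .s 12779520 (.pos 42 .mp ⟨⟨260291766, 0, 0, 0, 0, 7604865, 0, 0, 0, ⟨0, 0⟩, 0⟩, 0, 0⟩ 0 0) (.pos 42 .mp ⟨⟨271660090, 0, 0, 0, 0, 10126904, 0, 0, 0, ⟨0, 0⟩, 0⟩, 0, 0⟩ 0 0))))))) (.cut .s 12779520 (.cut .v 16842752 (.cut .s 12746752 (.cut .s 12730368 (.cut .l 167772 (.cut .d (-8192) (.pos 41 .mp ⟨⟨211545340, 0, 0, 0, 0, 82902228, 0, 0, 0, ⟨0, 0⟩, 0⟩, 0, 0⟩ 0 0) (.cut .v 16809984 (.cut .l 83886 (.cut .d (-4096) (.pos 45 .mp ⟨⟨210927578, 0, 0, 0, 0, 82975638, 0, 0, 0, ⟨0, 0⟩, 0⟩, 0, 0⟩ 0 0) (.cut .v 16793600 (.cut .s 12722176 (.pos 55 .mp ⟨⟨213052864,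 0, 0, 0, 0, 72318125, 0, 0, 0, ⟨0, 0⟩, 0⟩, 0, 0⟩ 0 0) (.pos 55 .mp ⟨⟨214281762, 0, 0, 0, 0, 72761251, 0, 0, 0, ⟨0, 0⟩, 0⟩, 0, 0⟩ 0 0)) (.pos 56 .mp ⟨⟨254100183, 0, 0, 0, 0, 0, 0, 0, 0, ⟨0, 0⟩, 0⟩, 0, 0⟩ 0 0))) (.pos 45 .mp ⟨⟨214497479, 0, 0, 0, 0, 69334419, 0, 0, 0, ⟨0, 0⟩, 0⟩, 0, 0⟩ 0 0)) (.pos 46 .mp ⟨⟨254400419, 0, 0, 0, 0, 0, 0, 0, 0, ⟨0, 0⟩, 0⟩, 0, 0⟩ 0 0))) (.cut .s 12722176 (.pos 41 .mp ⟨⟨215172425, 0, 0, 0, 0, 68095448, 0, 0, 0, ⟨0, 0⟩, 0⟩, 0, 0⟩ 0 0) (.pos 41 .mp ⟨⟨216423091, 0, 0, 0, 0, 68540289, 0, 0, 0, ⟨0, 0⟩, 0⟩, 0, 0⟩ 0 0))) (.cut .l 167772 (.cut .d (-8192) (.pos 41 .mp ⟨⟨214001892, 0, 0, 0, 0, 83881159, 0, 0, 0,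 ⟨0, 0⟩, 0⟩, 0, 0⟩ 0 0) (.cut .v 16809984 (.cut .l 83886 (.cut .d (-4096) (.pos 45 .mp ⟨⟨213370738, 0, 0, 0, 0, 83967416, 0, 0, 0, ⟨0, 0⟩, 0⟩, 0, 0⟩ 0 0) (.cut .v 16793600 (.cut .l 41943 (.cut .d (-2048) (.pos 55 .mp ⟨⟨213056405, 0, 0, 0, 0, 84008396, 0, 0, 0, ⟨0, 0⟩, 0⟩, 0, 0⟩ 0 0) (.cut .s 12738560 (.pos 55 .mp ⟨⟨214822125, 0, 0, 0, 0, 74376009, 0, 0, 0, ⟨0, 0⟩, 0⟩, 0, 0⟩ 0 0) (.pos 55 .mp ⟨⟨216091499, 0, 0, 0, 0, 74779876, 0, 0, 0, ⟨0, 0⟩, 0⟩, 0, 0⟩ 0 0))) (.pos 55 .mp ⟨⟨216009436, 0, 0, 0, 0, 71515202, 0, 0, 0, ⟨0, 0⟩, 0⟩, 0, 0⟩ 0 0)) (.pos 56 .mp ⟨⟨257015286, 0, 0, 0, 0, 0, 0, 0, 0, ⟨0, 0⟩, 0⟩, 0, 0⟩ 0 0))) (.pos 45 .mp ⟨⟨216986718,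 0, 0, 0, 0, 70268940, 0, 0, 0, ⟨0, 0⟩, 0⟩, 0, 0⟩ 0 0)) (.pos 46 .mp ⟨⟨257318995, 0, 0, 0, 0, 0, 0, 0, 0, ⟨0, 0⟩, 0⟩, 0, 0⟩ 0 0))) (.cut .s 12738560 (.pos 41 .mp ⟨⟨217681431, 0, 0, 0, 0, 68991038, 0, 0, 0, ⟨0, 0⟩, 0⟩, 0, 0⟩ 0 0) (.pos 41 .mp ⟨⟨218947488, 0, 0, 0, 0, 69447565, 0, 0, 0, ⟨0, 0⟩, 0⟩, 0, 0⟩ 0 0)))) (.cut .s 12763136 (.cut .l 167772 (.cut .d (-8192) (.pos 41 .mp ⟨⟨216487677, 0, 0, 0, 0, 84905571, 0, 0, 0, ⟨0, 0⟩, 0⟩, 0, 0⟩ 0 0) (.cut .v 16809984 (.cut .s 12754944 (.cut .s 12750848 (.pos 45 .mp ⟨⟨219124988, 0, 0, 0, 0, 71787224, 0, 0, 0, ⟨0, 0⟩, 0⟩, 0, 0⟩ 0 0) (.pos 45 .mp ⟨⟨219758285, 0, 0, 0, 0, 72014366, 0, 0, 0, ⟨0,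 0⟩, 0⟩, 0, 0⟩ 0 0)) (.cut .s 12759040 (.pos 45 .mp ⟨⟨220393511, 0, 0, 0, 0, 72243600, 0, 0, 0, ⟨0, 0⟩, 0⟩, 0, 0⟩ 0 0) (.pos 45 .mp ⟨⟨221030674, 0, 0, 0, 0, 72474921, 0, 0, 0, ⟨0, 0⟩, 0⟩, 0, 0⟩ 0 0))) (.pos 46 .mp ⟨⟨260289399, 0, 0, 0, 0, 0, 0, 0, 0, ⟨0, 0⟩, 0⟩, 0, 0⟩ 0 0))) (.cut .d (-8192) (.cut .s 12754944 (.pos 41 .mp ⟨⟨213572441, 0, 0, 0, 0, 84568288, 0, 0, 0, ⟨0, 0⟩, 0⟩, 0, 0⟩ 0 0) (.pos 41 .mp ⟨⟨214754553, 0, 0, 0, 0, 85222901, 0, 0, 0, ⟨0, 0⟩, 0⟩, 0, 0⟩ 0 0)) (.pos 41 .mp ⟨⟨217124560, 0, 0, 0, 0, 0, 0, 0, 0, ⟨0, 0⟩, 0⟩, 0, 0⟩ 0 0))) (.cut .l 167772 (.cut .d (-8192) (.pos 41 .mp ⟨⟨219003028, 0, 0, 0, 0, 85976092, 0, 0, 0,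 ⟨0, 0⟩, 0⟩, 0, 0⟩ 0 0) (.cut .v 16809984 (.cut .s 12771328 (.cut .s 12767232 (.pos 45 .mp ⟨⟨221669778, 0, 0, 0, 0, 72708325, 0, 0, 0, ⟨0, 0⟩, 0⟩, 0, 0⟩ 0 0) (.pos 45 .mp ⟨⟨222310829, 0, 0, 0, 0, 72943808, 0, 0, 0, ⟨0, 0⟩, 0⟩, 0, 0⟩ 0 0)) (.cut .s 12775424 (.pos 45 .mp ⟨⟨222953833, 0, 0, 0, 0, 73181367, 0, 0, 0, ⟨0, 0⟩, 0⟩, 0, 0⟩ 0 0) (.pos 45 .mp ⟨⟨223598795, 0, 0, 0, 0, 73420997, 0, 0, 0, ⟨0, 0⟩, 0⟩, 0, 0⟩ 0 0))) (.pos 46 .mp ⟨⟨263312219, 0, 0, 0, 0, 0, 0, 0, 0, ⟨0, 0⟩, 0⟩, 0, 0⟩ 0 0))) (.cut .d (-8192) (.cut .s 12771328 (.pos 41 .mp ⟨⟨215948616, 0, 0, 0, 0, 85877010, 0, 0, 0, ⟨0, 0⟩, 0⟩, 0, 0⟩ 0 0) (.pos 41 .mp ⟨⟨217154852, 0,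 0, 0, 0, 86530208, 0, 0, 0, ⟨0, 0⟩, 0⟩, 0, 0⟩ 0 0)) (.pos 41 .mp ⟨⟨219649659, 0, 0, 0, 0, 0, 0, 0, 0, ⟨0, 0⟩, 0⟩, 0, 0⟩ 0 0))))) (.pos 42 .mp ⟨⟨262160843, 0, 0, 0, 0, 0, 0, 0, 0, ⟨0, 0⟩, 0⟩, 0, 0⟩ 0 0)) (.cut .v 16842752 (.cut .s 12812288 (.cut .s 12795904 (.cut .l 167772 (.cut .d (-8192) (.pos 41 .mp ⟨⟨221548286, 0, 0, 0, 0, 87093363, 0, 0, 0, ⟨0, 0⟩, 0⟩, 0, 0⟩ 0 0) (.cut .v 16809984 (.cut .s 12787712 (.cut .s 12783616 (.pos 45 .mp ⟨⟨224245722, 0, 0, 0, 0, 73662695, 0, 0, 0, ⟨0, 0⟩, 0⟩, 0, 0⟩ 0 0) (.pos 45 .mp ⟨⟨224894619, 0, 0, 0, 0, 73906456, 0, 0, 0, ⟨0, 0⟩, 0⟩, 0, 0⟩ 0 0)) (.cut .s 12791808 (.pos 45 .mp ⟨⟨225545492, 0, 0,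 0, 0, 74152275, 0, 0, 0, ⟨0, 0⟩, 0⟩, 0, 0⟩ 0 0) (.pos 45 .mp ⟨⟨226198347, 0, 0, 0, 0, 74400150, 0, 0, 0, ⟨0, 0⟩, 0⟩, 0, 0⟩ 0 0))) (.pos 46 .mp ⟨⟨266388052, 0, 0, 0, 0, 0, 0, 0, 0, ⟨0, 0⟩, 0⟩, 0, 0⟩ 0 0))) (.cut .d (-8192) (.cut .s 12787712 (.pos 41 .mp ⟨⟨218373482, 0, 0, 0, 0, 87182081, 0, 0, 0, ⟨0, 0⟩, 0⟩, 0, 0⟩ 0 0) (.pos 41 .mp ⟨⟨219604727, 0, 0, 0, 0, 87832217, 0, 0, 0, ⟨0, 0⟩, 0⟩, 0, 0⟩ 0 0)) (.pos 41 .mp ⟨⟨222205075, 0, 0, 0, 0, 0, 0, 0, 0, ⟨0, 0⟩, 0⟩, 0, 0⟩ 0 0))) (.cut .d (-8192) (.cut .l 167772 (.pos 41 .mp ⟨⟨224123794, 0, 0, 0, 0, 88258031, 0, 0, 0, ⟨0, 0⟩, 0⟩, 0, 0⟩ 0 0) (.cut .s 12804096 (.pos 41 .mp ⟨⟨220848813, 0,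 0, 0, 0, 88480199, 0, 0, 0, ⟨0, 0⟩, 0⟩, 0, 0⟩ 0 0) (.pos 41 .mp ⟨⟨222105964, 0, 0, 0, 0, 89125608, 0, 0, 0, ⟨0, 0⟩, 0⟩, 0, 0⟩ 0 0))) (.cut .l 167772 (.cut .v 16809984 (.cut .s 12804096 (.cut .s 12800000 (.pos 45 .mp ⟨⟨226853190, 0, 0, 0, 0, 74650075, 0, 0, 0, ⟨0, 0⟩, 0⟩, 0, 0⟩ 0 0) (.pos 45 .mp ⟨⟨227510026, 0, 0, 0, 0, 74902047, 0, 0, 0, ⟨0, 0⟩, 0⟩, 0, 0⟩ 0 0)) (.cut .s 12808192 (.pos 45 .mp ⟨⟨228168861, 0, 0, 0, 0, 75156061, 0, 0, 0, ⟨0, 0⟩, 0⟩, 0, 0⟩ 0 0) (.pos 45 .mp ⟨⟨228829702, 0, 0, 0, 0, 75412112, 0, 0, 0, ⟨0, 0⟩, 0⟩, 0, 0⟩ 0 0))) (.pos 46 .mp ⟨⟨269517504, 0, 0, 0, 0, 0, 0, 0, 0, ⟨0, 0⟩, 0⟩, 0, 0⟩ 0 0)) (.pos 41 .mp ⟨⟨224791160,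 0, 0, 0, 0, 0, 0, 0, 0, ⟨0, 0⟩, 0⟩, 0, 0⟩ 0 0)))) (.cut .s 12828672 (.cut .d (-8192) (.cut .l 167772 (.pos 41 .mp ⟨⟨226729905, 0, 0, 0, 0, 89470760, 0, 0, 0, ⟨0, 0⟩, 0⟩, 0, 0⟩ 0 0) (.cut .s 12820480 (.pos 41 .mp ⟨⟨223384827, 0, 0, 0, 0, 89750084, 0, 0, 0, ⟨0, 0⟩, 0⟩, 0, 0⟩ 0 0) (.pos 41 .mp ⟨⟨224680239, 0, 0, 0, 0, 90364680, 0, 0, 0, ⟨0, 0⟩, 0⟩, 0, 0⟩ 0 0))) (.cut .l 167772 (.cut .v 16809984 (.cut .s 12820480 (.cut .s 12816384 (.pos 45 .mp ⟨⟨229492554, 0, 0, 0, 0, 75670196, 0, 0, 0, ⟨0, 0⟩, 0⟩, 0, 0⟩ 0 0) (.pos 45 .mp ⟨⟨230157423, 0, 0, 0, 0, 75930310, 0, 0, 0, ⟨0, 0⟩, 0⟩, 0, 0⟩ 0 0)) (.cut .s 12824576 (.pos 45 .mp ⟨⟨230824316,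 0, 0, 0, 0, 76192448, 0, 0, 0, ⟨0, 0⟩, 0⟩, 0, 0⟩ 0 0) (.pos 45 .mp ⟨⟨231493238, 0, 0, 0, 0, 76456606, 0, 0, 0, ⟨0, 0⟩, 0⟩, 0, 0⟩ 0 0))) (.pos 46 .mp ⟨⟨272701191, 0, 0, 0, 0, 0, 0, 0, 0, ⟨0, 0⟩, 0⟩, 0, 0⟩ 0 0)) (.pos 41 .mp ⟨⟨227408275, 0, 0, 0, 0, 0, 0, 0, 0, ⟨0, 0⟩, 0⟩, 0, 0⟩ 0 0))) (.cut .d (-8192) (.cut .l 167772 (.pos 41 .mp ⟨⟨229366973, 0, 0, 0, 0, 90732220, 0, 0, 0, ⟨0, 0⟩, 0⟩, 0, 0⟩ 0 0) (.cut .s 12836864 (.pos 41 .mp ⟨⟨225983465, 0, 0, 0, 0, 90988064, 0, 0, 0, ⟨0, 0⟩, 0⟩, 0, 0⟩ 0 0) (.pos 41 .mp ⟨⟨227294553, 0, 0, 0, 0, 91620203, 0, 0, 0, ⟨0, 0⟩, 0⟩, 0, 0⟩ 0 0))) (.cut .l 167772 (.cut .v 16809984 (.cut .s 12836864 (.cut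 .s 12832768 (.pos 45 .mp ⟨⟨232164196, 0, 0, 0, 0, 76722779, 0, 0, 0, ⟨0, 0⟩, 0⟩, 0, 0⟩ 0 0) (.pos 45 .mp ⟨⟨232837194, 0, 0, 0, 0, 76990963, 0, 0, 0, ⟨0, 0⟩, 0⟩, 0, 0⟩ 0 0)) (.cut .s 12840960 (.pos 45 .mp ⟨⟨233512241, 0, 0, 0, 0, 77261153, 0, 0, 0, ⟨0, 0⟩, 0⟩, 0, 0⟩ 0 0) (.pos 45 .mp ⟨⟨234189341, 0, 0, 0, 0, 77533345, 0, 0, 0, ⟨0, 0⟩, 0⟩, 0, 0⟩ 0 0))) (.pos 46 .mp ⟨⟨275939740, 0, 0, 0, 0, 0, 0, 0, 0, ⟨0, 0⟩, 0⟩, 0, 0⟩ 0 0)) (.pos 41 .mp ⟨⟨230056785, 0, 0, 0, 0, 0, 0, 0, 0, ⟨0, 0⟩, 0⟩, 0, 0⟩ 0 0))))) (.cut .s 12812288 (.pos 42 .mp ⟨⟨269772866, 0, 0, 0, 0, 0, 0, 0, 0, ⟨0, 0⟩, 0⟩, 0, 0⟩ 0 0) (.pos 42 .mp ⟨⟨276200887, 0, 0, 0, 0, 0,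 0, 0, 0, ⟨0, 0⟩, 0⟩, 0, 0⟩ 0 0))))) (.pos 36 .mp ⟨⟨277637926, 0, 0, 0, 0, 0, 0, 0, 0, ⟨0, 0⟩, 0⟩, 0, 0⟩ 0 0)) (.cut .v 16908288 (.cut .d (-16384) (.cut .d (-24576) (.void 35 ⟨⟨0, 0, 0, 0, 0, 100000, 0, 0, 0, ⟨0, 0⟩, 0⟩, 0, 0⟩ 0 0) (.cut .d (-20480) (.void 35 ⟨⟨0, 0, 0, 0, 0, 100000, 0, 0, 0, ⟨0, 0⟩, 0⟩, 0, 0⟩ 0 0) (.cut .l 167772 (.void 35 ⟨⟨100000, 0, 0, 0, 0, 0, 0, 0, 0, ⟨0, 0⟩, 0⟩, 0, 0⟩ 0 0) (.cut .l 251658 (.void 35 ⟨⟨0, 0, 0, 0, 0, 100000, 0, 0, 0, ⟨0, 0⟩, 0⟩, 0, 0⟩ 0 0) (.cut .v 16842752 (.cut .d (-18432) (.pos 41 .mp ⟨⟨232262933, 0, 0, 0, 0, 128428023, 0, 0, 0, ⟨0, 0⟩, 0⟩, 0, 0⟩ 0 0) (.cut .s 12910592 (.cut .s 12877824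 (.pos 41 .mp ⟨⟨231532545, 0, 0, 0, 0, 93946039, 0, 0, 0, ⟨0, 0⟩, 0⟩, 0, 0⟩ 0 0) (.pos 41 .mp ⟨⟨236988049, 0, 0, 0, 0, 96683491, 0, 0, 0, ⟨0, 0⟩, 0⟩, 0, 0⟩ 0 0)) (.pos 41 .mp ⟨⟨242577572, 0, 0, 0, 0, 107797851, 0, 0, 0, ⟨0, 0⟩, 0⟩, 0, 0⟩ 0 0))) (.cut .s 12910592 (.pos 42 .mp ⟨⟨285083846, 0, 0, 0, 0, 10449958, 0, 0, 0, ⟨0, 0⟩, 0⟩, 0, 0⟩ 0 0) (.pos 42 .mp ⟨⟨300889510, 0, 0, 0, 0, 8002770, 0, 0, 0, ⟨0, 0⟩, 0⟩, 0, 0⟩ 0 0))))))) (.cut .s 12910592 (.cut .v 16842752 (.cut .s 12877824 (.cut .s 12861440 (.cut .d (-8192) (.cut .l 167772 (.pos 41 .mp ⟨⟨232035362, 0, 0, 0, 0, 92043095, 0, 0, 0, ⟨0, 0⟩, 0⟩, 0, 0⟩ 0 0) (.cut .s 12853248 (.pos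 41 .mp ⟨⟨228613550, 0, 0, 0, 0, 92261066, 0, 0, 0, ⟨0, 0⟩, 0⟩, 0, 0⟩ 0 0) (.pos 41 .mp ⟨⟨229940503, 0, 0, 0, 0, 92910616, 0, 0, 0, ⟨0, 0⟩, 0⟩, 0, 0⟩ 0 0))) (.cut .l 167772 (.cut .v 16809984 (.cut .s 12853248 (.cut .s 12849152 (.pos 45 .mp ⟨⟨234868501, 0, 0, 0, 0, 77807533, 0, 0, 0, ⟨0, 0⟩, 0⟩, 0, 0⟩ 0 0) (.pos 45 .mp ⟨⟨235549727, 0, 0, 0, 0, 78083713, 0, 0, 0, ⟨0, 0⟩, 0⟩, 0, 0⟩ 0 0)) (.cut .s 12857344 (.pos 45 .mp ⟨⟨236233025, 0, 0, 0, 0, 78361881, 0, 0, 0, ⟨0, 0⟩, 0⟩, 0, 0⟩ 0 0) (.pos 45 .mp ⟨⟨236918402, 0, 0, 0, 0, 78642031, 0, 0, 0, ⟨0, 0⟩, 0⟩, 0, 0⟩ 0 0))) (.pos 46 .mp ⟨⟨279233790, 0, 0, 0, 0, 0, 0, 0, 0, ⟨0, 0⟩, 0⟩, 0, 0⟩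 0 0)) (.pos 41 .mp ⟨⟨232737061, 0, 0, 0, 0, 0, 0, 0, 0, ⟨0, 0⟩, 0⟩, 0, 0⟩ 0 0))) (.cut .d (-8192) (.cut .l 167772 (.pos 41 .mp ⟨⟨234735439, 0, 0, 0, 0, 93404081, 0, 0, 0, ⟨0, 0⟩, 0⟩, 0, 0⟩ 0 0) (.cut .s 12869632 (.pos 41 .mp ⟨⟨231291037, 0, 0, 0, 0, 93535606, 0, 0, 0, ⟨0, 0⟩, 0⟩, 0, 0⟩ 0 0) (.pos 41 .mp ⟨⟨232660974, 0, 0, 0, 0, 94144996, 0, 0, 0, ⟨0, 0⟩, 0⟩, 0, 0⟩ 0 0))) (.cut .l 167772 (.cut .v 16809984 (.cut .s 12869632 (.cut .s 12865536 (.pos 45 .mp ⟨⟨237605864, 0, 0, 0, 0, 78924158, 0, 0, 0, ⟨0, 0⟩, 0⟩, 0, 0⟩ 0 0) (.pos 45 .mp ⟨⟨238295416, 0, 0, 0, 0, 79208258, 0, 0, 0, ⟨0, 0⟩, 0⟩, 0, 0⟩ 0 0)) (.cut .s 12873728 (.pos 45 .mp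 ⟨⟨238987066, 0, 0, 0, 0, 79494325, 0, 0, 0, ⟨0, 0⟩, 0⟩, 0, 0⟩ 0 0) (.pos 45 .mp ⟨⟨239680819, 0, 0, 0, 0, 79782355, 0, 0, 0, ⟨0, 0⟩, 0⟩, 0, 0⟩ 0 0))) (.pos 46 .mp ⟨⟨282583987, 0, 0, 0, 0, 0, 0, 0, 0, ⟨0, 0⟩, 0⟩, 0, 0⟩ 0 0)) (.pos 41 .mp ⟨⟨235449480, 0, 0, 0, 0, 0, 0, 0, 0, ⟨0, 0⟩, 0⟩, 0, 0⟩ 0 0)))) (.cut .s 12894208 (.cut .d (-8192) (.cut .l 167772 (.pos 41 .mp ⟨⟨237467578, 0, 0, 0, 0, 94815886, 0, 0, 0, ⟨0, 0⟩, 0⟩, 0, 0⟩ 0 0) (.cut .s 12886016 (.pos 41 .mp ⟨⟨234046062, 0, 0, 0, 0, 94747912, 0, 0, 0, ⟨0, 0⟩, 0⟩, 0, 0⟩ 0 0) (.pos 41 .mp ⟨⟨235446541, 0, 0, 0, 0, 95343906, 0, 0, 0, ⟨0, 0⟩, 0⟩, 0, 0⟩ 0 0))) (.cut .l 167772 (.cut .v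 16809984 (.cut .s 12886016 (.cut .s 12881920 (.pos 45 .mp ⟨⟨240376683, 0, 0, 0, 0, 80072343, 0, 0, 0, ⟨0, 0⟩, 0⟩, 0, 0⟩ 0 0) (.pos 45 .mp ⟨⟨241074663, 0, 0, 0, 0, 80364283, 0, 0, 0, ⟨0, 0⟩, 0⟩, 0, 0⟩ 0 0)) (.cut .s 12890112 (.pos 45 .mp ⟨⟨241774766, 0, 0, 0, 0, 80658170, 0, 0, 0, ⟨0, 0⟩, 0⟩, 0, 0⟩ 0 0) (.pos 45 .mp ⟨⟨242476998, 0, 0, 0, 0, 80953999, 0, 0, 0, ⟨0, 0⟩, 0⟩, 0, 0⟩ 0 0))) (.pos 46 .mp ⟨⟨285990993, 0, 0, 0, 0, 0, 0, 0, 0, ⟨0, 0⟩, 0⟩, 0, 0⟩ 0 0)) (.pos 41 .mp ⟨⟨238194426, 0, 0, 0, 0, 0, 0, 0, 0, ⟨0, 0⟩, 0⟩, 0, 0⟩ 0 0))) (.cut .d (-8192) (.cut .l 167772 (.pos 41 .mp ⟨⟨240232161, 0, 0, 0, 0, 96279228, 0, 0, 0, ⟨0, 0⟩, 0⟩,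 0, 0⟩ 0 0) (.cut .s 12902400 (.pos 41 .mp ⟨⟨236862650, 0, 0, 0, 0, 95932527, 0, 0, 0, ⟨0, 0⟩, 0⟩, 0, 0⟩ 0 0) (.pos 41 .mp ⟨⟨238294631, 0, 0, 0, 0, 96513319, 0, 0, 0, ⟨0, 0⟩, 0⟩, 0, 0⟩ 0 0))) (.cut .l 167772 (.cut .v 16809984 (.cut .s 12902400 (.cut .s 12898304 (.pos 45 .mp ⟨⟨243181366, 0, 0, 0, 0, 81251765, 0, 0, 0, ⟨0, 0⟩, 0⟩, 0, 0⟩ 0 0) (.pos 45 .mp ⟨⟨243887876, 0, 0, 0, 0, 81551463, 0, 0, 0, ⟨0, 0⟩, 0⟩, 0, 0⟩ 0 0)) (.cut .s 12906496 (.pos 45 .mp ⟨⟨244596535, 0, 0, 0, 0, 81853087, 0, 0, 0, ⟨0, 0⟩, 0⟩, 0, 0⟩ 0 0) (.pos 45 .mp ⟨⟨245307349, 0, 0, 0, 0, 82156632, 0, 0, 0, ⟨0, 0⟩, 0⟩, 0, 0⟩ 0 0))) (.pos 46 .mp ⟨⟨289455476, 0, 0, 0,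 0, 0, 0, 0, 0, ⟨0, 0⟩, 0⟩, 0, 0⟩ 0 0)) (.pos 41 .mp ⟨⟨240972289, 0, 0, 0, 0, 0, 0, 0, 0, ⟨0, 0⟩, 0⟩, 0, 0⟩ 0 0))))) (.cut .s 12877824 (.pos 42 .mp ⟨⟨282850108, 0, 0, 0, 0, 0, 0, 0, 0, ⟨0, 0⟩, 0⟩, 0, 0⟩ 0 0) (.pos 42 .mp ⟨⟨289725708, 0, 0, 0, 0, 0, 0, 0, 0, ⟨0, 0⟩, 0⟩, 0, 0⟩ 0 0))) (.cut .v 16842752 (.cut .s 12943360 (.cut .s 12926976 (.cut .d (-8192) (.cut .l 167772 (.pos 41 .mp ⟨⟨243029574, 0, 0, 0, 0, 97794840, 0, 0, 0, ⟨0, 0⟩, 0⟩, 0, 0⟩ 0 0) (.cut .s 12918784 (.pos 41 .mp ⟨⟨239742727, 0, 0, 0, 0, 97085827, 0, 0, 0, ⟨0, 0⟩, 0⟩, 0, 0⟩ 0 0) (.pos 41 .mp ⟨⟨241207183, 0, 0, 0, 0, 97649588, 0, 0, 0, ⟨0, 0⟩, 0⟩, 0, 0⟩ 0 0))) (.cut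 .l 167772 (.cut .v 16809984 (.cut .s 12918784 (.cut .s 12914688 (.pos 45 .mp ⟨⟨246020325, 0, 0, 0, 0, 82462092, 0, 0, 0, ⟨0, 0⟩, 0⟩, 0, 0⟩ 0 0) (.pos 45 .mp ⟨⟨246735470, 0, 0, 0, 0, 82769462, 0, 0, 0, ⟨0, 0⟩, 0⟩, 0, 0⟩ 0 0)) (.cut .s 12922880 (.pos 45 .mp ⟨⟨247452790, 0, 0, 0, 0, 83078737, 0, 0, 0, ⟨0, 0⟩, 0⟩, 0, 0⟩ 0 0) (.pos 45 .mp ⟨⟨248172292, 0, 0, 0, 0, 83389910, 0, 0, 0, ⟨0, 0⟩, 0⟩, 0, 0⟩ 0 0))) (.pos 46 .mp ⟨⟨292978119, 0, 0, 0, 0, 0, 0, 0, 0, ⟨0, 0⟩, 0⟩, 0, 0⟩ 0 0)) (.pos 41 .mp ⟨⟨243783467, 0, 0, 0, 0, 0, 0, 0, 0, ⟨0, 0⟩, 0⟩, 0, 0⟩ 0 0))) (.cut .d (-8192) (.cut .l 167772 (.pos 41 .mp ⟨⟨245860210, 0, 0, 0, 0, 99363467,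 0, 0, 0, ⟨0, 0⟩, 0⟩, 0, 0⟩ 0 0) (.cut .s 12935168 (.pos 41 .mp ⟨⟨242688245, 0, 0, 0, 0, 98204140, 0, 0, 0, ⟨0, 0⟩, 0⟩, 0, 0⟩ 0 0) (.pos 41 .mp ⟨⟨244186160, 0, 0, 0, 0, 98749016, 0, 0, 0, ⟨0, 0⟩, 0⟩, 0, 0⟩ 0 0))) (.cut .l 167772 (.cut .v 16809984 (.cut .l 83886 (.cut .d (-4096) (.pos 45 .mp ⟨⟨245050177, 0, 0, 0, 0, 99623149, 0, 0, 0, ⟨0, 0⟩, 0⟩, 0, 0⟩ 0 0) (.cut .v 16793600 (.cut .s 12935168 (.pos 55 .mp ⟨⟨247551421, 0, 0, 0, 0, 86562697, 0, 0, 0, ⟨0, 0⟩, 0⟩, 0, 0⟩ 0 0) (.pos 55 .mp ⟨⟨248989723, 0, 0, 0, 0, 87219514, 0, 0, 0, ⟨0, 0⟩, 0⟩, 0, 0⟩ 0 0)) (.pos 56 .mp ⟨⟨296209268, 0, 0, 0, 0, 0, 0, 0, 0, ⟨0, 0⟩, 0⟩, 0, 0⟩ 0 0))) (.pos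 45 .mp ⟨⟨249336258, 0, 0, 0, 0, 83014159, 0, 0, 0, ⟨0, 0⟩, 0⟩, 0, 0⟩ 0 0)) (.pos 46 .mp ⟨⟨296559615, 0, 0, 0, 0, 0, 0, 0, 0, ⟨0, 0⟩, 0⟩, 0, 0⟩ 0 0)) (.pos 41 .mp ⟨⟨246628363, 0, 0, 0, 0, 0, 0, 0, 0, ⟨0, 0⟩, 0⟩, 0, 0⟩ 0 0)))) (.cut .s 12959744 (.cut .d (-8192) (.cut .l 167772 (.pos 41 .mp ⟨⟨248724469, 0, 0, 0, 0, 100985867, 0, 0, 0, ⟨0, 0⟩, 0⟩, 0, 0⟩ 0 0) (.pos 41 .mp ⟨⟨245076091, 0, 0, 0, 0, 102024414, 0, 0, 0, ⟨0, 0⟩, 0⟩, 0, 0⟩ 0 0)) (.cut .l 167772 (.cut .v 16809984 (.cut .l 83886 (.cut .d (-4096) (.pos 45 .mp ⟨⟨247897931, 0, 0, 0, 0, 101261705, 0, 0, 0, ⟨0, 0⟩, 0⟩, 0, 0⟩ 0 0) (.cut .s 12951552 (.pos 45 .mp ⟨⟨250905956, 0, 0,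 0, 0, 87066619, 0, 0, 0, ⟨0, 0⟩, 0⟩, 0, 0⟩ 0 0) (.pos 45 .mp ⟨⟨252364351, 0, 0, 0, 0, 87733957, 0, 0, 0, ⟨0, 0⟩, 0⟩, 0, 0⟩ 0 0))) (.pos 45 .mp ⟨⟨252250491, 0, 0, 0, 0, 84170856, 0, 0, 0, ⟨0, 0⟩, 0⟩, 0, 0⟩ 0 0)) (.pos 46 .mp ⟨⟨300200671, 0, 0, 0, 0, 0, 0, 0, 0, ⟨0, 0⟩, 0⟩, 0, 0⟩ 0 0)) (.pos 41 .mp ⟨⟨249507387, 0, 0, 0, 0, 0, 0, 0, 0, ⟨0, 0⟩, 0⟩, 0, 0⟩ 0 0))) (.cut .d (-8192) (.cut .l 167772 (.pos 41 .mp ⟨⟨251622757, 0, 0, 0, 0, 102662810, 0, 0, 0, ⟨0, 0⟩, 0⟩, 0, 0⟩ 0 0) (.pos 41 .mp ⟨⟨247937268, 0, 0, 0, 0, 103554703, 0, 0, 0, ⟨0, 0⟩, 0⟩, 0, 0⟩ 0 0)) (.cut .l 167772 (.cut .v 16809984 (.cut .l 83886 (.cut .d (-4096) (.pos 45 .mp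 ⟨⟨250779455, 0, 0, 0, 0, 102955083, 0, 0, 0, ⟨0, 0⟩, 0⟩, 0, 0⟩ 0 0) (.cut .s 12967936 (.pos 45 .mp ⟨⟨253831599, 0, 0, 0, 0, 88408869, 0, 0, 0, ⟨0, 0⟩, 0⟩, 0, 0⟩ 0 0) (.pos 45 .mp ⟨⟨255307755, 0, 0, 0, 0, 89091306, 0, 0, 0, ⟨0, 0⟩, 0⟩, 0, 0⟩ 0 0))) (.pos 45 .mp ⟨⟨255200278, 0, 0, 0, 0, 85336821, 0, 0, 0, ⟨0, 0⟩, 0⟩, 0, 0⟩ 0 0)) (.pos 46 .mp ⟨⟨303902003, 0, 0, 0, 0, 0, 0, 0, 0, ⟨0, 0⟩, 0⟩, 0, 0⟩ 0 0)) (.pos 41 .mp ⟨⟨252420956, 0, 0, 0, 0, 0, 0, 0, 0, ⟨0, 0⟩, 0⟩, 0, 0⟩ 0 0))))) (.cut .s 12943360 (.pos 42 .mp ⟨⟨296833044, 0, 0, 0, 0, 0, 0, 0, 0, ⟨0, 0⟩, 0⟩, 0, 0⟩ 0 0) (.pos 42 .mp ⟨⟨304177658, 0, 0, 0, 0, 0, 0, 0, 0, ⟨0, 0⟩, 0⟩, 0,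 0⟩ 0 0))))) (.pos 36 .mp ⟨⟨305264167, 0, 0, 0, 0, 0, 0, 0, 0, ⟨0, 0⟩, 0⟩, 0, 0⟩ 0 0)))))) (.pos 32 .mp ⟨⟨334667204, 0, 0, 0, 0, 0, 0, 0, 0, ⟨0, 0⟩, 0⟩, 0, 0⟩ 0 0))) (.void 30 ⟨⟨100000, 0, 0, 0, 0, 0, 0, 0, 0, ⟨0, 0⟩, 0⟩, 0, 0⟩ 0 0))) (.void 28 ⟨⟨100000, 0, 0, 0, 0, 0, 0, 0, 0, ⟨0, 0⟩, 0⟩, 0, 0⟩ 0 0))) (.void 26 ⟨⟨100000, 0, 0, 0, 0, 0, 0, 0, 0, ⟨0, 0⟩, 0⟩, 0, 0⟩ 0 0))) (.void 24 ⟨⟨100000, 0, 0, 0, 0, 0, 0, 0, 0, ⟨0, 0⟩, 0⟩, 0, 0⟩ 0 0)))) (.void 22 ⟨⟨100000, 0, 0, 0, 0, 0, 0, 0, 0, ⟨0, 0⟩, 0⟩, 0, 0⟩ 0 0)) (.void 79 ⟨⟨100000, 0, 0, 0, 0, 0, 0, 0, 0, ⟨0, 0⟩, 0⟩, 0, 0⟩ 0 0)) (.void 88 ⟨⟨100000, 0, 0, 0, 0, 0, 0, 0, 0, ⟨0, 0⟩, 0⟩, 0,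 0⟩ 0 0)) (.void 97 ⟨⟨93945, 0, 0, 6055, 0, 0, 0, 0, 0, ⟨0, 0⟩, 0⟩, 0, 0⟩ 0 0))) (.cut .v 16777216 (.cut .v 8388608 (.cut .v 4194304 (.cut .v 2097152 (.cut .v 1048576 (.pos 93 .pm ⟨⟨0, 0, 24741082, 0, 0, 0, 0, 0, 28991123, ⟨0, 0⟩, 1983364⟩, 0, 0⟩ 0 0) (.pos 94 .pm ⟨⟨0, 0, 11813810, 0, 0, 0, 0, 0, 0, ⟨0, 0⟩, 0⟩, 0, 76301⟩ 0 0)) (.pos 90 .pm ⟨⟨0, 0, 9559553, 0, 0, 0, 0, 0, 0, ⟨0, 0⟩, 0⟩, 0, 118398⟩ 0 0)) (.pos 5 .pm ⟨⟨0, 0, 9744769, 0, 0, 0, 0, 0, 0, ⟨0, 0⟩, 0⟩, 0, 137341⟩ 0 0)) (.pos 3 .pm ⟨⟨0, 0, 0, 0, 0, 0, 0, 0, 0, ⟨0, 0⟩, 0⟩, 0, 0⟩ 0 0)) (.cut .v 268435456 (.cut .v 67108864 (.cut .d 2680896 (.cut .v 33554432 (.cut .d 1340448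 (.cut .v 25165824 (.cut .d 670224 (.cut .v 20971520 (.cut .d 335112 (.cut .v 18874368 (.cut .d 167556 (.cut .d 83778 (.cut .v 17825792 (.cut .v 17301504 (.cut .s 12845056 (.pos 29 .pp ⟨⟨226552421, 0, 0, 0, 0, 0, 0, 0, 0, ⟨0, 0⟩, 0⟩, 4065510, 0⟩ 0 0) (.pos 29 .pp ⟨⟨247382757, 0, 0, 0, 0, 0, 0, 0, 0, ⟨0, 0⟩, 0⟩, 4668456, 0⟩ 0 0)) (.pos 30 .pp ⟨⟨286737404, 0, 0, 0, 0, 0, 0, 0, 0, ⟨0, 0⟩, 0⟩, 0, 0⟩ 0 0)) (.pos 28 .pp ⟨⟨327491527, 0, 0, 0, 0, 0, 0, 0, 0, ⟨0, 0⟩, 0⟩, 0, 0⟩ 0 0)) (.pos 25 .pp ⟨⟨246385372, 0, 0, 0, 0, 0, 0, 0, 0, ⟨0, 0⟩, 0⟩, 0, 7867⟩ 0 0)) (.pos 25 .pp ⟨⟨0, 0, 0, 0, 0, 0, 0, 0, 0, ⟨0, 0⟩, 0⟩, 0, 425899⟩ 0 0)) (.cut .d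 167556 (.pos 26 .pp ⟨⟨391488636, 0, 0, 0, 0, 0, 0, 0, 0, ⟨0, 0⟩, 0⟩, 0, 0⟩ 0 0) (.pos 26 .pp ⟨⟨312052684, 0, 0, 0, 0, 0, 0, 0, 0, ⟨0, 0⟩, 0⟩, 0, 0⟩ 0 0))) (.pos 23 .pp ⟨⟨0, 0, 0, 0, 0, 0, 0, 0, 0, ⟨0, 0⟩, 0⟩, 0, 446931⟩ 0 0)) (.cut .d 335112 (.cut .v 23068672 (.cut .v 22020096 (.cut .d 167556 (.void 57 ⟨⟨0, 0, 0, 0, 0, 0, 0, 0, 0, ⟨0, 0⟩, 0⟩, 100000, 0⟩ 0 0) (.pos 57 .pp ⟨⟨395098393, 0, 0, 0, 0, 0, 0, 0, 0, ⟨0, 0⟩, 0⟩, 0, 0⟩ 0 0)) (.pos 58 .pp ⟨⟨474087935, 0, 0, 0, 0, 0, 0, 0, 0, ⟨0, 0⟩, 0⟩, 0, 0⟩ 0 0)) (.void 54 ⟨⟨0, 0, 0, 0, 0, 0, 0, 0, 0, ⟨0, 0⟩, 0⟩, 100000, 0⟩ 0 0)) (.cut .v 23068672 (.pos 53 .pp ⟨⟨0, 0, 0, 0, 0, 0, 151754,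 0, 0, ⟨0, 0⟩, 0⟩, 42747834, 0⟩ 0 0) (.pos 54 .pp ⟨⟨0, 0, 0, 0, 0, 0, 0, 0, 0, ⟨0, 0⟩, 0⟩, 55596786, 0⟩ 0 0)))) (.pos 21 .pp ⟨⟨0, 0, 0, 0, 0, 0, 0, 0, 0, ⟨0, 0⟩, 0⟩, 0, 482686⟩ 0 0)) (.cut .d 670224 (.cut .d 335112 (.void 22 ⟨⟨0, 0, 0, 0, 0, 0, 0, 0, 0, ⟨0, 0⟩, 0⟩, 100000, 0⟩ 0 0) (.pos 22 .pp ⟨⟨0, 0, 0, 0, 0, 0, 0, 0, 0, ⟨0, 0⟩, 0⟩, 75264544, 0⟩ 0 0)) (.pos 22 .pp ⟨⟨0, 0, 0, 0, 0, 0, 37723, 0, 0, ⟨0, 0⟩, 0⟩, 48783680, 0⟩ 0 0))) (.pos 20 .pp ⟨⟨0, 0, 0, 0, 0, 0, 1606210, 0, 0, ⟨0, 0⟩, 0⟩, 0, 0⟩ 0 0)) (.cut .d 1340448 (.pos 79 .pp ⟨⟨0, 0, 0, 0, 0, 0, 0, 0, 0, ⟨0, 0⟩, 0⟩, 169254057, 0⟩ 0 0) (.pos 79 .pp ⟨⟨0, 0, 0, 0, 0, 0, 0, 0, 0,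 ⟨0, 0⟩, 0⟩, 61394324, 0⟩ 0 0))) (.pos 78 .pp ⟨⟨0, 0, 0, 0, 0, 0, 0, 0, 0, ⟨0, 0⟩, 0⟩, 0, 402238⟩ 0 0)) (.void 88 ⟨⟨0, 0, 0, 46842, 0, 0, 0, 0, 0, ⟨0, 0⟩, 0⟩, 53158, 0⟩ 0 0)) (.void 97 ⟨⟨0, 0, 0, 0, 0, 0, 0, 0, 0, ⟨0, 0⟩, 0⟩, 100000, 0⟩ 0 0)))),
    by decide +kernel⟩

theorem covers22 : cell.Covers Vale.Agent.P237.Petty.Cor.Grid.N11.table row22.1 :=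
  ⟨(.cut .d 0 (.cut .v 16777216 (.cut .v 8388608 (.pos 2 .mm ⟨⟨0, 0, 416027240, 0, 0, 513058073, 0, 0, 0, ⟨0, 0⟩, 0⟩, 0, 0⟩ 0 0) (.cut .d (-8388608) (.void 3 ⟨⟨100000, 0, 0, 0, 0, 0, 0, 0, 0, ⟨0, 0⟩, 0⟩, 0, 0⟩ 0 0) (.cut .d (-4194304) (.void 3 ⟨⟨100000, 0, 0, 0, 0, 0, 0, 0, 0, ⟨0, 0⟩, 0⟩, 0, 0⟩ 0 0) (.cut .d (-2097152) (.void 3 ⟨⟨0, 0, 0, 0, 0, 100000, 0, 0, 0, ⟨0, 0⟩, 0⟩, 0, 0⟩ 0 0) (.cut .d (-1048576) (.void 3 ⟨⟨0, 0, 0, 0, 0, 100000, 0, 0, 0, ⟨0, 0⟩, 0⟩, 0, 0⟩ 0 0) (.cut .d (-524288) (.void 3 ⟨⟨0, 0, 0, 0, 0, 100000, 0, 0, 0, ⟨0, 0⟩, 0⟩, 0, 0⟩ 0 0) (.cut .s 13107200 (.pos 3 .mm ⟨⟨0, 0, 0, 0, 0, 575335483, 0, 0, 0, ⟨0, 0⟩, 0⟩,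 0, 0⟩ 0 0) (.pos 3 .mm ⟨⟨0, 0, 0, 0, 0, 641101569, 0, 0, 0, ⟨0, 0⟩, 0⟩, 0, 0⟩ 0 0)))))))) (.cut .v 268435456 (.cut .v 67108864 (.cut .v 33554432 (.cut .v 25165824 (.cut .d (-8388608) (.void 21 ⟨⟨100000, 0, 0, 0, 0, 0, 0, 0, 0, ⟨0, 0⟩, 0⟩, 0, 0⟩ 0 0) (.cut .d (-4194304) (.void 21 ⟨⟨100000, 0, 0, 0, 0, 0, 0, 0, 0, ⟨0, 0⟩, 0⟩, 0, 0⟩ 0 0) (.cut .v 20971520 (.cut .d (-2097152) (.void 23 ⟨⟨100000, 0, 0, 0, 0, 0, 0, 0, 0, ⟨0, 0⟩, 0⟩, 0, 0⟩ 0 0) (.cut .v 18874368 (.cut .d (-1048576) (.void 25 ⟨⟨100000, 0, 0, 0, 0, 0, 0, 0, 0, ⟨0, 0⟩, 0⟩, 0, 0⟩ 0 0) (.cut .v 17825792 (.cut .d (-524288) (.void 27 ⟨⟨100000, 0, 0, 0, 0, 0, 0, 0, 0, ⟨0, 0⟩,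 0⟩, 0, 0⟩ 0 0) (.cut .v 17301504 (.cut .d (-262144) (.void 29 ⟨⟨100000, 0, 0, 0, 0, 0, 0, 0, 0, ⟨0, 0⟩, 0⟩, 0, 0⟩ 0 0) (.cut .v 17039360 (.cut .d (-131072) (.void 31 ⟨⟨100000, 0, 0, 0, 0, 0, 0, 0, 0, ⟨0, 0⟩, 0⟩, 0, 0⟩ 0 0) (.cut .d (-65536) (.void 31 ⟨⟨100000, 0, 0, 0, 0, 0, 0, 0, 0, ⟨0, 0⟩, 0⟩, 0, 0⟩ 0 0) (.cut .d (-32768) (.void 31 ⟨⟨100000, 0, 0, 0, 0, 0, 0, 0, 0, ⟨0, 0⟩, 0⟩, 0, 0⟩ 0 0) (.cut .d (-16384) (.cut .v 16908288 (.cut .d (-24576) (.void 35 ⟨⟨0, 0, 0, 0, 0, 100000, 0, 0, 0, ⟨0, 0⟩, 0⟩, 0, 0⟩ 0 0) (.cut .d (-20480) (.void 35 ⟨⟨0, 0, 0, 0, 0, 100000, 0, 0, 0, ⟨0, 0⟩, 0⟩, 0, 0⟩ 0 0) (.cut .d (-18432) (.void 35 ⟨⟨0, 0,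 0, 0, 0, 100000, 0, 0, 0, ⟨0, 0⟩, 0⟩, 0, 0⟩ 0 0) (.cut .l 167772 (.void 35 ⟨⟨100000, 0, 0, 0, 0, 0, 0, 0, 0, ⟨0, 0⟩, 0⟩, 0, 0⟩ 0 0) (.cut .l 251658 (.void 35 ⟨⟨0, 0, 0, 0, 0, 100000, 0, 0, 0, ⟨0, 0⟩, 0⟩, 0, 0⟩ 0 0) (.cut .l 293601 (.void 35 ⟨⟨0, 0, 0, 0, 0, 100000, 0, 0, 0, ⟨0, 0⟩, 0⟩, 0, 0⟩ 0 0) (.cut .v 16842752 (.cut .v 16809984 (.pos 45 .mp ⟨⟨0, 0, 0, 0, 0, 595587714, 0, 0, 0, ⟨0, 0⟩, 0⟩, 0, 0⟩ 0 0) (.cut .v 16826368 (.pos 82 .mp ⟨⟨0, 0, 0, 0, 0, 607999625, 0, 0, 0, ⟨0, 0⟩, 0⟩, 0, 0⟩ 0 0) (.cut .v 16834560 (.pos 91 .mp ⟨⟨0, 0, 0, 0, 0, 615853528, 0, 0, 0, ⟨0, 0⟩, 0⟩, 0, 0⟩ 0 0) (.cut .s 13107200 (.cut .s 13041664 (.pos 92 .mp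 ⟨⟨255843595, 0, 0, 0, 0, 114232544, 0, 0, 0, ⟨0, 0⟩, 0⟩, 0, 0⟩ 0 0) (.pos 92 .mp ⟨⟨268127392, 0, 0, 0, 0, 120569648, 0, 0, 0, ⟨0, 0⟩, 0⟩, 0, 0⟩ 0 0)) (.cut .s 13172736 (.pos 92 .mp ⟨⟨281044752, 0, 0, 0, 0, 127482165, 0, 0, 0, ⟨0, 0⟩, 0⟩, 0, 0⟩ 0 0) (.pos 92 .mp ⟨⟨294628932, 0, 0, 0, 0, 134937809, 0, 0, 0, ⟨0, 0⟩, 0⟩, 0, 0⟩ 0 0)))))) (.cut .s 13107200 (.pos 42 .mp ⟨⟨333905338, 0, 0, 0, 0, 0, 0, 0, 0, ⟨0, 0⟩, 0⟩, 0, 0⟩ 0 0) (.pos 42 .mp ⟨⟨367753520, 0, 0, 0, 0, 0, 0, 0, 0, ⟨0, 0⟩, 0⟩, 0, 0⟩ 0 0))))))))) (.void 36 ⟨⟨100000, 0, 0, 0, 0, 0, 0, 0, 0, ⟨0, 0⟩, 0⟩, 0, 0⟩ 0 0)) (.cut .s 13107200 (.cut .v 16908288 (.cut .s 13041664 (.cut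 .v 16842752 (.cut .s 13008896 (.cut .s 12992512 (.cut .d (-8192) (.cut .s 12984320 (.pos 41 .mp ⟨⟨254842730, 0, 0, 0, 0, 96835244, 0, 0, 0, ⟨0, 0⟩, 0⟩, 0, 0⟩ 0 0) (.pos 41 .mp ⟨⟨256111182, 0, 0, 0, 0, 97835198, 0, 0, 0, ⟨0, 0⟩, 0⟩, 0, 0⟩ 0 0)) (.cut .v 16809984 (.cut .l 167772 (.cut .l 83886 (.cut .d (-4096) (.pos 45 .mp ⟨⟨254556835, 0, 0, 0, 0, 102402782, 0, 0, 0, ⟨0, 0⟩, 0⟩, 0, 0⟩ 0 0) (.cut .s 12984320 (.pos 45 .mp ⟨⟨256793339, 0, 0, 0, 0, 89785072, 0, 0, 0, ⟨0, 0⟩, 0⟩, 0, 0⟩ 0 0) (.pos 45 .mp ⟨⟨258287851, 0, 0, 0, 0, 90317499, 0, 0, 0, ⟨0, 0⟩, 0⟩, 0, 0⟩ 0 0))) (.pos 45 .mp ⟨⟨258188628, 0, 0, 0, 0, 86879411, 0, 0, 0, ⟨0, 0⟩,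 0⟩, 0, 0⟩ 0 0)) (.pos 45 .mp ⟨⟨0, 0, 0, 0, 0, 0, 0, 0, 0, ⟨0, 0⟩, 0⟩, 0, 0⟩ 0 0)) (.pos 46 .mp ⟨⟨306002152, 0, 0, 0, 0, 0, 0, 0, 0, ⟨0, 0⟩, 0⟩, 0, 0⟩ 0 0))) (.cut .d (-8192) (.cut .l 167772 (.pos 41 .mp ⟨⟨258416705, 0, 0, 0, 0, 103186768, 0, 0, 0, ⟨0, 0⟩, 0⟩, 0, 0⟩ 0 0) (.pos 41 .mp ⟨⟨253771608, 0, 0, 0, 0, 106732124, 0, 0, 0, ⟨0, 0⟩, 0⟩, 0, 0⟩ 0 0)) (.cut .l 167772 (.cut .v 16809984 (.cut .l 83886 (.cut .d (-4096) (.pos 45 .mp ⟨⟨257535408, 0, 0, 0, 0, 103521649, 0, 0, 0, ⟨0, 0⟩, 0⟩, 0, 0⟩ 0 0) (.cut .s 13000704 (.pos 45 .mp ⟨⟨259791748, 0, 0, 0, 0, 90861308, 0, 0, 0, ⟨0, 0⟩, 0⟩, 0, 0⟩ 0 0) (.pos 45 .mp ⟨⟨261305091, 0, 0, 0, 0,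 91416460, 0, 0, 0, ⟨0, 0⟩, 0⟩, 0, 0⟩ 0 0))) (.pos 45 .mp ⟨⟨261214254, 0, 0, 0, 0, 88080432, 0, 0, 0, ⟨0, 0⟩, 0⟩, 0, 0⟩ 0 0)) (.pos 46 .mp ⟨⟨311170121, 0, 0, 0, 0, 0, 0, 0, 0, ⟨0, 0⟩, 0⟩, 0, 0⟩ 0 0)) (.pos 41 .mp ⟨⟨259223637, 0, 0, 0, 0, 0, 0, 0, 0, ⟨0, 0⟩, 0⟩, 0, 0⟩ 0 0)))) (.cut .s 13025280 (.cut .d (-8192) (.cut .l 167772 (.pos 41 .mp ⟨⟨261451067, 0, 0, 0, 0, 104344446, 0, 0, 0, ⟨0, 0⟩, 0⟩, 0, 0⟩ 0 0) (.cut .s 13017088 (.pos 41 .mp ⟨⟨257568204, 0, 0, 0, 0, 104616373, 0, 0, 0, ⟨0, 0⟩, 0⟩, 0, 0⟩ 0 0) (.pos 41 .mp ⟨⟨258947648, 0, 0, 0, 0, 105539532, 0, 0, 0, ⟨0, 0⟩, 0⟩, 0, 0⟩ 0 0))) (.cut .l 167772 (.cut .v 16809984 (.cut .s 13017088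 (.cut .s 13012992 (.pos 45 .mp ⟨⟨263801273, 0, 0, 0, 0, 89715178, 0, 0, 0, ⟨0, 0⟩, 0⟩, 0, 0⟩ 0 0) (.pos 45 .mp ⟨⟨264571253, 0, 0, 0, 0, 89990946, 0, 0, 0, ⟨0, 0⟩, 0⟩, 0, 0⟩ 0 0)) (.cut .s 13021184 (.pos 45 .mp ⟨⟨265343660, 0, 0, 0, 0, 90269472, 0, 0, 0, ⟨0, 0⟩, 0⟩, 0, 0⟩ 0 0) (.pos 45 .mp ⟨⟨266118501, 0, 0, 0, 0, 90550753, 0, 0, 0, ⟨0, 0⟩, 0⟩, 0, 0⟩ 0 0))) (.pos 46 .mp ⟨⟨314743335, 0, 0, 0, 0, 0, 0, 0, 0, ⟨0, 0⟩, 0⟩, 0, 0⟩ 0 0)) (.pos 41 .mp ⟨⟨262269462, 0, 0, 0, 0, 0, 0, 0, 0, ⟨0, 0⟩, 0⟩, 0, 0⟩ 0 0))) (.cut .d (-8192) (.cut .l 167772 (.pos 41 .mp ⟨⟨264522594, 0, 0, 0, 0, 105563469, 0, 0, 0, ⟨0, 0⟩, 0⟩, 0, 0⟩ 0 0) (.cut .s 13033472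 (.pos 41 .mp ⟨⟨260342551, 0, 0, 0, 0, 106461636, 0, 0, 0, ⟨0, 0⟩, 0⟩, 0, 0⟩ 0 0) (.pos 41 .mp ⟨⟨261753207, 0, 0, 0, 0, 107382132, 0, 0, 0, ⟨0, 0⟩, 0⟩, 0, 0⟩ 0 0))) (.cut .v 16809984 (.cut .l 167772 (.cut .s 13033472 (.cut .s 13029376 (.pos 45 .mp ⟨⟨266895785, 0, 0, 0, 0, 90834781, 0, 0, 0, ⟨0, 0⟩, 0⟩, 0, 0⟩ 0 0) (.pos 45 .mp ⟨⟨267675518, 0, 0, 0, 0, 91121552, 0, 0, 0, ⟨0, 0⟩, 0⟩, 0, 0⟩ 0 0)) (.cut .s 13037568 (.pos 45 .mp ⟨⟨268457709, 0, 0, 0, 0, 91411060, 0, 0, 0, ⟨0, 0⟩, 0⟩, 0, 0⟩ 0 0) (.pos 45 .mp ⟨⟨269242366, 0, 0, 0, 0, 91703298, 0, 0, 0, ⟨0, 0⟩, 0⟩, 0, 0⟩ 0 0))) (.pos 45 .mp ⟨⟨0, 0, 0, 0, 0, 0, 0, 0, 0, ⟨0, 0⟩, 0⟩, 0, 0⟩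 0 0)) (.pos 46 .mp ⟨⟨316621698, 0, 0, 0, 0, 0, 0, 0, 0, ⟨0, 0⟩, 0⟩, 0, 0⟩ 0 0))))) (.cut .s 13008896 (.pos 42 .mp ⟨⟨311780103, 0, 0, 0, 0, 0, 0, 0, 0, ⟨0, 0⟩, 0⟩, 0, 0⟩ 0 0) (.pos 42 .mp ⟨⟨319011786, 0, 0, 0, 0, 0, 0, 0, 0, ⟨0, 0⟩, 0⟩, 0, 0⟩ 0 0))) (.cut .v 16842752 (.cut .s 13074432 (.cut .s 13058048 (.cut .d (-8192) (.cut .l 167772 (.pos 41 .mp ⟨⟨267631746, 0, 0, 0, 0, 106844744, 0, 0, 0, ⟨0, 0⟩, 0⟩, 0, 0⟩ 0 0) (.cut .s 13049856 (.pos 41 .mp ⟨⟨263179915, 0, 0, 0, 0, 108300462, 0, 0, 0, ⟨0, 0⟩, 0⟩, 0, 0⟩ 0 0) (.pos 41 .mp ⟨⟨264622975, 0, 0, 0, 0, 109216064, 0, 0, 0, ⟨0, 0⟩, 0⟩, 0, 0⟩ 0 0))) (.cut .v 16809984 (.cut .l 167772 (.cut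 .s 13049856 (.cut .s 13045760 (.pos 45 .mp ⟨⟨270029495, 0, 0, 0, 0, 91998262, 0, 0, 0, ⟨0, 0⟩, 0⟩, 0, 0⟩ 0 0) (.pos 45 .mp ⟨⟨270819106, 0, 0, 0, 0, 92295944, 0, 0, 0, ⟨0, 0⟩, 0⟩, 0, 0⟩ 0 0)) (.cut .s 13053952 (.pos 45 .mp ⟨⟨271611205, 0, 0, 0, 0, 92596340, 0, 0, 0, ⟨0, 0⟩, 0⟩, 0, 0⟩ 0 0) (.pos 45 .mp ⟨⟨272405802, 0, 0, 0, 0, 92899442, 0, 0, 0, ⟨0, 0⟩, 0⟩, 0, 0⟩ 0 0))) (.pos 45 .mp ⟨⟨0, 0, 0, 0, 0, 0, 0, 0, 0, ⟨0, 0⟩, 0⟩, 0, 0⟩ 0 0)) (.pos 46 .mp ⟨⟨320296297, 0, 0, 0, 0, 0, 0, 0, 0, ⟨0, 0⟩, 0⟩, 0, 0⟩ 0 0))) (.cut .d (-8192) (.cut .l 167772 (.pos 41 .mp ⟨⟨270778990, 0, 0, 0, 0, 108189195, 0, 0, 0, ⟨0, 0⟩, 0⟩, 0, 0⟩ 0 0) (.cut .s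 13066240 (.pos 41 .mp ⟨⟨266082689, 0, 0, 0, 0, 110128373, 0, 0, 0, ⟨0, 0⟩, 0⟩, 0, 0⟩ 0 0) (.pos 41 .mp ⟨⟨267559360, 0, 0, 0, 0, 111036819, 0, 0, 0, ⟨0, 0⟩, 0⟩, 0, 0⟩ 0 0))) (.cut .v 16809984 (.cut .l 167772 (.cut .s 13066240 (.cut .s 13062144 (.pos 45 .mp ⟨⟨273202903, 0, 0, 0, 0, 93205246, 0, 0, 0, ⟨0, 0⟩, 0⟩, 0, 0⟩ 0 0) (.pos 45 .mp ⟨⟨274002516, 0, 0, 0, 0, 93513744, 0, 0, 0, ⟨0, 0⟩, 0⟩, 0, 0⟩ 0 0)) (.cut .s 13070336 (.pos 45 .mp ⟨⟨274804651, 0, 0, 0, 0, 93824931, 0, 0, 0, ⟨0, 0⟩, 0⟩, 0, 0⟩ 0 0) (.cut .s 13072384 (.pos 45 .mp ⟨⟨275206666, 0, 0, 0, 0, 94460439, 0, 0, 0, ⟨0, 0⟩, 0⟩, 0, 0⟩ 0 0) (.pos 45 .mp ⟨⟨275609314, 0, 0, 0,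 0, 94618694, 0, 0, 0, ⟨0, 0⟩, 0⟩, 0, 0⟩ 0 0)))) (.pos 45 .mp ⟨⟨0, 0, 0, 0, 0, 0, 0, 0, 0, ⟨0, 0⟩, 0⟩, 0, 0⟩ 0 0)) (.pos 46 .mp ⟨⟨324039654, 0, 0, 0, 0, 0, 0, 0, 0, ⟨0, 0⟩, 0⟩, 0, 0⟩ 0 0)))) (.cut .s 13090816 (.cut .d (-8192) (.cut .l 167772 (.pos 41 .mp ⟨⟨273964800, 0, 0, 0, 0, 109597762, 0, 0, 0, ⟨0, 0⟩, 0⟩, 0, 0⟩ 0 0) (.cut .s 13082624 (.pos 41 .mp ⟨⟨269053295, 0, 0, 0, 0, 111940828, 0, 0, 0, ⟨0, 0⟩, 0⟩, 0, 0⟩ 0 0) (.pos 41 .mp ⟨⟨270600367, 0, 0, 0, 0, 112763666, 0, 0, 0, ⟨0, 0⟩, 0⟩, 0, 0⟩ 0 0))) (.cut .v 16809984 (.cut .l 167772 (.cut .s 13082624 (.cut .d (-4096) (.pos 45 .mp ⟨⟨273192271, 0, 0, 0, 0, 102963536, 0, 0, 0, ⟨0,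 0⟩, 0⟩, 0, 0⟩ 0 0) (.cut .s 13078528 (.pos 45 .mp ⟨⟨274271913, 0, 0, 0, 0, 98299449, 0, 0, 0, ⟨0, 0⟩, 0⟩, 0, 0⟩ 0 0) (.pos 45 .mp ⟨⟨275094859, 0, 0, 0, 0, 98583417, 0, 0, 0, ⟨0, 0⟩, 0⟩, 0, 0⟩ 0 0))) (.cut .d (-4096) (.pos 45 .mp ⟨⟨274704179, 0, 0, 0, 0, 103839875, 0, 0, 0, ⟨0, 0⟩, 0⟩, 0, 0⟩ 0 0) (.cut .s 13086720 (.pos 45 .mp ⟨⟨275918994, 0, 0, 0, 0, 98873214, 0, 0, 0, ⟨0, 0⟩, 0⟩, 0, 0⟩ 0 0) (.pos 45 .mp ⟨⟨276744299, 0, 0, 0, 0, 99168898, 0, 0, 0, ⟨0, 0⟩, 0⟩, 0, 0⟩ 0 0)))) (.pos 45 .mp ⟨⟨0, 0, 0, 0, 0, 0, 0, 0, 0, ⟨0, 0⟩, 0⟩, 0, 0⟩ 0 0)) (.pos 46 .mp ⟨⟨327852621, 0, 0, 0, 0, 0, 0, 0, 0, ⟨0, 0⟩, 0⟩, 0, 0⟩ 0 0))) (.cut .d (-8192)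 (.cut .l 167772 (.pos 41 .mp ⟨⟨277189659, 0, 0, 0, 0, 111071404, 0, 0, 0, ⟨0, 0⟩, 0⟩, 0, 0⟩ 0 0) (.cut .s 13099008 (.pos 41 .mp ⟨⟨272188147, 0, 0, 0, 0, 113532003, 0, 0, 0, ⟨0, 0⟩, 0⟩, 0, 0⟩ 0 0) (.pos 41 .mp ⟨⟨273785844, 0, 0, 0, 0, 114311844, 0, 0, 0, ⟨0, 0⟩, 0⟩, 0, 0⟩ 0 0))) (.cut .v 16809984 (.cut .l 167772 (.cut .s 13099008 (.cut .d (-4096) (.pos 45 .mp ⟨⟨276238241, 0, 0, 0, 0, 104703800, 0, 0, 0, ⟨0, 0⟩, 0⟩, 0, 0⟩ 0 0) (.cut .s 13094912 (.pos 45 .mp ⟨⟨277570753, 0, 0, 0, 0, 99470526, 0, 0, 0, ⟨0, 0⟩, 0⟩, 0, 0⟩ 0 0) (.pos 45 .mp ⟨⟨278398339, 0, 0, 0, 0, 99778157, 0, 0, 0, ⟨0, 0⟩, 0⟩, 0, 0⟩ 0 0))) (.cut .d (-4096) (.pos 45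 .mp ⟨⟨277794896, 0, 0, 0, 0, 105554512, 0, 0, 0, ⟨0, 0⟩, 0⟩, 0, 0⟩ 0 0) (.cut .s 13103104 (.pos 45 .mp ⟨⟨279227036, 0, 0, 0, 0, 100091850, 0, 0, 0, ⟨0, 0⟩, 0⟩, 0, 0⟩ 0 0) (.pos 45 .mp ⟨⟨280056825, 0, 0, 0, 0, 100411664, 0, 0, 0, ⟨0, 0⟩, 0⟩, 0, 0⟩ 0 0)))) (.pos 45 .mp ⟨⟨0, 0, 0, 0, 0, 0, 0, 0, 0, ⟨0, 0⟩, 0⟩, 0, 0⟩ 0 0)) (.pos 46 .mp ⟨⟨331736065, 0, 0, 0, 0, 0, 0, 0, 0, ⟨0, 0⟩, 0⟩, 0, 0⟩ 0 0))))) (.cut .s 13074432 (.pos 42 .mp ⟨⟨326515183, 0, 0, 0, 0, 0, 0, 0, 0, ⟨0, 0⟩, 0⟩, 0, 0⟩ 0 0) (.pos 42 .mp ⟨⟨334297007, 0, 0, 0, 0, 0, 0, 0, 0, ⟨0, 0⟩, 0⟩, 0, 0⟩ 0 0)))) (.pos 36 .mp ⟨⟨330277720, 0, 0, 0, 0, 0, 0, 0, 0, ⟨0, 0⟩, 0⟩, 0, 0⟩ 0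 0)) (.cut .v 16908288 (.cut .s 13172736 (.cut .s 13139968 (.cut .v 16842752 (.cut .s 13123584 (.cut .d (-8192) (.cut .l 167772 (.pos 41 .mp ⟨⟨280454059, 0, 0, 0, 0, 112611096, 0, 0, 0, ⟨0, 0⟩, 0⟩, 0, 0⟩ 0 0) (.cut .s 13115392 (.pos 41 .mp ⟨⟨275393524, 0, 0, 0, 0, 115103139, 0, 0, 0, ⟨0, 0⟩, 0⟩, 0, 0⟩ 0 0) (.pos 41 .mp ⟨⟨277011250, 0, 0, 0, 0, 115905842, 0, 0, 0, ⟨0, 0⟩, 0⟩, 0, 0⟩ 0 0))) (.cut .l 167772 (.cut .v 16809984 (.cut .s 13115392 (.cut .d (-4096) (.pos 45 .mp ⟨⟨279374587, 0, 0, 0, 0, 106391206, 0, 0, 0, ⟨0, 0⟩, 0⟩, 0, 0⟩ 0 0) (.cut .s 13111296 (.pos 45 .mp ⟨⟨280887685, 0, 0, 0, 0, 100737658, 0, 0, 0, ⟨0, 0⟩, 0⟩, 0, 0⟩ 0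 0) (.pos 45 .mp ⟨⟨281719597, 0, 0, 0, 0, 101069894, 0, 0, 0, ⟨0, 0⟩, 0⟩, 0, 0⟩ 0 0))) (.cut .d (-4096) (.pos 45 .mp ⟨⟨280977758, 0, 0, 0, 0, 107213073, 0, 0, 0, ⟨0, 0⟩, 0⟩, 0, 0⟩ 0 0) (.cut .s 13119488 (.pos 45 .mp ⟨⟨282552539, 0, 0, 0, 0, 101408431, 0, 0, 0, ⟨0, 0⟩, 0⟩, 0, 0⟩ 0 0) (.pos 45 .mp ⟨⟨283386492, 0, 0, 0, 0, 101753330, 0, 0, 0, ⟨0, 0⟩, 0⟩, 0, 0⟩ 0 0)))) (.pos 46 .mp ⟨⟨337625737, 0, 0, 0, 0, 0, 0, 0, 0, ⟨0, 0⟩, 0⟩, 0, 0⟩ 0 0)) (.pos 41 .mp ⟨⟨281353409, 0, 0, 0, 0, 0, 0, 0, 0, ⟨0, 0⟩, 0⟩, 0, 0⟩ 0 0))) (.cut .d (-8192) (.cut .l 167772 (.pos 41 .mp ⟨⟨283758500, 0, 0, 0, 0, 114217831, 0, 0, 0, ⟨0, 0⟩, 0⟩, 0, 0⟩ 0 0) (.cut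 .s 13131776 (.pos 41 .mp ⟨⟨278639088, 0, 0, 0, 0, 116719900, 0, 0, 0, ⟨0, 0⟩, 0⟩, 0, 0⟩ 0 0) (.pos 41 .mp ⟨⟨280277104, 0, 0, 0, 0, 117545263, 0, 0, 0, ⟨0, 0⟩, 0⟩, 0, 0⟩ 0 0))) (.cut .l 167772 (.cut .v 16809984 (.cut .s 13131776 (.cut .d (-4096) (.pos 45 .mp ⟨⟨282604859, 0, 0, 0, 0, 108019295, 0, 0, 0, ⟨0, 0⟩, 0⟩, 0, 0⟩ 0 0) (.cut .s 13127680 (.pos 45 .mp ⟨⟨284221434, 0, 0, 0, 0, 102104654, 0, 0, 0, ⟨0, 0⟩, 0⟩, 0, 0⟩ 0 0) (.pos 45 .mp ⟨⟨285057346, 0, 0, 0, 0, 102462464, 0, 0, 0, ⟨0, 0⟩, 0⟩, 0, 0⟩ 0 0))) (.cut .d (-4096) (.pos 45 .mp ⟨⟨284256339, 0, 0, 0, 0, 108809050, 0, 0, 0, ⟨0, 0⟩, 0⟩, 0, 0⟩ 0 0) (.cut .s 13135872 (.pos 45 .mp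 ⟨⟨285894205, 0, 0, 0, 0, 102826821, 0, 0, 0, ⟨0, 0⟩, 0⟩, 0, 0⟩ 0 0) (.pos 45 .mp ⟨⟨286731990, 0, 0, 0, 0, 103197791, 0, 0, 0, ⟨0, 0⟩, 0⟩, 0, 0⟩ 0 0)))) (.pos 46 .mp ⟨⟨341688039, 0, 0, 0, 0, 0, 0, 0, 0, ⟨0, 0⟩, 0⟩, 0, 0⟩ 0 0)) (.pos 41 .mp ⟨⟨284673495, 0, 0, 0, 0, 0, 0, 0, 0, ⟨0, 0⟩, 0⟩, 0, 0⟩ 0 0)))) (.pos 42 .mp ⟨⟨342364212, 0, 0, 0, 0, 0, 0, 0, 0, ⟨0, 0⟩, 0⟩, 0, 0⟩ 0 0)) (.cut .v 16842752 (.cut .s 13156352 (.cut .d (-8192) (.cut .l 167772 (.pos 41 .mp ⟨⟨287103491, 0, 0, 0, 0, 115892622, 0, 0, 0, ⟨0, 0⟩, 0⟩, 0, 0⟩ 0 0) (.cut .s 13148160 (.pos 41 .mp ⟨⟨281925364, 0, 0, 0, 0, 118381880, 0, 0, 0, ⟨0, 0⟩, 0⟩, 0, 0⟩ 0 0) (.pos 41 .mp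 ⟨⟨283583935, 0, 0, 0, 0, 119229697, 0, 0, 0, ⟨0, 0⟩, 0⟩, 0, 0⟩ 0 0))) (.cut .l 167772 (.cut .v 16809984 (.cut .s 13148160 (.cut .d (-4096) (.pos 45 .mp ⟨⟨285932654, 0, 0, 0, 0, 109581507, 0, 0, 0, ⟨0, 0⟩, 0⟩, 0, 0⟩ 0 0) (.cut .s 13144064 (.pos 45 .mp ⟨⟨287570681, 0, 0, 0, 0, 103575435, 0, 0, 0, ⟨0, 0⟩, 0⟩, 0, 0⟩ 0 0) (.pos 45 .mp ⟨⟨288410255, 0, 0, 0, 0, 103959817, 0, 0, 0, ⟨0, 0⟩, 0⟩, 0, 0⟩ 0 0))) (.cut .d (-4096) (.pos 45 .mp ⟨⟨287634260, 0, 0, 0, 0, 110335832, 0, 0, 0, ⟨0, 0⟩, 0⟩, 0, 0⟩ 0 0) (.cut .s 13152256 (.pos 45 .mp ⟨⟨289250690, 0, 0, 0, 0, 104351002, 0, 0, 0, ⟨0, 0⟩, 0⟩, 0, 0⟩ 0 0) (.pos 45 .mp ⟨⟨290091964, 0, 0, 0, 0,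 104749055, 0, 0, 0, ⟨0, 0⟩, 0⟩, 0, 0⟩ 0 0)))) (.pos 46 .mp ⟨⟨345823755, 0, 0, 0, 0, 0, 0, 0, 0, ⟨0, 0⟩, 0⟩, 0, 0⟩ 0 0)) (.pos 41 .mp ⟨⟨288034785, 0, 0, 0, 0, 0, 0, 0, 0, ⟨0, 0⟩, 0⟩, 0, 0⟩ 0 0))) (.cut .d (-8192) (.cut .l 167772 (.pos 41 .mp ⟨⟨290489551, 0, 0, 0, 0, 117636499, 0, 0, 0, ⟨0, 0⟩, 0⟩, 0, 0⟩ 0 0) (.cut .s 13164544 (.pos 41 .mp ⟨⟨285252884, 0, 0, 0, 0, 120088660, 0, 0, 0, ⟨0, 0⟩, 0⟩, 0, 0⟩ 0 0) (.pos 41 .mp ⟨⟨286932281, 0, 0, 0, 0, 120958714, 0, 0, 0, ⟨0, 0⟩, 0⟩, 0, 0⟩ 0 0))) (.cut .l 167772 (.cut .v 16809984 (.cut .s 13164544 (.cut .d (-4096) (.pos 45 .mp ⟨⟨289361618, 0, 0, 0, 0, 111071180, 0, 0, 0, ⟨0, 0⟩, 0⟩, 0, 0⟩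 0 0) (.cut .s 13160448 (.pos 45 .mp ⟨⟨290934056, 0, 0, 0, 0, 105154040, 0, 0, 0, ⟨0, 0⟩, 0⟩, 0, 0⟩ 0 0) (.pos 45 .mp ⟨⟨291776943, 0, 0, 0, 0, 105566024, 0, 0, 0, ⟨0, 0⟩, 0⟩, 0, 0⟩ 0 0))) (.cut .d (-4096) (.pos 45 .mp ⟨⟨291115191, 0, 0, 0, 0, 111786703, 0, 0, 0, ⟨0, 0⟩, 0⟩, 0, 0⟩ 0 0) (.cut .s 13168640 (.pos 45 .mp ⟨⟨292620602, 0, 0, 0, 0, 105985072, 0, 0, 0, ⟨0, 0⟩, 0⟩, 0, 0⟩ 0 0) (.pos 45 .mp ⟨⟨293465010, 0, 0, 0, 0, 106411252, 0, 0, 0, ⟨0, 0⟩, 0⟩, 0, 0⟩ 0 0)))) (.pos 46 .mp ⟨⟨350033818, 0, 0, 0, 0, 0, 0, 0, 0, ⟨0, 0⟩, 0⟩, 0, 0⟩ 0 0)) (.pos 41 .mp ⟨⟨291437810, 0, 0, 0, 0, 0, 0, 0, 0, ⟨0, 0⟩, 0⟩, 0, 0⟩ 0 0)))) (.pos 42 .mp ⟨⟨350724003,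 0, 0, 0, 0, 0, 0, 0, 0, ⟨0, 0⟩, 0⟩, 0, 0⟩ 0 0))) (.cut .s 13205504 (.cut .v 16842752 (.cut .s 13189120 (.cut .d (-8192) (.cut .l 167772 (.pos 41 .mp ⟨⟨293917206, 0, 0, 0, 0, 119450512, 0, 0, 0, ⟨0, 0⟩, 0⟩, 0, 0⟩ 0 0) (.cut .s 13180928 (.pos 41 .mp ⟨⟨288622193, 0, 0, 0, 0, 121839803, 0, 0, 0, ⟨0, 0⟩, 0⟩, 0, 0⟩ 0 0) (.pos 41 .mp ⟨⟨290322691, 0, 0, 0, 0, 122731869, 0, 0, 0, ⟨0, 0⟩, 0⟩, 0, 0⟩ 0 0))) (.cut .l 167772 (.cut .v 16809984 (.cut .s 13180928 (.cut .d (-4096) (.pos 45 .mp ⟨⟨292895446, 0, 0, 0, 0, 112481546, 0, 0, 0, ⟨0, 0⟩, 0⟩, 0, 0⟩ 0 0) (.cut .s 13176832 (.pos 45 .mp ⟨⟨294310144, 0, 0, 0, 0, 106844631, 0, 0, 0, ⟨0, 0⟩, 0⟩,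 0, 0⟩ 0 0) (.pos 45 .mp ⟨⟨295155982, 0, 0, 0, 0, 107285276, 0, 0, 0, ⟨0, 0⟩, 0⟩, 0, 0⟩ 0 0))) (.cut .d (-4096) (.pos 45 .mp ⟨⟨294702853, 0, 0, 0, 0, 113154845, 0, 0, 0, ⟨0, 0⟩, 0⟩, 0, 0⟩ 0 0) (.cut .s 13185024 (.pos 45 .mp ⟨⟨296002499, 0, 0, 0, 0, 107733255, 0, 0, 0, ⟨0, 0⟩, 0⟩, 0, 0⟩ 0 0) (.pos 45 .mp ⟨⟨296849672, 0, 0, 0, 0, 108188638, 0, 0, 0, ⟨0, 0⟩, 0⟩, 0, 0⟩ 0 0)))) (.pos 46 .mp ⟨⟨354319181, 0, 0, 0, 0, 0, 0, 0, 0, ⟨0, 0⟩, 0⟩, 0, 0⟩ 0 0)) (.pos 41 .mp ⟨⟨294883115, 0, 0, 0, 0, 0, 0, 0, 0, ⟨0, 0⟩, 0⟩, 0, 0⟩ 0 0))) (.cut .d (-8192) (.cut .l 167772 (.pos 41 .mp ⟨⟨297386994, 0, 0, 0, 0, 121335731, 0, 0, 0, ⟨0, 0⟩, 0⟩, 0, 0⟩ 0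 0) (.cut .s 13197312 (.pos 41 .mp ⟨⟨292033844, 0, 0, 0, 0, 123634855, 0, 0, 0, ⟨0, 0⟩, 0⟩, 0, 0⟩ 0 0) (.pos 41 .mp ⟨⟨293755724, 0, 0, 0, 0, 124548702, 0, 0, 0, ⟨0, 0⟩, 0⟩, 0, 0⟩ 0 0))) (.cut .l 167772 (.cut .v 16809984 (.cut .s 13197312 (.cut .d (-4096) (.pos 45 .mp ⟨⟨296537885, 0, 0, 0, 0, 113805731, 0, 0, 0, ⟨0, 0⟩, 0⟩, 0, 0⟩ 0 0) (.cut .s 13193216 (.pos 45 .mp ⟨⟨297697477, 0, 0, 0, 0, 108651493, 0, 0, 0, ⟨0, 0⟩, 0⟩, 0, 0⟩ 0 0) (.pos 45 .mp ⟨⟨298545890, 0, 0, 0, 0, 109121891, 0, 0, 0, ⟨0, 0⟩, 0⟩, 0, 0⟩ 0 0))) (.cut .d (-4096) (.pos 45 .mp ⟨⟨298401019, 0, 0, 0, 0, 114433328, 0, 0, 0, ⟨0, 0⟩, 0⟩, 0, 0⟩ 0 0) (.cut .s 13201408 (.pos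 45 .mp ⟨⟨299394887, 0, 0, 0, 0, 109599901, 0, 0, 0, ⟨0, 0⟩, 0⟩, 0, 0⟩ 0 0) (.pos 45 .mp ⟨⟨300312434, 0, 0, 0, 0, 109958068, 0, 0, 0, ⟨0, 0⟩, 0⟩, 0, 0⟩ 0 0)))) (.pos 46 .mp ⟨⟨358680812, 0, 0, 0, 0, 0, 0, 0, 0, ⟨0, 0⟩, 0⟩, 0, 0⟩ 0 0)) (.pos 41 .mp ⟨⟨298371250, 0, 0, 0, 0, 0, 0, 0, 0, ⟨0, 0⟩, 0⟩, 0, 0⟩ 0 0)))) (.pos 42 .mp ⟨⟨359383851, 0, 0, 0, 0, 0, 0, 0, 0, ⟨0, 0⟩, 0⟩, 0, 0⟩ 0 0)) (.cut .v 16842752 (.cut .s 13221888 (.cut .d (-8192) (.cut .l 167772 (.pos 41 .mp ⟨⟨300899460, 0, 0, 0, 0, 123293246, 0, 0, 0, ⟨0, 0⟩, 0⟩, 0, 0⟩ 0 0) (.cut .s 13213696 (.pos 41 .mp ⟨⟨295561326, 0, 0, 0, 0, 125316886, 0, 0, 0, ⟨0, 0⟩, 0⟩, 0, 0⟩ 0 0) (.pos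 41 .mp ⟨⟨297397493, 0, 0, 0, 0, 126053506, 0, 0, 0, ⟨0, 0⟩, 0⟩, 0, 0⟩ 0 0))) (.cut .l 167772 (.cut .v 16809984 (.cut .s 13213696 (.cut .s 13209600 (.pos 45 .mp ⟨⟨303636778, 0, 0, 0, 0, 105956556, 0, 0, 0, ⟨0, 0⟩, 0⟩, 0, 0⟩ 0 0) (.pos 45 .mp ⟨⟨304532482, 0, 0, 0, 0, 106357446, 0, 0, 0, ⟨0, 0⟩, 0⟩, 0, 0⟩ 0 0)) (.cut .s 13217792 (.pos 45 .mp ⟨⟨305431021, 0, 0, 0, 0, 106760758, 0, 0, 0, ⟨0, 0⟩, 0⟩, 0, 0⟩ 0 0) (.pos 45 .mp ⟨⟨306332404, 0, 0, 0, 0, 107166485, 0, 0, 0, ⟨0, 0⟩, 0⟩, 0, 0⟩ 0 0))) (.pos 46 .mp ⟨⟨363119698, 0, 0, 0, 0, 0, 0, 0, 0, ⟨0, 0⟩, 0⟩, 0, 0⟩ 0 0)) (.pos 41 .mp ⟨⟨301902778, 0, 0, 0, 0, 0, 0, 0, 0, ⟨0, 0⟩, 0⟩, 0, 0⟩ 0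 0))) (.cut .d (-8192) (.cut .l 167772 (.pos 41 .mp ⟨⟨304455161, 0, 0, 0, 0, 125324167, 0, 0, 0, ⟨0, 0⟩, 0⟩, 0, 0⟩ 0 0) (.cut .s 13230080 (.pos 41 .mp ⟨⟨299256784, 0, 0, 0, 0, 126774609, 0, 0, 0, ⟨0, 0⟩, 0⟩, 0, 0⟩ 0 0) (.pos 41 .mp ⟨⟨301139547, 0, 0, 0, 0, 127479535, 0, 0, 0, ⟨0, 0⟩, 0⟩, 0, 0⟩ 0 0))) (.cut .l 167772 (.cut .v 16809984 (.cut .s 13230080 (.cut .s 13225984 (.pos 45 .mp ⟨⟨307236641, 0, 0, 0, 0, 107574617, 0, 0, 0, ⟨0, 0⟩, 0⟩, 0, 0⟩ 0 0) (.pos 45 .mp ⟨⟨308143741, 0, 0, 0, 0, 107985145, 0, 0, 0, ⟨0, 0⟩, 0⟩, 0, 0⟩ 0 0)) (.cut .s 13234176 (.pos 45 .mp ⟨⟨309053714, 0, 0, 0, 0, 108398061, 0, 0, 0, ⟨0, 0⟩, 0⟩, 0, 0⟩ 0 0) (.pos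 45 .mp ⟨⟨309966570, 0, 0, 0, 0, 108813356, 0, 0, 0, ⟨0, 0⟩, 0⟩, 0, 0⟩ 0 0))) (.pos 46 .mp ⟨⟨367636845, 0, 0, 0, 0, 0, 0, 0, 0, ⟨0, 0⟩, 0⟩, 0, 0⟩ 0 0)) (.pos 41 .mp ⟨⟨305478273, 0, 0, 0, 0, 0, 0, 0, 0, ⟨0, 0⟩, 0⟩, 0, 0⟩ 0 0)))) (.pos 42 .mp ⟨⟨368351499, 0, 0, 0, 0, 0, 0, 0, 0, ⟨0, 0⟩, 0⟩, 0, 0⟩ 0 0)))) (.pos 36 .mp ⟨⟨363288262, 0, 0, 0, 0, 0, 0, 0, 0, ⟨0, 0⟩, 0⟩, 0, 0⟩ 0 0))))))) (.pos 32 .mp ⟨⟨406358874, 0, 0, 0, 0, 0, 0, 0, 0, ⟨0, 0⟩, 0⟩, 0, 0⟩ 0 0))) (.void 30 ⟨⟨100000, 0, 0, 0, 0, 0, 0, 0, 0, ⟨0, 0⟩, 0⟩, 0, 0⟩ 0 0))) (.void 28 ⟨⟨100000, 0, 0, 0, 0, 0, 0, 0, 0, ⟨0, 0⟩, 0⟩, 0, 0⟩ 0 0))) (.void 26 ⟨⟨100000, 0, 0, 0, 0, 0, 0, 0,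 0, ⟨0, 0⟩, 0⟩, 0, 0⟩ 0 0))) (.void 24 ⟨⟨100000, 0, 0, 0, 0, 0, 0, 0, 0, ⟨0, 0⟩, 0⟩, 0, 0⟩ 0 0)))) (.void 22 ⟨⟨100000, 0, 0, 0, 0, 0, 0, 0, 0, ⟨0, 0⟩, 0⟩, 0, 0⟩ 0 0)) (.void 79 ⟨⟨100000, 0, 0, 0, 0, 0, 0, 0, 0, ⟨0, 0⟩, 0⟩, 0, 0⟩ 0 0)) (.void 88 ⟨⟨100000, 0, 0, 0, 0, 0, 0, 0, 0, ⟨0, 0⟩, 0⟩, 0, 0⟩ 0 0)) (.void 97 ⟨⟨93830, 0, 0, 6170, 0, 0, 0, 0, 0, ⟨0, 0⟩, 0⟩, 0, 0⟩ 0 0))) (.cut .v 16777216 (.cut .v 8388608 (.cut .v 4194304 (.cut .v 2097152 (.cut .v 1048576 (.pos 93 .pm ⟨⟨0, 0, 17888865, 0, 0, 0, 0, 0, 0, ⟨0, 0⟩, 0⟩, 0, 22778⟩ 0 0) (.pos 94 .pm ⟨⟨0, 0, 12508883, 0, 0, 0, 0, 0, 0, ⟨0, 0⟩, 0⟩, 0, 63272⟩ 0 0)) (.pos 90 .pm ⟨⟨0, 0, 10690209,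 0, 0, 0, 0, 0, 0, ⟨0, 0⟩, 0⟩, 0, 81349⟩ 0 0)) (.pos 5 .pm ⟨⟨0, 0, 11989583, 0, 0, 0, 0, 0, 0, ⟨0, 0⟩, 0⟩, 0, 113889⟩ 0 0)) (.pos 3 .pm ⟨⟨0, 0, 0, 0, 0, 0, 0, 0, 0, ⟨0, 0⟩, 0⟩, 0, 0⟩ 0 0)) (.cut .v 268435456 (.cut .v 67108864 (.cut .d 2457270 (.cut .v 33554432 (.cut .d 1228635 (.cut .v 25165824 (.cut .d 614317 (.cut .v 20971520 (.cut .d 307158 (.cut .v 18874368 (.cut .d 153579 (.cut .d 76789 (.cut .v 17825792 (.cut .v 17301504 (.cut .s 13107200 (.pos 29 .pp ⟨⟨271762525, 0, 0, 0, 0, 0, 0, 0, 0, ⟨0, 0⟩, 0⟩, 5141157, 0⟩ 0 0) (.pos 29 .pp ⟨⟨295740133, 0, 0, 0, 0, 0, 0, 0, 0, ⟨0, 0⟩, 0⟩, 6123061, 0⟩ 0 0)) (.pos 30 .pp ⟨⟨345645245, 0,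 0, 0, 0, 0, 0, 0, 0, ⟨0, 0⟩, 0⟩, 0, 0⟩ 0 0)) (.pos 28 .pp ⟨⟨394199303, 0, 0, 0, 0, 0, 0, 0, 0, ⟨0, 0⟩, 0⟩, 0, 0⟩ 0 0)) (.pos 25 .pp ⟨⟨294527524, 0, 0, 0, 0, 0, 0, 0, 0, ⟨0, 0⟩, 0⟩, 0, 10288⟩ 0 0)) (.pos 25 .pp ⟨⟨0, 0, 0, 0, 0, 0, 0, 0, 0, ⟨0, 0⟩, 0⟩, 0, 363459⟩ 0 0)) (.cut .d 153579 (.pos 26 .pp ⟨⟨469936177, 0, 0, 0, 0, 0, 0, 0, 0, ⟨0, 0⟩, 0⟩, 0, 0⟩ 0 0) (.pos 26 .pp ⟨⟨373843881, 0, 0, 0, 0, 0, 0, 0, 0, ⟨0, 0⟩, 0⟩, 0, 0⟩ 0 0))) (.pos 23 .pp ⟨⟨0, 0, 0, 0, 0, 0, 0, 0, 0, ⟨0, 0⟩, 0⟩, 0, 381408⟩ 0 0)) (.cut .d 307158 (.cut .v 23068672 (.cut .v 22020096 (.cut .d 153579 (.void 57 ⟨⟨0, 0, 0, 0, 0, 0, 0, 0, 0, ⟨0, 0⟩, 0⟩, 100000, 0⟩ 0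 0) (.pos 57 .pp ⟨⟨472759688, 0, 0, 0, 0, 0, 0, 0, 0, ⟨0, 0⟩, 0⟩, 0, 0⟩ 0 0)) (.pos 58 .pp ⟨⟨412266390, 0, 0, 0, 0, 0, 0, 0, 0, ⟨0, 0⟩, 0⟩, 22019485, 0⟩ 0 0)) (.pos 54 .pp ⟨⟨0, 0, 0, 0, 0, 0, 0, 0, 0, ⟨0, 0⟩, 0⟩, 95659389, 0⟩ 0 0)) (.pos 24 .pp ⟨⟨0, 0, 0, 0, 0, 0, 46507, 0, 0, ⟨0, 0⟩, 0⟩, 57545748, 0⟩ 0 0))) (.pos 21 .pp ⟨⟨0, 0, 0, 0, 0, 0, 0, 0, 0, ⟨0, 0⟩, 0⟩, 0, 411920⟩ 0 0)) (.cut .d 614317 (.cut .d 307158 (.void 22 ⟨⟨0, 0, 0, 0, 0, 0, 0, 0, 0, ⟨0, 0⟩, 0⟩, 100000, 0⟩ 0 0) (.pos 22 .pp ⟨⟨0, 0, 0, 0, 0, 0, 0, 0, 0, ⟨0, 0⟩, 0⟩, 89646154, 0⟩ 0 0)) (.pos 22 .pp ⟨⟨0, 0, 0, 0, 0, 0, 47613, 0, 0, ⟨0, 0⟩, 0⟩, 58030540, 0⟩ 0 0))) (.pos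 20 .pp ⟨⟨0, 0, 0, 0, 0, 0, 1371433, 0, 0, ⟨0, 0⟩, 0⟩, 0, 0⟩ 0 0)) (.cut .d 1228635 (.pos 79 .pp ⟨⟨0, 0, 0, 0, 0, 0, 0, 0, 0, ⟨0, 0⟩, 0⟩, 199686516, 0⟩ 0 0) (.pos 79 .pp ⟨⟨0, 0, 0, 0, 0, 0, 0, 0, 0, ⟨0, 0⟩, 0⟩, 73380073, 0⟩ 0 0))) (.pos 78 .pp ⟨⟨0, 0, 0, 0, 0, 0, 0, 0, 0, ⟨0, 0⟩, 0⟩, 0, 343267⟩ 0 0)) (.void 88 ⟨⟨0, 0, 0, 47220, 0, 0, 0, 0, 0, ⟨0, 0⟩, 0⟩, 52780, 0⟩ 0 0)) (.void 97 ⟨⟨0, 0, 0, 0, 0, 0, 0, 0, 0, ⟨0, 0⟩, 0⟩, 100000, 0⟩ 0 0)))),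
    by decide +kernel⟩

end Vale.Agent.P237.Petty.Cor.Grid.Tiny.N11
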